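/-!
# Row 187, PLAN S: record types for the generated tables of the lower levels (`KD/*.lean`)
-/

set_option autoImplicit false

namespace Crest.Agent.R187.SN.KD

/-- index entry: shape (base 128 key), number of frame vectors, global column offset -/
structure IE where
  /-- shape, base 128, row 0 most significant -/
  key : Nat
  /-- number of frame vectors -/
  m : Nat
  /-- number of frame vectors of the previous shapes -/
  off : Nat

/-- search tree of packed tables (smaller keys left) -/
inductive Tr where
  | lf : Tr
  | nd (key val : Nat) (l r : Tr) : Tr

/-- list of pivots: shape `λ''` (base 128 key) and number `j''` of the frame vector -/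
inductive PE where
  | nil : PE
  | cons (key j : Nat) (t : PE) : PE

/-- search tree of pivot lists (smaller keys left) -/
inductive PTr where
  | lf : PTr
  | nd (key : Nat) (val : PE) (l r : PTr) : PTr

end Crest.Agent.R187.SN.KD
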