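/-!
# Row 187, PLAN S: record types for the block tables of the lower levels (`KD/NB*.lean`)
-/

set_option autoImplicit false

namespace Crest.Agent.R187.SN.KD

/-- blocks of one `κ`: `key` = shape `μ` (base 128), `val` = dense `m μ × m κ` matrix
(row `q`, column `i`, 7 bits per entry, no padding) -/
inductive NE where
  | nil : NE
  | cons (key val : Nat) (t : NE) : NE

/-- search tree of block lists (smaller keys left) -/
inductive NTr where
  | lf : NTr
  | nd (key : Nat) (val : NE) (l r : NTr) : NTr

end Crest.Agent.R187.SN.KD
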