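import Crest.Agent.R187.SN.KD.Base

/-!
# Row 187, PLAN S, generated certificate data (mod 127): pivots of the levels (a, 7), a <= 5

Written by a C++ program (helper662) from the recursion of `SN/Spec.lean`; canonical (RREF)
frames.  The tables are only data: every property is checked by the kernel elsewhere.
-/

set_option autoImplicit false
set_option maxRecDepth 100000

namespace Crest.Agent.R187.SN.KD

noncomputable def tP_1_7_0 : PTr := (.nd (nat_lit 0x3800000000) (.cons (nat_lit 0) (nat_lit 0) (.nil)) .lf .lf)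

/-- pivots of level (1, 7) -/
noncomputable def tP_1_7 : PTr := tP_1_7_0

noncomputable def tP_2_7_0 : PTr := (.nd (nat_lit 0x6020000000) (.cons (nat_lit 0x3800000000) (nat_lit 0) (.nil)) (.nd (nat_lit 0x5040000000) (.cons (nat_lit 0x3800000000) (nat_lit 0) (.nil)) (.nd (nat_lit 0x4060000000) (.cons (nat_lit 0x3800000000) (nat_lit 0) (.nil)) .lf .lf) .lf) (.nd (nat_lit 0x7000000000) (.cons (nat_lit 0x3800000000) (nat_lit 0) (.nil)) .lf .lf))

/-- pivots of level (2, 7) -/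
noncomputable def tP_2_7 : PTr := tP_2_7_0

noncomputable def tP_3_7_0 : PTr := (.nd (nat_lit 0x6870200000) (.cons (nat_lit 0x6020000000) (nat_lit 0) (.nil)) (.nd (nat_lit 0x5880400000) (.cons (nat_lit 0x5040000000) (nat_lit 0) (.nil)) (.nd (nat_lit 0x5080600000) (.cons (nat_lit 0x5040000000) (nat_lit 0) (.nil)) (.nd (nat_lit 0x4860c00000) (.cons (nat_lit 0x4060000000) (nat_lit 0) (.nil)) (.nd (nat_lit 0x4080a00000) (.cons (nat_lit 0x4060000000) (nat_lit 0) (.nil)) .lf .lf) (.nd (nat_lit 0x5070800000) (.cons (nat_lit 0x5040000000) (nat_lit 0) (.nil)) .lf .lf)) (.nd (nat_lit 0x5860800000) (.cons (nat_lit 0x5040000000) (nat_lit 0) (.nil)) (.nd (nat_lit 0x50a0200000) (.cons (nat_lit 0x5040000000) (nat_lit 0) (.nil)) .lf .lf) .lf)) (.nd (nat_lit 0x6090000000) (.cons (nat_lit 0x6020000000) (nat_lit 0) (.nil)) (.nd (nat_lit 0x6070400000) (.cons (nat_lit 0x6020000000) (nat_lit 0) (.nil)) (.nd (nat_lit 0x6060600000)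 (.cons (nat_lit 0x5040000000) (nat_lit 0) (.nil)) .lf .lf) (.nd (nat_lit 0x6080200000) (.cons (nat_lit 0x6020000000) (nat_lit 0) (.nil)) .lf .lf)) (.nd (nat_lit 0x6860400000) (.cons (nat_lit 0x6020000000) (nat_lit 0) (.nil)) (.nd (nat_lit 0x6840800000) (.cons (nat_lit 0x5040000000) (nat_lit 0) (.nil)) .lf .lf) .lf))) (.nd (nat_lit 0x8040200000) (.cons (nat_lit 0x6020000000) (nat_lit 0) (.nil)) (.nd (nat_lit 0x7070000000) (.cons (nat_lit 0x7000000000) (nat_lit 0) (.nil)) (.nd (nat_lit 0x7050400000) (.cons (nat_lit 0x6020000000) (nat_lit 0) (.nil)) (.nd (nat_lit 0x6880000000) (.cons (nat_lit 0x6020000000) (nat_lit 0) (.nil)) .lf .lf) (.nd (nat_lit 0x7060200000) (.cons (nat_lit 0x6020000000) (nat_lit 0) (.nil)) .lf .lf)) (.nd (nat_lit 0x7860000000) (.cons (nat_lit 0x7000000000) (nat_lit 0) (.cons (nat_lit 0x6020000000) (nat_lit 0) (.nil))) (.nd (nat_lit 0x7840400000) (.cons (nat_lit 0x6020000000) (nat_lit 0)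 (.nil)) .lf .lf) .lf)) (.nd (nat_lit 0x9030000000) (.cons (nat_lit 0x7000000000) (nat_lit 0) (.nil)) (.nd (nat_lit 0x8820400000) (.cons (nat_lit 0x6020000000) (nat_lit 0) (.nil)) (.nd (nat_lit 0x8050000000) (.cons (nat_lit 0x7000000000) (nat_lit 0) (.nil)) .lf .lf) (.nd (nat_lit 0x8840000000) (.cons (nat_lit 0x7000000000) (nat_lit 0) (.nil)) .lf .lf)) (.nd (nat_lit 0xa800000000) (.cons (nat_lit 0x7000000000) (nat_lit 0) (.nil)) (.nd (nat_lit 0x9820000000) (.cons (nat_lit 0x7000000000) (nat_lit 0) (.nil)) .lf .lf) .lf))))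

/-- pivots of level (3, 7) -/
noncomputable def tP_3_7 : PTr := tP_3_7_0

noncomputable def tP_4_7_0 : PTr := (.nd (nat_lit 0x58a0c04000) (.cons (nat_lit 0x5880400000) (nat_lit 0) (.nil)) (.nd (nat_lit 0x50a1000000) (.cons (nat_lit 0x50a0200000) (nat_lit 0) (.nil)) (.nd (nat_lit 0x5081008000) (.cons (nat_lit 0x5080600000) (nat_lit 0) (.nil)) (.nd (nat_lit 0x5060c18000) (.cons (nat_lit 0x4860c00000) (nat_lit 0) (.nil)) (.nd (nat_lit 0x4880c14000) (.cons (nat_lit 0x4860c00000) (nat_lit 0) (.nil)) (.nd (nat_lit 0x4081010000) (.cons (nat_lit 0x4080a00000) (nat_lit 0) (.nil)) .lf .lf) .lf) (.nd (nat_lit 0x5080e0c000) (.cons (nat_lit 0x5080600000) (nat_lit 0) (.nil)) (.nd (nat_lit 0x5080c10000) (.cons (nat_lit 0x5070800000) (nat_lit 0) (.nil)) .lf .lf) .lf)) (.nd (nat_lit 0x50a0c08000) (.cons (nat_lit 0x5080600000) (nat_lit 0) (.nil)) (.nd (nat_lit 0x50a0810000) (.cons (nat_lit 0x5070800000) (nat_lit 0) (.nil))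 (.nd (nat_lit 0x5090c0c000) (.cons (nat_lit 0x5080600000) (nat_lit 0) (.nil)) .lf .lf) .lf) (.nd (nat_lit 0x50a0e04000) (.cons (nat_lit 0x50a0200000) (nat_lit 0) (.nil)) .lf .lf))) (.nd (nat_lit 0x5890a0c000) (.cons (nat_lit 0x5860800000) (nat_lit 0) (.nil)) (.nd (nat_lit 0x5880c0c000) (.cons (nat_lit 0x5860800000) (nat_lit 0) (.nil)) (.nd (nat_lit 0x5880a10000) (.cons (nat_lit 0x5860800000) (nat_lit 0) (.nil)) (.nd (nat_lit 0x5870c10000) (.cons (nat_lit 0x5860800000) (nat_lit 0) (.nil)) .lf .lf) .lf) (.nd (nat_lit 0x5881004000) (.cons (nat_lit 0x5880400000) (nat_lit 0) (.nil)) (.nd (nat_lit 0x5880e08000) (.cons (nat_lit 0x5880400000) (nat_lit 0) (.nil)) .lf .lf) .lf)) (.nd (nat_lit 0x58a080c000) (.cons (nat_lit 0x5860800000) (nat_lit 0) (.nil)) (.nd (nat_lit 0x5890e04000) (.cons (nat_lit 0x5880400000) (nat_lit 0) (.nil)) (.nd (nat_lit 0x5890c08000) (.cons (nat_lit 0x5880400000) (nat_lit 0) (.nil)) .lf .lf)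 .lf) (.nd (nat_lit 0x58a0a08000) (.cons (nat_lit 0x5880400000) (nat_lit 0) (.nil)) .lf .lf)))) (.nd (nat_lit 0x6090a08000) (.cons (nat_lit 0x6060600000) (nat_lit 0) (.nil)) (.nd (nat_lit 0x6080a0c000) (.cons (nat_lit 0x6060600000) (nat_lit 0) (.nil)) (.nd (nat_lit 0x6060c10000) (.cons (nat_lit 0x5860800000) (nat_lit 0) (.nil)) (.nd (nat_lit 0x58b0a04000) (.cons (nat_lit 0x5880400000) (nat_lit 0) (.nil)) (.nd (nat_lit 0x58a0e00000) (.cons (nat_lit 0x5880400000) (nat_lit 0) (.nil)) .lf .lf) .lf) (.nd (nat_lit 0x6080810000) (.cons (nat_lit 0x5860800000) (nat_lit 0) (.nil)) (.nd (nat_lit 0x6070c0c000) (.cons (nat_lit 0x6060600000) (nat_lit 0) (.nil)) .lf .lf) .lf)) (.nd (nat_lit 0x6081000000) (.cons (nat_lit 0x6080200000) (nat_lit 0) (.cons (nat_lit 0x5880400000) (nat_lit 0) (.nil))) (.nd (nat_lit 0x6080e04000) (.cons (nat_lit 0x6080200000) (nat_lit 0) (.nil)) (.nd (nat_lit 0x6080c08000) (.cons (nat_lit 0x6070400000)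 (nat_lit 0) (.cons (nat_lit 0x6060600000) (nat_lit 0) (.cons (nat_lit 0x5880400000) (nat_lit 0) (.nil)))) .lf .lf) .lf) (.nd (nat_lit 0x609080c000) (.cons (nat_lit 0x6060600000) (nat_lit 0) (.nil)) .lf .lf))) (.nd (nat_lit 0x60b0608000) (.cons (nat_lit 0x6060600000) (nat_lit 0) (.nil)) (.nd (nat_lit 0x60a0808000) (.cons (nat_lit 0x6070400000) (nat_lit 0) (.cons (nat_lit 0x6060600000) (nat_lit 0) (.nil))) (.nd (nat_lit 0x6090e00000) (.cons (nat_lit 0x6090000000) (nat_lit 0) (.nil)) (.nd (nat_lit 0x6090c04000) (.cons (nat_lit 0x6080200000) (nat_lit 0) (.cons (nat_lit 0x6060600000) (nat_lit 0) (.nil))) .lf .lf) .lf) (.nd (nat_lit 0x60a0c00000) (.cons (nat_lit 0x6090000000) (nat_lit 0) (.cons (nat_lit 0x6080200000) (nat_lit 0) (.cons (nat_lit 0x6060600000) (nat_lit 0) (.nil)))) (.nd (nat_lit 0x60a0a04000) (.cons (nat_lit 0x6080200000) (nat_lit 0) (.cons (nat_lit 0x6060600000) (nat_lit 0) (.nil))) .lf .lf) .lf))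 (.nd (nat_lit 0x60c0408000) (.cons (nat_lit 0x6070400000) (nat_lit 0) (.nil)) (.nd (nat_lit 0x60b0a00000) (.cons (nat_lit 0x6090000000) (nat_lit 0) (.nil)) (.nd (nat_lit 0x60b0804000) (.cons (nat_lit 0x6080200000) (nat_lit 0) (.nil)) .lf .lf) .lf) (.nd (nat_lit 0x60c0800000) (.cons (nat_lit 0x6090000000) (nat_lit 0) (.cons (nat_lit 0x6080200000) (nat_lit 0) (.nil))) .lf .lf)))))

noncomputable def tP_4_7_1 : PTr := (.nd (nat_lit 0x7060c08000) (.cons (nat_lit 0x6860400000) (nat_lit 0) (.cons (nat_lit 0x6060600000) (nat_lit 0) (.nil))) (.nd (nat_lit 0x6890a04000) (.cons (nat_lit 0x6870200000) (nat_lit 0) (.cons (nat_lit 0x6860400000) (nat_lit 0) (.nil))) (.nd (nat_lit 0x6880a08000) (.cons (nat_lit 0x6860400000) (nat_lit 0) (.cons (nat_lit 0x6060600000) (nat_lit 0) (.nil))) (.nd (nat_lit 0x6870c08000) (.cons (nat_lit 0x6860400000) (nat_lit 0) (.nil)) (.nd (nat_lit 0x6870a0c000) (.cons (nat_lit 0x6060600000)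 (nat_lit 0) (.nil)) (.nd (nat_lit 0x6870810000) (.cons (nat_lit 0x6840800000) (nat_lit 0) (.nil)) .lf .lf) .lf) (.nd (nat_lit 0x688080c000) (.cons (nat_lit 0x6840800000) (nat_lit 0) (.nil)) (.nd (nat_lit 0x6870e04000) (.cons (nat_lit 0x6870200000) (nat_lit 0) (.nil)) .lf .lf) .lf)) (.nd (nat_lit 0x689060c000) (.cons (nat_lit 0x6060600000) (nat_lit 0) (.nil)) (.nd (nat_lit 0x6880e00000) (.cons (nat_lit 0x6880000000) (nat_lit 0) (.cons (nat_lit 0x6870200000) (nat_lit 0) (.nil))) (.nd (nat_lit 0x6880c04000) (.cons (nat_lit 0x6870200000) (nat_lit 0) (.cons (nat_lit 0x6860400000) (nat_lit 0) (.cons (nat_lit 0x6060600000) (nat_lit 0) (.nil)))) .lf .lf) .lf) (.nd (nat_lit 0x6890808000) (.cons (nat_lit 0x6860400000) (nat_lit 0) (.cons (nat_lit 0x6840800000) (nat_lit 0) (.nil))) .lf .lf))) (.nd (nat_lit 0x68b0800000) (.cons (nat_lit 0x6880000000) (nat_lit 0) (.cons (nat_lit 0x6870200000) (nat_lit 0) (.nil))) (.nd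 (nat_lit 0x68a0804000) (.cons (nat_lit 0x6870200000) (nat_lit 0) (.cons (nat_lit 0x6860400000) (nat_lit 0) (.cons (nat_lit 0x6840800000) (nat_lit 0) (.nil)))) (.nd (nat_lit 0x68a0608000) (.cons (nat_lit 0x6860400000) (nat_lit 0) (.nil)) (.nd (nat_lit 0x6890c00000) (.cons (nat_lit 0x6880000000) (nat_lit 0) (.cons (nat_lit 0x6870200000) (nat_lit 0) (.cons (nat_lit 0x6860400000) (nat_lit 0) (.nil)))) .lf .lf) .lf) (.nd (nat_lit 0x68b0604000) (.cons (nat_lit 0x6870200000) (nat_lit 0) (.cons (nat_lit 0x6860400000) (nat_lit 0) (.nil))) (.nd (nat_lit 0x68a0a00000) (.cons (nat_lit 0x6880000000) (nat_lit 0) (.cons (nat_lit 0x6870200000) (nat_lit 0) (.cons (nat_lit 0x6860400000) (nat_lit 0) (.nil)))) .lf .lf) .lf)) (.nd (nat_lit 0x68d0204000) (.cons (nat_lit 0x6870200000) (nat_lit 0) (.nil)) (.nd (nat_lit 0x68c0600000) (.cons (nat_lit 0x6880000000) (nat_lit 0) (.cons (nat_lit 0x6870200000) (nat_lit 0) (.nil))) (.nd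 (nat_lit 0x68c0404000) (.cons (nat_lit 0x6860400000) (nat_lit 0) (.nil)) .lf .lf) .lf) (.nd (nat_lit 0x7060810000) (.cons (nat_lit 0x6840800000) (nat_lit 0) (.nil)) .lf .lf)))) (.nd (nat_lit 0x70a0604000) (.cons (nat_lit 0x7060200000) (nat_lit 0) (.cons (nat_lit 0x7050400000) (nat_lit 0) (.nil))) (.nd (nat_lit 0x7080c00000) (.cons (nat_lit 0x7070000000) (nat_lit 0) (.cons (nat_lit 0x7060200000) (nat_lit 0) (.cons (nat_lit 0x6880000000) (nat_lit 0) (.cons (nat_lit 0x6870200000) (nat_lit 0) (.nil))))) (.nd (nat_lit 0x7070c04000) (.cons (nat_lit 0x7060200000) (nat_lit 0) (.cons (nat_lit 0x6870200000) (nat_lit 0) (.nil))) (.nd (nat_lit 0x7070a08000) (.cons (nat_lit 0x7050400000) (nat_lit 0) (.nil)) (.nd (nat_lit 0x707080c000) (.cons (nat_lit 0x6840800000) (nat_lit 0) (.nil)) .lf .lf) .lf) (.nd (nat_lit 0x7080a04000) (.cons (nat_lit 0x7060200000) (nat_lit 0) (.cons (nat_lit 0x7050400000) (nat_lit 0) (.cons (nat_lit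 0x6870200000) (nat_lit 0) (.nil)))) (.nd (nat_lit 0x7080808000) (.cons (nat_lit 0x7050400000) (nat_lit 0) (.cons (nat_lit 0x6860400000) (nat_lit 0) (.cons (nat_lit 0x6840800000) (nat_lit 0) (.nil)))) .lf .lf) .lf)) (.nd (nat_lit 0x7090a00000) (.cons (nat_lit 0x7060200000) (nat_lit 0) (.cons (nat_lit 0x7050400000) (nat_lit 0) (.cons (nat_lit 0x6880000000) (nat_lit 0) (.nil)))) (.nd (nat_lit 0x7090804000) (.cons (nat_lit 0x7060200000) (nat_lit 0) (.cons (nat_lit 0x7050400000) (nat_lit 0) (.cons (nat_lit 0x6870200000) (nat_lit 0) (.nil)))) (.nd (nat_lit 0x7090608000) (.cons (nat_lit 0x7050400000) (nat_lit 0) (.nil)) .lf .lf) .lf) (.nd (nat_lit 0x70a0408000) (.cons (nat_lit 0x7050400000) (nat_lit 0) (.cons (nat_lit 0x6860400000) (nat_lit 0) (.nil))) .lf .lf))) (.nd (nat_lit 0x70d0200000) (.cons (nat_lit 0x7060200000) (nat_lit 0) (.nil)) (.nd (nat_lit 0x70b0600000) (.cons (nat_lit 0x7060200000) (nat_lit 0) (.cons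 (nat_lit 0x7050400000) (nat_lit 0) (.nil))) (.nd (nat_lit 0x70b0404000) (.cons (nat_lit 0x7060200000) (nat_lit 0) (.cons (nat_lit 0x7050400000) (nat_lit 0) (.nil))) (.nd (nat_lit 0x70a0800000) (.cons (nat_lit 0x7070000000) (nat_lit 0) (.cons (nat_lit 0x7060200000) (nat_lit 0) (.cons (nat_lit 0x7050400000) (nat_lit 0) (.cons (nat_lit 0x6880000000) (nat_lit 0) (.cons (nat_lit 0x6870200000) (nat_lit 0) (.nil)))))) .lf .lf) .lf) (.nd (nat_lit 0x70c0400000) (.cons (nat_lit 0x7070000000) (nat_lit 0) (.cons (nat_lit 0x7060200000) (nat_lit 0) (.cons (nat_lit 0x7050400000) (nat_lit 0) (.nil)))) .lf .lf)) (.nd (nat_lit 0x7860a08000) (.cons (nat_lit 0x7050400000) (nat_lit 0) (.nil)) (.nd (nat_lit 0x786080c000) (.cons (nat_lit 0x6840800000) (nat_lit 0) (.nil)) (.nd (nat_lit 0x70e0000000) (.cons (nat_lit 0x7070000000) (nat_lit 0) (.nil)) .lf .lf) .lf) (.nd (nat_lit 0x7860c04000) (.cons (nat_lit 0x7060200000) (nat_lit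 0) (.nil)) .lf .lf)))))

noncomputable def tP_4_7_2 : PTr := (.nd (nat_lit 0x8080604000) (.cons (nat_lit 0x8040200000) (nat_lit 0) (.cons (nat_lit 0x7840400000) (nat_lit 0) (.nil))) (.nd (nat_lit 0x78b0204000) (.cons (nat_lit 0x7060200000) (nat_lit 0) (.nil)) (.nd (nat_lit 0x7890408000) (.cons (nat_lit 0x7840400000) (nat_lit 0) (.nil)) (.nd (nat_lit 0x7880608000) (.cons (nat_lit 0x7840400000) (nat_lit 0) (.cons (nat_lit 0x7050400000) (nat_lit 0) (.nil))) (.nd (nat_lit 0x7870c00000) (.cons (nat_lit 0x7860000000) (nat_lit 0) (.cons (nat_lit 0x7860000000) (nat_lit 1) (.cons (nat_lit 0x7060200000) (nat_lit 0) (.nil)))) (.nd (nat_lit 0x7870a04000) (.cons (nat_lit 0x7060200000) (nat_lit 0) (.cons (nat_lit 0x7050400000) (nat_lit 0) (.nil))) .lf .lf) .lf) (.nd (nat_lit 0x7880a00000) (.cons (nat_lit 0x7860000000) (nat_lit 0) (.cons (nat_lit 0x7860000000) (nat_lit 1) (.cons (nat_lit 0x7060200000) (nat_lit 0) (.cons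 (nat_lit 0x7050400000) (nat_lit 0) (.nil))))) (.nd (nat_lit 0x7880804000) (.cons (nat_lit 0x7840400000) (nat_lit 0) (.cons (nat_lit 0x7060200000) (nat_lit 0) (.cons (nat_lit 0x7050400000) (nat_lit 0) (.nil)))) .lf .lf) .lf)) (.nd (nat_lit 0x78a0404000) (.cons (nat_lit 0x7840400000) (nat_lit 0) (.cons (nat_lit 0x7050400000) (nat_lit 0) (.nil))) (.nd (nat_lit 0x7890800000) (.cons (nat_lit 0x7860000000) (nat_lit 0) (.cons (nat_lit 0x7860000000) (nat_lit 1) (.cons (nat_lit 0x7840400000) (nat_lit 0) (.cons (nat_lit 0x7060200000) (nat_lit 0) (.nil))))) (.nd (nat_lit 0x7890604000) (.cons (nat_lit 0x7840400000) (nat_lit 0) (.cons (nat_lit 0x7060200000) (nat_lit 0) (.cons (nat_lit 0x7050400000) (nat_lit 0) (.nil)))) .lf .lf) .lf) (.nd (nat_lit 0x78a0600000) (.cons (nat_lit 0x7860000000) (nat_lit 0) (.cons (nat_lit 0x7860000000) (nat_lit 1) (.cons (nat_lit 0x7840400000) (nat_lit 0) (.cons (nat_lit 0x7060200000) (nat_lit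 0) (.nil))))) .lf .lf))) (.nd (nat_lit 0x8060c00000) (.cons (nat_lit 0x7860000000) (nat_lit 0) (.cons (nat_lit 0x7860000000) (nat_lit 1) (.cons (nat_lit 0x7060200000) (nat_lit 0) (.nil)))) (.nd (nat_lit 0x8040810000) (.cons (nat_lit 0x6840800000) (nat_lit 0) (.nil)) (.nd (nat_lit 0x78c0200000) (.cons (nat_lit 0x7860000000) (nat_lit 0) (.cons (nat_lit 0x7860000000) (nat_lit 1) (.nil))) (.nd (nat_lit 0x78b0400000) (.cons (nat_lit 0x7860000000) (nat_lit 0) (.cons (nat_lit 0x7860000000) (nat_lit 1) (.cons (nat_lit 0x7840400000) (nat_lit 0) (.nil)))) .lf .lf) .lf) (.nd (nat_lit 0x8060a04000) (.cons (nat_lit 0x7060200000) (nat_lit 0) (.nil)) (.nd (nat_lit 0x8060808000) (.cons (nat_lit 0x7840400000) (nat_lit 0) (.cons (nat_lit 0x7050400000) (nat_lit 0) (.nil))) .lf .lf) .lf)) (.nd (nat_lit 0x8070a00000) (.cons (nat_lit 0x8050000000) (nat_lit 0) (.cons (nat_lit 0x7860000000) (nat_lit 1) (.nil))) (.nd (nat_lit 0x8070804000)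 (.cons (nat_lit 0x8040200000) (nat_lit 0) (.cons (nat_lit 0x7840400000) (nat_lit 0) (.cons (nat_lit 0x7060200000) (nat_lit 0) (.nil)))) (.nd (nat_lit 0x8070608000) (.cons (nat_lit 0x7840400000) (nat_lit 0) (.nil)) .lf .lf) .lf) (.nd (nat_lit 0x8080408000) (.cons (nat_lit 0x7840400000) (nat_lit 0) (.cons (nat_lit 0x7050400000) (nat_lit 0) (.nil))) .lf .lf)))) (.nd (nat_lit 0x8860a00000) (.cons (nat_lit 0x8050000000) (nat_lit 0) (.cons (nat_lit 0x7860000000) (nat_lit 1) (.nil))) (.nd (nat_lit 0x80b0200000) (.cons (nat_lit 0x8050000000) (nat_lit 0) (.cons (nat_lit 0x8040200000) (nat_lit 0) (.nil))) (.nd (nat_lit 0x8090600000) (.cons (nat_lit 0x8050000000) (nat_lit 0) (.cons (nat_lit 0x8040200000) (nat_lit 0) (.cons (nat_lit 0x7860000000) (nat_lit 1) (.cons (nat_lit 0x7840400000) (nat_lit 0) (.nil))))) (.nd (nat_lit 0x8090404000) (.cons (nat_lit 0x8040200000) (nat_lit 0) (.cons (nat_lit 0x7840400000) (nat_lit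 0) (.nil))) (.nd (nat_lit 0x8080800000) (.cons (nat_lit 0x8050000000) (nat_lit 0) (.cons (nat_lit 0x8040200000) (nat_lit 0) (.cons (nat_lit 0x7860000000) (nat_lit 0) (.cons (nat_lit 0x7860000000) (nat_lit 1) (.cons (nat_lit 0x7840400000) (nat_lit 0) (.cons (nat_lit 0x7060200000) (nat_lit 0) (.nil))))))) .lf .lf) .lf) (.nd (nat_lit 0x80a0400000) (.cons (nat_lit 0x8050000000) (nat_lit 0) (.cons (nat_lit 0x8040200000) (nat_lit 0) (.cons (nat_lit 0x7860000000) (nat_lit 0) (.cons (nat_lit 0x7860000000) (nat_lit 1) (.cons (nat_lit 0x7840400000) (nat_lit 0) (.nil)))))) (.nd (nat_lit 0x80a0204000) (.cons (nat_lit 0x8040200000) (nat_lit 0) (.nil)) .lf .lf) .lf)) (.nd (nat_lit 0x8860608000) (.cons (nat_lit 0x7840400000) (nat_lit 0) (.nil)) (.nd (nat_lit 0x8850808000) (.cons (nat_lit 0x7840400000) (nat_lit 0) (.nil)) (.nd (nat_lit 0x80c0000000) (.cons (nat_lit 0x8050000000) (nat_lit 0) (.cons (nat_lit 0x7860000000)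 (nat_lit 0) (.cons (nat_lit 0x7860000000) (nat_lit 1) (.nil)))) .lf .lf) .lf) (.nd (nat_lit 0x8860804000) (.cons (nat_lit 0x8040200000) (nat_lit 0) (.cons (nat_lit 0x7840400000) (nat_lit 0) (.nil))) .lf .lf))) (.nd (nat_lit 0x8890204000) (.cons (nat_lit 0x8040200000) (nat_lit 0) (.nil)) (.nd (nat_lit 0x8870800000) (.cons (nat_lit 0x8840000000) (nat_lit 0) (.cons (nat_lit 0x8050000000) (nat_lit 0) (.cons (nat_lit 0x8040200000) (nat_lit 0) (.cons (nat_lit 0x7860000000) (nat_lit 1) (.nil))))) (.nd (nat_lit 0x8870604000) (.cons (nat_lit 0x8040200000) (nat_lit 0) (.cons (nat_lit 0x7840400000) (nat_lit 0) (.nil))) (.nd (nat_lit 0x8870408000) (.cons (nat_lit 0x8820400000) (nat_lit 0) (.nil)) .lf .lf) .lf) (.nd (nat_lit 0x8880600000) (.cons (nat_lit 0x8840000000) (nat_lit 0) (.cons (nat_lit 0x8050000000) (nat_lit 0) (.cons (nat_lit 0x8040200000) (nat_lit 0) (.cons (nat_lit 0x7860000000) (nat_lit 1) (.nil))))) (.nd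 (nat_lit 0x8880404000) (.cons (nat_lit 0x8820400000) (nat_lit 0) (.cons (nat_lit 0x8040200000) (nat_lit 0) (.cons (nat_lit 0x7840400000) (nat_lit 0) (.nil)))) .lf .lf) .lf)) (.nd (nat_lit 0x88b0000000) (.cons (nat_lit 0x8840000000) (nat_lit 0) (.nil)) (.nd (nat_lit 0x88a0200000) (.cons (nat_lit 0x8840000000) (nat_lit 0) (.cons (nat_lit 0x8050000000) (nat_lit 0) (.cons (nat_lit 0x8040200000) (nat_lit 0) (.nil)))) (.nd (nat_lit 0x8890400000) (.cons (nat_lit 0x8840000000) (nat_lit 0) (.cons (nat_lit 0x8820400000) (nat_lit 0) (.cons (nat_lit 0x8050000000) (nat_lit 0) (.cons (nat_lit 0x8040200000) (nat_lit 0) (.nil))))) .lf .lf) .lf) (.nd (nat_lit 0x9040808000) (.cons (nat_lit 0x7840400000) (nat_lit 0) (.nil)) .lf .lf)))))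

noncomputable def tP_4_7_3 : PTr := (.nd (nat_lit 0xa050600000) (.cons (nat_lit 0x9030000000) (nat_lit 0) (.nil)) (.nd (nat_lit 0x9850604000) (.cons (nat_lit 0x8040200000) (nat_lit 0) (.nil)) (.nd (nat_lit 0x9080400000) (.cons (nat_lit 0x9030000000) (nat_lit 0) (.cons (nat_lit 0x8840000000) (nat_lit 0) (.cons (nat_lit 0x8820400000) (nat_lit 0) (.cons (nat_lit 0x8050000000) (nat_lit 0) (.cons (nat_lit 0x8040200000) (nat_lit 0) (.nil)))))) (.nd (nat_lit 0x9060800000) (.cons (nat_lit 0x8840000000) (nat_lit 0) (.cons (nat_lit 0x8050000000) (nat_lit 0) (.cons (nat_lit 0x8040200000) (nat_lit 0) (.cons (nat_lit 0x7860000000) (nat_lit 1) (.nil))))) (.nd (nat_lit 0x9060604000) (.cons (nat_lit 0x8040200000) (nat_lit 0) (.nil)) (.nd (nat_lit 0x9060408000) (.cons (nat_lit 0x8820400000) (nat_lit 0) (.cons (nat_lit 0x7840400000) (nat_lit 0) (.nil))) .lf .lf) .lf) (.nd (nat_lit 0x9070600000) (.cons (nat_lit 0x9030000000)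 (nat_lit 0) (.cons (nat_lit 0x8840000000) (nat_lit 0) (.cons (nat_lit 0x8040200000) (nat_lit 0) (.nil)))) (.nd (nat_lit 0x9070404000) (.cons (nat_lit 0x8820400000) (nat_lit 0) (.cons (nat_lit 0x8040200000) (nat_lit 0) (.nil))) .lf .lf) .lf)) (.nd (nat_lit 0x9840804000) (.cons (nat_lit 0x8040200000) (nat_lit 0) (.nil)) (.nd (nat_lit 0x90a0000000) (.cons (nat_lit 0x9030000000) (nat_lit 0) (.cons (nat_lit 0x8840000000) (nat_lit 0) (.cons (nat_lit 0x8050000000) (nat_lit 0) (.nil)))) (.nd (nat_lit 0x9090200000) (.cons (nat_lit 0x9030000000) (nat_lit 0) (.cons (nat_lit 0x8840000000) (nat_lit 0) (.cons (nat_lit 0x8040200000) (nat_lit 0) (.nil)))) .lf .lf) .lf) (.nd (nat_lit 0x9850408000) (.cons (nat_lit 0x8820400000) (nat_lit 0) (.nil)) .lf .lf))) (.nd (nat_lit 0x9880200000) (.cons (nat_lit 0x9820000000) (nat_lit 0) (.cons (nat_lit 0x9030000000) (nat_lit 0) (.cons (nat_lit 0x8840000000) (nat_lit 0) (.nil)))) (.nd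 (nat_lit 0x9860600000) (.cons (nat_lit 0x9030000000) (nat_lit 0) (.cons (nat_lit 0x8840000000) (nat_lit 0) (.cons (nat_lit 0x8040200000) (nat_lit 0) (.nil)))) (.nd (nat_lit 0x9860404000) (.cons (nat_lit 0x8820400000) (nat_lit 0) (.nil)) (.nd (nat_lit 0x9850800000) (.cons (nat_lit 0x8840000000) (nat_lit 0) (.nil)) .lf .lf) .lf) (.nd (nat_lit 0x9870400000) (.cons (nat_lit 0x9820000000) (nat_lit 0) (.cons (nat_lit 0x9030000000) (nat_lit 0) (.cons (nat_lit 0x8840000000) (nat_lit 0) (.cons (nat_lit 0x8820400000) (nat_lit 0) (.nil))))) (.nd (nat_lit 0x9870204000) (.cons (nat_lit 0x8040200000) (nat_lit 0) (.nil)) .lf .lf) .lf)) (.nd (nat_lit 0xa040800000) (.cons (nat_lit 0x8840000000) (nat_lit 0) (.cons (nat_lit 0x8040200000) (nat_lit 0) (.nil))) (.nd (nat_lit 0xa040408000) (.cons (nat_lit 0x8820400000) (nat_lit 0) (.nil)) (.nd (nat_lit 0x9890000000) (.cons (nat_lit 0x9820000000) (nat_lit 0) (.cons (nat_lit 0x9030000000)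 (nat_lit 0) (.nil))) .lf .lf) .lf) (.nd (nat_lit 0xa050404000) (.cons (nat_lit 0x8820400000) (nat_lit 0) (.nil)) .lf .lf)))) (.nd (nat_lit 0xb050200000) (.cons (nat_lit 0x9820000000) (nat_lit 0) (.nil)) (.nd (nat_lit 0xa850400000) (.cons (nat_lit 0x9820000000) (nat_lit 0) (.cons (nat_lit 0x9030000000) (nat_lit 0) (.nil))) (.nd (nat_lit 0xa080000000) (.cons (nat_lit 0x9820000000) (nat_lit 0) (.cons (nat_lit 0x9030000000) (nat_lit 0) (.cons (nat_lit 0x8840000000) (nat_lit 0) (.nil)))) (.nd (nat_lit 0xa070200000) (.cons (nat_lit 0x9820000000) (nat_lit 0) (.cons (nat_lit 0x9030000000) (nat_lit 0) (.nil))) (.nd (nat_lit 0xa060400000) (.cons (nat_lit 0x9820000000) (nat_lit 0) (.cons (nat_lit 0x9030000000) (nat_lit 0) (.cons (nat_lit 0x8840000000) (nat_lit 0) (.cons (nat_lit 0x8820400000) (nat_lit 0) (.nil))))) .lf .lf) .lf) (.nd (nat_lit 0xa840600000) (.cons (nat_lit 0x9030000000) (nat_lit 0) (.nil)) (.nd (nat_lit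 0xa840404000) (.cons (nat_lit 0x8820400000) (nat_lit 0) (.nil)) .lf .lf) .lf)) (.nd (nat_lit 0xb020408000) (.cons (nat_lit 0x8820400000) (nat_lit 0) (.nil)) (.nd (nat_lit 0xa870000000) (.cons (nat_lit 0xa800000000) (nat_lit 0) (.cons (nat_lit 0x9820000000) (nat_lit 0) (.nil))) (.nd (nat_lit 0xa860200000) (.cons (nat_lit 0x9820000000) (nat_lit 0) (.cons (nat_lit 0x9030000000) (nat_lit 0) (.nil))) .lf .lf) .lf) (.nd (nat_lit 0xb040400000) (.cons (nat_lit 0x9820000000) (nat_lit 0) (.cons (nat_lit 0x9030000000) (nat_lit 0) (.nil))) .lf .lf))) (.nd (nat_lit 0xc020400000) (.cons (nat_lit 0x9820000000) (nat_lit 0) (.nil)) (.nd (nat_lit 0xb840200000) (.cons (nat_lit 0x9820000000) (nat_lit 0) (.nil)) (.nd (nat_lit 0xb830400000) (.cons (nat_lit 0x9820000000) (nat_lit 0) (.nil)) (.nd (nat_lit 0xb060000000) (.cons (nat_lit 0xa800000000) (nat_lit 0) (.cons (nat_lit 0x9820000000) (nat_lit 0) (.cons (nat_lit 0x9030000000)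 (nat_lit 0) (.nil)))) .lf .lf) .lf) (.nd (nat_lit 0xb850000000) (.cons (nat_lit 0xa800000000) (nat_lit 0) (.nil)) .lf .lf)) (.nd (nat_lit 0xd020000000) (.cons (nat_lit 0xa800000000) (nat_lit 0) (.nil)) (.nd (nat_lit 0xc830000000) (.cons (nat_lit 0xa800000000) (nat_lit 0) (.nil)) (.nd (nat_lit 0xc040000000) (.cons (nat_lit 0xa800000000) (nat_lit 0) (.cons (nat_lit 0x9820000000) (nat_lit 0) (.nil))) .lf .lf) .lf) (.nd (nat_lit 0xe000000000) (.cons (nat_lit 0xa800000000) (nat_lit 0) (.nil)) .lf .lf)))))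

/-- pivots of level (4, 7) -/
noncomputable def tP_4_7 : PTr := (.nd (nat_lit 0x7870808000) (.cons (nat_lit 0x7840400000) (nat_lit 0) (.cons (nat_lit 0x7050400000) (nat_lit 0) (.nil))) (.nd (nat_lit 0x6860c0c000) (.cons (nat_lit 0x6060600000) (nat_lit 0) (.nil)) tP_4_7_0 tP_4_7_1) (.nd (nat_lit 0x9050804000) (.cons (nat_lit 0x8040200000) (nat_lit 0) (.nil)) tP_4_7_2 tP_4_7_3))

noncomputable def tP_5_7_0 : PTr := (.nd (nat_lit 0x5881014180) (.cons (nat_lit 0x5880c0c000) (nat_lit 0) (.nil)) (.nd (nat_lit 0x50a0e18100) (.cons (nat_lit 0x50a0c08000) (nat_lit 0) (.nil)) (.nd (nat_lit 0x5081020080) (.cons (nat_lit 0x5081008000) (nat_lit 0) (.nil)) (.nd (nat_lit 0x5080c18280) (.cons (nat_lit 0x5060c18000) (nat_lit 0) (.nil)) (.nd (nat_lit 0x4881018200) (.cons (nat_lit 0x4880c14000) (nat_lit 0) (.nil)) (.nd (nat_lit 0x4081020180) (.cons (nat_lit 0x4081010000) (nat_lit 0) (.nil)) .lf .lf) (.nd (nat_lit 0x4890e14280)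 (.cons (nat_lit 0x4880c14000) (nat_lit 0) (.nil)) .lf .lf)) (.nd (nat_lit 0x5081018180) (.cons (nat_lit 0x5080e0c000) (nat_lit 0) (.nil)) (.nd (nat_lit 0x5081014200) (.cons (nat_lit 0x5080c10000) (nat_lit 0) (.nil)) .lf .lf) (.nd (nat_lit 0x508101c100) (.cons (nat_lit 0x5081008000) (nat_lit 0) (.nil)) .lf .lf))) (.nd (nat_lit 0x5091018100) (.cons (nat_lit 0x5090c0c000) (nat_lit 0) (.nil)) (.nd (nat_lit 0x5090e18180) (.cons (nat_lit 0x5090c0c000) (nat_lit 0) (.nil)) (.nd (nat_lit 0x5090c18200) (.cons (nat_lit 0x5080c10000) (nat_lit 0) (.nil)) .lf .lf) (.nd (nat_lit 0x5091014180) (.cons (nat_lit 0x5090c0c000) (nat_lit 0) (.nil)) .lf .lf)) (.nd (nat_lit 0x50a0e10200) (.cons (nat_lit 0x50a0810000) (nat_lit 0) (.nil)) (.nd (nat_lit 0x50a0c18180) (.cons (nat_lit 0x5090c0c000) (nat_lit 0) (.nil)) .lf .lf) .lf))) (.nd (nat_lit 0x50a1410080) (.cons (nat_lit 0x50a0e04000) (nat_lit 0) (.nil)) (.nd (nat_lit 0x50a101c000)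 (.cons (nat_lit 0x50a1000000) (nat_lit 0) (.nil)) (.nd (nat_lit 0x50a1014100) (.cons (nat_lit 0x50a0c08000) (nat_lit 0) (.nil)) (.nd (nat_lit 0x50a1010180) (.cons (nat_lit 0x50a0810000) (nat_lit 0) (.nil)) .lf .lf) (.nd (nat_lit 0x50a1018080) (.cons (nat_lit 0x50a0e04000) (nat_lit 0) (.cons (nat_lit 0x50a0c08000) (nat_lit 0) (.nil))) .lf .lf)) (.nd (nat_lit 0x50a1218000) (.cons (nat_lit 0x50a1000000) (nat_lit 0) (.nil)) (.nd (nat_lit 0x50a1210100) (.cons (nat_lit 0x50a0c08000) (nat_lit 0) (.nil)) .lf .lf) .lf)) (.nd (nat_lit 0x5880e14200) (.cons (nat_lit 0x5880a10000) (nat_lit 0) (.nil)) (.nd (nat_lit 0x5860c18300) (.cons (nat_lit 0x5060c18000) (nat_lit 0) (.nil)) (.nd (nat_lit 0x50a1414000) (.cons (nat_lit 0x50a1000000) (nat_lit 0) (.nil)) .lf .lf) (.nd (nat_lit 0x5880c18200) (.cons (nat_lit 0x5870c10000) (nat_lit 0) (.nil)) .lf .lf)) (.nd (nat_lit 0x5881010200) (.cons (nat_lit 0x5880a10000) (nat_lit 0)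 (.nil)) (.nd (nat_lit 0x5880e18180) (.cons (nat_lit 0x5880c0c000) (nat_lit 0) (.nil)) .lf .lf) .lf)))) (.nd (nat_lit 0x5891214080) (.cons (nat_lit 0x5890e04000) (nat_lit 0) (.nil)) (.nd (nat_lit 0x5890e18100) (.cons (nat_lit 0x5890c08000) (nat_lit 0) (.nil)) (.nd (nat_lit 0x5890c14200) (.cons (nat_lit 0x5880a10000) (nat_lit 0) (.nil)) (.nd (nat_lit 0x588101c080) (.cons (nat_lit 0x5881004000) (nat_lit 0) (.nil)) (.nd (nat_lit 0x5881018100) (.cons (nat_lit 0x5880e08000) (nat_lit 0) (.cons (nat_lit 0x5880c0c000) (nat_lit 0) (.nil))) .lf .lf) (.nd (nat_lit 0x5881020000) (.cons (nat_lit 0x5881004000) (nat_lit 0) (.nil)) .lf .lf)) (.nd (nat_lit 0x5890e14180) (.cons (nat_lit 0x5890a0c000) (nat_lit 0) (.cons (nat_lit 0x5880c0c000) (nat_lit 0) (.nil))) (.nd (nat_lit 0x5890c18180) (.cons (nat_lit 0x5880c0c000) (nat_lit 0) (.nil)) .lf .lf) .lf)) (.nd (nat_lit 0x5891018080) (.cons (nat_lit 0x5890e04000) (nat_lit 0)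 (.cons (nat_lit 0x5890c08000) (nat_lit 0) (.nil))) (.nd (nat_lit 0x5891010180) (.cons (nat_lit 0x5890a0c000) (nat_lit 0) (.nil)) (.nd (nat_lit 0x5890e1c080) (.cons (nat_lit 0x5890e04000) (nat_lit 0) (.nil)) .lf .lf) (.nd (nat_lit 0x5891014100) (.cons (nat_lit 0x5890c08000) (nat_lit 0) (.cons (nat_lit 0x5890a0c000) (nat_lit 0) (.nil))) .lf .lf)) (.nd (nat_lit 0x589120c180) (.cons (nat_lit 0x5890a0c000) (nat_lit 0) (.nil)) (.nd (nat_lit 0x589101c000) (.cons (nat_lit 0x5890e04000) (nat_lit 0) (.nil)) .lf .lf) .lf))) (.nd (nat_lit 0x58a0e1c000) (.cons (nat_lit 0x58a0e00000) (nat_lit 0) (.nil)) (.nd (nat_lit 0x58a0e10180) (.cons (nat_lit 0x58a080c000) (nat_lit 0) (.cons (nat_lit 0x5890a0c000) (nat_lit 0) (.nil))) (.nd (nat_lit 0x58a0c14180) (.cons (nat_lit 0x5890a0c000) (nat_lit 0) (.nil)) (.nd (nat_lit 0x58a0c10200) (.cons (nat_lit 0x5880a10000) (nat_lit 0) (.nil)) .lf .lf) (.nd (nat_lit 0x58a0c18100) (.cons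 (nat_lit 0x5890c08000) (nat_lit 0) (.cons (nat_lit 0x5880c0c000) (nat_lit 0) (.nil))) .lf .lf)) (.nd (nat_lit 0x58a0e18080) (.cons (nat_lit 0x58a0c04000) (nat_lit 0) (.cons (nat_lit 0x5890e04000) (nat_lit 0) (.nil))) (.nd (nat_lit 0x58a0e14100) (.cons (nat_lit 0x58a0a08000) (nat_lit 0) (.cons (nat_lit 0x5890a0c000) (nat_lit 0) (.nil))) .lf .lf) .lf)) (.nd (nat_lit 0x58a1018000) (.cons (nat_lit 0x58a0e00000) (nat_lit 0) (.cons (nat_lit 0x58a0c04000) (nat_lit 0) (.cons (nat_lit 0x5890e04000) (nat_lit 0) (.nil)))) (.nd (nat_lit 0x58a1010100) (.cons (nat_lit 0x58a0a08000) (nat_lit 0) (.cons (nat_lit 0x58a080c000) (nat_lit 0) (.cons (nat_lit 0x5890c08000) (nat_lit 0) (.nil)))) (.nd (nat_lit 0x58a100c180) (.cons (nat_lit 0x58a080c000) (nat_lit 0) (.nil)) .lf .lf) (.nd (nat_lit 0x58a1014080) (.cons (nat_lit 0x58a0c04000) (nat_lit 0) (.cons (nat_lit 0x58a0a08000) (nat_lit 0) (.cons (nat_lit 0x5890e04000) (nat_lit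 0) (.nil)))) .lf .lf)) (.nd (nat_lit 0x58a1210080) (.cons (nat_lit 0x58a0c04000) (nat_lit 0) (.cons (nat_lit 0x58a0a08000) (nat_lit 0) (.nil))) (.nd (nat_lit 0x58a120c100) (.cons (nat_lit 0x58a0a08000) (nat_lit 0) (.nil)) .lf .lf) .lf)))))

noncomputable def tP_5_7_1 : PTr := (.nd (nat_lit 0x6090c10200) (.cons (nat_lit 0x6080810000) (nat_lit 0) (.nil)) (.nd (nat_lit 0x58b120c080) (.cons (nat_lit 0x58b0a04000) (nat_lit 0) (.cons (nat_lit 0x58a0c04000) (nat_lit 0) (.nil))) (.nd (nat_lit 0x58b0e0c180) (.cons (nat_lit 0x58a080c000) (nat_lit 0) (.nil)) (.nd (nat_lit 0x58b0a14180) (.cons (nat_lit 0x5890a0c000) (nat_lit 0) (.nil)) (.nd (nat_lit 0x58a140c080) (.cons (nat_lit 0x58a0c04000) (nat_lit 0) (.nil)) (.nd (nat_lit 0x58a1408100) (.cons (nat_lit 0x58a0a08000) (nat_lit 0) (.nil)) .lf .lf) (.nd (nat_lit 0x58a1410000) (.cons (nat_lit 0x58a0e00000) (nat_lit 0) (.cons (nat_lit 0x58a0c04000) (nat_lit 0) (.nil)))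 .lf .lf)) (.nd (nat_lit 0x58b0c14100) (.cons (nat_lit 0x58a0a08000) (nat_lit 0) (.nil)) (.nd (nat_lit 0x58b0c10180) (.cons (nat_lit 0x58a080c000) (nat_lit 0) (.nil)) .lf .lf) .lf)) (.nd (nat_lit 0x58b100c100) (.cons (nat_lit 0x58a0a08000) (nat_lit 0) (.nil)) (.nd (nat_lit 0x58b0e14080) (.cons (nat_lit 0x58b0a04000) (nat_lit 0) (.cons (nat_lit 0x58a0c04000) (nat_lit 0) (.cons (nat_lit 0x58a0a08000) (nat_lit 0) (.nil)))) (.nd (nat_lit 0x58b0e10100) (.cons (nat_lit 0x58a0a08000) (nat_lit 0) (.nil)) .lf .lf) (.nd (nat_lit 0x58b0e18000) (.cons (nat_lit 0x58a0e00000) (nat_lit 0) (.nil)) .lf .lf)) (.nd (nat_lit 0x58b1014000) (.cons (nat_lit 0x58b0a04000) (nat_lit 0) (.cons (nat_lit 0x58a0e00000) (nat_lit 0) (.nil))) (.nd (nat_lit 0x58b1010080) (.cons (nat_lit 0x58b0a04000) (nat_lit 0) (.cons (nat_lit 0x58a0a08000) (nat_lit 0) (.nil))) .lf .lf) .lf))) (.nd (nat_lit 0x6080e10200) (.cons (nat_lit 0x6080810000) (nat_lit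 0) (.nil)) (.nd (nat_lit 0x6070c18200) (.cons (nat_lit 0x6060c10000) (nat_lit 0) (.nil)) (.nd (nat_lit 0x58b140c000) (.cons (nat_lit 0x58b0a04000) (nat_lit 0) (.nil)) (.nd (nat_lit 0x58b1210000) (.cons (nat_lit 0x58b0a04000) (nat_lit 0) (.nil)) .lf .lf) (.nd (nat_lit 0x58b1604080) (.cons (nat_lit 0x58b0a04000) (nat_lit 0) (.nil)) .lf .lf)) (.nd (nat_lit 0x6080c18180) (.cons (nat_lit 0x6070c0c000) (nat_lit 0) (.cons (nat_lit 0x6060c10000) (nat_lit 0) (.nil))) (.nd (nat_lit 0x6080c14200) (.cons (nat_lit 0x6060c10000) (nat_lit 0) (.nil)) .lf .lf) .lf)) (.nd (nat_lit 0x6081014100) (.cons (nat_lit 0x6080c08000) (nat_lit 0) (.cons (nat_lit 0x6080c08000) (nat_lit 1) (.cons (nat_lit 0x6080c08000) (nat_lit 2) (.nil)))) (.nd (nat_lit 0x6080e18100) (.cons (nat_lit 0x6080c08000) (nat_lit 1) (.cons (nat_lit 0x6080c08000) (nat_lit 2) (.nil))) (.nd (nat_lit 0x6080e14180) (.cons (nat_lit 0x6080a0c000) (nat_lit 0) (.nil))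 .lf .lf) (.nd (nat_lit 0x6081010180) (.cons (nat_lit 0x6080a0c000) (nat_lit 0) (.cons (nat_lit 0x6080810000) (nat_lit 0) (.nil))) .lf .lf)) (.nd (nat_lit 0x608101c000) (.cons (nat_lit 0x6081000000) (nat_lit 0) (.cons (nat_lit 0x6081000000) (nat_lit 1) (.nil))) (.nd (nat_lit 0x6081018080) (.cons (nat_lit 0x6080e04000) (nat_lit 0) (.cons (nat_lit 0x6080c08000) (nat_lit 1) (.cons (nat_lit 0x6080c08000) (nat_lit 2) (.nil)))) .lf .lf) .lf)))) (.nd (nat_lit 0x60a0c10180) (.cons (nat_lit 0x609080c000) (nat_lit 0) (.cons (nat_lit 0x6080a0c000) (nat_lit 0) (.cons (nat_lit 0x6080810000) (nat_lit 0) (.nil)))) (.nd (nat_lit 0x6091010100) (.cons (nat_lit 0x6090a08000) (nat_lit 0) (.cons (nat_lit 0x609080c000) (nat_lit 0) (.cons (nat_lit 0x6080c08000) (nat_lit 2) (.nil)))) (.nd (nat_lit 0x6090e14100) (.cons (nat_lit 0x6090a08000) (nat_lit 0) (.cons (nat_lit 0x6080c08000) (nat_lit 1) (.cons (nat_lit 0x6080c08000) (nat_lit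 2) (.nil)))) (.nd (nat_lit 0x6090c18100) (.cons (nat_lit 0x6080c08000) (nat_lit 0) (.cons (nat_lit 0x6080c08000) (nat_lit 1) (.cons (nat_lit 0x6080c08000) (nat_lit 2) (.nil)))) (.nd (nat_lit 0x6090c14180) (.cons (nat_lit 0x6080a0c000) (nat_lit 0) (.cons (nat_lit 0x6060c10000) (nat_lit 0) (.nil))) .lf .lf) (.nd (nat_lit 0x6090e10180) (.cons (nat_lit 0x609080c000) (nat_lit 0) (.cons (nat_lit 0x6080810000) (nat_lit 0) (.nil))) .lf .lf)) (.nd (nat_lit 0x609100c180) (.cons (nat_lit 0x609080c000) (nat_lit 0) (.nil)) (.nd (nat_lit 0x6090e18080) (.cons (nat_lit 0x6090c04000) (nat_lit 0) (.cons (nat_lit 0x6090c04000) (nat_lit 1) (.cons (nat_lit 0x6080c08000) (nat_lit 2) (.nil)))) .lf .lf) .lf)) (.nd (nat_lit 0x6091210080) (.cons (nat_lit 0x6090c04000) (nat_lit 1) (.nil)) (.nd (nat_lit 0x6091018000) (.cons (nat_lit 0x6090e00000) (nat_lit 0) (.cons (nat_lit 0x6090c04000) (nat_lit 0) (.cons (nat_lit 0x6090c04000) (nat_lit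 1) (.cons (nat_lit 0x6081000000) (nat_lit 1) (.nil))))) (.nd (nat_lit 0x6091014080) (.cons (nat_lit 0x6090c04000) (nat_lit 0) (.cons (nat_lit 0x6090c04000) (nat_lit 1) (.cons (nat_lit 0x6090a08000) (nat_lit 0) (.cons (nat_lit 0x6080c08000) (nat_lit 2) (.nil))))) .lf .lf) (.nd (nat_lit 0x609120c100) (.cons (nat_lit 0x6090a08000) (nat_lit 0) (.nil)) .lf .lf)) (.nd (nat_lit 0x60a0a10200) (.cons (nat_lit 0x6080810000) (nat_lit 0) (.nil)) (.nd (nat_lit 0x6091214000) (.cons (nat_lit 0x6090c04000) (nat_lit 1) (.nil)) .lf .lf) .lf))) (.nd (nat_lit 0x60a100c100) (.cons (nat_lit 0x60a0808000) (nat_lit 0) (.cons (nat_lit 0x60a0808000) (nat_lit 1) (.cons (nat_lit 0x6090a08000) (nat_lit 0) (.cons (nat_lit 0x6080c08000) (nat_lit 2) (.nil))))) (.nd (nat_lit 0x60a0e10100) (.cons (nat_lit 0x60a0808000) (nat_lit 0) (.cons (nat_lit 0x60a0808000) (nat_lit 1) (.cons (nat_lit 0x6090a08000) (nat_lit 0) (.cons (nat_lit 0x609080c000)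 (nat_lit 0) (.cons (nat_lit 0x6080c08000) (nat_lit 2) (.nil)))))) (.nd (nat_lit 0x60a0c18080) (.cons (nat_lit 0x6090c04000) (nat_lit 0) (.cons (nat_lit 0x6090c04000) (nat_lit 1) (.cons (nat_lit 0x6080c08000) (nat_lit 1) (.cons (nat_lit 0x6080c08000) (nat_lit 2) (.nil))))) (.nd (nat_lit 0x60a0c14100) (.cons (nat_lit 0x6090a08000) (nat_lit 0) (.cons (nat_lit 0x6080c08000) (nat_lit 1) (.cons (nat_lit 0x6080c08000) (nat_lit 2) (.nil)))) .lf .lf) (.nd (nat_lit 0x60a0e0c180) (.cons (nat_lit 0x609080c000) (nat_lit 0) (.nil)) .lf .lf)) (.nd (nat_lit 0x60a0e18000) (.cons (nat_lit 0x60a0c00000) (nat_lit 0) (.cons (nat_lit 0x60a0c00000) (nat_lit 1) (.cons (nat_lit 0x60a0c00000) (nat_lit 2) (.cons (nat_lit 0x6090c04000) (nat_lit 1) (.cons (nat_lit 0x6080c08000) (nat_lit 2) (.nil)))))) (.nd (nat_lit 0x60a0e14080) (.cons (nat_lit 0x60a0a04000) (nat_lit 0) (.cons (nat_lit 0x60a0a04000) (nat_lit 1) (.cons (nat_lit 0x6090c04000)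 (nat_lit 1) (.cons (nat_lit 0x6090a08000) (nat_lit 0) (.nil))))) .lf .lf) .lf)) (.nd (nat_lit 0x60a120c080) (.cons (nat_lit 0x60a0a04000) (nat_lit 0) (.cons (nat_lit 0x60a0a04000) (nat_lit 1) (.cons (nat_lit 0x60a0808000) (nat_lit 1) (.nil)))) (.nd (nat_lit 0x60a1014000) (.cons (nat_lit 0x60a0c00000) (nat_lit 0) (.cons (nat_lit 0x60a0c00000) (nat_lit 1) (.cons (nat_lit 0x60a0c00000) (nat_lit 2) (.cons (nat_lit 0x60a0a04000) (nat_lit 0) (.cons (nat_lit 0x60a0a04000) (nat_lit 1) (.cons (nat_lit 0x6090c04000) (nat_lit 1) (.cons (nat_lit 0x6081000000) (nat_lit 1) (.nil)))))))) (.nd (nat_lit 0x60a1010080) (.cons (nat_lit 0x60a0a04000) (nat_lit 0) (.cons (nat_lit 0x60a0a04000) (nat_lit 1) (.cons (nat_lit 0x60a0808000) (nat_lit 0) (.cons (nat_lit 0x60a0808000) (nat_lit 1) (.cons (nat_lit 0x6090c04000) (nat_lit 1) (.cons (nat_lit 0x6090a08000) (nat_lit 0) (.cons (nat_lit 0x6080c08000) (nat_lit 2) (.nil)))))))) .lf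 .lf) (.nd (nat_lit 0x60a1208100) (.cons (nat_lit 0x60a0808000) (nat_lit 1) (.nil)) .lf .lf)) (.nd (nat_lit 0x60a1408080) (.cons (nat_lit 0x60a0a04000) (nat_lit 0) (.cons (nat_lit 0x60a0a04000) (nat_lit 1) (.nil))) (.nd (nat_lit 0x60a1210000) (.cons (nat_lit 0x60a0c00000) (nat_lit 0) (.cons (nat_lit 0x60a0c00000) (nat_lit 1) (.cons (nat_lit 0x60a0c00000) (nat_lit 2) (.cons (nat_lit 0x60a0a04000) (nat_lit 1) (.cons (nat_lit 0x60a0808000) (nat_lit 1) (.nil)))))) .lf .lf) .lf)))))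

noncomputable def tP_5_7_2 : PTr := (.nd (nat_lit 0x60c1600000) (.cons (nat_lit 0x60c0800000) (nat_lit 0) (.nil)) (.nd (nat_lit 0x60b1404080) (.cons (nat_lit 0x60b0804000) (nat_lit 0) (.nil)) (.nd (nat_lit 0x60b0e10080) (.cons (nat_lit 0x60b0804000) (nat_lit 0) (.cons (nat_lit 0x60a0a04000) (nat_lit 0) (.cons (nat_lit 0x60a0a04000) (nat_lit 1) (.cons (nat_lit 0x60a0808000) (nat_lit 1) (.cons (nat_lit 0x6090c04000) (nat_lit 1) (.nil)))))) (.nd (nat_lit 0x60b0c10100) (.cons (nat_lit 0x60a0808000) (nat_lit 0) (.cons (nat_lit 0x60a0808000) (nat_lit 1) (.cons (nat_lit 0x6090a08000) (nat_lit 0) (.cons (nat_lit 0x609080c000) (nat_lit 0) (.nil))))) (.nd (nat_lit 0x60b0a14100) (.cons (nat_lit 0x6090a08000) (nat_lit 0) (.nil)) (.nd (nat_lit 0x60b0a10180) (.cons (nat_lit 0x609080c000) (nat_lit 0) (.nil)) .lf .lf) (.nd (nat_lit 0x60b0c0c180) (.cons (nat_lit 0x609080c000) (nat_lit 0) (.nil)) .lf .lf)) (.nd (nat_lit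 0x60b0c18000) (.cons (nat_lit 0x60a0c00000) (nat_lit 0) (.cons (nat_lit 0x60a0c00000) (nat_lit 1) (.cons (nat_lit 0x60a0c00000) (nat_lit 2) (.nil)))) (.nd (nat_lit 0x60b0c14080) (.cons (nat_lit 0x60a0a04000) (nat_lit 0) (.cons (nat_lit 0x60a0a04000) (nat_lit 1) (.cons (nat_lit 0x6090c04000) (nat_lit 1) (.cons (nat_lit 0x6090a08000) (nat_lit 0) (.nil))))) .lf .lf) (.nd (nat_lit 0x60b0e0c100) (.cons (nat_lit 0x60b0608000) (nat_lit 0) (.cons (nat_lit 0x60a0808000) (nat_lit 1) (.cons (nat_lit 0x6090a08000) (nat_lit 0) (.nil)))) .lf .lf))) (.nd (nat_lit 0x60b1010000) (.cons (nat_lit 0x60b0a00000) (nat_lit 0) (.cons (nat_lit 0x60b0804000) (nat_lit 0) (.cons (nat_lit 0x60a0c00000) (nat_lit 0) (.cons (nat_lit 0x60a0c00000) (nat_lit 1) (.cons (nat_lit 0x60a0c00000) (nat_lit 2) (.cons (nat_lit 0x60a0a04000) (nat_lit 1) (.cons (nat_lit 0x60a0808000) (nat_lit 1) (.nil)))))))) (.nd (nat_lit 0x60b1008100) (.cons (nat_lit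 0x60b0608000) (nat_lit 0) (.cons (nat_lit 0x60a0808000) (nat_lit 0) (.nil))) (.nd (nat_lit 0x60b0e14000) (.cons (nat_lit 0x60b0a00000) (nat_lit 0) (.cons (nat_lit 0x60a0c00000) (nat_lit 1) (.cons (nat_lit 0x60a0c00000) (nat_lit 2) (.cons (nat_lit 0x60a0a04000) (nat_lit 1) (.cons (nat_lit 0x6090c04000) (nat_lit 1) (.nil)))))) .lf .lf) (.nd (nat_lit 0x60b100c080) (.cons (nat_lit 0x60b0804000) (nat_lit 0) (.cons (nat_lit 0x60b0608000) (nat_lit 0) (.cons (nat_lit 0x60a0a04000) (nat_lit 0) (.cons (nat_lit 0x60a0a04000) (nat_lit 1) (.cons (nat_lit 0x60a0808000) (nat_lit 1) (.nil)))))) .lf .lf)) (.nd (nat_lit 0x60b120c000) (.cons (nat_lit 0x60b0a00000) (nat_lit 0) (.cons (nat_lit 0x60b0804000) (nat_lit 0) (.cons (nat_lit 0x60b0608000) (nat_lit 0) (.cons (nat_lit 0x60a0c00000) (nat_lit 2) (.nil))))) (.nd (nat_lit 0x60b1208080) (.cons (nat_lit 0x60b0804000) (nat_lit 0) (.cons (nat_lit 0x60b0608000) (nat_lit 0) (.cons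 (nat_lit 0x60a0a04000) (nat_lit 1) (.nil)))) .lf .lf) .lf))) (.nd (nat_lit 0x60c0e08100) (.cons (nat_lit 0x60c0408000) (nat_lit 0) (.cons (nat_lit 0x60b0608000) (nat_lit 0) (.cons (nat_lit 0x60a0808000) (nat_lit 1) (.nil)))) (.nd (nat_lit 0x60c0c0c100) (.cons (nat_lit 0x60b0608000) (nat_lit 0) (.cons (nat_lit 0x60a0808000) (nat_lit 0) (.nil))) (.nd (nat_lit 0x60c0810180) (.cons (nat_lit 0x609080c000) (nat_lit 0) (.nil)) (.nd (nat_lit 0x60b1408000) (.cons (nat_lit 0x60b0a00000) (nat_lit 0) (.cons (nat_lit 0x60b0804000) (nat_lit 0) (.cons (nat_lit 0x60b0608000) (nat_lit 0) (.nil)))) .lf .lf) (.nd (nat_lit 0x60c0a10100) (.cons (nat_lit 0x60a0808000) (nat_lit 1) (.nil)) .lf .lf)) (.nd (nat_lit 0x60c0c14000) (.cons (nat_lit 0x60b0a00000) (nat_lit 0) (.cons (nat_lit 0x60a0c00000) (nat_lit 1) (.cons (nat_lit 0x60a0c00000) (nat_lit 2) (.nil)))) (.nd (nat_lit 0x60c0c10080) (.cons (nat_lit 0x60b0804000) (nat_lit 0)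 (.cons (nat_lit 0x60a0a04000) (nat_lit 0) (.cons (nat_lit 0x60a0a04000) (nat_lit 1) (.cons (nat_lit 0x60a0808000) (nat_lit 1) (.nil))))) .lf .lf) .lf)) (.nd (nat_lit 0x60c100c000) (.cons (nat_lit 0x60c0800000) (nat_lit 0) (.cons (nat_lit 0x60c0800000) (nat_lit 1) (.cons (nat_lit 0x60b0a00000) (nat_lit 0) (.cons (nat_lit 0x60b0804000) (nat_lit 0) (.cons (nat_lit 0x60b0608000) (nat_lit 0) (.nil)))))) (.nd (nat_lit 0x60c0e10000) (.cons (nat_lit 0x60c0800000) (nat_lit 0) (.cons (nat_lit 0x60c0800000) (nat_lit 1) (.cons (nat_lit 0x60b0a00000) (nat_lit 0) (.cons (nat_lit 0x60b0804000) (nat_lit 0) (.cons (nat_lit 0x60a0c00000) (nat_lit 2) (.nil)))))) (.nd (nat_lit 0x60c0e0c080) (.cons (nat_lit 0x60b0804000) (nat_lit 0) (.cons (nat_lit 0x60b0608000) (nat_lit 0) (.nil))) .lf .lf) (.nd (nat_lit 0x60c1008080) (.cons (nat_lit 0x60c0408000) (nat_lit 0) (.cons (nat_lit 0x60b0804000) (nat_lit 0) (.cons (nat_lit 0x60b0608000)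 (nat_lit 0) (.nil)))) .lf .lf)) (.nd (nat_lit 0x60c1404000) (.cons (nat_lit 0x60c0800000) (nat_lit 0) (.cons (nat_lit 0x60c0800000) (nat_lit 1) (.nil))) (.nd (nat_lit 0x60c1208000) (.cons (nat_lit 0x60c0800000) (nat_lit 0) (.cons (nat_lit 0x60c0800000) (nat_lit 1) (.cons (nat_lit 0x60c0408000) (nat_lit 0) (.cons (nat_lit 0x60b0608000) (nat_lit 0) (.nil))))) .lf .lf) .lf)))) (.nd (nat_lit 0x6890a14180) (.cons (nat_lit 0x6870a0c000) (nat_lit 0) (.nil)) (.nd (nat_lit 0x6880e10180) (.cons (nat_lit 0x688080c000) (nat_lit 0) (.cons (nat_lit 0x6870a0c000) (nat_lit 0) (.nil))) (.nd (nat_lit 0x6880c10200) (.cons (nat_lit 0x6870810000) (nat_lit 0) (.cons (nat_lit 0x6080810000) (nat_lit 0) (.nil))) (.nd (nat_lit 0x6870c18180) (.cons (nat_lit 0x6860c0c000) (nat_lit 0) (.nil)) (.nd (nat_lit 0x6860c18200) (.cons (nat_lit 0x6060c10000) (nat_lit 0) (.nil)) .lf .lf) (.nd (nat_lit 0x6870e14180) (.cons (nat_lit 0x6870a0c000)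 (nat_lit 0) (.nil)) .lf .lf)) (.nd (nat_lit 0x6880c18100) (.cons (nat_lit 0x6870c08000) (nat_lit 0) (.cons (nat_lit 0x6860c0c000) (nat_lit 0) (.cons (nat_lit 0x6080c08000) (nat_lit 2) (.nil)))) (.nd (nat_lit 0x6880c14180) (.cons (nat_lit 0x6870a0c000) (nat_lit 0) (.cons (nat_lit 0x6860c0c000) (nat_lit 0) (.nil))) .lf .lf) .lf)) (.nd (nat_lit 0x6881010100) (.cons (nat_lit 0x6880a08000) (nat_lit 0) (.cons (nat_lit 0x6880a08000) (nat_lit 1) (.cons (nat_lit 0x688080c000) (nat_lit 0) (.cons (nat_lit 0x6080c08000) (nat_lit 2) (.nil))))) (.nd (nat_lit 0x6880e18080) (.cons (nat_lit 0x6880c04000) (nat_lit 0) (.cons (nat_lit 0x6880c04000) (nat_lit 1) (.cons (nat_lit 0x6880c04000) (nat_lit 2) (.nil)))) (.nd (nat_lit 0x6880e14100) (.cons (nat_lit 0x6880a08000) (nat_lit 0) (.cons (nat_lit 0x6880a08000) (nat_lit 1) (.cons (nat_lit 0x6870a0c000) (nat_lit 0) (.nil)))) .lf .lf) (.nd (nat_lit 0x6880e1c000) (.cons (nat_lit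 0x6880e00000) (nat_lit 1) (.nil)) .lf .lf)) (.nd (nat_lit 0x6881018000) (.cons (nat_lit 0x6880e00000) (nat_lit 0) (.cons (nat_lit 0x6880e00000) (nat_lit 1) (.cons (nat_lit 0x6880c04000) (nat_lit 1) (.cons (nat_lit 0x6880c04000) (nat_lit 2) (.cons (nat_lit 0x6081000000) (nat_lit 1) (.nil)))))) (.nd (nat_lit 0x6881014080) (.cons (nat_lit 0x6880c04000) (nat_lit 0) (.cons (nat_lit 0x6880c04000) (nat_lit 1) (.cons (nat_lit 0x6880c04000) (nat_lit 2) (.cons (nat_lit 0x6880a08000) (nat_lit 1) (.nil))))) .lf .lf) .lf))) (.nd (nat_lit 0x6890e18000) (.cons (nat_lit 0x6890c00000) (nat_lit 0) (.cons (nat_lit 0x6890c00000) (nat_lit 1) (.cons (nat_lit 0x6890c00000) (nat_lit 2) (.cons (nat_lit 0x6880e00000) (nat_lit 1) (.cons (nat_lit 0x6880c04000) (nat_lit 2) (.nil)))))) (.nd (nat_lit 0x6890e0c180) (.cons (nat_lit 0x689060c000) (nat_lit 0) (.cons (nat_lit 0x688080c000) (nat_lit 0) (.cons (nat_lit 0x6870a0c000) (nat_lit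 0) (.nil)))) (.nd (nat_lit 0x6890c14100) (.cons (nat_lit 0x6880a08000) (nat_lit 0) (.cons (nat_lit 0x6880a08000) (nat_lit 1) (.cons (nat_lit 0x6870a0c000) (nat_lit 0) (.cons (nat_lit 0x6860c0c000) (nat_lit 0) (.nil))))) (.nd (nat_lit 0x6890c10180) (.cons (nat_lit 0x688080c000) (nat_lit 0) (.cons (nat_lit 0x6870a0c000) (nat_lit 0) (.cons (nat_lit 0x6860c0c000) (nat_lit 0) (.nil)))) .lf .lf) (.nd (nat_lit 0x6890c18080) (.cons (nat_lit 0x6880c04000) (nat_lit 0) (.cons (nat_lit 0x6880c04000) (nat_lit 1) (.cons (nat_lit 0x6880c04000) (nat_lit 2) (.cons (nat_lit 0x6860c0c000) (nat_lit 0) (.nil))))) .lf .lf)) (.nd (nat_lit 0x6890e14080) (.cons (nat_lit 0x6890a04000) (nat_lit 0) (.cons (nat_lit 0x6890a04000) (nat_lit 1) (.cons (nat_lit 0x6880c04000) (nat_lit 1) (.cons (nat_lit 0x6880c04000) (nat_lit 2) (.cons (nat_lit 0x6880a08000) (nat_lit 1) (.cons (nat_lit 0x6870a0c000) (nat_lit 0) (.nil))))))) (.nd (nat_lit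 0x6890e10100) (.cons (nat_lit 0x6890808000) (nat_lit 0) (.cons (nat_lit 0x6890808000) (nat_lit 1) (.cons (nat_lit 0x6880a08000) (nat_lit 1) (.cons (nat_lit 0x6870a0c000) (nat_lit 0) (.nil))))) .lf .lf) .lf)) (.nd (nat_lit 0x689120c080) (.cons (nat_lit 0x6890a04000) (nat_lit 1) (.cons (nat_lit 0x6890808000) (nat_lit 1) (.cons (nat_lit 0x689060c000) (nat_lit 0) (.nil)))) (.nd (nat_lit 0x6891010080) (.cons (nat_lit 0x6890a04000) (nat_lit 0) (.cons (nat_lit 0x6890a04000) (nat_lit 1) (.cons (nat_lit 0x6890808000) (nat_lit 0) (.cons (nat_lit 0x6890808000) (nat_lit 1) (.cons (nat_lit 0x6880c04000) (nat_lit 2) (.cons (nat_lit 0x6880a08000) (nat_lit 1) (.nil))))))) (.nd (nat_lit 0x689100c100) (.cons (nat_lit 0x6890808000) (nat_lit 0) (.cons (nat_lit 0x6890808000) (nat_lit 1) (.cons (nat_lit 0x689060c000) (nat_lit 0) (.cons (nat_lit 0x6880a08000) (nat_lit 1) (.nil))))) .lf .lf) (.nd (nat_lit 0x6891014000) (.cons (nat_lit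 0x6890c00000) (nat_lit 0) (.cons (nat_lit 0x6890c00000) (nat_lit 1) (.cons (nat_lit 0x6890c00000) (nat_lit 2) (.cons (nat_lit 0x6890a04000) (nat_lit 0) (.cons (nat_lit 0x6890a04000) (nat_lit 1) (.cons (nat_lit 0x6880c04000) (nat_lit 2) (.cons (nat_lit 0x6880a08000) (nat_lit 1) (.nil)))))))) .lf .lf)) (.nd (nat_lit 0x68a0810200) (.cons (nat_lit 0x6870810000) (nat_lit 0) (.nil)) (.nd (nat_lit 0x6891210000) (.cons (nat_lit 0x6890c00000) (nat_lit 1) (.cons (nat_lit 0x6890c00000) (nat_lit 2) (.nil))) .lf .lf) .lf)))))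

noncomputable def tP_5_7_3 : PTr := (.nd (nat_lit 0x68b1204080) (.cons (nat_lit 0x68b0604000) (nat_lit 0) (.cons (nat_lit 0x68b0604000) (nat_lit 1) (.cons (nat_lit 0x68a0804000) (nat_lit 1) (.cons (nat_lit 0x68a0804000) (nat_lit 2) (.nil))))) (.nd (nat_lit 0x68a1404080) (.cons (nat_lit 0x68a0804000) (nat_lit 0) (.nil)) (.nd (nat_lit 0x68a0e10080) (.cons (nat_lit 0x68a0804000) (nat_lit 0) (.cons (nat_lit 0x68a0804000) (nat_lit 1) (.cons (nat_lit 0x68a0804000) (nat_lit 2) (.cons (nat_lit 0x6890a04000) (nat_lit 0) (.cons (nat_lit 0x6890a04000) (nat_lit 1) (.cons (nat_lit 0x6890808000) (nat_lit 0) (.cons (nat_lit 0x6890808000) (nat_lit 1) (.cons (nat_lit 0x6880c04000) (nat_lit 2) (.cons (nat_lit 0x6880a08000) (nat_lit 1) (.cons (nat_lit 0x6870a0c000) (nat_lit 0) (.nil))))))))))) (.nd (nat_lit 0x68a0c14080) (.cons (nat_lit 0x6890a04000) (nat_lit 0) (.cons (nat_lit 0x6890a04000) (nat_lit 1) (.cons (nat_lit 0x6880c04000)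 (nat_lit 1) (.cons (nat_lit 0x6880c04000) (nat_lit 2) (.cons (nat_lit 0x6880a08000) (nat_lit 1) (.cons (nat_lit 0x6870a0c000) (nat_lit 0) (.nil))))))) (.nd (nat_lit 0x68a0c0c180) (.cons (nat_lit 0x689060c000) (nat_lit 0) (.cons (nat_lit 0x6870a0c000) (nat_lit 0) (.nil))) (.nd (nat_lit 0x68a0a14100) (.cons (nat_lit 0x6880a08000) (nat_lit 1) (.nil)) .lf .lf) (.nd (nat_lit 0x68a0c10100) (.cons (nat_lit 0x6890808000) (nat_lit 0) (.cons (nat_lit 0x6890808000) (nat_lit 1) (.cons (nat_lit 0x6880a08000) (nat_lit 0) (.cons (nat_lit 0x6880a08000) (nat_lit 1) (.cons (nat_lit 0x688080c000) (nat_lit 0) (.cons (nat_lit 0x6870a0c000) (nat_lit 0) (.cons (nat_lit 0x6860c0c000) (nat_lit 0) (.nil)))))))) .lf .lf)) (.nd (nat_lit 0x68a0e0c100) (.cons (nat_lit 0x68a0608000) (nat_lit 0) (.cons (nat_lit 0x6890808000) (nat_lit 0) (.cons (nat_lit 0x6890808000) (nat_lit 1) (.cons (nat_lit 0x689060c000) (nat_lit 0) (.cons (nat_lit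 0x6880a08000) (nat_lit 1) (.nil)))))) (.nd (nat_lit 0x68a0c18000) (.cons (nat_lit 0x6890c00000) (nat_lit 0) (.cons (nat_lit 0x6890c00000) (nat_lit 1) (.cons (nat_lit 0x6890c00000) (nat_lit 2) (.cons (nat_lit 0x6880c04000) (nat_lit 1) (.cons (nat_lit 0x6880c04000) (nat_lit 2) (.cons (nat_lit 0x6860c0c000) (nat_lit 0) (.nil))))))) .lf .lf) .lf)) (.nd (nat_lit 0x68a1010000) (.cons (nat_lit 0x68a0a00000) (nat_lit 0) (.cons (nat_lit 0x68a0a00000) (nat_lit 1) (.cons (nat_lit 0x68a0a00000) (nat_lit 2) (.cons (nat_lit 0x68a0804000) (nat_lit 0) (.cons (nat_lit 0x68a0804000) (nat_lit 1) (.cons (nat_lit 0x68a0804000) (nat_lit 2) (.cons (nat_lit 0x6890c00000) (nat_lit 0) (.cons (nat_lit 0x6890c00000) (nat_lit 1) (.cons (nat_lit 0x6890c00000) (nat_lit 2) (.cons (nat_lit 0x6890a04000) (nat_lit 1) (.cons (nat_lit 0x6890808000) (nat_lit 1) (.cons (nat_lit 0x6880c04000) (nat_lit 2) (.cons (nat_lit 0x6880a08000) (nat_lit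 1) (.nil)))))))))))))) (.nd (nat_lit 0x68a1008100) (.cons (nat_lit 0x68a0608000) (nat_lit 0) (.cons (nat_lit 0x6890808000) (nat_lit 0) (.cons (nat_lit 0x6890808000) (nat_lit 1) (.cons (nat_lit 0x6880a08000) (nat_lit 1) (.nil))))) (.nd (nat_lit 0x68a0e14000) (.cons (nat_lit 0x68a0a00000) (nat_lit 0) (.cons (nat_lit 0x68a0a00000) (nat_lit 1) (.cons (nat_lit 0x68a0a00000) (nat_lit 2) (.cons (nat_lit 0x6890c00000) (nat_lit 1) (.cons (nat_lit 0x6890c00000) (nat_lit 2) (.cons (nat_lit 0x6890a04000) (nat_lit 0) (.cons (nat_lit 0x6890a04000) (nat_lit 1) (.cons (nat_lit 0x6880c04000) (nat_lit 2) (.cons (nat_lit 0x6880a08000) (nat_lit 1) (.nil)))))))))) .lf .lf) (.nd (nat_lit 0x68a100c080) (.cons (nat_lit 0x68a0804000) (nat_lit 0) (.cons (nat_lit 0x68a0804000) (nat_lit 1) (.cons (nat_lit 0x68a0804000) (nat_lit 2) (.cons (nat_lit 0x68a0608000) (nat_lit 0) (.cons (nat_lit 0x6890a04000) (nat_lit 0) (.cons (nat_lit 0x6890a04000)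 (nat_lit 1) (.cons (nat_lit 0x689060c000) (nat_lit 0) (.cons (nat_lit 0x6880c04000) (nat_lit 2) (.nil))))))))) .lf .lf)) (.nd (nat_lit 0x68a120c000) (.cons (nat_lit 0x68a0a00000) (nat_lit 0) (.cons (nat_lit 0x68a0a00000) (nat_lit 1) (.cons (nat_lit 0x68a0a00000) (nat_lit 2) (.cons (nat_lit 0x68a0804000) (nat_lit 0) (.cons (nat_lit 0x68a0804000) (nat_lit 1) (.cons (nat_lit 0x68a0804000) (nat_lit 2) (.cons (nat_lit 0x68a0608000) (nat_lit 0) (.cons (nat_lit 0x689060c000) (nat_lit 0) (.nil))))))))) (.nd (nat_lit 0x68a1208080) (.cons (nat_lit 0x68a0804000) (nat_lit 0) (.cons (nat_lit 0x68a0804000) (nat_lit 1) (.cons (nat_lit 0x68a0804000) (nat_lit 2) (.cons (nat_lit 0x68a0608000) (nat_lit 0) (.nil))))) .lf .lf) .lf))) (.nd (nat_lit 0x68b0c10080) (.cons (nat_lit 0x68a0804000) (nat_lit 0) (.cons (nat_lit 0x68a0804000) (nat_lit 1) (.cons (nat_lit 0x68a0804000) (nat_lit 2) (.cons (nat_lit 0x6890a04000) (nat_lit 0)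 (.cons (nat_lit 0x6890a04000) (nat_lit 1) (.cons (nat_lit 0x6890808000) (nat_lit 0) (.cons (nat_lit 0x6890808000) (nat_lit 1) (.cons (nat_lit 0x6880c04000) (nat_lit 2) (.nil))))))))) (.nd (nat_lit 0x68b0a10100) (.cons (nat_lit 0x6890808000) (nat_lit 0) (.cons (nat_lit 0x6890808000) (nat_lit 1) (.cons (nat_lit 0x6880a08000) (nat_lit 1) (.nil)))) (.nd (nat_lit 0x68b0810180) (.cons (nat_lit 0x688080c000) (nat_lit 0) (.nil)) (.nd (nat_lit 0x68a1408000) (.cons (nat_lit 0x68a0a00000) (nat_lit 0) (.cons (nat_lit 0x68a0a00000) (nat_lit 1) (.cons (nat_lit 0x68a0a00000) (nat_lit 2) (.cons (nat_lit 0x68a0804000) (nat_lit 1) (.cons (nat_lit 0x68a0804000) (nat_lit 2) (.nil)))))) .lf .lf) (.nd (nat_lit 0x68b0a0c180) (.cons (nat_lit 0x689060c000) (nat_lit 0) (.cons (nat_lit 0x688080c000) (nat_lit 0) (.nil))) .lf .lf)) (.nd (nat_lit 0x68b0c0c100) (.cons (nat_lit 0x68a0608000) (nat_lit 0) (.cons (nat_lit 0x6890808000) (nat_lit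 0) (.cons (nat_lit 0x6890808000) (nat_lit 1) (.cons (nat_lit 0x689060c000) (nat_lit 0) (.cons (nat_lit 0x6880a08000) (nat_lit 1) (.nil)))))) (.nd (nat_lit 0x68b0a14080) (.cons (nat_lit 0x6890a04000) (nat_lit 1) (.cons (nat_lit 0x6880a08000) (nat_lit 1) (.cons (nat_lit 0x6870a0c000) (nat_lit 0) (.nil)))) .lf .lf) .lf)) (.nd (nat_lit 0x68b0e10000) (.cons (nat_lit 0x68b0800000) (nat_lit 0) (.cons (nat_lit 0x68b0800000) (nat_lit 1) (.cons (nat_lit 0x68a0a00000) (nat_lit 0) (.cons (nat_lit 0x68a0a00000) (nat_lit 1) (.cons (nat_lit 0x68a0a00000) (nat_lit 2) (.cons (nat_lit 0x68a0804000) (nat_lit 0) (.cons (nat_lit 0x68a0804000) (nat_lit 1) (.cons (nat_lit 0x68a0804000) (nat_lit 2) (.cons (nat_lit 0x6890c00000) (nat_lit 1) (.cons (nat_lit 0x6890c00000) (nat_lit 2) (.cons (nat_lit 0x6880c04000) (nat_lit 2) (.nil)))))))))))) (.nd (nat_lit 0x68b0e08100) (.cons (nat_lit 0x68a0608000) (nat_lit 0) (.cons (nat_lit 0x6880a08000)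 (nat_lit 1) (.nil))) (.nd (nat_lit 0x68b0c14000) (.cons (nat_lit 0x68a0a00000) (nat_lit 0) (.cons (nat_lit 0x68a0a00000) (nat_lit 1) (.cons (nat_lit 0x68a0a00000) (nat_lit 2) (.cons (nat_lit 0x6890c00000) (nat_lit 1) (.cons (nat_lit 0x6890c00000) (nat_lit 2) (.cons (nat_lit 0x6890a04000) (nat_lit 1) (.cons (nat_lit 0x6880c04000) (nat_lit 2) (.cons (nat_lit 0x6880a08000) (nat_lit 1) (.nil))))))))) .lf .lf) (.nd (nat_lit 0x68b0e0c080) (.cons (nat_lit 0x68b0604000) (nat_lit 0) (.cons (nat_lit 0x68b0604000) (nat_lit 1) (.cons (nat_lit 0x68a0804000) (nat_lit 0) (.cons (nat_lit 0x68a0804000) (nat_lit 1) (.cons (nat_lit 0x68a0804000) (nat_lit 2) (.cons (nat_lit 0x68a0608000) (nat_lit 0) (.cons (nat_lit 0x6890a04000) (nat_lit 1) (.cons (nat_lit 0x6890808000) (nat_lit 1) (.cons (nat_lit 0x689060c000) (nat_lit 0) (.cons (nat_lit 0x6880c04000) (nat_lit 2) (.nil))))))))))) .lf .lf)) (.nd (nat_lit 0x68b100c000) (.cons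 (nat_lit 0x68b0800000) (nat_lit 0) (.cons (nat_lit 0x68b0800000) (nat_lit 1) (.cons (nat_lit 0x68b0604000) (nat_lit 0) (.cons (nat_lit 0x68b0604000) (nat_lit 1) (.cons (nat_lit 0x68a0a00000) (nat_lit 0) (.cons (nat_lit 0x68a0a00000) (nat_lit 1) (.cons (nat_lit 0x68a0a00000) (nat_lit 2) (.cons (nat_lit 0x68a0804000) (nat_lit 0) (.cons (nat_lit 0x68a0804000) (nat_lit 1) (.cons (nat_lit 0x68a0804000) (nat_lit 2) (.cons (nat_lit 0x68a0608000) (nat_lit 0) (.cons (nat_lit 0x689060c000) (nat_lit 0) (.nil))))))))))))) (.nd (nat_lit 0x68b1008080) (.cons (nat_lit 0x68b0604000) (nat_lit 0) (.cons (nat_lit 0x68b0604000) (nat_lit 1) (.cons (nat_lit 0x68a0804000) (nat_lit 0) (.cons (nat_lit 0x68a0804000) (nat_lit 1) (.cons (nat_lit 0x68a0804000) (nat_lit 2) (.cons (nat_lit 0x68a0608000) (nat_lit 0) (.cons (nat_lit 0x6880c04000) (nat_lit 2) (.nil)))))))) .lf .lf) .lf)))) (.nd (nat_lit 0x68c1204000) (.cons (nat_lit 0x68c0600000)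 (nat_lit 0) (.cons (nat_lit 0x68c0600000) (nat_lit 1) (.cons (nat_lit 0x68c0404000) (nat_lit 0) (.cons (nat_lit 0x68b0800000) (nat_lit 0) (.cons (nat_lit 0x68b0800000) (nat_lit 1) (.cons (nat_lit 0x68b0604000) (nat_lit 0) (.nil))))))) (.nd (nat_lit 0x68c0c08100) (.cons (nat_lit 0x68a0608000) (nat_lit 0) (.cons (nat_lit 0x6890808000) (nat_lit 0) (.cons (nat_lit 0x6890808000) (nat_lit 1) (.nil)))) (.nd (nat_lit 0x68c0a0c100) (.cons (nat_lit 0x68a0608000) (nat_lit 0) (.cons (nat_lit 0x6890808000) (nat_lit 1) (.cons (nat_lit 0x689060c000) (nat_lit 0) (.nil)))) (.nd (nat_lit 0x68b1404000) (.cons (nat_lit 0x68b0800000) (nat_lit 0) (.cons (nat_lit 0x68b0800000) (nat_lit 1) (.cons (nat_lit 0x68b0604000) (nat_lit 0) (.cons (nat_lit 0x68b0604000) (nat_lit 1) (.nil))))) (.nd (nat_lit 0x68b1208000) (.cons (nat_lit 0x68b0800000) (nat_lit 0) (.cons (nat_lit 0x68b0800000) (nat_lit 1) (.cons (nat_lit 0x68b0604000) (nat_lit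 0) (.cons (nat_lit 0x68b0604000) (nat_lit 1) (.cons (nat_lit 0x68a0a00000) (nat_lit 1) (.cons (nat_lit 0x68a0a00000) (nat_lit 2) (.nil))))))) .lf .lf) (.nd (nat_lit 0x68c0810100) (.cons (nat_lit 0x6890808000) (nat_lit 0) (.cons (nat_lit 0x6890808000) (nat_lit 1) (.nil))) .lf .lf)) (.nd (nat_lit 0x68c0a14000) (.cons (nat_lit 0x68a0a00000) (nat_lit 1) (.cons (nat_lit 0x68a0a00000) (nat_lit 2) (.nil))) (.nd (nat_lit 0x68c0a10080) (.cons (nat_lit 0x68a0804000) (nat_lit 0) (.cons (nat_lit 0x68a0804000) (nat_lit 1) (.cons (nat_lit 0x68a0804000) (nat_lit 2) (.cons (nat_lit 0x6890a04000) (nat_lit 1) (.nil))))) .lf .lf) .lf)) (.nd (nat_lit 0x68c0e0c000) (.cons (nat_lit 0x68c0600000) (nat_lit 0) (.cons (nat_lit 0x68c0600000) (nat_lit 1) (.cons (nat_lit 0x68b0800000) (nat_lit 0) (.cons (nat_lit 0x68b0800000) (nat_lit 1) (.cons (nat_lit 0x68b0604000) (nat_lit 0) (.cons (nat_lit 0x68b0604000) (nat_lit 1) (.cons (nat_lit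 0x68a0a00000) (nat_lit 1) (.cons (nat_lit 0x68a0a00000) (nat_lit 2) (.cons (nat_lit 0x68a0804000) (nat_lit 0) (.cons (nat_lit 0x68a0804000) (nat_lit 1) (.cons (nat_lit 0x68a0804000) (nat_lit 2) (.nil)))))))))))) (.nd (nat_lit 0x68c0c10000) (.cons (nat_lit 0x68b0800000) (nat_lit 0) (.cons (nat_lit 0x68b0800000) (nat_lit 1) (.cons (nat_lit 0x68a0a00000) (nat_lit 0) (.cons (nat_lit 0x68a0a00000) (nat_lit 1) (.cons (nat_lit 0x68a0a00000) (nat_lit 2) (.cons (nat_lit 0x68a0804000) (nat_lit 0) (.cons (nat_lit 0x68a0804000) (nat_lit 1) (.cons (nat_lit 0x68a0804000) (nat_lit 2) (.cons (nat_lit 0x6890c00000) (nat_lit 2) (.cons (nat_lit 0x6890a04000) (nat_lit 1) (.nil))))))))))) (.nd (nat_lit 0x68c0c0c080) (.cons (nat_lit 0x68b0604000) (nat_lit 0) (.cons (nat_lit 0x68b0604000) (nat_lit 1) (.cons (nat_lit 0x68a0804000) (nat_lit 0) (.cons (nat_lit 0x68a0804000) (nat_lit 1) (.cons (nat_lit 0x68a0804000) (nat_lit 2) (.cons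 (nat_lit 0x68a0608000) (nat_lit 0) (.cons (nat_lit 0x689060c000) (nat_lit 0) (.nil)))))))) .lf .lf) (.nd (nat_lit 0x68c0e08080) (.cons (nat_lit 0x68c0404000) (nat_lit 0) (.cons (nat_lit 0x68b0604000) (nat_lit 0) (.cons (nat_lit 0x68b0604000) (nat_lit 1) (.cons (nat_lit 0x68a0804000) (nat_lit 0) (.cons (nat_lit 0x68a0804000) (nat_lit 1) (.cons (nat_lit 0x68a0804000) (nat_lit 2) (.nil))))))) .lf .lf)) (.nd (nat_lit 0x68c1008000) (.cons (nat_lit 0x68c0600000) (nat_lit 0) (.cons (nat_lit 0x68c0600000) (nat_lit 1) (.cons (nat_lit 0x68c0404000) (nat_lit 0) (.cons (nat_lit 0x68b0800000) (nat_lit 0) (.cons (nat_lit 0x68b0800000) (nat_lit 1) (.cons (nat_lit 0x68b0604000) (nat_lit 0) (.cons (nat_lit 0x68b0604000) (nat_lit 1) (.cons (nat_lit 0x68a0a00000) (nat_lit 0) (.cons (nat_lit 0x68a0a00000) (nat_lit 1) (.cons (nat_lit 0x68a0a00000) (nat_lit 2) (.cons (nat_lit 0x68a0804000) (nat_lit 2) (.nil)))))))))))) (.nd (nat_lit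 0x68c1004080) (.cons (nat_lit 0x68c0404000) (nat_lit 0) (.cons (nat_lit 0x68b0604000) (nat_lit 0) (.cons (nat_lit 0x68b0604000) (nat_lit 1) (.nil)))) .lf .lf) .lf))) (.nd (nat_lit 0x68d0c08080) (.cons (nat_lit 0x68c0404000) (nat_lit 0) (.cons (nat_lit 0x68b0604000) (nat_lit 0) (.cons (nat_lit 0x68b0604000) (nat_lit 1) (.nil)))) (.nd (nat_lit 0x68d0810080) (.cons (nat_lit 0x68a0804000) (nat_lit 0) (.nil)) (.nd (nat_lit 0x68d060c180) (.cons (nat_lit 0x689060c000) (nat_lit 0) (.nil)) (.nd (nat_lit 0x68c1400000) (.cons (nat_lit 0x68c0600000) (nat_lit 0) (.cons (nat_lit 0x68c0600000) (nat_lit 1) (.cons (nat_lit 0x68b0800000) (nat_lit 0) (.nil)))) .lf .lf) (.nd (nat_lit 0x68d080c100) (.cons (nat_lit 0x68a0608000) (nat_lit 0) (.nil)) .lf .lf)) (.nd (nat_lit 0x68d0a10000) (.cons (nat_lit 0x68b0800000) (nat_lit 0) (.cons (nat_lit 0x68b0800000) (nat_lit 1) (.cons (nat_lit 0x68a0a00000) (nat_lit 1) (.nil)))) (.nd (nat_lit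 0x68d0a0c080) (.cons (nat_lit 0x68b0604000) (nat_lit 0) (.cons (nat_lit 0x68b0604000) (nat_lit 1) (.cons (nat_lit 0x68a0804000) (nat_lit 1) (.cons (nat_lit 0x68a0804000) (nat_lit 2) (.nil))))) .lf .lf) .lf)) (.nd (nat_lit 0x68d1004000) (.cons (nat_lit 0x68d0204000) (nat_lit 0) (.cons (nat_lit 0x68c0600000) (nat_lit 0) (.cons (nat_lit 0x68c0600000) (nat_lit 1) (.cons (nat_lit 0x68c0404000) (nat_lit 0) (.cons (nat_lit 0x68b0800000) (nat_lit 0) (.nil)))))) (.nd (nat_lit 0x68d0e04080) (.cons (nat_lit 0x68d0204000) (nat_lit 0) (.cons (nat_lit 0x68c0404000) (nat_lit 0) (.cons (nat_lit 0x68b0604000) (nat_lit 0) (.cons (nat_lit 0x68a0804000) (nat_lit 2) (.nil))))) (.nd (nat_lit 0x68d0c0c000) (.cons (nat_lit 0x68c0600000) (nat_lit 0) (.cons (nat_lit 0x68c0600000) (nat_lit 1) (.cons (nat_lit 0x68b0800000) (nat_lit 0) (.cons (nat_lit 0x68b0800000) (nat_lit 1) (.cons (nat_lit 0x68b0604000) (nat_lit 0) (.cons (nat_lit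 0x68b0604000) (nat_lit 1) (.nil))))))) .lf .lf) (.nd (nat_lit 0x68d0e08000) (.cons (nat_lit 0x68c0600000) (nat_lit 0) (.cons (nat_lit 0x68c0600000) (nat_lit 1) (.cons (nat_lit 0x68c0404000) (nat_lit 0) (.cons (nat_lit 0x68b0800000) (nat_lit 0) (.cons (nat_lit 0x68b0800000) (nat_lit 1) (.nil)))))) .lf .lf)) (.nd (nat_lit 0x7060c18180) (.cons (nat_lit 0x6860c0c000) (nat_lit 0) (.nil)) (.nd (nat_lit 0x68d1200000) (.cons (nat_lit 0x68c0600000) (nat_lit 0) (.nil)) .lf .lf) .lf)))))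

noncomputable def tP_5_7_4 : PTr := (.nd (nat_lit 0x7091208080) (.cons (nat_lit 0x7090804000) (nat_lit 1) (.cons (nat_lit 0x7090804000) (nat_lit 2) (.nil))) (.nd (nat_lit 0x7081014000) (.cons (nat_lit 0x7080c00000) (nat_lit 0) (.cons (nat_lit 0x7080c00000) (nat_lit 1) (.cons (nat_lit 0x7080c00000) (nat_lit 2) (.cons (nat_lit 0x7080c00000) (nat_lit 3) (.cons (nat_lit 0x7080a04000) (nat_lit 1) (.cons (nat_lit 0x7080a04000) (nat_lit 2) (.cons (nat_lit 0x6880c04000) (nat_lit 2) (.nil)))))))) (.nd (nat_lit 0x7080c18080) (.cons (nat_lit 0x7070c04000) (nat_lit 0) (.cons (nat_lit 0x7070c04000) (nat_lit 1) (.cons (nat_lit 0x7060c08000) (nat_lit 0) (.cons (nat_lit 0x7060c08000) (nat_lit 1) (.cons (nat_lit 0x6880c04000) (nat_lit 2) (.nil)))))) (.nd (nat_lit 0x7070e18080) (.cons (nat_lit 0x7070c04000) (nat_lit 1) (.nil)) (.nd (nat_lit 0x7070c18100) (.cons (nat_lit 0x7060c08000) (nat_lit 0) (.cons (nat_lit 0x7060c08000)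 (nat_lit 1) (.nil))) (.nd (nat_lit 0x7070c14180) (.cons (nat_lit 0x6870a0c000) (nat_lit 0) (.nil)) .lf .lf) (.nd (nat_lit 0x7070e10180) (.cons (nat_lit 0x707080c000) (nat_lit 0) (.nil)) .lf .lf)) (.nd (nat_lit 0x7080c10180) (.cons (nat_lit 0x707080c000) (nat_lit 0) (.cons (nat_lit 0x7060810000) (nat_lit 0) (.cons (nat_lit 0x6870a0c000) (nat_lit 0) (.nil)))) (.nd (nat_lit 0x7080a10200) (.cons (nat_lit 0x7060810000) (nat_lit 0) (.nil)) .lf .lf) (.nd (nat_lit 0x7080c14100) (.cons (nat_lit 0x7070a08000) (nat_lit 0) (.cons (nat_lit 0x7060c08000) (nat_lit 0) (.cons (nat_lit 0x7060c08000) (nat_lit 1) (.cons (nat_lit 0x6880a08000) (nat_lit 1) (.nil))))) .lf .lf))) (.nd (nat_lit 0x7080e18000) (.cons (nat_lit 0x7080c00000) (nat_lit 1) (.cons (nat_lit 0x7080c00000) (nat_lit 2) (.cons (nat_lit 0x7080c00000) (nat_lit 3) (.cons (nat_lit 0x7070c04000) (nat_lit 1) (.nil))))) (.nd (nat_lit 0x7080e10100) (.cons (nat_lit 0x7080808000)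 (nat_lit 0) (.cons (nat_lit 0x7080808000) (nat_lit 1) (.cons (nat_lit 0x7080808000) (nat_lit 2) (.cons (nat_lit 0x707080c000) (nat_lit 0) (.cons (nat_lit 0x6880a08000) (nat_lit 1) (.nil)))))) (.nd (nat_lit 0x7080e0c180) (.cons (nat_lit 0x707080c000) (nat_lit 0) (.nil)) .lf .lf) (.nd (nat_lit 0x7080e14080) (.cons (nat_lit 0x7080a04000) (nat_lit 0) (.cons (nat_lit 0x7080a04000) (nat_lit 1) (.cons (nat_lit 0x7080a04000) (nat_lit 2) (.cons (nat_lit 0x7070c04000) (nat_lit 1) (.cons (nat_lit 0x6880c04000) (nat_lit 2) (.nil)))))) .lf .lf)) (.nd (nat_lit 0x7081010080) (.cons (nat_lit 0x7080a04000) (nat_lit 0) (.cons (nat_lit 0x7080a04000) (nat_lit 1) (.cons (nat_lit 0x7080a04000) (nat_lit 2) (.cons (nat_lit 0x7080808000) (nat_lit 1) (.cons (nat_lit 0x7080808000) (nat_lit 2) (.cons (nat_lit 0x6880c04000) (nat_lit 2) (.nil))))))) (.nd (nat_lit 0x708100c100) (.cons (nat_lit 0x7080808000) (nat_lit 0) (.cons (nat_lit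 0x7080808000) (nat_lit 1) (.cons (nat_lit 0x7080808000) (nat_lit 2) (.nil)))) .lf .lf) .lf))) (.nd (nat_lit 0x7090c18000) (.cons (nat_lit 0x7080c00000) (nat_lit 0) (.cons (nat_lit 0x7080c00000) (nat_lit 1) (.cons (nat_lit 0x7080c00000) (nat_lit 2) (.cons (nat_lit 0x7080c00000) (nat_lit 3) (.cons (nat_lit 0x7070c04000) (nat_lit 1) (.cons (nat_lit 0x7060c08000) (nat_lit 0) (.cons (nat_lit 0x7060c08000) (nat_lit 1) (.nil)))))))) (.nd (nat_lit 0x7090c0c180) (.cons (nat_lit 0x707080c000) (nat_lit 0) (.cons (nat_lit 0x689060c000) (nat_lit 0) (.nil))) (.nd (nat_lit 0x7090a10180) (.cons (nat_lit 0x707080c000) (nat_lit 0) (.cons (nat_lit 0x7060810000) (nat_lit 0) (.nil))) (.nd (nat_lit 0x7090810200) (.cons (nat_lit 0x7060810000) (nat_lit 0) (.nil)) .lf .lf) (.nd (nat_lit 0x7090a14100) (.cons (nat_lit 0x6880a08000) (nat_lit 1) (.nil)) .lf .lf)) (.nd (nat_lit 0x7090c14080) (.cons (nat_lit 0x7080a04000) (nat_lit 0)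 (.cons (nat_lit 0x7080a04000) (nat_lit 1) (.cons (nat_lit 0x7080a04000) (nat_lit 2) (.cons (nat_lit 0x7070c04000) (nat_lit 1) (.cons (nat_lit 0x7060c08000) (nat_lit 0) (.cons (nat_lit 0x7060c08000) (nat_lit 1) (.cons (nat_lit 0x6880c04000) (nat_lit 2) (.nil)))))))) (.nd (nat_lit 0x7090c10100) (.cons (nat_lit 0x7080808000) (nat_lit 0) (.cons (nat_lit 0x7080808000) (nat_lit 1) (.cons (nat_lit 0x7080808000) (nat_lit 2) (.cons (nat_lit 0x707080c000) (nat_lit 0) (.cons (nat_lit 0x7060c08000) (nat_lit 0) (.cons (nat_lit 0x7060c08000) (nat_lit 1) (.cons (nat_lit 0x7060810000) (nat_lit 0) (.nil)))))))) .lf .lf) .lf)) (.nd (nat_lit 0x7091008100) (.cons (nat_lit 0x7090608000) (nat_lit 0) (.cons (nat_lit 0x7080808000) (nat_lit 1) (.cons (nat_lit 0x7080808000) (nat_lit 2) (.nil)))) (.nd (nat_lit 0x7090e10080) (.cons (nat_lit 0x7090804000) (nat_lit 0) (.cons (nat_lit 0x7090804000) (nat_lit 1) (.cons (nat_lit 0x7090804000)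 (nat_lit 2) (.cons (nat_lit 0x7080a04000) (nat_lit 1) (.cons (nat_lit 0x7080a04000) (nat_lit 2) (.cons (nat_lit 0x7080808000) (nat_lit 1) (.cons (nat_lit 0x7080808000) (nat_lit 2) (.cons (nat_lit 0x7070c04000) (nat_lit 1) (.cons (nat_lit 0x707080c000) (nat_lit 0) (.nil)))))))))) (.nd (nat_lit 0x7090e0c100) (.cons (nat_lit 0x7090608000) (nat_lit 0) (.cons (nat_lit 0x7080808000) (nat_lit 1) (.cons (nat_lit 0x7080808000) (nat_lit 2) (.cons (nat_lit 0x707080c000) (nat_lit 0) (.cons (nat_lit 0x689060c000) (nat_lit 0) (.nil)))))) .lf .lf) (.nd (nat_lit 0x7090e14000) (.cons (nat_lit 0x7090a00000) (nat_lit 0) (.cons (nat_lit 0x7090a00000) (nat_lit 1) (.cons (nat_lit 0x7090a00000) (nat_lit 2) (.cons (nat_lit 0x7080c00000) (nat_lit 1) (.cons (nat_lit 0x7080c00000) (nat_lit 2) (.cons (nat_lit 0x7080c00000) (nat_lit 3) (.cons (nat_lit 0x7080a04000) (nat_lit 2) (.cons (nat_lit 0x7070c04000) (nat_lit 1) (.cons (nat_lit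 0x6880c04000) (nat_lit 2) (.nil)))))))))) .lf .lf)) (.nd (nat_lit 0x7091010000) (.cons (nat_lit 0x7090a00000) (nat_lit 0) (.cons (nat_lit 0x7090a00000) (nat_lit 1) (.cons (nat_lit 0x7090a00000) (nat_lit 2) (.cons (nat_lit 0x7090804000) (nat_lit 0) (.cons (nat_lit 0x7090804000) (nat_lit 1) (.cons (nat_lit 0x7090804000) (nat_lit 2) (.cons (nat_lit 0x7080c00000) (nat_lit 2) (.cons (nat_lit 0x7080c00000) (nat_lit 3) (.cons (nat_lit 0x7080a04000) (nat_lit 2) (.cons (nat_lit 0x7080808000) (nat_lit 1) (.cons (nat_lit 0x7080808000) (nat_lit 2) (.nil)))))))))))) (.nd (nat_lit 0x709100c080) (.cons (nat_lit 0x7090804000) (nat_lit 0) (.cons (nat_lit 0x7090804000) (nat_lit 1) (.cons (nat_lit 0x7090804000) (nat_lit 2) (.cons (nat_lit 0x7090608000) (nat_lit 0) (.cons (nat_lit 0x7080a04000) (nat_lit 2) (.cons (nat_lit 0x7080808000) (nat_lit 1) (.cons (nat_lit 0x7080808000) (nat_lit 2) (.cons (nat_lit 0x689060c000) (nat_lit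 0) (.nil))))))))) .lf .lf) .lf)))) (.nd (nat_lit 0x70a1204080) (.cons (nat_lit 0x70a0604000) (nat_lit 0) (.cons (nat_lit 0x70a0604000) (nat_lit 1) (.cons (nat_lit 0x7090804000) (nat_lit 2) (.nil)))) (.nd (nat_lit 0x70a0c10080) (.cons (nat_lit 0x7090804000) (nat_lit 0) (.cons (nat_lit 0x7090804000) (nat_lit 1) (.cons (nat_lit 0x7090804000) (nat_lit 2) (.cons (nat_lit 0x7080a04000) (nat_lit 0) (.cons (nat_lit 0x7080a04000) (nat_lit 1) (.cons (nat_lit 0x7080a04000) (nat_lit 2) (.cons (nat_lit 0x7080808000) (nat_lit 1) (.cons (nat_lit 0x7080808000) (nat_lit 2) (.cons (nat_lit 0x7070c04000) (nat_lit 1) (.cons (nat_lit 0x707080c000) (nat_lit 0) (.cons (nat_lit 0x7060c08000) (nat_lit 0) (.cons (nat_lit 0x7060c08000) (nat_lit 1) (.cons (nat_lit 0x7060810000) (nat_lit 0) (.nil)))))))))))))) (.nd (nat_lit 0x70a0a10100) (.cons (nat_lit 0x7080808000) (nat_lit 0) (.cons (nat_lit 0x7080808000) (nat_lit 1) (.cons (nat_lit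 0x7080808000) (nat_lit 2) (.cons (nat_lit 0x707080c000) (nat_lit 0) (.cons (nat_lit 0x7060810000) (nat_lit 0) (.nil)))))) (.nd (nat_lit 0x70a0810180) (.cons (nat_lit 0x707080c000) (nat_lit 0) (.cons (nat_lit 0x7060810000) (nat_lit 0) (.nil))) (.nd (nat_lit 0x709120c000) (.cons (nat_lit 0x7090a00000) (nat_lit 0) (.cons (nat_lit 0x7090a00000) (nat_lit 1) (.cons (nat_lit 0x7090a00000) (nat_lit 2) (.cons (nat_lit 0x7090804000) (nat_lit 2) (.nil))))) .lf .lf) (.nd (nat_lit 0x70a0a0c180) (.cons (nat_lit 0x707080c000) (nat_lit 0) (.nil)) .lf .lf)) (.nd (nat_lit 0x70a0c0c100) (.cons (nat_lit 0x7090608000) (nat_lit 0) (.cons (nat_lit 0x7080808000) (nat_lit 0) (.cons (nat_lit 0x7080808000) (nat_lit 1) (.cons (nat_lit 0x7080808000) (nat_lit 2) (.cons (nat_lit 0x707080c000) (nat_lit 0) (.cons (nat_lit 0x7060c08000) (nat_lit 0) (.cons (nat_lit 0x7060c08000) (nat_lit 1) (.nil)))))))) (.nd (nat_lit 0x70a0a14080) (.cons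 (nat_lit 0x7080a04000) (nat_lit 1) (.cons (nat_lit 0x7080a04000) (nat_lit 2) (.nil))) .lf .lf) .lf)) (.nd (nat_lit 0x70a0e10000) (.cons (nat_lit 0x70a0800000) (nat_lit 0) (.cons (nat_lit 0x70a0800000) (nat_lit 1) (.cons (nat_lit 0x70a0800000) (nat_lit 2) (.cons (nat_lit 0x70a0800000) (nat_lit 3) (.cons (nat_lit 0x70a0800000) (nat_lit 4) (.cons (nat_lit 0x7090a00000) (nat_lit 0) (.cons (nat_lit 0x7090a00000) (nat_lit 1) (.cons (nat_lit 0x7090a00000) (nat_lit 2) (.cons (nat_lit 0x7090804000) (nat_lit 0) (.cons (nat_lit 0x7090804000) (nat_lit 1) (.cons (nat_lit 0x7090804000) (nat_lit 2) (.cons (nat_lit 0x7080c00000) (nat_lit 2) (.cons (nat_lit 0x7080c00000) (nat_lit 3) (.cons (nat_lit 0x7080a04000) (nat_lit 2) (.cons (nat_lit 0x7080808000) (nat_lit 1) (.cons (nat_lit 0x7080808000) (nat_lit 2) (.cons (nat_lit 0x7070c04000) (nat_lit 1) (.cons (nat_lit 0x707080c000) (nat_lit 0) (.nil))))))))))))))))))) (.nd (nat_lit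 0x70a0e08100) (.cons (nat_lit 0x70a0408000) (nat_lit 0) (.cons (nat_lit 0x70a0408000) (nat_lit 1) (.cons (nat_lit 0x7090608000) (nat_lit 0) (.cons (nat_lit 0x7080808000) (nat_lit 1) (.cons (nat_lit 0x7080808000) (nat_lit 2) (.nil)))))) (.nd (nat_lit 0x70a0c14000) (.cons (nat_lit 0x7090a00000) (nat_lit 0) (.cons (nat_lit 0x7090a00000) (nat_lit 1) (.cons (nat_lit 0x7090a00000) (nat_lit 2) (.cons (nat_lit 0x7080c00000) (nat_lit 1) (.cons (nat_lit 0x7080c00000) (nat_lit 2) (.cons (nat_lit 0x7080c00000) (nat_lit 3) (.cons (nat_lit 0x7080a04000) (nat_lit 1) (.cons (nat_lit 0x7080a04000) (nat_lit 2) (.cons (nat_lit 0x7070c04000) (nat_lit 1) (.cons (nat_lit 0x7060c08000) (nat_lit 0) (.cons (nat_lit 0x7060c08000) (nat_lit 1) (.nil)))))))))))) .lf .lf) (.nd (nat_lit 0x70a0e0c080) (.cons (nat_lit 0x70a0604000) (nat_lit 0) (.cons (nat_lit 0x70a0604000) (nat_lit 1) (.cons (nat_lit 0x7090804000) (nat_lit 0) (.cons (nat_lit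 0x7090804000) (nat_lit 1) (.cons (nat_lit 0x7090804000) (nat_lit 2) (.cons (nat_lit 0x7090608000) (nat_lit 0) (.cons (nat_lit 0x7080a04000) (nat_lit 2) (.cons (nat_lit 0x7080808000) (nat_lit 1) (.cons (nat_lit 0x7080808000) (nat_lit 2) (.cons (nat_lit 0x7070c04000) (nat_lit 1) (.cons (nat_lit 0x707080c000) (nat_lit 0) (.nil)))))))))))) .lf .lf)) (.nd (nat_lit 0x70a100c000) (.cons (nat_lit 0x70a0800000) (nat_lit 0) (.cons (nat_lit 0x70a0800000) (nat_lit 1) (.cons (nat_lit 0x70a0800000) (nat_lit 2) (.cons (nat_lit 0x70a0800000) (nat_lit 3) (.cons (nat_lit 0x70a0800000) (nat_lit 4) (.cons (nat_lit 0x70a0604000) (nat_lit 0) (.cons (nat_lit 0x70a0604000) (nat_lit 1) (.cons (nat_lit 0x7090a00000) (nat_lit 0) (.cons (nat_lit 0x7090a00000) (nat_lit 1) (.cons (nat_lit 0x7090a00000) (nat_lit 2) (.cons (nat_lit 0x7090804000) (nat_lit 1) (.cons (nat_lit 0x7090804000) (nat_lit 2) (.cons (nat_lit 0x7080c00000) (nat_lit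 2) (.cons (nat_lit 0x7080c00000) (nat_lit 3) (.cons (nat_lit 0x7080a04000) (nat_lit 2) (.cons (nat_lit 0x7080808000) (nat_lit 1) (.cons (nat_lit 0x7080808000) (nat_lit 2) (.nil)))))))))))))))))) (.nd (nat_lit 0x70a1008080) (.cons (nat_lit 0x70a0604000) (nat_lit 0) (.cons (nat_lit 0x70a0604000) (nat_lit 1) (.cons (nat_lit 0x70a0408000) (nat_lit 0) (.cons (nat_lit 0x70a0408000) (nat_lit 1) (.cons (nat_lit 0x7090804000) (nat_lit 0) (.cons (nat_lit 0x7090804000) (nat_lit 1) (.cons (nat_lit 0x7090804000) (nat_lit 2) (.cons (nat_lit 0x7080a04000) (nat_lit 2) (.cons (nat_lit 0x7080808000) (nat_lit 1) (.cons (nat_lit 0x7080808000) (nat_lit 2) (.nil))))))))))) .lf .lf) .lf))) (.nd (nat_lit 0x70b0a14000) (.cons (nat_lit 0x7090a00000) (nat_lit 0) (.cons (nat_lit 0x7090a00000) (nat_lit 1) (.cons (nat_lit 0x7090a00000) (nat_lit 2) (.cons (nat_lit 0x7080a04000) (nat_lit 2) (.nil))))) (.nd (nat_lit 0x70b0810100) (.cons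 (nat_lit 0x7080808000) (nat_lit 0) (.cons (nat_lit 0x7080808000) (nat_lit 1) (.cons (nat_lit 0x7080808000) (nat_lit 2) (.nil)))) (.nd (nat_lit 0x70a1404000) (.cons (nat_lit 0x70a0800000) (nat_lit 0) (.cons (nat_lit 0x70a0800000) (nat_lit 1) (.cons (nat_lit 0x70a0800000) (nat_lit 2) (.cons (nat_lit 0x70a0800000) (nat_lit 3) (.cons (nat_lit 0x70a0800000) (nat_lit 4) (.nil)))))) (.nd (nat_lit 0x70a1208000) (.cons (nat_lit 0x70a0800000) (nat_lit 1) (.cons (nat_lit 0x70a0800000) (nat_lit 2) (.cons (nat_lit 0x70a0800000) (nat_lit 3) (.cons (nat_lit 0x70a0800000) (nat_lit 4) (.cons (nat_lit 0x70a0604000) (nat_lit 0) (.cons (nat_lit 0x70a0604000) (nat_lit 1) (.cons (nat_lit 0x70a0408000) (nat_lit 0) (.cons (nat_lit 0x70a0408000) (nat_lit 1) (.cons (nat_lit 0x7090a00000) (nat_lit 2) (.cons (nat_lit 0x7090804000) (nat_lit 2) (.nil))))))))))) .lf .lf) (.nd (nat_lit 0x70b080c180) (.cons (nat_lit 0x707080c000) (nat_lit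 0) (.nil)) .lf .lf)) (.nd (nat_lit 0x70b0a10080) (.cons (nat_lit 0x7090804000) (nat_lit 0) (.cons (nat_lit 0x7090804000) (nat_lit 1) (.cons (nat_lit 0x7090804000) (nat_lit 2) (.cons (nat_lit 0x7080a04000) (nat_lit 1) (.cons (nat_lit 0x7080a04000) (nat_lit 2) (.cons (nat_lit 0x7080808000) (nat_lit 1) (.cons (nat_lit 0x7080808000) (nat_lit 2) (.cons (nat_lit 0x707080c000) (nat_lit 0) (.nil))))))))) (.nd (nat_lit 0x70b0a0c100) (.cons (nat_lit 0x7090608000) (nat_lit 0) (.cons (nat_lit 0x7080808000) (nat_lit 1) (.cons (nat_lit 0x7080808000) (nat_lit 2) (.cons (nat_lit 0x707080c000) (nat_lit 0) (.nil))))) .lf .lf) .lf)) (.nd (nat_lit 0x70b0e08080) (.cons (nat_lit 0x70b0404000) (nat_lit 0) (.cons (nat_lit 0x70b0404000) (nat_lit 1) (.cons (nat_lit 0x70a0604000) (nat_lit 0) (.cons (nat_lit 0x70a0604000) (nat_lit 1) (.cons (nat_lit 0x70a0408000) (nat_lit 0) (.cons (nat_lit 0x70a0408000) (nat_lit 1) (.cons (nat_lit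 0x7090804000) (nat_lit 1) (.cons (nat_lit 0x7090804000) (nat_lit 2) (.cons (nat_lit 0x7080a04000) (nat_lit 2) (.cons (nat_lit 0x7080808000) (nat_lit 1) (.cons (nat_lit 0x7080808000) (nat_lit 2) (.nil)))))))))))) (.nd (nat_lit 0x70b0c0c080) (.cons (nat_lit 0x70a0604000) (nat_lit 0) (.cons (nat_lit 0x70a0604000) (nat_lit 1) (.cons (nat_lit 0x7090804000) (nat_lit 0) (.cons (nat_lit 0x7090804000) (nat_lit 1) (.cons (nat_lit 0x7090804000) (nat_lit 2) (.cons (nat_lit 0x7090608000) (nat_lit 0) (.cons (nat_lit 0x7080a04000) (nat_lit 2) (.cons (nat_lit 0x7080808000) (nat_lit 1) (.cons (nat_lit 0x7080808000) (nat_lit 2) (.cons (nat_lit 0x7070c04000) (nat_lit 1) (.cons (nat_lit 0x707080c000) (nat_lit 0) (.cons (nat_lit 0x7060c08000) (nat_lit 0) (.nil))))))))))))) (.nd (nat_lit 0x70b0c08100) (.cons (nat_lit 0x70a0408000) (nat_lit 0) (.cons (nat_lit 0x70a0408000) (nat_lit 1) (.cons (nat_lit 0x7090608000) (nat_lit 0)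 (.cons (nat_lit 0x7080808000) (nat_lit 1) (.cons (nat_lit 0x7080808000) (nat_lit 2) (.nil)))))) .lf .lf) (.nd (nat_lit 0x70b0c10000) (.cons (nat_lit 0x70a0800000) (nat_lit 0) (.cons (nat_lit 0x70a0800000) (nat_lit 1) (.cons (nat_lit 0x70a0800000) (nat_lit 2) (.cons (nat_lit 0x70a0800000) (nat_lit 3) (.cons (nat_lit 0x70a0800000) (nat_lit 4) (.cons (nat_lit 0x7090a00000) (nat_lit 0) (.cons (nat_lit 0x7090a00000) (nat_lit 1) (.cons (nat_lit 0x7090a00000) (nat_lit 2) (.cons (nat_lit 0x7090804000) (nat_lit 0) (.cons (nat_lit 0x7090804000) (nat_lit 1) (.cons (nat_lit 0x7090804000) (nat_lit 2) (.cons (nat_lit 0x7080c00000) (nat_lit 2) (.cons (nat_lit 0x7080c00000) (nat_lit 3) (.cons (nat_lit 0x7080a04000) (nat_lit 2) (.cons (nat_lit 0x7080808000) (nat_lit 1) (.cons (nat_lit 0x7080808000) (nat_lit 2) (.cons (nat_lit 0x7070c04000) (nat_lit 1) (.nil)))))))))))))))))) .lf .lf)) (.nd (nat_lit 0x70b1004080) (.cons (nat_lit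 0x70b0404000) (nat_lit 0) (.cons (nat_lit 0x70b0404000) (nat_lit 1) (.cons (nat_lit 0x70a0604000) (nat_lit 0) (.cons (nat_lit 0x70a0604000) (nat_lit 1) (.cons (nat_lit 0x7090804000) (nat_lit 2) (.cons (nat_lit 0x7080a04000) (nat_lit 2) (.nil))))))) (.nd (nat_lit 0x70b0e0c000) (.cons (nat_lit 0x70b0600000) (nat_lit 0) (.cons (nat_lit 0x70b0600000) (nat_lit 1) (.cons (nat_lit 0x70a0800000) (nat_lit 1) (.cons (nat_lit 0x70a0800000) (nat_lit 2) (.cons (nat_lit 0x70a0800000) (nat_lit 3) (.cons (nat_lit 0x70a0800000) (nat_lit 4) (.cons (nat_lit 0x70a0604000) (nat_lit 0) (.cons (nat_lit 0x70a0604000) (nat_lit 1) (.cons (nat_lit 0x7090a00000) (nat_lit 0) (.cons (nat_lit 0x7090a00000) (nat_lit 1) (.cons (nat_lit 0x7090a00000) (nat_lit 2) (.cons (nat_lit 0x7090804000) (nat_lit 2) (.cons (nat_lit 0x7080c00000) (nat_lit 2) (.cons (nat_lit 0x7080c00000) (nat_lit 3) (.cons (nat_lit 0x7080a04000) (nat_lit 2) (.cons (nat_lit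 0x7080808000) (nat_lit 1) (.cons (nat_lit 0x7080808000) (nat_lit 2) (.nil)))))))))))))))))) .lf .lf) .lf)))))

noncomputable def tP_5_7_5 : PTr := (.nd (nat_lit 0x70e0c04000) (.cons (nat_lit 0x70d0200000) (nat_lit 0) (.cons (nat_lit 0x70c0400000) (nat_lit 0) (.cons (nat_lit 0x70c0400000) (nat_lit 1) (.cons (nat_lit 0x70c0400000) (nat_lit 2) (.cons (nat_lit 0x70b0600000) (nat_lit 0) (.cons (nat_lit 0x70b0600000) (nat_lit 1) (.nil))))))) (.nd (nat_lit 0x70d0808100) (.cons (nat_lit 0x70a0408000) (nat_lit 0) (.cons (nat_lit 0x70a0408000) (nat_lit 1) (.nil))) (.nd (nat_lit 0x70c0a10000) (.cons (nat_lit 0x70a0800000) (nat_lit 1) (.cons (nat_lit 0x70a0800000) (nat_lit 2) (.cons (nat_lit 0x70a0800000) (nat_lit 3) (.cons (nat_lit 0x70a0800000) (nat_lit 4) (.cons (nat_lit 0x7090a00000) (nat_lit 0) (.cons (nat_lit 0x7090a00000) (nat_lit 1) (.cons (nat_lit 0x7090a00000) (nat_lit 2) (.cons (nat_lit 0x7090804000) (nat_lit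 1) (.cons (nat_lit 0x7090804000) (nat_lit 2) (.cons (nat_lit 0x7080a04000) (nat_lit 2) (.nil))))))))))) (.nd (nat_lit 0x70c0810080) (.cons (nat_lit 0x7090804000) (nat_lit 0) (.cons (nat_lit 0x7090804000) (nat_lit 1) (.cons (nat_lit 0x7090804000) (nat_lit 2) (.cons (nat_lit 0x7080808000) (nat_lit 1) (.cons (nat_lit 0x7080808000) (nat_lit 2) (.nil)))))) (.nd (nat_lit 0x70b1400000) (.cons (nat_lit 0x70b0600000) (nat_lit 0) (.cons (nat_lit 0x70b0600000) (nat_lit 1) (.cons (nat_lit 0x70a0800000) (nat_lit 3) (.nil)))) (.nd (nat_lit 0x70b1204000) (.cons (nat_lit 0x70b0600000) (nat_lit 0) (.cons (nat_lit 0x70b0600000) (nat_lit 1) (.cons (nat_lit 0x70b0404000) (nat_lit 0) (.cons (nat_lit 0x70b0404000) (nat_lit 1) (.cons (nat_lit 0x70a0800000) (nat_lit 1) (.cons (nat_lit 0x70a0800000) (nat_lit 2) (.cons (nat_lit 0x70a0800000) (nat_lit 3) (.cons (nat_lit 0x70a0800000) (nat_lit 4) (.cons (nat_lit 0x7090a00000) (nat_lit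 2) (.nil)))))))))) .lf .lf) (.nd (nat_lit 0x70c080c100) (.cons (nat_lit 0x7090608000) (nat_lit 0) (.cons (nat_lit 0x7080808000) (nat_lit 1) (.cons (nat_lit 0x7080808000) (nat_lit 2) (.nil)))) .lf .lf)) (.nd (nat_lit 0x70c0a0c080) (.cons (nat_lit 0x70a0604000) (nat_lit 0) (.cons (nat_lit 0x70a0604000) (nat_lit 1) (.cons (nat_lit 0x7090804000) (nat_lit 1) (.cons (nat_lit 0x7090804000) (nat_lit 2) (.cons (nat_lit 0x7090608000) (nat_lit 0) (.cons (nat_lit 0x7080a04000) (nat_lit 2) (.nil))))))) (.nd (nat_lit 0x70c0a08100) (.cons (nat_lit 0x70a0408000) (nat_lit 0) (.cons (nat_lit 0x70a0408000) (nat_lit 1) (.cons (nat_lit 0x7090608000) (nat_lit 0) (.cons (nat_lit 0x7080808000) (nat_lit 2) (.nil))))) .lf .lf) .lf)) (.nd (nat_lit 0x70c0e08000) (.cons (nat_lit 0x70c0400000) (nat_lit 0) (.cons (nat_lit 0x70c0400000) (nat_lit 1) (.cons (nat_lit 0x70c0400000) (nat_lit 2) (.cons (nat_lit 0x70b0600000) (nat_lit 0) (.cons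 (nat_lit 0x70b0600000) (nat_lit 1) (.cons (nat_lit 0x70b0404000) (nat_lit 0) (.cons (nat_lit 0x70b0404000) (nat_lit 1) (.cons (nat_lit 0x70a0800000) (nat_lit 1) (.cons (nat_lit 0x70a0800000) (nat_lit 2) (.cons (nat_lit 0x70a0800000) (nat_lit 3) (.cons (nat_lit 0x70a0800000) (nat_lit 4) (.cons (nat_lit 0x70a0604000) (nat_lit 0) (.cons (nat_lit 0x70a0604000) (nat_lit 1) (.cons (nat_lit 0x70a0408000) (nat_lit 0) (.cons (nat_lit 0x70a0408000) (nat_lit 1) (.cons (nat_lit 0x7090a00000) (nat_lit 2) (.cons (nat_lit 0x7090804000) (nat_lit 2) (.cons (nat_lit 0x7080c00000) (nat_lit 2) (.nil))))))))))))))))))) (.nd (nat_lit 0x70c0c0c000) (.cons (nat_lit 0x70b0600000) (nat_lit 0) (.cons (nat_lit 0x70b0600000) (nat_lit 1) (.cons (nat_lit 0x70a0800000) (nat_lit 0) (.cons (nat_lit 0x70a0800000) (nat_lit 1) (.cons (nat_lit 0x70a0800000) (nat_lit 2) (.cons (nat_lit 0x70a0800000) (nat_lit 3) (.cons (nat_lit 0x70a0800000) (nat_lit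 4) (.cons (nat_lit 0x70a0604000) (nat_lit 0) (.cons (nat_lit 0x70a0604000) (nat_lit 1) (.cons (nat_lit 0x7090a00000) (nat_lit 0) (.cons (nat_lit 0x7090a00000) (nat_lit 1) (.cons (nat_lit 0x7090a00000) (nat_lit 2) (.cons (nat_lit 0x7090804000) (nat_lit 1) (.cons (nat_lit 0x7090804000) (nat_lit 2) (.cons (nat_lit 0x7080c00000) (nat_lit 2) (.cons (nat_lit 0x7080c00000) (nat_lit 3) (.cons (nat_lit 0x7080a04000) (nat_lit 2) (.nil)))))))))))))))))) (.nd (nat_lit 0x70c0c08080) (.cons (nat_lit 0x70b0404000) (nat_lit 0) (.cons (nat_lit 0x70b0404000) (nat_lit 1) (.cons (nat_lit 0x70a0604000) (nat_lit 0) (.cons (nat_lit 0x70a0604000) (nat_lit 1) (.cons (nat_lit 0x70a0408000) (nat_lit 0) (.cons (nat_lit 0x70a0408000) (nat_lit 1) (.cons (nat_lit 0x7090804000) (nat_lit 0) (.cons (nat_lit 0x7090804000) (nat_lit 1) (.cons (nat_lit 0x7090804000) (nat_lit 2) (.cons (nat_lit 0x7080a04000) (nat_lit 2) (.cons (nat_lit 0x7080808000)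 (nat_lit 2) (.nil)))))))))))) .lf .lf) (.nd (nat_lit 0x70c0e04080) (.cons (nat_lit 0x70b0404000) (nat_lit 0) (.cons (nat_lit 0x70b0404000) (nat_lit 1) (.cons (nat_lit 0x70a0604000) (nat_lit 0) (.cons (nat_lit 0x70a0604000) (nat_lit 1) (.cons (nat_lit 0x7090804000) (nat_lit 2) (.nil)))))) .lf .lf)) (.nd (nat_lit 0x70c1200000) (.cons (nat_lit 0x70c0400000) (nat_lit 0) (.cons (nat_lit 0x70c0400000) (nat_lit 1) (.cons (nat_lit 0x70c0400000) (nat_lit 2) (.cons (nat_lit 0x70b0600000) (nat_lit 0) (.cons (nat_lit 0x70b0600000) (nat_lit 1) (.cons (nat_lit 0x70a0800000) (nat_lit 3) (.cons (nat_lit 0x70a0800000) (nat_lit 4) (.nil)))))))) (.nd (nat_lit 0x70c1004000) (.cons (nat_lit 0x70c0400000) (nat_lit 0) (.cons (nat_lit 0x70c0400000) (nat_lit 1) (.cons (nat_lit 0x70c0400000) (nat_lit 2) (.cons (nat_lit 0x70b0600000) (nat_lit 0) (.cons (nat_lit 0x70b0600000) (nat_lit 1) (.cons (nat_lit 0x70b0404000) (nat_lit 0) (.cons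 (nat_lit 0x70b0404000) (nat_lit 1) (.cons (nat_lit 0x70a0800000) (nat_lit 1) (.cons (nat_lit 0x70a0800000) (nat_lit 2) (.cons (nat_lit 0x70a0800000) (nat_lit 3) (.cons (nat_lit 0x70a0800000) (nat_lit 4) (.cons (nat_lit 0x7090a00000) (nat_lit 2) (.cons (nat_lit 0x7090804000) (nat_lit 2) (.nil)))))))))))))) .lf .lf) .lf))) (.nd (nat_lit 0x70d0e04000) (.cons (nat_lit 0x70d0200000) (nat_lit 0) (.cons (nat_lit 0x70c0400000) (nat_lit 0) (.cons (nat_lit 0x70c0400000) (nat_lit 1) (.cons (nat_lit 0x70c0400000) (nat_lit 2) (.cons (nat_lit 0x70b0600000) (nat_lit 0) (.cons (nat_lit 0x70b0600000) (nat_lit 1) (.cons (nat_lit 0x70b0404000) (nat_lit 0) (.cons (nat_lit 0x70b0404000) (nat_lit 1) (.cons (nat_lit 0x70a0800000) (nat_lit 1) (.cons (nat_lit 0x70a0800000) (nat_lit 2) (.cons (nat_lit 0x70a0800000) (nat_lit 3) (.nil)))))))))))) (.nd (nat_lit 0x70d0a0c000) (.cons (nat_lit 0x70b0600000) (nat_lit 0) (.cons (nat_lit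 0x70b0600000) (nat_lit 1) (.cons (nat_lit 0x70a0800000) (nat_lit 1) (.cons (nat_lit 0x70a0800000) (nat_lit 2) (.cons (nat_lit 0x70a0800000) (nat_lit 3) (.cons (nat_lit 0x70a0800000) (nat_lit 4) (.cons (nat_lit 0x70a0604000) (nat_lit 0) (.cons (nat_lit 0x70a0604000) (nat_lit 1) (.cons (nat_lit 0x7090a00000) (nat_lit 2) (.nil)))))))))) (.nd (nat_lit 0x70d0810000) (.cons (nat_lit 0x70a0800000) (nat_lit 0) (.cons (nat_lit 0x70a0800000) (nat_lit 1) (.cons (nat_lit 0x70a0800000) (nat_lit 2) (.cons (nat_lit 0x70a0800000) (nat_lit 3) (.cons (nat_lit 0x70a0800000) (nat_lit 4) (.nil)))))) (.nd (nat_lit 0x70d080c080) (.cons (nat_lit 0x70a0604000) (nat_lit 0) (.cons (nat_lit 0x70a0604000) (nat_lit 1) (.cons (nat_lit 0x7090804000) (nat_lit 1) (.cons (nat_lit 0x7090804000) (nat_lit 2) (.nil))))) .lf .lf) (.nd (nat_lit 0x70d0a08080) (.cons (nat_lit 0x70b0404000) (nat_lit 0) (.cons (nat_lit 0x70b0404000) (nat_lit 1) (.cons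 (nat_lit 0x70a0604000) (nat_lit 0) (.cons (nat_lit 0x70a0604000) (nat_lit 1) (.cons (nat_lit 0x70a0408000) (nat_lit 0) (.cons (nat_lit 0x70a0408000) (nat_lit 1) (.nil))))))) .lf .lf)) (.nd (nat_lit 0x70d0c08000) (.cons (nat_lit 0x70c0400000) (nat_lit 0) (.cons (nat_lit 0x70c0400000) (nat_lit 1) (.cons (nat_lit 0x70c0400000) (nat_lit 2) (.cons (nat_lit 0x70b0600000) (nat_lit 0) (.cons (nat_lit 0x70b0600000) (nat_lit 1) (.cons (nat_lit 0x70b0404000) (nat_lit 0) (.cons (nat_lit 0x70b0404000) (nat_lit 1) (.cons (nat_lit 0x70a0800000) (nat_lit 1) (.cons (nat_lit 0x70a0800000) (nat_lit 2) (.cons (nat_lit 0x70a0800000) (nat_lit 3) (.cons (nat_lit 0x70a0800000) (nat_lit 4) (.cons (nat_lit 0x70a0604000) (nat_lit 0) (.cons (nat_lit 0x70a0604000) (nat_lit 1) (.nil)))))))))))))) (.nd (nat_lit 0x70d0c04080) (.cons (nat_lit 0x70b0404000) (nat_lit 0) (.cons (nat_lit 0x70b0404000) (nat_lit 1) (.cons (nat_lit 0x70a0604000)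 (nat_lit 0) (.cons (nat_lit 0x70a0604000) (nat_lit 1) (.cons (nat_lit 0x7090804000) (nat_lit 2) (.nil)))))) .lf .lf) .lf)) (.nd (nat_lit 0x70e080c000) (.cons (nat_lit 0x70b0600000) (nat_lit 0) (.cons (nat_lit 0x70b0600000) (nat_lit 1) (.cons (nat_lit 0x70a0800000) (nat_lit 1) (.nil)))) (.nd (nat_lit 0x70e0608100) (.cons (nat_lit 0x70a0408000) (nat_lit 0) (.nil)) (.nd (nat_lit 0x70d1000000) (.cons (nat_lit 0x70d0200000) (nat_lit 0) (.cons (nat_lit 0x70c0400000) (nat_lit 0) (.cons (nat_lit 0x70c0400000) (nat_lit 1) (.cons (nat_lit 0x70c0400000) (nat_lit 2) (.cons (nat_lit 0x70b0600000) (nat_lit 0) (.cons (nat_lit 0x70b0600000) (nat_lit 1) (.nil))))))) .lf .lf) (.nd (nat_lit 0x70e0808080) (.cons (nat_lit 0x70b0404000) (nat_lit 0) (.cons (nat_lit 0x70b0404000) (nat_lit 1) (.cons (nat_lit 0x70a0604000) (nat_lit 0) (.nil)))) .lf .lf)) (.nd (nat_lit 0x70e0a08000) (.cons (nat_lit 0x70c0400000) (nat_lit 0) (.cons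 (nat_lit 0x70c0400000) (nat_lit 1) (.cons (nat_lit 0x70c0400000) (nat_lit 2) (.cons (nat_lit 0x70b0600000) (nat_lit 0) (.cons (nat_lit 0x70b0600000) (nat_lit 1) (.cons (nat_lit 0x70b0404000) (nat_lit 0) (.cons (nat_lit 0x70b0404000) (nat_lit 1) (.nil)))))))) (.nd (nat_lit 0x70e0a04080) (.cons (nat_lit 0x70b0404000) (nat_lit 0) (.nil)) .lf .lf) .lf)))) (.nd (nat_lit 0x7880c0c180) (.cons (nat_lit 0x786080c000) (nat_lit 0) (.nil)) (.nd (nat_lit 0x7870e0c180) (.cons (nat_lit 0x707080c000) (nat_lit 0) (.nil)) (.nd (nat_lit 0x7870c10180) (.cons (nat_lit 0x786080c000) (nat_lit 0) (.cons (nat_lit 0x707080c000) (nat_lit 0) (.nil))) (.nd (nat_lit 0x7860c10200) (.cons (nat_lit 0x7060810000) (nat_lit 0) (.nil)) (.nd (nat_lit 0x70e0e00000) (.cons (nat_lit 0x70e0000000) (nat_lit 0) (.cons (nat_lit 0x70d0200000) (nat_lit 0) (.cons (nat_lit 0x70c0400000) (nat_lit 1) (.cons (nat_lit 0x70c0400000) (nat_lit 2) (.cons (nat_lit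 0x70b0600000) (nat_lit 0) (.nil)))))) .lf .lf) (.nd (nat_lit 0x7860c18100) (.cons (nat_lit 0x7060c08000) (nat_lit 0) (.cons (nat_lit 0x7060c08000) (nat_lit 1) (.nil))) .lf .lf)) (.nd (nat_lit 0x7870c18080) (.cons (nat_lit 0x7860c04000) (nat_lit 0) (.cons (nat_lit 0x7070c04000) (nat_lit 1) (.nil))) (.nd (nat_lit 0x7870c14100) (.cons (nat_lit 0x7860a08000) (nat_lit 0) (.cons (nat_lit 0x7060c08000) (nat_lit 1) (.nil))) .lf .lf) .lf)) (.nd (nat_lit 0x7880810200) (.cons (nat_lit 0x7060810000) (nat_lit 0) (.nil)) (.nd (nat_lit 0x7870e14080) (.cons (nat_lit 0x7870a04000) (nat_lit 0) (.cons (nat_lit 0x7870a04000) (nat_lit 1) (.nil))) (.nd (nat_lit 0x7870e10100) (.cons (nat_lit 0x7870808000) (nat_lit 1) (.nil)) .lf .lf) (.nd (nat_lit 0x7870e18000) (.cons (nat_lit 0x7870c00000) (nat_lit 2) (.nil)) .lf .lf)) (.nd (nat_lit 0x7880a14100) (.cons (nat_lit 0x7860a08000) (nat_lit 0) (.nil)) (.nd (nat_lit 0x7880a10180) (.cons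 (nat_lit 0x786080c000) (nat_lit 0) (.cons (nat_lit 0x707080c000) (nat_lit 0) (.nil))) .lf .lf) .lf))) (.nd (nat_lit 0x7881008100) (.cons (nat_lit 0x7880608000) (nat_lit 0) (.cons (nat_lit 0x7880608000) (nat_lit 1) (.cons (nat_lit 0x7080808000) (nat_lit 1) (.cons (nat_lit 0x7080808000) (nat_lit 2) (.nil))))) (.nd (nat_lit 0x7880e0c100) (.cons (nat_lit 0x7880608000) (nat_lit 0) (.cons (nat_lit 0x7880608000) (nat_lit 1) (.cons (nat_lit 0x7870808000) (nat_lit 1) (.cons (nat_lit 0x7080808000) (nat_lit 2) (.nil))))) (.nd (nat_lit 0x7880c14080) (.cons (nat_lit 0x7870a04000) (nat_lit 0) (.cons (nat_lit 0x7870a04000) (nat_lit 1) (.cons (nat_lit 0x7860c04000) (nat_lit 0) (.cons (nat_lit 0x7860a08000) (nat_lit 0) (.cons (nat_lit 0x7080a04000) (nat_lit 2) (.cons (nat_lit 0x7060c08000) (nat_lit 1) (.nil))))))) (.nd (nat_lit 0x7880c10100) (.cons (nat_lit 0x7870808000) (nat_lit 0) (.cons (nat_lit 0x7870808000) (nat_lit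 1) (.cons (nat_lit 0x7860a08000) (nat_lit 0) (.cons (nat_lit 0x786080c000) (nat_lit 0) (.cons (nat_lit 0x7080808000) (nat_lit 1) (.cons (nat_lit 0x7080808000) (nat_lit 2) (.cons (nat_lit 0x707080c000) (nat_lit 0) (.nil)))))))) .lf .lf) (.nd (nat_lit 0x7880c18000) (.cons (nat_lit 0x7870c00000) (nat_lit 0) (.cons (nat_lit 0x7870c00000) (nat_lit 1) (.cons (nat_lit 0x7870c00000) (nat_lit 2) (.cons (nat_lit 0x7860c04000) (nat_lit 0) (.cons (nat_lit 0x7080c00000) (nat_lit 2) (.cons (nat_lit 0x7080c00000) (nat_lit 3) (.cons (nat_lit 0x7060c08000) (nat_lit 1) (.nil)))))))) .lf .lf)) (.nd (nat_lit 0x7880e14000) (.cons (nat_lit 0x7880a00000) (nat_lit 0) (.cons (nat_lit 0x7880a00000) (nat_lit 1) (.cons (nat_lit 0x7880a00000) (nat_lit 2) (.cons (nat_lit 0x7880a00000) (nat_lit 3) (.cons (nat_lit 0x7870c00000) (nat_lit 2) (.cons (nat_lit 0x7870a04000) (nat_lit 0) (.cons (nat_lit 0x7870a04000) (nat_lit 1) (.cons (nat_lit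 0x7080c00000) (nat_lit 3) (.nil))))))))) (.nd (nat_lit 0x7880e10080) (.cons (nat_lit 0x7880804000) (nat_lit 0) (.cons (nat_lit 0x7880804000) (nat_lit 1) (.cons (nat_lit 0x7880804000) (nat_lit 2) (.cons (nat_lit 0x7870a04000) (nat_lit 0) (.cons (nat_lit 0x7870a04000) (nat_lit 1) (.cons (nat_lit 0x7870808000) (nat_lit 1) (.cons (nat_lit 0x7080a04000) (nat_lit 2) (.cons (nat_lit 0x7080808000) (nat_lit 2) (.nil))))))))) .lf .lf) .lf)) (.nd (nat_lit 0x7890a0c180) (.cons (nat_lit 0x786080c000) (nat_lit 0) (.cons (nat_lit 0x707080c000) (nat_lit 0) (.nil))) (.nd (nat_lit 0x7881010000) (.cons (nat_lit 0x7880a00000) (nat_lit 0) (.cons (nat_lit 0x7880a00000) (nat_lit 1) (.cons (nat_lit 0x7880a00000) (nat_lit 2) (.cons (nat_lit 0x7880a00000) (nat_lit 3) (.cons (nat_lit 0x7880804000) (nat_lit 0) (.cons (nat_lit 0x7880804000) (nat_lit 1) (.cons (nat_lit 0x7880804000) (nat_lit 2) (.cons (nat_lit 0x7080c00000) (nat_lit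 2) (.cons (nat_lit 0x7080c00000) (nat_lit 3) (.cons (nat_lit 0x7080808000) (nat_lit 2) (.nil))))))))))) (.nd (nat_lit 0x788100c080) (.cons (nat_lit 0x7880804000) (nat_lit 0) (.cons (nat_lit 0x7880804000) (nat_lit 1) (.cons (nat_lit 0x7880804000) (nat_lit 2) (.cons (nat_lit 0x7880608000) (nat_lit 1) (.cons (nat_lit 0x7080a04000) (nat_lit 2) (.nil)))))) .lf .lf) (.nd (nat_lit 0x7890810180) (.cons (nat_lit 0x786080c000) (nat_lit 0) (.nil)) .lf .lf)) (.nd (nat_lit 0x7890a14080) (.cons (nat_lit 0x7870a04000) (nat_lit 0) (.cons (nat_lit 0x7870a04000) (nat_lit 1) (.cons (nat_lit 0x7860a08000) (nat_lit 0) (.nil)))) (.nd (nat_lit 0x7890a10100) (.cons (nat_lit 0x7870808000) (nat_lit 1) (.cons (nat_lit 0x7860a08000) (nat_lit 0) (.cons (nat_lit 0x786080c000) (nat_lit 0) (.cons (nat_lit 0x7080808000) (nat_lit 2) (.nil))))) .lf .lf) .lf)))))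

noncomputable def tP_5_7_6 : PTr := (.nd (nat_lit 0x78b0a10000) (.cons (nat_lit 0x7890800000) (nat_lit 0) (.cons (nat_lit 0x7890800000) (nat_lit 1) (.cons (nat_lit 0x7890800000) (nat_lit 2) (.cons (nat_lit 0x7890800000) (nat_lit 3) (.cons (nat_lit 0x7880a00000) (nat_lit 2) (.cons (nat_lit 0x7880a00000) (nat_lit 3) (.cons (nat_lit 0x7880804000) (nat_lit 1) (.cons (nat_lit 0x7880804000) (nat_lit 2) (.cons (nat_lit 0x7870a04000) (nat_lit 0) (.cons (nat_lit 0x7870a04000) (nat_lit 1) (.cons (nat_lit 0x7870808000) (nat_lit 1) (.cons (nat_lit 0x7860a08000) (nat_lit 0) (.cons (nat_lit 0x786080c000) (nat_lit 0) (.nil)))))))))))))) (.nd (nat_lit 0x78a0a14000) (.cons (nat_lit 0x7880a00000) (nat_lit 2) (.cons (nat_lit 0x7880a00000) (nat_lit 3) (.cons (nat_lit 0x7870a04000) (nat_lit 0) (.cons (nat_lit 0x7870a04000) (nat_lit 1) (.cons (nat_lit 0x7860a08000) (nat_lit 0) (.nil)))))) (.nd (nat_lit 0x789100c000) (.cons (nat_lit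 0x7890800000) (nat_lit 0) (.cons (nat_lit 0x7890800000) (nat_lit 1) (.cons (nat_lit 0x7890800000) (nat_lit 2) (.cons (nat_lit 0x7890800000) (nat_lit 3) (.cons (nat_lit 0x7890604000) (nat_lit 0) (.cons (nat_lit 0x7890604000) (nat_lit 1) (.cons (nat_lit 0x7890604000) (nat_lit 2) (.cons (nat_lit 0x7880a00000) (nat_lit 2) (.cons (nat_lit 0x7880a00000) (nat_lit 3) (.cons (nat_lit 0x7880804000) (nat_lit 1) (.cons (nat_lit 0x7880804000) (nat_lit 2) (.cons (nat_lit 0x7880608000) (nat_lit 1) (.cons (nat_lit 0x7090a00000) (nat_lit 2) (.cons (nat_lit 0x7090804000) (nat_lit 2) (.nil))))))))))))))) (.nd (nat_lit 0x7890e0c080) (.cons (nat_lit 0x7890604000) (nat_lit 0) (.cons (nat_lit 0x7890604000) (nat_lit 1) (.cons (nat_lit 0x7890604000) (nat_lit 2) (.cons (nat_lit 0x7880804000) (nat_lit 0) (.cons (nat_lit 0x7880804000) (nat_lit 1) (.cons (nat_lit 0x7880804000) (nat_lit 2) (.cons (nat_lit 0x7880608000) (nat_lit 1) (.cons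 (nat_lit 0x7870a04000) (nat_lit 0) (.cons (nat_lit 0x7870a04000) (nat_lit 1) (.cons (nat_lit 0x7870808000) (nat_lit 1) (.cons (nat_lit 0x7090804000) (nat_lit 2) (.cons (nat_lit 0x7080808000) (nat_lit 2) (.nil))))))))))))) (.nd (nat_lit 0x7890c14000) (.cons (nat_lit 0x7880a00000) (nat_lit 0) (.cons (nat_lit 0x7880a00000) (nat_lit 1) (.cons (nat_lit 0x7880a00000) (nat_lit 2) (.cons (nat_lit 0x7880a00000) (nat_lit 3) (.cons (nat_lit 0x7870c00000) (nat_lit 2) (.cons (nat_lit 0x7870a04000) (nat_lit 0) (.cons (nat_lit 0x7870a04000) (nat_lit 1) (.cons (nat_lit 0x7860c04000) (nat_lit 0) (.cons (nat_lit 0x7860a08000) (nat_lit 0) (.cons (nat_lit 0x7090a00000) (nat_lit 2) (.cons (nat_lit 0x7080c00000) (nat_lit 3) (.nil)))))))))))) (.nd (nat_lit 0x7890c10080) (.cons (nat_lit 0x7880804000) (nat_lit 0) (.cons (nat_lit 0x7880804000) (nat_lit 1) (.cons (nat_lit 0x7880804000) (nat_lit 2) (.cons (nat_lit 0x7870a04000) (nat_lit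 0) (.cons (nat_lit 0x7870a04000) (nat_lit 1) (.cons (nat_lit 0x7870808000) (nat_lit 1) (.cons (nat_lit 0x7860c04000) (nat_lit 0) (.cons (nat_lit 0x7860a08000) (nat_lit 0) (.cons (nat_lit 0x786080c000) (nat_lit 0) (.cons (nat_lit 0x7090804000) (nat_lit 2) (.cons (nat_lit 0x7080a04000) (nat_lit 2) (.cons (nat_lit 0x7080808000) (nat_lit 2) (.nil))))))))))))) .lf .lf) (.nd (nat_lit 0x7890e08100) (.cons (nat_lit 0x7890408000) (nat_lit 0) (.cons (nat_lit 0x7880608000) (nat_lit 1) (.cons (nat_lit 0x7870808000) (nat_lit 1) (.nil)))) .lf .lf)) (.nd (nat_lit 0x7891008080) (.cons (nat_lit 0x7890604000) (nat_lit 0) (.cons (nat_lit 0x7890604000) (nat_lit 1) (.cons (nat_lit 0x7890604000) (nat_lit 2) (.cons (nat_lit 0x7890408000) (nat_lit 0) (.cons (nat_lit 0x7880804000) (nat_lit 1) (.cons (nat_lit 0x7880804000) (nat_lit 2) (.cons (nat_lit 0x7880608000) (nat_lit 1) (.cons (nat_lit 0x7090804000) (nat_lit 2) (.nil)))))))))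 (.nd (nat_lit 0x7890e10000) (.cons (nat_lit 0x7890800000) (nat_lit 0) (.cons (nat_lit 0x7890800000) (nat_lit 1) (.cons (nat_lit 0x7890800000) (nat_lit 2) (.cons (nat_lit 0x7890800000) (nat_lit 3) (.cons (nat_lit 0x7880a00000) (nat_lit 2) (.cons (nat_lit 0x7880a00000) (nat_lit 3) (.cons (nat_lit 0x7880804000) (nat_lit 1) (.cons (nat_lit 0x7880804000) (nat_lit 2) (.cons (nat_lit 0x7870c00000) (nat_lit 2) (.cons (nat_lit 0x7870a04000) (nat_lit 0) (.cons (nat_lit 0x7870a04000) (nat_lit 1) (.cons (nat_lit 0x7870808000) (nat_lit 1) (.cons (nat_lit 0x7090a00000) (nat_lit 2) (.cons (nat_lit 0x7090804000) (nat_lit 2) (.nil))))))))))))))) .lf .lf) .lf)) (.nd (nat_lit 0x78a0810100) (.cons (nat_lit 0x7870808000) (nat_lit 0) (.cons (nat_lit 0x7870808000) (nat_lit 1) (.cons (nat_lit 0x786080c000) (nat_lit 0) (.cons (nat_lit 0x7080808000) (nat_lit 1) (.cons (nat_lit 0x7080808000) (nat_lit 2) (.nil)))))) (.nd (nat_lit 0x7891208000)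 (.cons (nat_lit 0x7890800000) (nat_lit 2) (.cons (nat_lit 0x7890800000) (nat_lit 3) (.cons (nat_lit 0x7890604000) (nat_lit 1) (.cons (nat_lit 0x7890604000) (nat_lit 2) (.nil))))) (.nd (nat_lit 0x7891204080) (.cons (nat_lit 0x7890604000) (nat_lit 0) (.cons (nat_lit 0x7890604000) (nat_lit 1) (.cons (nat_lit 0x7890604000) (nat_lit 2) (.nil)))) .lf .lf) (.nd (nat_lit 0x78a080c180) (.cons (nat_lit 0x786080c000) (nat_lit 0) (.nil)) .lf .lf)) (.nd (nat_lit 0x78a0a10080) (.cons (nat_lit 0x7880804000) (nat_lit 0) (.cons (nat_lit 0x7880804000) (nat_lit 1) (.cons (nat_lit 0x7880804000) (nat_lit 2) (.cons (nat_lit 0x7870a04000) (nat_lit 0) (.cons (nat_lit 0x7870a04000) (nat_lit 1) (.cons (nat_lit 0x7870808000) (nat_lit 1) (.cons (nat_lit 0x7860a08000) (nat_lit 0) (.cons (nat_lit 0x786080c000) (nat_lit 0) (.cons (nat_lit 0x7090804000) (nat_lit 2) (.nil)))))))))) (.nd (nat_lit 0x78a0a0c100) (.cons (nat_lit 0x7880608000)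 (nat_lit 0) (.cons (nat_lit 0x7880608000) (nat_lit 1) (.cons (nat_lit 0x7870808000) (nat_lit 1) (.cons (nat_lit 0x7860a08000) (nat_lit 0) (.cons (nat_lit 0x786080c000) (nat_lit 0) (.nil)))))) .lf .lf) .lf))) (.nd (nat_lit 0x78a1008000) (.cons (nat_lit 0x78a0600000) (nat_lit 0) (.cons (nat_lit 0x78a0600000) (nat_lit 1) (.cons (nat_lit 0x78a0600000) (nat_lit 2) (.cons (nat_lit 0x78a0600000) (nat_lit 3) (.cons (nat_lit 0x78a0404000) (nat_lit 0) (.cons (nat_lit 0x78a0404000) (nat_lit 1) (.cons (nat_lit 0x7890800000) (nat_lit 0) (.cons (nat_lit 0x7890800000) (nat_lit 1) (.cons (nat_lit 0x7890800000) (nat_lit 2) (.cons (nat_lit 0x7890800000) (nat_lit 3) (.cons (nat_lit 0x7890604000) (nat_lit 0) (.cons (nat_lit 0x7890604000) (nat_lit 1) (.cons (nat_lit 0x7890604000) (nat_lit 2) (.cons (nat_lit 0x7880a00000) (nat_lit 2) (.cons (nat_lit 0x7880a00000) (nat_lit 3) (.cons (nat_lit 0x7880804000) (nat_lit 1) (.cons (nat_lit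 0x7880804000) (nat_lit 2) (.cons (nat_lit 0x7880608000) (nat_lit 1) (.cons (nat_lit 0x70a0800000) (nat_lit 3) (.cons (nat_lit 0x70a0800000) (nat_lit 4) (.cons (nat_lit 0x70a0408000) (nat_lit 1) (.nil)))))))))))))))))))))) (.nd (nat_lit 0x78a0e08080) (.cons (nat_lit 0x78a0404000) (nat_lit 0) (.cons (nat_lit 0x78a0404000) (nat_lit 1) (.cons (nat_lit 0x7890604000) (nat_lit 0) (.cons (nat_lit 0x7890604000) (nat_lit 1) (.cons (nat_lit 0x7890604000) (nat_lit 2) (.cons (nat_lit 0x7890408000) (nat_lit 0) (.cons (nat_lit 0x7880804000) (nat_lit 1) (.cons (nat_lit 0x7880804000) (nat_lit 2) (.cons (nat_lit 0x7880608000) (nat_lit 1) (.cons (nat_lit 0x7870a04000) (nat_lit 0) (.cons (nat_lit 0x7870a04000) (nat_lit 1) (.cons (nat_lit 0x7870808000) (nat_lit 1) (.cons (nat_lit 0x70a0408000) (nat_lit 1) (.nil)))))))))))))) (.nd (nat_lit 0x78a0c0c080) (.cons (nat_lit 0x7890604000) (nat_lit 0) (.cons (nat_lit 0x7890604000) (nat_lit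 1) (.cons (nat_lit 0x7890604000) (nat_lit 2) (.cons (nat_lit 0x7880804000) (nat_lit 0) (.cons (nat_lit 0x7880804000) (nat_lit 1) (.cons (nat_lit 0x7880804000) (nat_lit 2) (.cons (nat_lit 0x7880608000) (nat_lit 1) (.cons (nat_lit 0x7870a04000) (nat_lit 0) (.cons (nat_lit 0x7870a04000) (nat_lit 1) (.cons (nat_lit 0x7870808000) (nat_lit 1) (.cons (nat_lit 0x7860c04000) (nat_lit 0) (.cons (nat_lit 0x7860a08000) (nat_lit 0) (.cons (nat_lit 0x786080c000) (nat_lit 0) (.cons (nat_lit 0x7090804000) (nat_lit 2) (.nil))))))))))))))) (.nd (nat_lit 0x78a0c08100) (.cons (nat_lit 0x7890408000) (nat_lit 0) (.cons (nat_lit 0x7880608000) (nat_lit 0) (.cons (nat_lit 0x7880608000) (nat_lit 1) (.cons (nat_lit 0x7870808000) (nat_lit 1) (.cons (nat_lit 0x7860a08000) (nat_lit 0) (.cons (nat_lit 0x70a0408000) (nat_lit 1) (.cons (nat_lit 0x7080808000) (nat_lit 2) (.nil)))))))) .lf .lf) (.nd (nat_lit 0x78a0c10000) (.cons (nat_lit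 0x7890800000) (nat_lit 0) (.cons (nat_lit 0x7890800000) (nat_lit 1) (.cons (nat_lit 0x7890800000) (nat_lit 2) (.cons (nat_lit 0x7890800000) (nat_lit 3) (.cons (nat_lit 0x7880a00000) (nat_lit 0) (.cons (nat_lit 0x7880a00000) (nat_lit 1) (.cons (nat_lit 0x7880a00000) (nat_lit 2) (.cons (nat_lit 0x7880a00000) (nat_lit 3) (.cons (nat_lit 0x7880804000) (nat_lit 0) (.cons (nat_lit 0x7880804000) (nat_lit 1) (.cons (nat_lit 0x7880804000) (nat_lit 2) (.cons (nat_lit 0x7870c00000) (nat_lit 2) (.cons (nat_lit 0x7870a04000) (nat_lit 0) (.cons (nat_lit 0x7870a04000) (nat_lit 1) (.cons (nat_lit 0x7870808000) (nat_lit 1) (.cons (nat_lit 0x7860c04000) (nat_lit 0) (.cons (nat_lit 0x7860a08000) (nat_lit 0) (.cons (nat_lit 0x786080c000) (nat_lit 0) (.cons (nat_lit 0x70a0800000) (nat_lit 3) (.cons (nat_lit 0x70a0800000) (nat_lit 4) (.cons (nat_lit 0x7090a00000) (nat_lit 2) (.cons (nat_lit 0x7090804000) (nat_lit 2) (.nil)))))))))))))))))))))))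 .lf .lf)) (.nd (nat_lit 0x78a1004080) (.cons (nat_lit 0x78a0404000) (nat_lit 0) (.cons (nat_lit 0x78a0404000) (nat_lit 1) (.cons (nat_lit 0x7890604000) (nat_lit 1) (.cons (nat_lit 0x7890604000) (nat_lit 2) (.cons (nat_lit 0x7880804000) (nat_lit 1) (.cons (nat_lit 0x7880804000) (nat_lit 2) (.nil))))))) (.nd (nat_lit 0x78a0e0c000) (.cons (nat_lit 0x78a0600000) (nat_lit 0) (.cons (nat_lit 0x78a0600000) (nat_lit 1) (.cons (nat_lit 0x78a0600000) (nat_lit 2) (.cons (nat_lit 0x78a0600000) (nat_lit 3) (.cons (nat_lit 0x7890800000) (nat_lit 0) (.cons (nat_lit 0x7890800000) (nat_lit 1) (.cons (nat_lit 0x7890800000) (nat_lit 2) (.cons (nat_lit 0x7890800000) (nat_lit 3) (.cons (nat_lit 0x7890604000) (nat_lit 0) (.cons (nat_lit 0x7890604000) (nat_lit 1) (.cons (nat_lit 0x7890604000) (nat_lit 2) (.cons (nat_lit 0x7880a00000) (nat_lit 2) (.cons (nat_lit 0x7880a00000) (nat_lit 3) (.cons (nat_lit 0x7880804000) (nat_lit 1)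 (.cons (nat_lit 0x7880804000) (nat_lit 2) (.cons (nat_lit 0x7880608000) (nat_lit 1) (.cons (nat_lit 0x7870c00000) (nat_lit 2) (.cons (nat_lit 0x7870a04000) (nat_lit 0) (.cons (nat_lit 0x7870a04000) (nat_lit 1) (.cons (nat_lit 0x7870808000) (nat_lit 1) (.cons (nat_lit 0x70a0800000) (nat_lit 3) (.cons (nat_lit 0x70a0800000) (nat_lit 4) (.nil))))))))))))))))))))))) .lf .lf) .lf)) (.nd (nat_lit 0x78b0810080) (.cons (nat_lit 0x7880804000) (nat_lit 0) (.cons (nat_lit 0x7880804000) (nat_lit 1) (.cons (nat_lit 0x7880804000) (nat_lit 2) (.cons (nat_lit 0x7870808000) (nat_lit 1) (.cons (nat_lit 0x786080c000) (nat_lit 0) (.nil)))))) (.nd (nat_lit 0x78a1400000) (.cons (nat_lit 0x78a0600000) (nat_lit 0) (.cons (nat_lit 0x78a0600000) (nat_lit 1) (.cons (nat_lit 0x78a0600000) (nat_lit 2) (.cons (nat_lit 0x78a0600000) (nat_lit 3) (.cons (nat_lit 0x70a0800000) (nat_lit 3) (.nil)))))) (.nd (nat_lit 0x78a1204000) (.cons (nat_lit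 0x78a0600000) (nat_lit 0) (.cons (nat_lit 0x78a0600000) (nat_lit 1) (.cons (nat_lit 0x78a0600000) (nat_lit 2) (.cons (nat_lit 0x78a0600000) (nat_lit 3) (.cons (nat_lit 0x78a0404000) (nat_lit 0) (.cons (nat_lit 0x78a0404000) (nat_lit 1) (.cons (nat_lit 0x7890800000) (nat_lit 3) (.cons (nat_lit 0x7890604000) (nat_lit 1) (.cons (nat_lit 0x7890604000) (nat_lit 2) (.cons (nat_lit 0x70a0800000) (nat_lit 3) (.nil))))))))))) .lf .lf) (.nd (nat_lit 0x78b080c100) (.cons (nat_lit 0x7880608000) (nat_lit 0) (.cons (nat_lit 0x7880608000) (nat_lit 1) (.cons (nat_lit 0x7870808000) (nat_lit 1) (.cons (nat_lit 0x786080c000) (nat_lit 0) (.nil))))) .lf .lf)) (.nd (nat_lit 0x78b0a0c080) (.cons (nat_lit 0x7890604000) (nat_lit 0) (.cons (nat_lit 0x7890604000) (nat_lit 1) (.cons (nat_lit 0x7890604000) (nat_lit 2) (.cons (nat_lit 0x7880804000) (nat_lit 0) (.cons (nat_lit 0x7880804000) (nat_lit 1) (.cons (nat_lit 0x7880804000) (nat_lit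 2) (.cons (nat_lit 0x7880608000) (nat_lit 1) (.cons (nat_lit 0x7870a04000) (nat_lit 0) (.cons (nat_lit 0x7870a04000) (nat_lit 1) (.cons (nat_lit 0x7870808000) (nat_lit 1) (.cons (nat_lit 0x7860a08000) (nat_lit 0) (.cons (nat_lit 0x786080c000) (nat_lit 0) (.nil))))))))))))) (.nd (nat_lit 0x78b0a08100) (.cons (nat_lit 0x7890408000) (nat_lit 0) (.cons (nat_lit 0x7880608000) (nat_lit 1) (.cons (nat_lit 0x7870808000) (nat_lit 1) (.cons (nat_lit 0x7860a08000) (nat_lit 0) (.nil))))) .lf .lf) .lf)))) (.nd (nat_lit 0x78c0c08000) (.cons (nat_lit 0x78b0400000) (nat_lit 0) (.cons (nat_lit 0x78b0400000) (nat_lit 1) (.cons (nat_lit 0x78b0400000) (nat_lit 2) (.cons (nat_lit 0x78a0600000) (nat_lit 0) (.cons (nat_lit 0x78a0600000) (nat_lit 1) (.cons (nat_lit 0x78a0600000) (nat_lit 2) (.cons (nat_lit 0x78a0600000) (nat_lit 3) (.cons (nat_lit 0x78a0404000) (nat_lit 0) (.cons (nat_lit 0x78a0404000) (nat_lit 1) (.cons (nat_lit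 0x7890800000) (nat_lit 0) (.cons (nat_lit 0x7890800000) (nat_lit 1) (.cons (nat_lit 0x7890800000) (nat_lit 2) (.cons (nat_lit 0x7890800000) (nat_lit 3) (.cons (nat_lit 0x7890604000) (nat_lit 0) (.cons (nat_lit 0x7890604000) (nat_lit 1) (.cons (nat_lit 0x7890604000) (nat_lit 2) (.cons (nat_lit 0x7880a00000) (nat_lit 2) (.cons (nat_lit 0x7880a00000) (nat_lit 3) (.cons (nat_lit 0x7880804000) (nat_lit 1) (.cons (nat_lit 0x7880804000) (nat_lit 2) (.cons (nat_lit 0x7880608000) (nat_lit 1) (.cons (nat_lit 0x7870c00000) (nat_lit 2) (.cons (nat_lit 0x7870a04000) (nat_lit 0) (.cons (nat_lit 0x7870a04000) (nat_lit 1) (.cons (nat_lit 0x7860c04000) (nat_lit 0) (.nil)))))))))))))))))))))))))) (.nd (nat_lit 0x78c060c100) (.cons (nat_lit 0x7880608000) (nat_lit 1) (.nil)) (.nd (nat_lit 0x78b0e08000) (.cons (nat_lit 0x78b0400000) (nat_lit 0) (.cons (nat_lit 0x78b0400000) (nat_lit 1) (.cons (nat_lit 0x78b0400000) (nat_lit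 2) (.cons (nat_lit 0x78a0600000) (nat_lit 0) (.cons (nat_lit 0x78a0600000) (nat_lit 1) (.cons (nat_lit 0x78a0600000) (nat_lit 2) (.cons (nat_lit 0x78a0600000) (nat_lit 3) (.cons (nat_lit 0x78a0404000) (nat_lit 0) (.cons (nat_lit 0x78a0404000) (nat_lit 1) (.cons (nat_lit 0x7890800000) (nat_lit 2) (.cons (nat_lit 0x7890800000) (nat_lit 3) (.cons (nat_lit 0x7890604000) (nat_lit 1) (.cons (nat_lit 0x7890604000) (nat_lit 2) (.cons (nat_lit 0x7880a00000) (nat_lit 2) (.cons (nat_lit 0x7880a00000) (nat_lit 3) (.cons (nat_lit 0x7880804000) (nat_lit 1) (.cons (nat_lit 0x7880804000) (nat_lit 2) (.cons (nat_lit 0x7880608000) (nat_lit 1) (.cons (nat_lit 0x7870c00000) (nat_lit 2) (.cons (nat_lit 0x7870a04000) (nat_lit 0) (.cons (nat_lit 0x7870a04000) (nat_lit 1) (.cons (nat_lit 0x7870808000) (nat_lit 1) (.nil))))))))))))))))))))))) (.nd (nat_lit 0x78b0c0c000) (.cons (nat_lit 0x78a0600000) (nat_lit 0) (.cons (nat_lit 0x78a0600000)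 (nat_lit 1) (.cons (nat_lit 0x78a0600000) (nat_lit 2) (.cons (nat_lit 0x78a0600000) (nat_lit 3) (.cons (nat_lit 0x7890800000) (nat_lit 0) (.cons (nat_lit 0x7890800000) (nat_lit 1) (.cons (nat_lit 0x7890800000) (nat_lit 2) (.cons (nat_lit 0x7890800000) (nat_lit 3) (.cons (nat_lit 0x7890604000) (nat_lit 0) (.cons (nat_lit 0x7890604000) (nat_lit 1) (.cons (nat_lit 0x7890604000) (nat_lit 2) (.cons (nat_lit 0x7880a00000) (nat_lit 2) (.cons (nat_lit 0x7880a00000) (nat_lit 3) (.cons (nat_lit 0x7880804000) (nat_lit 1) (.cons (nat_lit 0x7880804000) (nat_lit 2) (.cons (nat_lit 0x7880608000) (nat_lit 1) (.cons (nat_lit 0x7870c00000) (nat_lit 2) (.cons (nat_lit 0x7870a04000) (nat_lit 0) (.cons (nat_lit 0x7870a04000) (nat_lit 1) (.cons (nat_lit 0x7870808000) (nat_lit 1) (.cons (nat_lit 0x7860c04000) (nat_lit 0) (.cons (nat_lit 0x7860a08000) (nat_lit 0) (.cons (nat_lit 0x786080c000) (nat_lit 0) (.nil))))))))))))))))))))))))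 (.nd (nat_lit 0x78b0c08080) (.cons (nat_lit 0x78a0404000) (nat_lit 0) (.cons (nat_lit 0x78a0404000) (nat_lit 1) (.cons (nat_lit 0x7890604000) (nat_lit 0) (.cons (nat_lit 0x7890604000) (nat_lit 1) (.cons (nat_lit 0x7890604000) (nat_lit 2) (.cons (nat_lit 0x7890408000) (nat_lit 0) (.cons (nat_lit 0x7880804000) (nat_lit 1) (.cons (nat_lit 0x7880804000) (nat_lit 2) (.cons (nat_lit 0x7880608000) (nat_lit 1) (.cons (nat_lit 0x7870a04000) (nat_lit 0) (.cons (nat_lit 0x7870a04000) (nat_lit 1) (.cons (nat_lit 0x7870808000) (nat_lit 1) (.cons (nat_lit 0x7860c04000) (nat_lit 0) (.cons (nat_lit 0x7860a08000) (nat_lit 0) (.nil))))))))))))))) .lf .lf) (.nd (nat_lit 0x78b0e04080) (.cons (nat_lit 0x78b0204000) (nat_lit 0) (.cons (nat_lit 0x78a0404000) (nat_lit 0) (.cons (nat_lit 0x78a0404000) (nat_lit 1) (.cons (nat_lit 0x7890604000) (nat_lit 0) (.cons (nat_lit 0x7890604000) (nat_lit 1) (.cons (nat_lit 0x7890604000) (nat_lit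 2) (.cons (nat_lit 0x7880804000) (nat_lit 1) (.cons (nat_lit 0x7880804000) (nat_lit 2) (.cons (nat_lit 0x7870a04000) (nat_lit 0) (.cons (nat_lit 0x7870a04000) (nat_lit 1) (.nil))))))))))) .lf .lf)) (.nd (nat_lit 0x78b1200000) (.cons (nat_lit 0x78b0400000) (nat_lit 0) (.cons (nat_lit 0x78b0400000) (nat_lit 1) (.cons (nat_lit 0x78b0400000) (nat_lit 2) (.cons (nat_lit 0x78a0600000) (nat_lit 3) (.cons (nat_lit 0x7890800000) (nat_lit 3) (.nil)))))) (.nd (nat_lit 0x78b1004000) (.cons (nat_lit 0x78b0400000) (nat_lit 0) (.cons (nat_lit 0x78b0400000) (nat_lit 1) (.cons (nat_lit 0x78b0400000) (nat_lit 2) (.cons (nat_lit 0x78b0204000) (nat_lit 0) (.cons (nat_lit 0x78a0600000) (nat_lit 0) (.cons (nat_lit 0x78a0600000) (nat_lit 1) (.cons (nat_lit 0x78a0600000) (nat_lit 2) (.cons (nat_lit 0x78a0600000) (nat_lit 3) (.cons (nat_lit 0x78a0404000) (nat_lit 0) (.cons (nat_lit 0x78a0404000) (nat_lit 1) (.cons (nat_lit 0x7890800000)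 (nat_lit 3) (.cons (nat_lit 0x7890604000) (nat_lit 1) (.cons (nat_lit 0x7890604000) (nat_lit 2) (.cons (nat_lit 0x7880a00000) (nat_lit 2) (.cons (nat_lit 0x7880a00000) (nat_lit 3) (.cons (nat_lit 0x7880804000) (nat_lit 1) (.cons (nat_lit 0x7880804000) (nat_lit 2) (.nil)))))))))))))))))) .lf .lf) .lf)) (.nd (nat_lit 0x78c0a08080) (.cons (nat_lit 0x78a0404000) (nat_lit 0) (.cons (nat_lit 0x78a0404000) (nat_lit 1) (.cons (nat_lit 0x7890604000) (nat_lit 0) (.cons (nat_lit 0x7890604000) (nat_lit 1) (.cons (nat_lit 0x7890604000) (nat_lit 2) (.cons (nat_lit 0x7890408000) (nat_lit 0) (.cons (nat_lit 0x7880804000) (nat_lit 1) (.cons (nat_lit 0x7880804000) (nat_lit 2) (.cons (nat_lit 0x7880608000) (nat_lit 1) (.cons (nat_lit 0x7870a04000) (nat_lit 0) (.cons (nat_lit 0x7870a04000) (nat_lit 1) (.nil)))))))))))) (.nd (nat_lit 0x78c080c080) (.cons (nat_lit 0x7890604000) (nat_lit 0) (.cons (nat_lit 0x7890604000) (nat_lit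 1) (.cons (nat_lit 0x7890604000) (nat_lit 2) (.cons (nat_lit 0x7880804000) (nat_lit 0) (.cons (nat_lit 0x7880804000) (nat_lit 1) (.cons (nat_lit 0x7880804000) (nat_lit 2) (.cons (nat_lit 0x7880608000) (nat_lit 1) (.nil)))))))) (.nd (nat_lit 0x78c0808100) (.cons (nat_lit 0x7890408000) (nat_lit 0) (.cons (nat_lit 0x7880608000) (nat_lit 0) (.cons (nat_lit 0x7880608000) (nat_lit 1) (.cons (nat_lit 0x7870808000) (nat_lit 1) (.nil))))) .lf .lf) (.nd (nat_lit 0x78c0810000) (.cons (nat_lit 0x7890800000) (nat_lit 0) (.cons (nat_lit 0x7890800000) (nat_lit 1) (.cons (nat_lit 0x7890800000) (nat_lit 2) (.cons (nat_lit 0x7890800000) (nat_lit 3) (.cons (nat_lit 0x7880804000) (nat_lit 0) (.cons (nat_lit 0x7880804000) (nat_lit 1) (.cons (nat_lit 0x7880804000) (nat_lit 2) (.cons (nat_lit 0x7870808000) (nat_lit 1) (.cons (nat_lit 0x786080c000) (nat_lit 0) (.nil)))))))))) .lf .lf)) (.nd (nat_lit 0x78c0c04080) (.cons (nat_lit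 0x78b0204000) (nat_lit 0) (.cons (nat_lit 0x78a0404000) (nat_lit 0) (.cons (nat_lit 0x78a0404000) (nat_lit 1) (.cons (nat_lit 0x7890604000) (nat_lit 1) (.cons (nat_lit 0x7890604000) (nat_lit 2) (.cons (nat_lit 0x7880804000) (nat_lit 1) (.cons (nat_lit 0x7870a04000) (nat_lit 0) (.nil)))))))) (.nd (nat_lit 0x78c0a0c000) (.cons (nat_lit 0x78a0600000) (nat_lit 0) (.cons (nat_lit 0x78a0600000) (nat_lit 1) (.cons (nat_lit 0x78a0600000) (nat_lit 2) (.cons (nat_lit 0x78a0600000) (nat_lit 3) (.cons (nat_lit 0x7890800000) (nat_lit 2) (.cons (nat_lit 0x7890800000) (nat_lit 3) (.cons (nat_lit 0x7890604000) (nat_lit 0) (.cons (nat_lit 0x7890604000) (nat_lit 1) (.cons (nat_lit 0x7890604000) (nat_lit 2) (.cons (nat_lit 0x7880a00000) (nat_lit 2) (.cons (nat_lit 0x7880a00000) (nat_lit 3) (.cons (nat_lit 0x7880804000) (nat_lit 1) (.cons (nat_lit 0x7880804000) (nat_lit 2) (.cons (nat_lit 0x7880608000) (nat_lit 1) (.cons (nat_lit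 0x7870a04000) (nat_lit 0) (.cons (nat_lit 0x7870a04000) (nat_lit 1) (.nil))))))))))))))))) .lf .lf) .lf))) (.nd (nat_lit 0x78d0a04080) (.cons (nat_lit 0x78b0204000) (nat_lit 0) (.cons (nat_lit 0x78a0404000) (nat_lit 0) (.cons (nat_lit 0x78a0404000) (nat_lit 1) (.cons (nat_lit 0x7890604000) (nat_lit 0) (.cons (nat_lit 0x7890604000) (nat_lit 1) (.cons (nat_lit 0x7890604000) (nat_lit 2) (.cons (nat_lit 0x7880804000) (nat_lit 1) (.nil)))))))) (.nd (nat_lit 0x78d060c080) (.cons (nat_lit 0x7890604000) (nat_lit 0) (.cons (nat_lit 0x7890604000) (nat_lit 1) (.cons (nat_lit 0x7890604000) (nat_lit 2) (.nil)))) (.nd (nat_lit 0x78c1000000) (.cons (nat_lit 0x78c0200000) (nat_lit 0) (.cons (nat_lit 0x78c0200000) (nat_lit 1) (.cons (nat_lit 0x78b0400000) (nat_lit 0) (.cons (nat_lit 0x78b0400000) (nat_lit 1) (.cons (nat_lit 0x78b0400000) (nat_lit 2) (.cons (nat_lit 0x78a0600000) (nat_lit 0) (.cons (nat_lit 0x78a0600000)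 (nat_lit 1) (.cons (nat_lit 0x78a0600000) (nat_lit 2) (.cons (nat_lit 0x78a0600000) (nat_lit 3) (.cons (nat_lit 0x7890800000) (nat_lit 3) (.cons (nat_lit 0x7880a00000) (nat_lit 2) (.cons (nat_lit 0x7880a00000) (nat_lit 3) (.nil))))))))))))) (.nd (nat_lit 0x78c0e04000) (.cons (nat_lit 0x78c0200000) (nat_lit 0) (.cons (nat_lit 0x78c0200000) (nat_lit 1) (.cons (nat_lit 0x78b0400000) (nat_lit 0) (.cons (nat_lit 0x78b0400000) (nat_lit 1) (.cons (nat_lit 0x78b0400000) (nat_lit 2) (.cons (nat_lit 0x78b0204000) (nat_lit 0) (.cons (nat_lit 0x78a0600000) (nat_lit 0) (.cons (nat_lit 0x78a0600000) (nat_lit 1) (.cons (nat_lit 0x78a0600000) (nat_lit 2) (.cons (nat_lit 0x78a0600000) (nat_lit 3) (.cons (nat_lit 0x78a0404000) (nat_lit 0) (.cons (nat_lit 0x78a0404000) (nat_lit 1) (.cons (nat_lit 0x7890800000) (nat_lit 3) (.cons (nat_lit 0x7890604000) (nat_lit 1) (.cons (nat_lit 0x7890604000) (nat_lit 2) (.cons (nat_lit 0x7880a00000)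 (nat_lit 2) (.cons (nat_lit 0x7880a00000) (nat_lit 3) (.cons (nat_lit 0x7880804000) (nat_lit 1) (.cons (nat_lit 0x7880804000) (nat_lit 2) (.nil)))))))))))))))))))) .lf .lf) (.nd (nat_lit 0x78d0608100) (.cons (nat_lit 0x7890408000) (nat_lit 0) (.nil)) .lf .lf)) (.nd (nat_lit 0x78d080c000) (.cons (nat_lit 0x78a0600000) (nat_lit 0) (.cons (nat_lit 0x78a0600000) (nat_lit 1) (.cons (nat_lit 0x78a0600000) (nat_lit 2) (.cons (nat_lit 0x78a0600000) (nat_lit 3) (.cons (nat_lit 0x7890800000) (nat_lit 2) (.cons (nat_lit 0x7890800000) (nat_lit 3) (.cons (nat_lit 0x7890604000) (nat_lit 0) (.cons (nat_lit 0x7890604000) (nat_lit 1) (.cons (nat_lit 0x7890604000) (nat_lit 2) (.cons (nat_lit 0x7880804000) (nat_lit 1) (.nil))))))))))) (.nd (nat_lit 0x78d0808080) (.cons (nat_lit 0x78a0404000) (nat_lit 0) (.cons (nat_lit 0x78a0404000) (nat_lit 1) (.cons (nat_lit 0x7890604000) (nat_lit 0) (.cons (nat_lit 0x7890604000) (nat_lit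 1) (.cons (nat_lit 0x7890604000) (nat_lit 2) (.cons (nat_lit 0x7890408000) (nat_lit 0) (.cons (nat_lit 0x7880804000) (nat_lit 1) (.nil)))))))) .lf .lf) .lf)) (.nd (nat_lit 0x78e0408100) (.cons (nat_lit 0x7890408000) (nat_lit 0) (.nil)) (.nd (nat_lit 0x78d0c04000) (.cons (nat_lit 0x78c0200000) (nat_lit 0) (.cons (nat_lit 0x78c0200000) (nat_lit 1) (.cons (nat_lit 0x78b0400000) (nat_lit 0) (.cons (nat_lit 0x78b0400000) (nat_lit 1) (.cons (nat_lit 0x78b0400000) (nat_lit 2) (.cons (nat_lit 0x78b0204000) (nat_lit 0) (.cons (nat_lit 0x78a0600000) (nat_lit 0) (.cons (nat_lit 0x78a0600000) (nat_lit 1) (.cons (nat_lit 0x78a0600000) (nat_lit 2) (.cons (nat_lit 0x78a0600000) (nat_lit 3) (.cons (nat_lit 0x78a0404000) (nat_lit 0) (.cons (nat_lit 0x78a0404000) (nat_lit 1) (.cons (nat_lit 0x7890800000) (nat_lit 3) (.cons (nat_lit 0x7890604000) (nat_lit 1) (.cons (nat_lit 0x7890604000) (nat_lit 2) (.cons (nat_lit 0x7880a00000)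 (nat_lit 2) (.cons (nat_lit 0x7880a00000) (nat_lit 3) (.nil)))))))))))))))))) (.nd (nat_lit 0x78d0a08000) (.cons (nat_lit 0x78b0400000) (nat_lit 0) (.cons (nat_lit 0x78b0400000) (nat_lit 1) (.cons (nat_lit 0x78b0400000) (nat_lit 2) (.cons (nat_lit 0x78a0600000) (nat_lit 0) (.cons (nat_lit 0x78a0600000) (nat_lit 1) (.cons (nat_lit 0x78a0600000) (nat_lit 2) (.cons (nat_lit 0x78a0600000) (nat_lit 3) (.cons (nat_lit 0x78a0404000) (nat_lit 0) (.cons (nat_lit 0x78a0404000) (nat_lit 1) (.cons (nat_lit 0x7890800000) (nat_lit 2) (.cons (nat_lit 0x7890800000) (nat_lit 3) (.cons (nat_lit 0x7890604000) (nat_lit 1) (.cons (nat_lit 0x7890604000) (nat_lit 2) (.cons (nat_lit 0x7880a00000) (nat_lit 2) (.cons (nat_lit 0x7880a00000) (nat_lit 3) (.nil)))))))))))))))) .lf .lf) (.nd (nat_lit 0x78d0e00000) (.cons (nat_lit 0x78c0200000) (nat_lit 0) (.cons (nat_lit 0x78c0200000) (nat_lit 1) (.cons (nat_lit 0x78b0400000) (nat_lit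 0) (.cons (nat_lit 0x78b0400000) (nat_lit 1) (.cons (nat_lit 0x78b0400000) (nat_lit 2) (.cons (nat_lit 0x78a0600000) (nat_lit 3) (.cons (nat_lit 0x7890800000) (nat_lit 3) (.cons (nat_lit 0x7880a00000) (nat_lit 2) (.nil))))))))) .lf .lf)) (.nd (nat_lit 0x78e060c000) (.cons (nat_lit 0x78a0600000) (nat_lit 2) (.cons (nat_lit 0x78a0600000) (nat_lit 3) (.nil))) (.nd (nat_lit 0x78e0608080) (.cons (nat_lit 0x78a0404000) (nat_lit 0) (.cons (nat_lit 0x78a0404000) (nat_lit 1) (.cons (nat_lit 0x7890604000) (nat_lit 0) (.nil)))) .lf .lf) .lf)))))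

noncomputable def tP_5_7_7 : PTr := (.nd (nat_lit 0x8080e10000) (.cons (nat_lit 0x8080800000) (nat_lit 0) (.cons (nat_lit 0x8080800000) (nat_lit 1) (.cons (nat_lit 0x8080800000) (nat_lit 2) (.cons (nat_lit 0x8080800000) (nat_lit 3) (.cons (nat_lit 0x8080800000) (nat_lit 4) (.cons (nat_lit 0x8080800000) (nat_lit 5) (.cons (nat_lit 0x8070a00000) (nat_lit 1) (.cons (nat_lit 0x8070804000) (nat_lit 1) (.cons (nat_lit 0x8070804000) (nat_lit 2) (.cons (nat_lit 0x7880a00000) (nat_lit 2) (.cons (nat_lit 0x7880a00000) (nat_lit 3) (.cons (nat_lit 0x7880804000) (nat_lit 1) (.cons (nat_lit 0x7880804000) (nat_lit 2) (.nil)))))))))))))) (.nd (nat_lit 0x8070c10100) (.cons (nat_lit 0x8060808000) (nat_lit 0) (.cons (nat_lit 0x8060808000) (nat_lit 1) (.cons (nat_lit 0x7870808000) (nat_lit 1) (.cons (nat_lit 0x786080c000) (nat_lit 0) (.nil))))) (.nd (nat_lit 0x78f0a00000) (.cons (nat_lit 0x78c0200000) (nat_lit 0) (.cons (nat_lit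 0x78c0200000) (nat_lit 1) (.nil))) (.nd (nat_lit 0x78f0604080) (.cons (nat_lit 0x78b0204000) (nat_lit 0) (.cons (nat_lit 0x78a0404000) (nat_lit 0) (.nil))) (.nd (nat_lit 0x78e0a04000) (.cons (nat_lit 0x78c0200000) (nat_lit 0) (.cons (nat_lit 0x78c0200000) (nat_lit 1) (.cons (nat_lit 0x78b0400000) (nat_lit 0) (.cons (nat_lit 0x78b0400000) (nat_lit 1) (.cons (nat_lit 0x78b0400000) (nat_lit 2) (.cons (nat_lit 0x78b0204000) (nat_lit 0) (.cons (nat_lit 0x78a0600000) (nat_lit 2) (.cons (nat_lit 0x78a0600000) (nat_lit 3) (.cons (nat_lit 0x78a0404000) (nat_lit 0) (.cons (nat_lit 0x7890800000) (nat_lit 3) (.nil))))))))))) (.nd (nat_lit 0x78e0808000) (.cons (nat_lit 0x78b0400000) (nat_lit 0) (.cons (nat_lit 0x78b0400000) (nat_lit 1) (.cons (nat_lit 0x78b0400000) (nat_lit 2) (.cons (nat_lit 0x78a0600000) (nat_lit 0) (.cons (nat_lit 0x78a0600000) (nat_lit 1) (.cons (nat_lit 0x78a0600000) (nat_lit 2) (.cons (nat_lit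 0x78a0600000) (nat_lit 3) (.cons (nat_lit 0x78a0404000) (nat_lit 0) (.cons (nat_lit 0x78a0404000) (nat_lit 1) (.cons (nat_lit 0x7890800000) (nat_lit 3) (.nil))))))))))) .lf .lf) (.nd (nat_lit 0x78e0c00000) (.cons (nat_lit 0x78c0200000) (nat_lit 0) (.cons (nat_lit 0x78c0200000) (nat_lit 1) (.cons (nat_lit 0x78b0400000) (nat_lit 0) (.cons (nat_lit 0x78b0400000) (nat_lit 1) (.cons (nat_lit 0x78b0400000) (nat_lit 2) (.cons (nat_lit 0x78a0600000) (nat_lit 0) (.cons (nat_lit 0x78a0600000) (nat_lit 2) (.cons (nat_lit 0x7890800000) (nat_lit 3) (.nil))))))))) .lf .lf)) (.nd (nat_lit 0x78f0804000) (.cons (nat_lit 0x78c0200000) (nat_lit 0) (.cons (nat_lit 0x78c0200000) (nat_lit 1) (.cons (nat_lit 0x78b0400000) (nat_lit 1) (.cons (nat_lit 0x78b0400000) (nat_lit 2) (.nil))))) (.nd (nat_lit 0x78f0608000) (.cons (nat_lit 0x78b0400000) (nat_lit 0) (.cons (nat_lit 0x78b0400000) (nat_lit 1) (.cons (nat_lit 0x78b0400000) (nat_lit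 2) (.nil)))) .lf .lf) .lf)) (.nd (nat_lit 0x8070810200) (.cons (nat_lit 0x8040810000) (nat_lit 0) (.nil)) (.nd (nat_lit 0x8060c14100) (.cons (nat_lit 0x7860a08000) (nat_lit 0) (.nil)) (.nd (nat_lit 0x8060c10180) (.cons (nat_lit 0x786080c000) (nat_lit 0) (.nil)) .lf .lf) (.nd (nat_lit 0x8060c18080) (.cons (nat_lit 0x7860c04000) (nat_lit 0) (.cons (nat_lit 0x7060c08000) (nat_lit 1) (.nil))) .lf .lf)) (.nd (nat_lit 0x8070c0c180) (.cons (nat_lit 0x786080c000) (nat_lit 0) (.nil)) (.nd (nat_lit 0x8070a10180) (.cons (nat_lit 0x786080c000) (nat_lit 0) (.nil)) .lf .lf) .lf))) (.nd (nat_lit 0x8080a10100) (.cons (nat_lit 0x8060808000) (nat_lit 0) (.cons (nat_lit 0x8060808000) (nat_lit 1) (.cons (nat_lit 0x7870808000) (nat_lit 1) (.cons (nat_lit 0x786080c000) (nat_lit 0) (.nil))))) (.nd (nat_lit 0x8070e10080) (.cons (nat_lit 0x8070804000) (nat_lit 1) (.cons (nat_lit 0x8070804000) (nat_lit 2) (.cons (nat_lit 0x7870a04000)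 (nat_lit 1) (.nil)))) (.nd (nat_lit 0x8070c18000) (.cons (nat_lit 0x8060c00000) (nat_lit 0) (.cons (nat_lit 0x8060c00000) (nat_lit 1) (.cons (nat_lit 0x8060c00000) (nat_lit 2) (.cons (nat_lit 0x7870c00000) (nat_lit 2) (.nil))))) (.nd (nat_lit 0x8070c14080) (.cons (nat_lit 0x8060a04000) (nat_lit 0) (.cons (nat_lit 0x7870a04000) (nat_lit 0) (.cons (nat_lit 0x7870a04000) (nat_lit 1) (.nil)))) .lf .lf) (.nd (nat_lit 0x8070e0c100) (.cons (nat_lit 0x8070608000) (nat_lit 0) (.nil)) .lf .lf)) (.nd (nat_lit 0x8080810180) (.cons (nat_lit 0x8040810000) (nat_lit 0) (.cons (nat_lit 0x786080c000) (nat_lit 0) (.nil))) (.nd (nat_lit 0x8070e14000) (.cons (nat_lit 0x8070a00000) (nat_lit 1) (.cons (nat_lit 0x7870c00000) (nat_lit 2) (.nil))) .lf .lf) .lf)) (.nd (nat_lit 0x8080c14000) (.cons (nat_lit 0x8070a00000) (nat_lit 0) (.cons (nat_lit 0x8070a00000) (nat_lit 1) (.cons (nat_lit 0x8060c00000) (nat_lit 0) (.cons (nat_lit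 0x8060c00000) (nat_lit 1) (.cons (nat_lit 0x8060c00000) (nat_lit 2) (.cons (nat_lit 0x8060a04000) (nat_lit 0) (.cons (nat_lit 0x7880a00000) (nat_lit 2) (.cons (nat_lit 0x7880a00000) (nat_lit 3) (.cons (nat_lit 0x7870c00000) (nat_lit 2) (.cons (nat_lit 0x7870a04000) (nat_lit 1) (.nil))))))))))) (.nd (nat_lit 0x8080c0c100) (.cons (nat_lit 0x8070608000) (nat_lit 0) (.cons (nat_lit 0x8060808000) (nat_lit 0) (.cons (nat_lit 0x8060808000) (nat_lit 1) (.cons (nat_lit 0x7880608000) (nat_lit 1) (.cons (nat_lit 0x7870808000) (nat_lit 1) (.cons (nat_lit 0x786080c000) (nat_lit 0) (.nil))))))) (.nd (nat_lit 0x8080a14080) (.cons (nat_lit 0x8060a04000) (nat_lit 0) (.cons (nat_lit 0x7870a04000) (nat_lit 1) (.nil))) .lf .lf) (.nd (nat_lit 0x8080c10080) (.cons (nat_lit 0x8070804000) (nat_lit 0) (.cons (nat_lit 0x8070804000) (nat_lit 1) (.cons (nat_lit 0x8070804000) (nat_lit 2) (.cons (nat_lit 0x8060a04000) (nat_lit 0) (.cons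 (nat_lit 0x8060808000) (nat_lit 0) (.cons (nat_lit 0x8060808000) (nat_lit 1) (.cons (nat_lit 0x7880804000) (nat_lit 1) (.cons (nat_lit 0x7880804000) (nat_lit 2) (.cons (nat_lit 0x7870a04000) (nat_lit 0) (.cons (nat_lit 0x7870a04000) (nat_lit 1) (.cons (nat_lit 0x786080c000) (nat_lit 0) (.nil)))))))))))) .lf .lf)) (.nd (nat_lit 0x8080e0c080) (.cons (nat_lit 0x8080604000) (nat_lit 0) (.cons (nat_lit 0x8080604000) (nat_lit 1) (.cons (nat_lit 0x8070804000) (nat_lit 1) (.cons (nat_lit 0x8070804000) (nat_lit 2) (.cons (nat_lit 0x8070608000) (nat_lit 0) (.cons (nat_lit 0x7880804000) (nat_lit 1) (.cons (nat_lit 0x7880804000) (nat_lit 2) (.cons (nat_lit 0x7880608000) (nat_lit 1) (.nil))))))))) (.nd (nat_lit 0x8080e08100) (.cons (nat_lit 0x8080408000) (nat_lit 0) (.cons (nat_lit 0x8080408000) (nat_lit 1) (.cons (nat_lit 0x8070608000) (nat_lit 0) (.cons (nat_lit 0x7880608000) (nat_lit 1) (.nil))))) .lf .lf) .lf))))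 (.nd (nat_lit 0x8091008000) (.cons (nat_lit 0x8090600000) (nat_lit 0) (.cons (nat_lit 0x8090600000) (nat_lit 1) (.cons (nat_lit 0x8090600000) (nat_lit 2) (.cons (nat_lit 0x8090600000) (nat_lit 3) (.cons (nat_lit 0x8090404000) (nat_lit 0) (.cons (nat_lit 0x8090404000) (nat_lit 1) (.cons (nat_lit 0x8080800000) (nat_lit 2) (.cons (nat_lit 0x8080800000) (nat_lit 3) (.cons (nat_lit 0x8080800000) (nat_lit 4) (.cons (nat_lit 0x8080800000) (nat_lit 5) (.cons (nat_lit 0x8080604000) (nat_lit 1) (.cons (nat_lit 0x8080408000) (nat_lit 0) (.cons (nat_lit 0x8080408000) (nat_lit 1) (.cons (nat_lit 0x7890800000) (nat_lit 3) (.cons (nat_lit 0x7890604000) (nat_lit 1) (.cons (nat_lit 0x7890604000) (nat_lit 2) (.nil))))))))))))))))) (.nd (nat_lit 0x8090a14000) (.cons (nat_lit 0x8070a00000) (nat_lit 1) (.cons (nat_lit 0x8060a04000) (nat_lit 0) (.cons (nat_lit 0x7880a00000) (nat_lit 2) (.cons (nat_lit 0x7880a00000) (nat_lit 3)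 (.nil))))) (.nd (nat_lit 0x8090810100) (.cons (nat_lit 0x8060808000) (nat_lit 0) (.cons (nat_lit 0x8060808000) (nat_lit 1) (.cons (nat_lit 0x8040810000) (nat_lit 0) (.cons (nat_lit 0x7870808000) (nat_lit 1) (.nil))))) (.nd (nat_lit 0x808100c000) (.cons (nat_lit 0x8080800000) (nat_lit 0) (.cons (nat_lit 0x8080800000) (nat_lit 1) (.cons (nat_lit 0x8080800000) (nat_lit 2) (.cons (nat_lit 0x8080800000) (nat_lit 3) (.cons (nat_lit 0x8080800000) (nat_lit 4) (.cons (nat_lit 0x8080800000) (nat_lit 5) (.cons (nat_lit 0x8080604000) (nat_lit 1) (.cons (nat_lit 0x7880a00000) (nat_lit 2) (.cons (nat_lit 0x7880a00000) (nat_lit 3) (.cons (nat_lit 0x7880804000) (nat_lit 2) (.nil))))))))))) (.nd (nat_lit 0x8081008080) (.cons (nat_lit 0x8080604000) (nat_lit 0) (.cons (nat_lit 0x8080604000) (nat_lit 1) (.cons (nat_lit 0x8080408000) (nat_lit 0) (.cons (nat_lit 0x8080408000) (nat_lit 1) (.cons (nat_lit 0x7880804000) (nat_lit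 1) (.cons (nat_lit 0x7880804000) (nat_lit 2) (.nil))))))) .lf .lf) (.nd (nat_lit 0x809080c180) (.cons (nat_lit 0x786080c000) (nat_lit 0) (.nil)) .lf .lf)) (.nd (nat_lit 0x8090a10080) (.cons (nat_lit 0x8070804000) (nat_lit 1) (.cons (nat_lit 0x8070804000) (nat_lit 2) (.cons (nat_lit 0x8060a04000) (nat_lit 0) (.cons (nat_lit 0x8060808000) (nat_lit 0) (.cons (nat_lit 0x8060808000) (nat_lit 1) (.cons (nat_lit 0x7880804000) (nat_lit 1) (.cons (nat_lit 0x7880804000) (nat_lit 2) (.cons (nat_lit 0x7870a04000) (nat_lit 1) (.nil))))))))) (.nd (nat_lit 0x8090a0c100) (.cons (nat_lit 0x8070608000) (nat_lit 0) (.cons (nat_lit 0x8060808000) (nat_lit 0) (.cons (nat_lit 0x8060808000) (nat_lit 1) (.cons (nat_lit 0x7880608000) (nat_lit 1) (.cons (nat_lit 0x786080c000) (nat_lit 0) (.nil)))))) .lf .lf) .lf)) (.nd (nat_lit 0x8090e08080) (.cons (nat_lit 0x8090404000) (nat_lit 0) (.cons (nat_lit 0x8090404000) (nat_lit 1) (.cons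 (nat_lit 0x8080604000) (nat_lit 1) (.cons (nat_lit 0x8080408000) (nat_lit 0) (.cons (nat_lit 0x8080408000) (nat_lit 1) (.cons (nat_lit 0x8070804000) (nat_lit 1) (.cons (nat_lit 0x8070804000) (nat_lit 2) (.cons (nat_lit 0x8070608000) (nat_lit 0) (.cons (nat_lit 0x7890604000) (nat_lit 1) (.cons (nat_lit 0x7890604000) (nat_lit 2) (.cons (nat_lit 0x7880804000) (nat_lit 2) (.nil)))))))))))) (.nd (nat_lit 0x8090c0c080) (.cons (nat_lit 0x8080604000) (nat_lit 0) (.cons (nat_lit 0x8080604000) (nat_lit 1) (.cons (nat_lit 0x8070804000) (nat_lit 1) (.cons (nat_lit 0x8070804000) (nat_lit 2) (.cons (nat_lit 0x8070608000) (nat_lit 0) (.cons (nat_lit 0x8060a04000) (nat_lit 0) (.cons (nat_lit 0x8060808000) (nat_lit 0) (.cons (nat_lit 0x8060808000) (nat_lit 1) (.cons (nat_lit 0x7890604000) (nat_lit 1) (.cons (nat_lit 0x7890604000) (nat_lit 2) (.cons (nat_lit 0x7880804000) (nat_lit 1) (.cons (nat_lit 0x7880804000) (nat_lit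 2) (.cons (nat_lit 0x7880608000) (nat_lit 1) (.nil)))))))))))))) (.nd (nat_lit 0x8090c08100) (.cons (nat_lit 0x8080408000) (nat_lit 0) (.cons (nat_lit 0x8080408000) (nat_lit 1) (.cons (nat_lit 0x8070608000) (nat_lit 0) (.cons (nat_lit 0x8060808000) (nat_lit 0) (.cons (nat_lit 0x8060808000) (nat_lit 1) (.cons (nat_lit 0x7880608000) (nat_lit 1) (.nil))))))) .lf .lf) (.nd (nat_lit 0x8090c10000) (.cons (nat_lit 0x8080800000) (nat_lit 0) (.cons (nat_lit 0x8080800000) (nat_lit 1) (.cons (nat_lit 0x8080800000) (nat_lit 2) (.cons (nat_lit 0x8080800000) (nat_lit 3) (.cons (nat_lit 0x8080800000) (nat_lit 4) (.cons (nat_lit 0x8080800000) (nat_lit 5) (.cons (nat_lit 0x8070a00000) (nat_lit 1) (.cons (nat_lit 0x8070804000) (nat_lit 1) (.cons (nat_lit 0x8070804000) (nat_lit 2) (.cons (nat_lit 0x8060c00000) (nat_lit 0) (.cons (nat_lit 0x8060c00000) (nat_lit 1) (.cons (nat_lit 0x8060c00000) (nat_lit 2) (.cons (nat_lit 0x8060a04000)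 (nat_lit 0) (.cons (nat_lit 0x8060808000) (nat_lit 0) (.cons (nat_lit 0x8060808000) (nat_lit 1) (.cons (nat_lit 0x7890800000) (nat_lit 3) (.cons (nat_lit 0x7880a00000) (nat_lit 2) (.cons (nat_lit 0x7880a00000) (nat_lit 3) (.cons (nat_lit 0x7880804000) (nat_lit 1) (.cons (nat_lit 0x7880804000) (nat_lit 2) (.nil))))))))))))))))))))) .lf .lf)) (.nd (nat_lit 0x8091004080) (.cons (nat_lit 0x8090404000) (nat_lit 0) (.cons (nat_lit 0x8090404000) (nat_lit 1) (.cons (nat_lit 0x8080604000) (nat_lit 1) (.cons (nat_lit 0x7890604000) (nat_lit 1) (.cons (nat_lit 0x7890604000) (nat_lit 2) (.nil)))))) (.nd (nat_lit 0x8090e0c000) (.cons (nat_lit 0x8090600000) (nat_lit 0) (.cons (nat_lit 0x8090600000) (nat_lit 1) (.cons (nat_lit 0x8090600000) (nat_lit 2) (.cons (nat_lit 0x8090600000) (nat_lit 3) (.cons (nat_lit 0x8080800000) (nat_lit 1) (.cons (nat_lit 0x8080800000) (nat_lit 2) (.cons (nat_lit 0x8080800000) (nat_lit 3) (.cons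 (nat_lit 0x8080800000) (nat_lit 4) (.cons (nat_lit 0x8080800000) (nat_lit 5) (.cons (nat_lit 0x8080604000) (nat_lit 1) (.cons (nat_lit 0x8070a00000) (nat_lit 1) (.cons (nat_lit 0x8070804000) (nat_lit 1) (.cons (nat_lit 0x8070804000) (nat_lit 2) (.cons (nat_lit 0x8070608000) (nat_lit 0) (.cons (nat_lit 0x7890800000) (nat_lit 3) (.cons (nat_lit 0x7890604000) (nat_lit 1) (.cons (nat_lit 0x7890604000) (nat_lit 2) (.cons (nat_lit 0x7880a00000) (nat_lit 2) (.cons (nat_lit 0x7880a00000) (nat_lit 3) (.nil)))))))))))))))))))) .lf .lf) .lf))) (.nd (nat_lit 0x80a0c08080) (.cons (nat_lit 0x8090404000) (nat_lit 0) (.cons (nat_lit 0x8090404000) (nat_lit 1) (.cons (nat_lit 0x8080604000) (nat_lit 0) (.cons (nat_lit 0x8080604000) (nat_lit 1) (.cons (nat_lit 0x8080408000) (nat_lit 0) (.cons (nat_lit 0x8080408000) (nat_lit 1) (.cons (nat_lit 0x8070804000) (nat_lit 1) (.cons (nat_lit 0x8070804000) (nat_lit 2) (.cons (nat_lit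 0x8070608000) (nat_lit 0) (.cons (nat_lit 0x8060a04000) (nat_lit 0) (.cons (nat_lit 0x8060808000) (nat_lit 0) (.cons (nat_lit 0x8060808000) (nat_lit 1) (.cons (nat_lit 0x78a0404000) (nat_lit 1) (.cons (nat_lit 0x7890604000) (nat_lit 1) (.cons (nat_lit 0x7890604000) (nat_lit 2) (.cons (nat_lit 0x7880804000) (nat_lit 1) (.nil))))))))))))))))) (.nd (nat_lit 0x80a0a08100) (.cons (nat_lit 0x8080408000) (nat_lit 0) (.cons (nat_lit 0x8080408000) (nat_lit 1) (.cons (nat_lit 0x8070608000) (nat_lit 0) (.cons (nat_lit 0x8060808000) (nat_lit 0) (.cons (nat_lit 0x8060808000) (nat_lit 1) (.cons (nat_lit 0x7880608000) (nat_lit 1) (.nil))))))) (.nd (nat_lit 0x80a080c100) (.cons (nat_lit 0x8070608000) (nat_lit 0) (.cons (nat_lit 0x8060808000) (nat_lit 0) (.cons (nat_lit 0x8060808000) (nat_lit 1) (.cons (nat_lit 0x7880608000) (nat_lit 1) (.nil))))) (.nd (nat_lit 0x8091204000) (.cons (nat_lit 0x8090600000) (nat_lit 1) (.cons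 (nat_lit 0x8090600000) (nat_lit 2) (.cons (nat_lit 0x8090600000) (nat_lit 3) (.cons (nat_lit 0x8090404000) (nat_lit 1) (.cons (nat_lit 0x7890800000) (nat_lit 3) (.nil)))))) .lf .lf) (.nd (nat_lit 0x80a0810080) (.cons (nat_lit 0x8070804000) (nat_lit 0) (.cons (nat_lit 0x8070804000) (nat_lit 1) (.cons (nat_lit 0x8070804000) (nat_lit 2) (.cons (nat_lit 0x8060808000) (nat_lit 0) (.cons (nat_lit 0x8060808000) (nat_lit 1) (.cons (nat_lit 0x8040810000) (nat_lit 0) (.cons (nat_lit 0x7880804000) (nat_lit 1) (.cons (nat_lit 0x7880804000) (nat_lit 2) (.nil))))))))) .lf .lf)) (.nd (nat_lit 0x80a0a10000) (.cons (nat_lit 0x8080800000) (nat_lit 0) (.cons (nat_lit 0x8080800000) (nat_lit 1) (.cons (nat_lit 0x8080800000) (nat_lit 2) (.cons (nat_lit 0x8080800000) (nat_lit 3) (.cons (nat_lit 0x8080800000) (nat_lit 4) (.cons (nat_lit 0x8080800000) (nat_lit 5) (.cons (nat_lit 0x8070a00000) (nat_lit 1) (.cons (nat_lit 0x8070804000)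 (nat_lit 1) (.cons (nat_lit 0x8070804000) (nat_lit 2) (.cons (nat_lit 0x8060a04000) (nat_lit 0) (.cons (nat_lit 0x8060808000) (nat_lit 0) (.cons (nat_lit 0x8060808000) (nat_lit 1) (.cons (nat_lit 0x7890800000) (nat_lit 3) (.cons (nat_lit 0x7880a00000) (nat_lit 2) (.cons (nat_lit 0x7880a00000) (nat_lit 3) (.cons (nat_lit 0x7880804000) (nat_lit 2) (.nil))))))))))))))))) (.nd (nat_lit 0x80a0a0c080) (.cons (nat_lit 0x8080604000) (nat_lit 0) (.cons (nat_lit 0x8080604000) (nat_lit 1) (.cons (nat_lit 0x8070804000) (nat_lit 1) (.cons (nat_lit 0x8070804000) (nat_lit 2) (.cons (nat_lit 0x8070608000) (nat_lit 0) (.cons (nat_lit 0x8060a04000) (nat_lit 0) (.cons (nat_lit 0x8060808000) (nat_lit 0) (.cons (nat_lit 0x8060808000) (nat_lit 1) (.cons (nat_lit 0x7890604000) (nat_lit 1) (.cons (nat_lit 0x7890604000) (nat_lit 2) (.cons (nat_lit 0x7880804000) (nat_lit 2) (.nil)))))))))))) .lf .lf) .lf)) (.nd (nat_lit 0x80a1004000)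 (.cons (nat_lit 0x80a0400000) (nat_lit 0) (.cons (nat_lit 0x80a0400000) (nat_lit 1) (.cons (nat_lit 0x80a0400000) (nat_lit 2) (.cons (nat_lit 0x80a0400000) (nat_lit 3) (.cons (nat_lit 0x80a0400000) (nat_lit 4) (.cons (nat_lit 0x80a0204000) (nat_lit 0) (.cons (nat_lit 0x8090600000) (nat_lit 0) (.cons (nat_lit 0x8090600000) (nat_lit 1) (.cons (nat_lit 0x8090600000) (nat_lit 2) (.cons (nat_lit 0x8090600000) (nat_lit 3) (.cons (nat_lit 0x8090404000) (nat_lit 1) (.cons (nat_lit 0x8080800000) (nat_lit 2) (.cons (nat_lit 0x8080800000) (nat_lit 3) (.cons (nat_lit 0x8080800000) (nat_lit 4) (.cons (nat_lit 0x8080800000) (nat_lit 5) (.cons (nat_lit 0x8080604000) (nat_lit 1) (.cons (nat_lit 0x78a0600000) (nat_lit 3) (.cons (nat_lit 0x78a0404000) (nat_lit 1) (.cons (nat_lit 0x7890800000) (nat_lit 3) (.nil)))))))))))))))))))) (.nd (nat_lit 0x80a0e04080) (.cons (nat_lit 0x80a0204000) (nat_lit 0) (.cons (nat_lit 0x8090404000)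 (nat_lit 0) (.cons (nat_lit 0x8090404000) (nat_lit 1) (.cons (nat_lit 0x8080604000) (nat_lit 1) (.cons (nat_lit 0x8070804000) (nat_lit 1) (.cons (nat_lit 0x8070804000) (nat_lit 2) (.cons (nat_lit 0x78a0404000) (nat_lit 1) (.cons (nat_lit 0x7890604000) (nat_lit 1) (.nil))))))))) (.nd (nat_lit 0x80a0c0c000) (.cons (nat_lit 0x8090600000) (nat_lit 0) (.cons (nat_lit 0x8090600000) (nat_lit 1) (.cons (nat_lit 0x8090600000) (nat_lit 2) (.cons (nat_lit 0x8090600000) (nat_lit 3) (.cons (nat_lit 0x8080800000) (nat_lit 0) (.cons (nat_lit 0x8080800000) (nat_lit 1) (.cons (nat_lit 0x8080800000) (nat_lit 2) (.cons (nat_lit 0x8080800000) (nat_lit 3) (.cons (nat_lit 0x8080800000) (nat_lit 4) (.cons (nat_lit 0x8080800000) (nat_lit 5) (.cons (nat_lit 0x8080604000) (nat_lit 1) (.cons (nat_lit 0x8070a00000) (nat_lit 1) (.cons (nat_lit 0x8070804000) (nat_lit 1) (.cons (nat_lit 0x8070804000) (nat_lit 2) (.cons (nat_lit 0x8070608000)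 (nat_lit 0) (.cons (nat_lit 0x8060c00000) (nat_lit 0) (.cons (nat_lit 0x8060c00000) (nat_lit 1) (.cons (nat_lit 0x8060c00000) (nat_lit 2) (.cons (nat_lit 0x8060a04000) (nat_lit 0) (.cons (nat_lit 0x8060808000) (nat_lit 0) (.cons (nat_lit 0x8060808000) (nat_lit 1) (.cons (nat_lit 0x78a0600000) (nat_lit 3) (.cons (nat_lit 0x7890800000) (nat_lit 3) (.cons (nat_lit 0x7890604000) (nat_lit 1) (.cons (nat_lit 0x7890604000) (nat_lit 2) (.cons (nat_lit 0x7880a00000) (nat_lit 2) (.cons (nat_lit 0x7880a00000) (nat_lit 3) (.nil)))))))))))))))))))))))))))) .lf .lf) (.nd (nat_lit 0x80a0e08000) (.cons (nat_lit 0x80a0400000) (nat_lit 0) (.cons (nat_lit 0x80a0400000) (nat_lit 1) (.cons (nat_lit 0x80a0400000) (nat_lit 2) (.cons (nat_lit 0x80a0400000) (nat_lit 3) (.cons (nat_lit 0x80a0400000) (nat_lit 4) (.cons (nat_lit 0x8090600000) (nat_lit 0) (.cons (nat_lit 0x8090600000) (nat_lit 1) (.cons (nat_lit 0x8090600000) (nat_lit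 2) (.cons (nat_lit 0x8090600000) (nat_lit 3) (.cons (nat_lit 0x8090404000) (nat_lit 0) (.cons (nat_lit 0x8090404000) (nat_lit 1) (.cons (nat_lit 0x8080800000) (nat_lit 2) (.cons (nat_lit 0x8080800000) (nat_lit 3) (.cons (nat_lit 0x8080800000) (nat_lit 4) (.cons (nat_lit 0x8080800000) (nat_lit 5) (.cons (nat_lit 0x8080604000) (nat_lit 1) (.cons (nat_lit 0x8080408000) (nat_lit 0) (.cons (nat_lit 0x8080408000) (nat_lit 1) (.cons (nat_lit 0x8070a00000) (nat_lit 1) (.cons (nat_lit 0x8070804000) (nat_lit 1) (.cons (nat_lit 0x8070804000) (nat_lit 2) (.cons (nat_lit 0x8070608000) (nat_lit 0) (.cons (nat_lit 0x78a0600000) (nat_lit 3) (.cons (nat_lit 0x78a0404000) (nat_lit 1) (.cons (nat_lit 0x7890800000) (nat_lit 3) (.cons (nat_lit 0x7890604000) (nat_lit 1) (.cons (nat_lit 0x7890604000) (nat_lit 2) (.nil)))))))))))))))))))))))))))) .lf .lf)) (.nd (nat_lit 0x80b060c100) (.cons (nat_lit 0x8070608000) (nat_lit 0) (.nil))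 (.nd (nat_lit 0x80a1200000) (.cons (nat_lit 0x80a0400000) (nat_lit 0) (.cons (nat_lit 0x80a0400000) (nat_lit 1) (.cons (nat_lit 0x80a0400000) (nat_lit 2) (.cons (nat_lit 0x80a0400000) (nat_lit 3) (.cons (nat_lit 0x80a0400000) (nat_lit 4) (.cons (nat_lit 0x8090600000) (nat_lit 2) (.cons (nat_lit 0x8090600000) (nat_lit 3) (.cons (nat_lit 0x78a0600000) (nat_lit 3) (.nil))))))))) .lf .lf) .lf)))))

noncomputable def tP_5_7_8 : PTr := (.nd (nat_lit 0x80f0404080) (.cons (nat_lit 0x80a0204000) (nat_lit 0) (.nil)) (.nd (nat_lit 0x80c0c04000) (.cons (nat_lit 0x80b0200000) (nat_lit 0) (.cons (nat_lit 0x80b0200000) (nat_lit 1) (.cons (nat_lit 0x80a0400000) (nat_lit 0) (.cons (nat_lit 0x80a0400000) (nat_lit 1) (.cons (nat_lit 0x80a0400000) (nat_lit 2) (.cons (nat_lit 0x80a0400000) (nat_lit 3) (.cons (nat_lit 0x80a0400000) (nat_lit 4) (.cons (nat_lit 0x80a0204000) (nat_lit 0) (.cons (nat_lit 0x8090600000) (nat_lit 0)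 (.cons (nat_lit 0x8090600000) (nat_lit 1) (.cons (nat_lit 0x8090600000) (nat_lit 2) (.cons (nat_lit 0x8090600000) (nat_lit 3) (.cons (nat_lit 0x8090404000) (nat_lit 1) (.cons (nat_lit 0x8080800000) (nat_lit 2) (.cons (nat_lit 0x8080800000) (nat_lit 3) (.cons (nat_lit 0x8080800000) (nat_lit 4) (.cons (nat_lit 0x8080800000) (nat_lit 5) (.cons (nat_lit 0x8080604000) (nat_lit 1) (.cons (nat_lit 0x8070a00000) (nat_lit 1) (.cons (nat_lit 0x8070804000) (nat_lit 1) (.cons (nat_lit 0x8070804000) (nat_lit 2) (.cons (nat_lit 0x8060c00000) (nat_lit 0) (.cons (nat_lit 0x8060c00000) (nat_lit 1) (.cons (nat_lit 0x8060c00000) (nat_lit 2) (.cons (nat_lit 0x8060a04000) (nat_lit 0) (.nil)))))))))))))))))))))))))) (.nd (nat_lit 0x80b1000000) (.cons (nat_lit 0x80b0200000) (nat_lit 0) (.cons (nat_lit 0x80b0200000) (nat_lit 1) (.cons (nat_lit 0x80a0400000) (nat_lit 0) (.cons (nat_lit 0x80a0400000) (nat_lit 1) (.cons (nat_lit 0x80a0400000)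 (nat_lit 2) (.cons (nat_lit 0x80a0400000) (nat_lit 3) (.cons (nat_lit 0x80a0400000) (nat_lit 4) (.cons (nat_lit 0x8090600000) (nat_lit 2) (.cons (nat_lit 0x8090600000) (nat_lit 3) (.cons (nat_lit 0x8080800000) (nat_lit 2) (.cons (nat_lit 0x8080800000) (nat_lit 3) (.cons (nat_lit 0x8080800000) (nat_lit 4) (.cons (nat_lit 0x8080800000) (nat_lit 5) (.nil)))))))))))))) (.nd (nat_lit 0x80b0a0c000) (.cons (nat_lit 0x8090600000) (nat_lit 0) (.cons (nat_lit 0x8090600000) (nat_lit 1) (.cons (nat_lit 0x8090600000) (nat_lit 2) (.cons (nat_lit 0x8090600000) (nat_lit 3) (.cons (nat_lit 0x8080800000) (nat_lit 1) (.cons (nat_lit 0x8080800000) (nat_lit 2) (.cons (nat_lit 0x8080800000) (nat_lit 3) (.cons (nat_lit 0x8080800000) (nat_lit 4) (.cons (nat_lit 0x8080800000) (nat_lit 5) (.cons (nat_lit 0x8080604000) (nat_lit 1) (.cons (nat_lit 0x8070a00000) (nat_lit 1) (.cons (nat_lit 0x8070804000) (nat_lit 1) (.cons (nat_lit 0x8070804000)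 (nat_lit 2) (.cons (nat_lit 0x8070608000) (nat_lit 0) (.cons (nat_lit 0x8060a04000) (nat_lit 0) (.cons (nat_lit 0x8060808000) (nat_lit 0) (.cons (nat_lit 0x8060808000) (nat_lit 1) (.cons (nat_lit 0x78a0600000) (nat_lit 3) (.cons (nat_lit 0x7890800000) (nat_lit 3) (.cons (nat_lit 0x7890604000) (nat_lit 1) (.nil))))))))))))))))))))) (.nd (nat_lit 0x80b0810000) (.cons (nat_lit 0x8080800000) (nat_lit 0) (.cons (nat_lit 0x8080800000) (nat_lit 1) (.cons (nat_lit 0x8080800000) (nat_lit 2) (.cons (nat_lit 0x8080800000) (nat_lit 3) (.cons (nat_lit 0x8080800000) (nat_lit 4) (.cons (nat_lit 0x8080800000) (nat_lit 5) (.cons (nat_lit 0x8070804000) (nat_lit 1) (.cons (nat_lit 0x8070804000) (nat_lit 2) (.cons (nat_lit 0x8060808000) (nat_lit 0) (.cons (nat_lit 0x8060808000) (nat_lit 1) (.cons (nat_lit 0x8040810000) (nat_lit 0) (.nil)))))))))))) (.nd (nat_lit 0x80b080c080) (.cons (nat_lit 0x8080604000) (nat_lit 0) (.cons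 (nat_lit 0x8080604000) (nat_lit 1) (.cons (nat_lit 0x8070804000) (nat_lit 1) (.cons (nat_lit 0x8070804000) (nat_lit 2) (.cons (nat_lit 0x8070608000) (nat_lit 0) (.cons (nat_lit 0x8060808000) (nat_lit 0) (.cons (nat_lit 0x8060808000) (nat_lit 1) (.cons (nat_lit 0x7890604000) (nat_lit 1) (.cons (nat_lit 0x7890604000) (nat_lit 2) (.nil)))))))))) .lf .lf) (.nd (nat_lit 0x80b0a08080) (.cons (nat_lit 0x8090404000) (nat_lit 0) (.cons (nat_lit 0x8090404000) (nat_lit 1) (.cons (nat_lit 0x8080604000) (nat_lit 1) (.cons (nat_lit 0x8080408000) (nat_lit 0) (.cons (nat_lit 0x8080408000) (nat_lit 1) (.cons (nat_lit 0x8070804000) (nat_lit 1) (.cons (nat_lit 0x8070804000) (nat_lit 2) (.cons (nat_lit 0x8070608000) (nat_lit 0) (.cons (nat_lit 0x8060a04000) (nat_lit 0) (.cons (nat_lit 0x8060808000) (nat_lit 0) (.cons (nat_lit 0x8060808000) (nat_lit 1) (.cons (nat_lit 0x78a0404000) (nat_lit 1) (.cons (nat_lit 0x7890604000) (nat_lit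 1) (.nil)))))))))))))) .lf .lf)) (.nd (nat_lit 0x80b0c08000) (.cons (nat_lit 0x80a0400000) (nat_lit 0) (.cons (nat_lit 0x80a0400000) (nat_lit 1) (.cons (nat_lit 0x80a0400000) (nat_lit 2) (.cons (nat_lit 0x80a0400000) (nat_lit 3) (.cons (nat_lit 0x80a0400000) (nat_lit 4) (.cons (nat_lit 0x8090600000) (nat_lit 0) (.cons (nat_lit 0x8090600000) (nat_lit 1) (.cons (nat_lit 0x8090600000) (nat_lit 2) (.cons (nat_lit 0x8090600000) (nat_lit 3) (.cons (nat_lit 0x8090404000) (nat_lit 0) (.cons (nat_lit 0x8090404000) (nat_lit 1) (.cons (nat_lit 0x8080800000) (nat_lit 2) (.cons (nat_lit 0x8080800000) (nat_lit 3) (.cons (nat_lit 0x8080800000) (nat_lit 4) (.cons (nat_lit 0x8080800000) (nat_lit 5) (.cons (nat_lit 0x8080604000) (nat_lit 1) (.cons (nat_lit 0x8080408000) (nat_lit 0) (.cons (nat_lit 0x8080408000) (nat_lit 1) (.cons (nat_lit 0x8070a00000) (nat_lit 1) (.cons (nat_lit 0x8070804000) (nat_lit 1) (.cons (nat_lit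 0x8070804000) (nat_lit 2) (.cons (nat_lit 0x8070608000) (nat_lit 0) (.cons (nat_lit 0x8060c00000) (nat_lit 0) (.cons (nat_lit 0x8060c00000) (nat_lit 1) (.cons (nat_lit 0x8060c00000) (nat_lit 2) (.cons (nat_lit 0x8060a04000) (nat_lit 0) (.cons (nat_lit 0x8060808000) (nat_lit 0) (.cons (nat_lit 0x8060808000) (nat_lit 1) (.cons (nat_lit 0x78a0600000) (nat_lit 3) (.cons (nat_lit 0x78a0404000) (nat_lit 1) (.nil))))))))))))))))))))))))))))))) (.nd (nat_lit 0x80b0c04080) (.cons (nat_lit 0x80a0204000) (nat_lit 0) (.cons (nat_lit 0x8090404000) (nat_lit 0) (.cons (nat_lit 0x8090404000) (nat_lit 1) (.cons (nat_lit 0x8080604000) (nat_lit 1) (.cons (nat_lit 0x8070804000) (nat_lit 1) (.cons (nat_lit 0x8070804000) (nat_lit 2) (.cons (nat_lit 0x8060a04000) (nat_lit 0) (.cons (nat_lit 0x78b0204000) (nat_lit 0) (.cons (nat_lit 0x78a0404000) (nat_lit 1) (.cons (nat_lit 0x7890604000) (nat_lit 1) (.nil))))))))))) .lf .lf) (.nd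 (nat_lit 0x80b0e04000) (.cons (nat_lit 0x80b0200000) (nat_lit 0) (.cons (nat_lit 0x80b0200000) (nat_lit 1) (.cons (nat_lit 0x80a0400000) (nat_lit 0) (.cons (nat_lit 0x80a0400000) (nat_lit 1) (.cons (nat_lit 0x80a0400000) (nat_lit 2) (.cons (nat_lit 0x80a0400000) (nat_lit 3) (.cons (nat_lit 0x80a0400000) (nat_lit 4) (.cons (nat_lit 0x80a0204000) (nat_lit 0) (.cons (nat_lit 0x8090600000) (nat_lit 1) (.cons (nat_lit 0x8090600000) (nat_lit 2) (.cons (nat_lit 0x8090600000) (nat_lit 3) (.cons (nat_lit 0x8090404000) (nat_lit 1) (.cons (nat_lit 0x8080800000) (nat_lit 2) (.cons (nat_lit 0x8080800000) (nat_lit 3) (.cons (nat_lit 0x8080800000) (nat_lit 4) (.cons (nat_lit 0x8080800000) (nat_lit 5) (.cons (nat_lit 0x8080604000) (nat_lit 1) (.cons (nat_lit 0x8070a00000) (nat_lit 1) (.cons (nat_lit 0x8070804000) (nat_lit 1) (.cons (nat_lit 0x8070804000) (nat_lit 2) (.cons (nat_lit 0x78b0204000) (nat_lit 0) (.cons (nat_lit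 0x78a0600000) (nat_lit 3) (.cons (nat_lit 0x78a0404000) (nat_lit 1) (.nil)))))))))))))))))))))))) .lf .lf))) (.nd (nat_lit 0x80c080c000) (.cons (nat_lit 0x8090600000) (nat_lit 0) (.cons (nat_lit 0x8090600000) (nat_lit 1) (.cons (nat_lit 0x8090600000) (nat_lit 2) (.cons (nat_lit 0x8090600000) (nat_lit 3) (.cons (nat_lit 0x8080800000) (nat_lit 1) (.cons (nat_lit 0x8080800000) (nat_lit 2) (.cons (nat_lit 0x8080800000) (nat_lit 3) (.cons (nat_lit 0x8080800000) (nat_lit 4) (.cons (nat_lit 0x8080800000) (nat_lit 5) (.cons (nat_lit 0x8080604000) (nat_lit 1) (.cons (nat_lit 0x8070804000) (nat_lit 1) (.cons (nat_lit 0x8070804000) (nat_lit 2) (.cons (nat_lit 0x8070608000) (nat_lit 0) (.cons (nat_lit 0x8060808000) (nat_lit 0) (.cons (nat_lit 0x8060808000) (nat_lit 1) (.nil)))))))))))))))) (.nd (nat_lit 0x80c060c080) (.cons (nat_lit 0x8080604000) (nat_lit 1) (.cons (nat_lit 0x8070608000) (nat_lit 0) (.nil))) (.nd (nat_lit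 0x80c0608100) (.cons (nat_lit 0x8080408000) (nat_lit 0) (.cons (nat_lit 0x8080408000) (nat_lit 1) (.cons (nat_lit 0x8070608000) (nat_lit 0) (.nil)))) .lf .lf) (.nd (nat_lit 0x80c0808080) (.cons (nat_lit 0x8090404000) (nat_lit 0) (.cons (nat_lit 0x8090404000) (nat_lit 1) (.cons (nat_lit 0x8080604000) (nat_lit 0) (.cons (nat_lit 0x8080604000) (nat_lit 1) (.cons (nat_lit 0x8080408000) (nat_lit 0) (.cons (nat_lit 0x8080408000) (nat_lit 1) (.cons (nat_lit 0x8070804000) (nat_lit 1) (.cons (nat_lit 0x8070804000) (nat_lit 2) (.cons (nat_lit 0x8070608000) (nat_lit 0) (.cons (nat_lit 0x8060808000) (nat_lit 0) (.cons (nat_lit 0x8060808000) (nat_lit 1) (.nil)))))))))))) .lf .lf)) (.nd (nat_lit 0x80c0a08000) (.cons (nat_lit 0x80a0400000) (nat_lit 0) (.cons (nat_lit 0x80a0400000) (nat_lit 1) (.cons (nat_lit 0x80a0400000) (nat_lit 2) (.cons (nat_lit 0x80a0400000) (nat_lit 3) (.cons (nat_lit 0x80a0400000) (nat_lit 4) (.cons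 (nat_lit 0x8090600000) (nat_lit 0) (.cons (nat_lit 0x8090600000) (nat_lit 1) (.cons (nat_lit 0x8090600000) (nat_lit 2) (.cons (nat_lit 0x8090600000) (nat_lit 3) (.cons (nat_lit 0x8090404000) (nat_lit 0) (.cons (nat_lit 0x8090404000) (nat_lit 1) (.cons (nat_lit 0x8080800000) (nat_lit 2) (.cons (nat_lit 0x8080800000) (nat_lit 3) (.cons (nat_lit 0x8080800000) (nat_lit 4) (.cons (nat_lit 0x8080800000) (nat_lit 5) (.cons (nat_lit 0x8080604000) (nat_lit 1) (.cons (nat_lit 0x8080408000) (nat_lit 0) (.cons (nat_lit 0x8080408000) (nat_lit 1) (.cons (nat_lit 0x8070a00000) (nat_lit 1) (.cons (nat_lit 0x8070804000) (nat_lit 1) (.cons (nat_lit 0x8070804000) (nat_lit 2) (.cons (nat_lit 0x8070608000) (nat_lit 0) (.cons (nat_lit 0x8060a04000) (nat_lit 0) (.cons (nat_lit 0x8060808000) (nat_lit 0) (.cons (nat_lit 0x8060808000) (nat_lit 1) (.nil)))))))))))))))))))))))))) (.nd (nat_lit 0x80c0a04080) (.cons (nat_lit 0x80a0204000)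 (nat_lit 0) (.cons (nat_lit 0x8090404000) (nat_lit 0) (.cons (nat_lit 0x8090404000) (nat_lit 1) (.cons (nat_lit 0x8080604000) (nat_lit 1) (.cons (nat_lit 0x8070804000) (nat_lit 1) (.cons (nat_lit 0x8070804000) (nat_lit 2) (.cons (nat_lit 0x8060a04000) (nat_lit 0) (.nil)))))))) .lf .lf) .lf))) (.nd (nat_lit 0x80d0a04000) (.cons (nat_lit 0x80b0200000) (nat_lit 0) (.cons (nat_lit 0x80b0200000) (nat_lit 1) (.cons (nat_lit 0x80a0400000) (nat_lit 0) (.cons (nat_lit 0x80a0400000) (nat_lit 1) (.cons (nat_lit 0x80a0400000) (nat_lit 2) (.cons (nat_lit 0x80a0400000) (nat_lit 3) (.cons (nat_lit 0x80a0400000) (nat_lit 4) (.cons (nat_lit 0x80a0204000) (nat_lit 0) (.cons (nat_lit 0x8090600000) (nat_lit 1) (.cons (nat_lit 0x8090600000) (nat_lit 2) (.cons (nat_lit 0x8090600000) (nat_lit 3) (.cons (nat_lit 0x8090404000) (nat_lit 1) (.cons (nat_lit 0x8080800000) (nat_lit 2) (.cons (nat_lit 0x8080800000) (nat_lit 3) (.cons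 (nat_lit 0x8080800000) (nat_lit 4) (.cons (nat_lit 0x8080800000) (nat_lit 5) (.cons (nat_lit 0x8080604000) (nat_lit 1) (.cons (nat_lit 0x8070a00000) (nat_lit 1) (.cons (nat_lit 0x8070804000) (nat_lit 2) (.nil)))))))))))))))))))) (.nd (nat_lit 0x80d060c000) (.cons (nat_lit 0x8090600000) (nat_lit 1) (.cons (nat_lit 0x8090600000) (nat_lit 2) (.cons (nat_lit 0x8090600000) (nat_lit 3) (.cons (nat_lit 0x8080604000) (nat_lit 1) (.cons (nat_lit 0x8070608000) (nat_lit 0) (.nil)))))) (.nd (nat_lit 0x80d0408100) (.cons (nat_lit 0x8080408000) (nat_lit 0) (.nil)) (.nd (nat_lit 0x80c0e00000) (.cons (nat_lit 0x80c0000000) (nat_lit 0) (.cons (nat_lit 0x80c0000000) (nat_lit 1) (.cons (nat_lit 0x80c0000000) (nat_lit 2) (.cons (nat_lit 0x80b0200000) (nat_lit 0) (.cons (nat_lit 0x80b0200000) (nat_lit 1) (.cons (nat_lit 0x80a0400000) (nat_lit 0) (.cons (nat_lit 0x80a0400000) (nat_lit 1) (.cons (nat_lit 0x80a0400000) (nat_lit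 2) (.cons (nat_lit 0x80a0400000) (nat_lit 3) (.cons (nat_lit 0x80a0400000) (nat_lit 4) (.cons (nat_lit 0x8090600000) (nat_lit 2) (.cons (nat_lit 0x8090600000) (nat_lit 3) (.cons (nat_lit 0x8080800000) (nat_lit 2) (.cons (nat_lit 0x8080800000) (nat_lit 3) (.cons (nat_lit 0x8080800000) (nat_lit 4) (.cons (nat_lit 0x8080800000) (nat_lit 5) (.cons (nat_lit 0x8070a00000) (nat_lit 1) (.nil)))))))))))))))))) .lf .lf) (.nd (nat_lit 0x80d0608080) (.cons (nat_lit 0x8090404000) (nat_lit 0) (.cons (nat_lit 0x8090404000) (nat_lit 1) (.cons (nat_lit 0x8080604000) (nat_lit 1) (.cons (nat_lit 0x8080408000) (nat_lit 0) (.cons (nat_lit 0x8080408000) (nat_lit 1) (.nil)))))) .lf .lf)) (.nd (nat_lit 0x80d0808000) (.cons (nat_lit 0x80a0400000) (nat_lit 0) (.cons (nat_lit 0x80a0400000) (nat_lit 1) (.cons (nat_lit 0x80a0400000) (nat_lit 2) (.cons (nat_lit 0x80a0400000) (nat_lit 3) (.cons (nat_lit 0x80a0400000) (nat_lit 4) (.cons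 (nat_lit 0x8090600000) (nat_lit 0) (.cons (nat_lit 0x8090600000) (nat_lit 1) (.cons (nat_lit 0x8090600000) (nat_lit 2) (.cons (nat_lit 0x8090600000) (nat_lit 3) (.cons (nat_lit 0x8090404000) (nat_lit 0) (.cons (nat_lit 0x8090404000) (nat_lit 1) (.cons (nat_lit 0x8080800000) (nat_lit 2) (.cons (nat_lit 0x8080800000) (nat_lit 3) (.cons (nat_lit 0x8080800000) (nat_lit 4) (.cons (nat_lit 0x8080800000) (nat_lit 5) (.cons (nat_lit 0x8080604000) (nat_lit 1) (.cons (nat_lit 0x8080408000) (nat_lit 0) (.cons (nat_lit 0x8080408000) (nat_lit 1) (.nil))))))))))))))))))) (.nd (nat_lit 0x80d0804080) (.cons (nat_lit 0x80a0204000) (nat_lit 0) (.cons (nat_lit 0x8090404000) (nat_lit 0) (.cons (nat_lit 0x8090404000) (nat_lit 1) (.cons (nat_lit 0x8080604000) (nat_lit 1) (.cons (nat_lit 0x8070804000) (nat_lit 1) (.cons (nat_lit 0x8070804000) (nat_lit 2) (.nil))))))) .lf .lf) .lf)) (.nd (nat_lit 0x80e0608000) (.cons (nat_lit 0x80a0400000)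 (nat_lit 0) (.cons (nat_lit 0x80a0400000) (nat_lit 1) (.cons (nat_lit 0x80a0400000) (nat_lit 2) (.cons (nat_lit 0x80a0400000) (nat_lit 3) (.cons (nat_lit 0x80a0400000) (nat_lit 4) (.cons (nat_lit 0x8090600000) (nat_lit 1) (.cons (nat_lit 0x8090600000) (nat_lit 2) (.cons (nat_lit 0x8090600000) (nat_lit 3) (.cons (nat_lit 0x8090404000) (nat_lit 1) (.nil)))))))))) (.nd (nat_lit 0x80e0408080) (.cons (nat_lit 0x8090404000) (nat_lit 0) (.cons (nat_lit 0x8090404000) (nat_lit 1) (.cons (nat_lit 0x8080408000) (nat_lit 0) (.nil)))) (.nd (nat_lit 0x80d0c00000) (.cons (nat_lit 0x80c0000000) (nat_lit 0) (.cons (nat_lit 0x80c0000000) (nat_lit 1) (.cons (nat_lit 0x80c0000000) (nat_lit 2) (.cons (nat_lit 0x80b0200000) (nat_lit 0) (.cons (nat_lit 0x80b0200000) (nat_lit 1) (.cons (nat_lit 0x80a0400000) (nat_lit 0) (.cons (nat_lit 0x80a0400000) (nat_lit 1) (.cons (nat_lit 0x80a0400000) (nat_lit 2) (.cons (nat_lit 0x80a0400000)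 (nat_lit 3) (.cons (nat_lit 0x80a0400000) (nat_lit 4) (.cons (nat_lit 0x8090600000) (nat_lit 2) (.cons (nat_lit 0x8090600000) (nat_lit 3) (.cons (nat_lit 0x8080800000) (nat_lit 2) (.cons (nat_lit 0x8080800000) (nat_lit 3) (.cons (nat_lit 0x8080800000) (nat_lit 4) (.nil)))))))))))))))) .lf .lf) (.nd (nat_lit 0x80e0604080) (.cons (nat_lit 0x80a0204000) (nat_lit 0) (.cons (nat_lit 0x8090404000) (nat_lit 1) (.nil))) .lf .lf)) (.nd (nat_lit 0x80e0a00000) (.cons (nat_lit 0x80c0000000) (nat_lit 0) (.cons (nat_lit 0x80c0000000) (nat_lit 1) (.cons (nat_lit 0x80c0000000) (nat_lit 2) (.cons (nat_lit 0x80b0200000) (nat_lit 0) (.cons (nat_lit 0x80b0200000) (nat_lit 1) (.cons (nat_lit 0x80a0400000) (nat_lit 0) (.cons (nat_lit 0x80a0400000) (nat_lit 1) (.cons (nat_lit 0x80a0400000) (nat_lit 2) (.cons (nat_lit 0x80a0400000) (nat_lit 3) (.cons (nat_lit 0x80a0400000) (nat_lit 4) (.cons (nat_lit 0x8090600000) (nat_lit 2) (.cons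 (nat_lit 0x8090600000) (nat_lit 3) (.nil))))))))))))) (.nd (nat_lit 0x80e0804000) (.cons (nat_lit 0x80b0200000) (nat_lit 0) (.cons (nat_lit 0x80b0200000) (nat_lit 1) (.cons (nat_lit 0x80a0400000) (nat_lit 0) (.cons (nat_lit 0x80a0400000) (nat_lit 1) (.cons (nat_lit 0x80a0400000) (nat_lit 2) (.cons (nat_lit 0x80a0400000) (nat_lit 3) (.cons (nat_lit 0x80a0400000) (nat_lit 4) (.cons (nat_lit 0x80a0204000) (nat_lit 0) (.cons (nat_lit 0x8090600000) (nat_lit 1) (.cons (nat_lit 0x8090600000) (nat_lit 2) (.cons (nat_lit 0x8090600000) (nat_lit 3) (.cons (nat_lit 0x8090404000) (nat_lit 1) (.cons (nat_lit 0x8080800000) (nat_lit 3) (.nil)))))))))))))) .lf .lf) .lf)))) (.nd (nat_lit 0x8870c0c100) (.cons (nat_lit 0x8860608000) (nat_lit 0) (.cons (nat_lit 0x8070608000) (nat_lit 0) (.cons (nat_lit 0x8060808000) (nat_lit 1) (.nil)))) (.nd (nat_lit 0x8860c10100) (.cons (nat_lit 0x8060808000) (nat_lit 0) (.cons (nat_lit 0x8060808000)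 (nat_lit 1) (.cons (nat_lit 0x786080c000) (nat_lit 0) (.nil)))) (.nd (nat_lit 0x8100404000) (.cons (nat_lit 0x80b0200000) (nat_lit 0) (.cons (nat_lit 0x80b0200000) (nat_lit 1) (.nil))) (.nd (nat_lit 0x80f0604000) (.cons (nat_lit 0x80b0200000) (nat_lit 0) (.cons (nat_lit 0x80b0200000) (nat_lit 1) (.cons (nat_lit 0x80a0400000) (nat_lit 1) (.cons (nat_lit 0x80a0400000) (nat_lit 2) (.cons (nat_lit 0x80a0400000) (nat_lit 3) (.cons (nat_lit 0x80a0400000) (nat_lit 4) (.nil))))))) (.nd (nat_lit 0x80f0408000) (.cons (nat_lit 0x80a0400000) (nat_lit 0) (.cons (nat_lit 0x80a0400000) (nat_lit 1) (.cons (nat_lit 0x80a0400000) (nat_lit 3) (.nil)))) .lf .lf) (.nd (nat_lit 0x80f0800000) (.cons (nat_lit 0x80c0000000) (nat_lit 0) (.cons (nat_lit 0x80c0000000) (nat_lit 1) (.cons (nat_lit 0x80c0000000) (nat_lit 2) (.cons (nat_lit 0x80b0200000) (nat_lit 0) (.cons (nat_lit 0x80b0200000) (nat_lit 1) (.cons (nat_lit 0x80a0400000)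 (nat_lit 1) (.cons (nat_lit 0x80a0400000) (nat_lit 3) (.nil)))))))) .lf .lf)) (.nd (nat_lit 0x8860810200) (.cons (nat_lit 0x8040810000) (nat_lit 0) (.nil)) (.nd (nat_lit 0x8100600000) (.cons (nat_lit 0x80c0000000) (nat_lit 0) (.cons (nat_lit 0x80c0000000) (nat_lit 1) (.cons (nat_lit 0x80c0000000) (nat_lit 2) (.cons (nat_lit 0x80b0200000) (nat_lit 1) (.nil))))) .lf .lf) .lf)) (.nd (nat_lit 0x8870a0c180) (.cons (nat_lit 0x786080c000) (nat_lit 0) (.nil)) (.nd (nat_lit 0x8860c18000) (.cons (nat_lit 0x8060c00000) (nat_lit 0) (.cons (nat_lit 0x8060c00000) (nat_lit 1) (.cons (nat_lit 0x8060c00000) (nat_lit 2) (.nil)))) (.nd (nat_lit 0x8860c14080) (.cons (nat_lit 0x8060a04000) (nat_lit 0) (.nil)) .lf .lf) (.nd (nat_lit 0x8870810180) (.cons (nat_lit 0x8040810000) (nat_lit 0) (.nil)) .lf .lf)) (.nd (nat_lit 0x8870a14080) (.cons (nat_lit 0x8060a04000) (nat_lit 0) (.nil)) (.nd (nat_lit 0x8870a10100) (.cons (nat_lit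 0x8850808000) (nat_lit 0) (.cons (nat_lit 0x8060808000) (nat_lit 1) (.nil))) .lf .lf) .lf))) (.nd (nat_lit 0x8880a10080) (.cons (nat_lit 0x8860804000) (nat_lit 0) (.cons (nat_lit 0x8860804000) (nat_lit 1) (.cons (nat_lit 0x8850808000) (nat_lit 0) (.cons (nat_lit 0x8070804000) (nat_lit 1) (.cons (nat_lit 0x8070804000) (nat_lit 2) (.cons (nat_lit 0x8060a04000) (nat_lit 0) (.cons (nat_lit 0x8060808000) (nat_lit 1) (.nil)))))))) (.nd (nat_lit 0x8870e10000) (.cons (nat_lit 0x8870800000) (nat_lit 1) (.cons (nat_lit 0x8870800000) (nat_lit 2) (.cons (nat_lit 0x8870800000) (nat_lit 3) (.cons (nat_lit 0x8070804000) (nat_lit 2) (.nil))))) (.nd (nat_lit 0x8870c14000) (.cons (nat_lit 0x8860a00000) (nat_lit 0) (.cons (nat_lit 0x8860a00000) (nat_lit 1) (.cons (nat_lit 0x8070a00000) (nat_lit 1) (.cons (nat_lit 0x8060c00000) (nat_lit 2) (.cons (nat_lit 0x8060a04000) (nat_lit 0) (.nil)))))) (.nd (nat_lit 0x8870c10080) (.cons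 (nat_lit 0x8860804000) (nat_lit 0) (.cons (nat_lit 0x8860804000) (nat_lit 1) (.cons (nat_lit 0x8070804000) (nat_lit 1) (.cons (nat_lit 0x8070804000) (nat_lit 2) (.cons (nat_lit 0x8060a04000) (nat_lit 0) (.cons (nat_lit 0x8060808000) (nat_lit 1) (.nil))))))) .lf .lf) (.nd (nat_lit 0x8870e0c080) (.cons (nat_lit 0x8870604000) (nat_lit 0) (.cons (nat_lit 0x8870604000) (nat_lit 1) (.cons (nat_lit 0x8070804000) (nat_lit 1) (.cons (nat_lit 0x8070804000) (nat_lit 2) (.nil))))) .lf .lf)) (.nd (nat_lit 0x8880a0c100) (.cons (nat_lit 0x8860608000) (nat_lit 0) (.cons (nat_lit 0x8850808000) (nat_lit 0) (.cons (nat_lit 0x8070608000) (nat_lit 0) (.cons (nat_lit 0x8060808000) (nat_lit 1) (.nil))))) (.nd (nat_lit 0x8880810100) (.cons (nat_lit 0x8850808000) (nat_lit 0) (.cons (nat_lit 0x8060808000) (nat_lit 0) (.cons (nat_lit 0x8060808000) (nat_lit 1) (.cons (nat_lit 0x8040810000) (nat_lit 0) (.nil))))) .lf .lf) .lf)) (.nd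 (nat_lit 0x8880c10000) (.cons (nat_lit 0x8870800000) (nat_lit 0) (.cons (nat_lit 0x8870800000) (nat_lit 1) (.cons (nat_lit 0x8870800000) (nat_lit 2) (.cons (nat_lit 0x8870800000) (nat_lit 3) (.cons (nat_lit 0x8860a00000) (nat_lit 0) (.cons (nat_lit 0x8860a00000) (nat_lit 1) (.cons (nat_lit 0x8860804000) (nat_lit 0) (.cons (nat_lit 0x8860804000) (nat_lit 1) (.cons (nat_lit 0x8080800000) (nat_lit 2) (.cons (nat_lit 0x8080800000) (nat_lit 3) (.cons (nat_lit 0x8080800000) (nat_lit 4) (.cons (nat_lit 0x8080800000) (nat_lit 5) (.cons (nat_lit 0x8070a00000) (nat_lit 1) (.cons (nat_lit 0x8070804000) (nat_lit 1) (.cons (nat_lit 0x8070804000) (nat_lit 2) (.cons (nat_lit 0x8060c00000) (nat_lit 2) (.cons (nat_lit 0x8060a04000) (nat_lit 0) (.cons (nat_lit 0x8060808000) (nat_lit 1) (.nil))))))))))))))))))) (.nd (nat_lit 0x8880c08100) (.cons (nat_lit 0x8870408000) (nat_lit 0) (.cons (nat_lit 0x8860608000) (nat_lit 0) (.cons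 (nat_lit 0x8080408000) (nat_lit 0) (.cons (nat_lit 0x8080408000) (nat_lit 1) (.cons (nat_lit 0x8070608000) (nat_lit 0) (.cons (nat_lit 0x8060808000) (nat_lit 1) (.nil))))))) (.nd (nat_lit 0x8880a14000) (.cons (nat_lit 0x8860a00000) (nat_lit 0) (.cons (nat_lit 0x8860a00000) (nat_lit 1) (.cons (nat_lit 0x8060a04000) (nat_lit 0) (.nil)))) .lf .lf) (.nd (nat_lit 0x8880c0c080) (.cons (nat_lit 0x8870604000) (nat_lit 0) (.cons (nat_lit 0x8870604000) (nat_lit 1) (.cons (nat_lit 0x8860804000) (nat_lit 0) (.cons (nat_lit 0x8860804000) (nat_lit 1) (.cons (nat_lit 0x8860608000) (nat_lit 0) (.cons (nat_lit 0x8080604000) (nat_lit 1) (.cons (nat_lit 0x8070804000) (nat_lit 1) (.cons (nat_lit 0x8070804000) (nat_lit 2) (.cons (nat_lit 0x8060a04000) (nat_lit 0) (.cons (nat_lit 0x8060808000) (nat_lit 1) (.nil))))))))))) .lf .lf)) (.nd (nat_lit 0x8880e0c000) (.cons (nat_lit 0x8880600000) (nat_lit 0) (.cons (nat_lit 0x8880600000)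 (nat_lit 1) (.cons (nat_lit 0x8880600000) (nat_lit 2) (.cons (nat_lit 0x8880600000) (nat_lit 3) (.cons (nat_lit 0x8870800000) (nat_lit 1) (.cons (nat_lit 0x8870800000) (nat_lit 2) (.cons (nat_lit 0x8870800000) (nat_lit 3) (.cons (nat_lit 0x8870604000) (nat_lit 0) (.cons (nat_lit 0x8870604000) (nat_lit 1) (.cons (nat_lit 0x8080800000) (nat_lit 3) (.cons (nat_lit 0x8080800000) (nat_lit 4) (.cons (nat_lit 0x8080800000) (nat_lit 5) (.cons (nat_lit 0x8080604000) (nat_lit 1) (.cons (nat_lit 0x8070804000) (nat_lit 2) (.nil))))))))))))))) (.nd (nat_lit 0x8880e08080) (.cons (nat_lit 0x8880404000) (nat_lit 0) (.cons (nat_lit 0x8880404000) (nat_lit 1) (.cons (nat_lit 0x8880404000) (nat_lit 2) (.cons (nat_lit 0x8870604000) (nat_lit 0) (.cons (nat_lit 0x8870604000) (nat_lit 1) (.cons (nat_lit 0x8080604000) (nat_lit 1) (.cons (nat_lit 0x8080408000) (nat_lit 0) (.cons (nat_lit 0x8080408000) (nat_lit 1) (.cons (nat_lit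 0x8070804000) (nat_lit 2) (.nil)))))))))) .lf .lf) .lf)))))

noncomputable def tP_5_7_9 : PTr := (.nd (nat_lit 0x88b0a08000) (.cons (nat_lit 0x8890400000) (nat_lit 0) (.cons (nat_lit 0x8890400000) (nat_lit 1) (.cons (nat_lit 0x8890400000) (nat_lit 2) (.cons (nat_lit 0x8890400000) (nat_lit 3) (.cons (nat_lit 0x8880600000) (nat_lit 1) (.cons (nat_lit 0x8880600000) (nat_lit 2) (.cons (nat_lit 0x8880600000) (nat_lit 3) (.cons (nat_lit 0x8880404000) (nat_lit 1) (.cons (nat_lit 0x8880404000) (nat_lit 2) (.cons (nat_lit 0x8870800000) (nat_lit 1) (.cons (nat_lit 0x8870800000) (nat_lit 2) (.cons (nat_lit 0x8870800000) (nat_lit 3) (.cons (nat_lit 0x8870604000) (nat_lit 0) (.cons (nat_lit 0x8870604000) (nat_lit 1) (.cons (nat_lit 0x8860a00000) (nat_lit 0) (.cons (nat_lit 0x8860a00000) (nat_lit 1) (.cons (nat_lit 0x8860804000) (nat_lit 0) (.cons (nat_lit 0x8860804000) (nat_lit 1) (.cons (nat_lit 0x8860608000) (nat_lit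 0) (.cons (nat_lit 0x8850808000) (nat_lit 0) (.cons (nat_lit 0x80a0400000) (nat_lit 2) (.cons (nat_lit 0x80a0400000) (nat_lit 3) (.cons (nat_lit 0x80a0400000) (nat_lit 4) (.cons (nat_lit 0x8090600000) (nat_lit 2) (.cons (nat_lit 0x8090600000) (nat_lit 3) (.cons (nat_lit 0x8090404000) (nat_lit 1) (.cons (nat_lit 0x8080800000) (nat_lit 4) (.nil)))))))))))))))))))))))))))) (.nd (nat_lit 0x88a0808100) (.cons (nat_lit 0x8870408000) (nat_lit 0) (.cons (nat_lit 0x8860608000) (nat_lit 0) (.cons (nat_lit 0x8850808000) (nat_lit 0) (.cons (nat_lit 0x8080408000) (nat_lit 0) (.cons (nat_lit 0x8080408000) (nat_lit 1) (.cons (nat_lit 0x8070608000) (nat_lit 0) (.nil))))))) (.nd (nat_lit 0x8890c08080) (.cons (nat_lit 0x8880404000) (nat_lit 0) (.cons (nat_lit 0x8880404000) (nat_lit 1) (.cons (nat_lit 0x8880404000) (nat_lit 2) (.cons (nat_lit 0x8870604000) (nat_lit 0) (.cons (nat_lit 0x8870604000) (nat_lit 1) (.cons (nat_lit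 0x8860804000) (nat_lit 0) (.cons (nat_lit 0x8860804000) (nat_lit 1) (.cons (nat_lit 0x8860608000) (nat_lit 0) (.cons (nat_lit 0x8090404000) (nat_lit 1) (.cons (nat_lit 0x8080604000) (nat_lit 1) (.cons (nat_lit 0x8080408000) (nat_lit 0) (.cons (nat_lit 0x8080408000) (nat_lit 1) (.cons (nat_lit 0x8070804000) (nat_lit 2) (.cons (nat_lit 0x8060a04000) (nat_lit 0) (.nil))))))))))))))) (.nd (nat_lit 0x8890a08100) (.cons (nat_lit 0x8860608000) (nat_lit 0) (.cons (nat_lit 0x8850808000) (nat_lit 0) (.cons (nat_lit 0x8080408000) (nat_lit 0) (.cons (nat_lit 0x8080408000) (nat_lit 1) (.nil))))) (.nd (nat_lit 0x889080c100) (.cons (nat_lit 0x8860608000) (nat_lit 0) (.cons (nat_lit 0x8850808000) (nat_lit 0) (.cons (nat_lit 0x8070608000) (nat_lit 0) (.cons (nat_lit 0x8060808000) (nat_lit 1) (.nil))))) (.nd (nat_lit 0x8881008000) (.cons (nat_lit 0x8880600000) (nat_lit 0) (.cons (nat_lit 0x8880600000) (nat_lit 1) (.cons (nat_lit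 0x8880600000) (nat_lit 2) (.cons (nat_lit 0x8880600000) (nat_lit 3) (.cons (nat_lit 0x8880404000) (nat_lit 0) (.cons (nat_lit 0x8880404000) (nat_lit 1) (.cons (nat_lit 0x8880404000) (nat_lit 2) (.cons (nat_lit 0x8080800000) (nat_lit 2) (.cons (nat_lit 0x8080800000) (nat_lit 3) (.cons (nat_lit 0x8080800000) (nat_lit 4) (.cons (nat_lit 0x8080800000) (nat_lit 5) (.cons (nat_lit 0x8080604000) (nat_lit 1) (.cons (nat_lit 0x8080408000) (nat_lit 1) (.nil)))))))))))))) .lf .lf) (.nd (nat_lit 0x8890810080) (.cons (nat_lit 0x8860804000) (nat_lit 0) (.cons (nat_lit 0x8860804000) (nat_lit 1) (.cons (nat_lit 0x8850808000) (nat_lit 0) (.cons (nat_lit 0x8070804000) (nat_lit 1) (.cons (nat_lit 0x8070804000) (nat_lit 2) (.cons (nat_lit 0x8060808000) (nat_lit 1) (.nil))))))) .lf .lf)) (.nd (nat_lit 0x8890a10000) (.cons (nat_lit 0x8870800000) (nat_lit 1) (.cons (nat_lit 0x8870800000) (nat_lit 2) (.cons (nat_lit 0x8870800000)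 (nat_lit 3) (.cons (nat_lit 0x8860a00000) (nat_lit 0) (.cons (nat_lit 0x8860a00000) (nat_lit 1) (.cons (nat_lit 0x8860804000) (nat_lit 0) (.cons (nat_lit 0x8860804000) (nat_lit 1) (.cons (nat_lit 0x8850808000) (nat_lit 0) (.cons (nat_lit 0x8080800000) (nat_lit 3) (.cons (nat_lit 0x8080800000) (nat_lit 4) (.cons (nat_lit 0x8080800000) (nat_lit 5) (.cons (nat_lit 0x8070804000) (nat_lit 2) (.cons (nat_lit 0x8060a04000) (nat_lit 0) (.nil)))))))))))))) (.nd (nat_lit 0x8890a0c080) (.cons (nat_lit 0x8870604000) (nat_lit 0) (.cons (nat_lit 0x8870604000) (nat_lit 1) (.cons (nat_lit 0x8860804000) (nat_lit 0) (.cons (nat_lit 0x8860804000) (nat_lit 1) (.cons (nat_lit 0x8860608000) (nat_lit 0) (.cons (nat_lit 0x8850808000) (nat_lit 0) (.cons (nat_lit 0x8080604000) (nat_lit 1) (.cons (nat_lit 0x8070804000) (nat_lit 1) (.cons (nat_lit 0x8070804000) (nat_lit 2) (.cons (nat_lit 0x8060a04000) (nat_lit 0) (.cons (nat_lit 0x8060808000)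 (nat_lit 1) (.nil)))))))))))) .lf .lf) .lf)) (.nd (nat_lit 0x8891004000) (.cons (nat_lit 0x8890400000) (nat_lit 0) (.cons (nat_lit 0x8890400000) (nat_lit 1) (.cons (nat_lit 0x8890400000) (nat_lit 2) (.cons (nat_lit 0x8890400000) (nat_lit 3) (.cons (nat_lit 0x8890204000) (nat_lit 0) (.cons (nat_lit 0x8880600000) (nat_lit 1) (.cons (nat_lit 0x8880600000) (nat_lit 2) (.cons (nat_lit 0x8880600000) (nat_lit 3) (.cons (nat_lit 0x8880404000) (nat_lit 1) (.cons (nat_lit 0x8880404000) (nat_lit 2) (.cons (nat_lit 0x8090600000) (nat_lit 2) (.cons (nat_lit 0x8090600000) (nat_lit 3) (.cons (nat_lit 0x8090404000) (nat_lit 1) (.cons (nat_lit 0x8080800000) (nat_lit 5) (.nil))))))))))))))) (.nd (nat_lit 0x8890e04080) (.cons (nat_lit 0x8890204000) (nat_lit 0) (.cons (nat_lit 0x8880404000) (nat_lit 0) (.cons (nat_lit 0x8880404000) (nat_lit 1) (.cons (nat_lit 0x8880404000) (nat_lit 2) (.cons (nat_lit 0x8870604000) (nat_lit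 0) (.cons (nat_lit 0x8870604000) (nat_lit 1) (.cons (nat_lit 0x8090404000) (nat_lit 1) (.cons (nat_lit 0x8080604000) (nat_lit 1) (.cons (nat_lit 0x8070804000) (nat_lit 2) (.nil)))))))))) (.nd (nat_lit 0x8890c0c000) (.cons (nat_lit 0x8880600000) (nat_lit 0) (.cons (nat_lit 0x8880600000) (nat_lit 1) (.cons (nat_lit 0x8880600000) (nat_lit 2) (.cons (nat_lit 0x8880600000) (nat_lit 3) (.cons (nat_lit 0x8870800000) (nat_lit 1) (.cons (nat_lit 0x8870800000) (nat_lit 2) (.cons (nat_lit 0x8870800000) (nat_lit 3) (.cons (nat_lit 0x8870604000) (nat_lit 0) (.cons (nat_lit 0x8870604000) (nat_lit 1) (.cons (nat_lit 0x8860a00000) (nat_lit 0) (.cons (nat_lit 0x8860a00000) (nat_lit 1) (.cons (nat_lit 0x8860804000) (nat_lit 0) (.cons (nat_lit 0x8860804000) (nat_lit 1) (.cons (nat_lit 0x8860608000) (nat_lit 0) (.cons (nat_lit 0x8090600000) (nat_lit 2) (.cons (nat_lit 0x8090600000) (nat_lit 3) (.cons (nat_lit 0x8080800000)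 (nat_lit 2) (.cons (nat_lit 0x8080800000) (nat_lit 3) (.cons (nat_lit 0x8080800000) (nat_lit 4) (.cons (nat_lit 0x8080800000) (nat_lit 5) (.cons (nat_lit 0x8080604000) (nat_lit 1) (.cons (nat_lit 0x8070804000) (nat_lit 2) (.cons (nat_lit 0x8060c00000) (nat_lit 2) (.cons (nat_lit 0x8060a04000) (nat_lit 0) (.nil))))))))))))))))))))))))) .lf .lf) (.nd (nat_lit 0x8890e08000) (.cons (nat_lit 0x8890400000) (nat_lit 0) (.cons (nat_lit 0x8890400000) (nat_lit 1) (.cons (nat_lit 0x8890400000) (nat_lit 2) (.cons (nat_lit 0x8890400000) (nat_lit 3) (.cons (nat_lit 0x8880600000) (nat_lit 1) (.cons (nat_lit 0x8880600000) (nat_lit 2) (.cons (nat_lit 0x8880600000) (nat_lit 3) (.cons (nat_lit 0x8880404000) (nat_lit 1) (.cons (nat_lit 0x8880404000) (nat_lit 2) (.cons (nat_lit 0x8870800000) (nat_lit 1) (.cons (nat_lit 0x8870800000) (nat_lit 2) (.cons (nat_lit 0x8870800000) (nat_lit 3) (.cons (nat_lit 0x8870604000) (nat_lit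 0) (.cons (nat_lit 0x8870604000) (nat_lit 1) (.cons (nat_lit 0x8090600000) (nat_lit 2) (.cons (nat_lit 0x8090600000) (nat_lit 3) (.cons (nat_lit 0x8090404000) (nat_lit 1) (.cons (nat_lit 0x8080800000) (nat_lit 4) (.cons (nat_lit 0x8080800000) (nat_lit 5) (.cons (nat_lit 0x8080408000) (nat_lit 1) (.nil))))))))))))))))))))) .lf .lf)) (.nd (nat_lit 0x88a060c100) (.cons (nat_lit 0x8860608000) (nat_lit 0) (.nil)) (.nd (nat_lit 0x8891200000) (.cons (nat_lit 0x8890400000) (nat_lit 2) (.cons (nat_lit 0x8890400000) (nat_lit 3) (.nil))) .lf .lf) .lf))) (.nd (nat_lit 0x88a0e04000) (.cons (nat_lit 0x88a0200000) (nat_lit 0) (.cons (nat_lit 0x88a0200000) (nat_lit 1) (.cons (nat_lit 0x88a0200000) (nat_lit 2) (.cons (nat_lit 0x8890400000) (nat_lit 0) (.cons (nat_lit 0x8890400000) (nat_lit 1) (.cons (nat_lit 0x8890400000) (nat_lit 2) (.cons (nat_lit 0x8890400000) (nat_lit 3) (.cons (nat_lit 0x8890204000) (nat_lit 0) (.cons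 (nat_lit 0x8880600000) (nat_lit 1) (.cons (nat_lit 0x8880600000) (nat_lit 2) (.cons (nat_lit 0x8880600000) (nat_lit 3) (.cons (nat_lit 0x8880404000) (nat_lit 1) (.cons (nat_lit 0x8880404000) (nat_lit 2) (.cons (nat_lit 0x8870800000) (nat_lit 1) (.cons (nat_lit 0x8870800000) (nat_lit 2) (.cons (nat_lit 0x8870800000) (nat_lit 3) (.cons (nat_lit 0x8870604000) (nat_lit 0) (.cons (nat_lit 0x8870604000) (nat_lit 1) (.cons (nat_lit 0x80a0400000) (nat_lit 2) (.cons (nat_lit 0x80a0400000) (nat_lit 3) (.cons (nat_lit 0x80a0400000) (nat_lit 4) (.cons (nat_lit 0x8090600000) (nat_lit 2) (.cons (nat_lit 0x8090600000) (nat_lit 3) (.cons (nat_lit 0x8090404000) (nat_lit 1) (.cons (nat_lit 0x8080800000) (nat_lit 5) (.nil)))))))))))))))))))))))))) (.nd (nat_lit 0x88a0a0c000) (.cons (nat_lit 0x8880600000) (nat_lit 0) (.cons (nat_lit 0x8880600000) (nat_lit 1) (.cons (nat_lit 0x8880600000) (nat_lit 2) (.cons (nat_lit 0x8880600000)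 (nat_lit 3) (.cons (nat_lit 0x8870800000) (nat_lit 1) (.cons (nat_lit 0x8870800000) (nat_lit 2) (.cons (nat_lit 0x8870800000) (nat_lit 3) (.cons (nat_lit 0x8870604000) (nat_lit 0) (.cons (nat_lit 0x8870604000) (nat_lit 1) (.cons (nat_lit 0x8860a00000) (nat_lit 0) (.cons (nat_lit 0x8860a00000) (nat_lit 1) (.cons (nat_lit 0x8860804000) (nat_lit 0) (.cons (nat_lit 0x8860804000) (nat_lit 1) (.cons (nat_lit 0x8860608000) (nat_lit 0) (.cons (nat_lit 0x8850808000) (nat_lit 0) (.cons (nat_lit 0x8090600000) (nat_lit 2) (.cons (nat_lit 0x8090600000) (nat_lit 3) (.cons (nat_lit 0x8080800000) (nat_lit 4) (.cons (nat_lit 0x8080800000) (nat_lit 5) (.cons (nat_lit 0x8080604000) (nat_lit 1) (.cons (nat_lit 0x8070804000) (nat_lit 2) (.nil)))))))))))))))))))))) (.nd (nat_lit 0x88a0810000) (.cons (nat_lit 0x8870800000) (nat_lit 0) (.cons (nat_lit 0x8870800000) (nat_lit 1) (.cons (nat_lit 0x8870800000) (nat_lit 2) (.cons (nat_lit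 0x8870800000) (nat_lit 3) (.cons (nat_lit 0x8860804000) (nat_lit 0) (.cons (nat_lit 0x8860804000) (nat_lit 1) (.cons (nat_lit 0x8850808000) (nat_lit 0) (.cons (nat_lit 0x8080800000) (nat_lit 2) (.cons (nat_lit 0x8080800000) (nat_lit 3) (.cons (nat_lit 0x8080800000) (nat_lit 4) (.cons (nat_lit 0x8080800000) (nat_lit 5) (.cons (nat_lit 0x8070804000) (nat_lit 1) (.cons (nat_lit 0x8070804000) (nat_lit 2) (.nil)))))))))))))) (.nd (nat_lit 0x88a080c080) (.cons (nat_lit 0x8870604000) (nat_lit 0) (.cons (nat_lit 0x8870604000) (nat_lit 1) (.cons (nat_lit 0x8860804000) (nat_lit 0) (.cons (nat_lit 0x8860804000) (nat_lit 1) (.cons (nat_lit 0x8860608000) (nat_lit 0) (.cons (nat_lit 0x8850808000) (nat_lit 0) (.cons (nat_lit 0x8080604000) (nat_lit 1) (.cons (nat_lit 0x8070804000) (nat_lit 1) (.cons (nat_lit 0x8070804000) (nat_lit 2) (.nil)))))))))) .lf .lf) (.nd (nat_lit 0x88a0a08080) (.cons (nat_lit 0x8880404000) (nat_lit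 0) (.cons (nat_lit 0x8880404000) (nat_lit 1) (.cons (nat_lit 0x8880404000) (nat_lit 2) (.cons (nat_lit 0x8870604000) (nat_lit 0) (.cons (nat_lit 0x8870604000) (nat_lit 1) (.cons (nat_lit 0x8860804000) (nat_lit 0) (.cons (nat_lit 0x8860804000) (nat_lit 1) (.cons (nat_lit 0x8860608000) (nat_lit 0) (.cons (nat_lit 0x8850808000) (nat_lit 0) (.cons (nat_lit 0x8090404000) (nat_lit 1) (.cons (nat_lit 0x8080604000) (nat_lit 1) (.cons (nat_lit 0x8080408000) (nat_lit 0) (.cons (nat_lit 0x8080408000) (nat_lit 1) (.cons (nat_lit 0x8070804000) (nat_lit 2) (.nil))))))))))))))) .lf .lf)) (.nd (nat_lit 0x88a0c08000) (.cons (nat_lit 0x8890400000) (nat_lit 0) (.cons (nat_lit 0x8890400000) (nat_lit 1) (.cons (nat_lit 0x8890400000) (nat_lit 2) (.cons (nat_lit 0x8890400000) (nat_lit 3) (.cons (nat_lit 0x8880600000) (nat_lit 0) (.cons (nat_lit 0x8880600000) (nat_lit 1) (.cons (nat_lit 0x8880600000) (nat_lit 2) (.cons (nat_lit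 0x8880600000) (nat_lit 3) (.cons (nat_lit 0x8880404000) (nat_lit 0) (.cons (nat_lit 0x8880404000) (nat_lit 1) (.cons (nat_lit 0x8880404000) (nat_lit 2) (.cons (nat_lit 0x8870800000) (nat_lit 1) (.cons (nat_lit 0x8870800000) (nat_lit 2) (.cons (nat_lit 0x8870800000) (nat_lit 3) (.cons (nat_lit 0x8870604000) (nat_lit 0) (.cons (nat_lit 0x8870604000) (nat_lit 1) (.cons (nat_lit 0x8860a00000) (nat_lit 0) (.cons (nat_lit 0x8860a00000) (nat_lit 1) (.cons (nat_lit 0x8860804000) (nat_lit 0) (.cons (nat_lit 0x8860804000) (nat_lit 1) (.cons (nat_lit 0x8860608000) (nat_lit 0) (.cons (nat_lit 0x80a0400000) (nat_lit 2) (.cons (nat_lit 0x80a0400000) (nat_lit 3) (.cons (nat_lit 0x80a0400000) (nat_lit 4) (.cons (nat_lit 0x8090600000) (nat_lit 2) (.cons (nat_lit 0x8090600000) (nat_lit 3) (.cons (nat_lit 0x8090404000) (nat_lit 1) (.cons (nat_lit 0x8080800000) (nat_lit 3) (.cons (nat_lit 0x8080800000) (nat_lit 4) (.cons (nat_lit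 0x8080800000) (nat_lit 5) (.cons (nat_lit 0x8080604000) (nat_lit 1) (.cons (nat_lit 0x8080408000) (nat_lit 1) (.cons (nat_lit 0x8070804000) (nat_lit 2) (.nil)))))))))))))))))))))))))))))))))) (.nd (nat_lit 0x88a0c04080) (.cons (nat_lit 0x8890204000) (nat_lit 0) (.cons (nat_lit 0x8880404000) (nat_lit 1) (.cons (nat_lit 0x8880404000) (nat_lit 2) (.cons (nat_lit 0x8870604000) (nat_lit 0) (.cons (nat_lit 0x8870604000) (nat_lit 1) (.cons (nat_lit 0x8860804000) (nat_lit 0) (.cons (nat_lit 0x8860804000) (nat_lit 1) (.cons (nat_lit 0x8090404000) (nat_lit 1) (.cons (nat_lit 0x8070804000) (nat_lit 2) (.nil)))))))))) .lf .lf) .lf)) (.nd (nat_lit 0x88b0808080) (.cons (nat_lit 0x8880404000) (nat_lit 0) (.cons (nat_lit 0x8880404000) (nat_lit 1) (.cons (nat_lit 0x8880404000) (nat_lit 2) (.cons (nat_lit 0x8870604000) (nat_lit 0) (.cons (nat_lit 0x8870604000) (nat_lit 1) (.cons (nat_lit 0x8860804000) (nat_lit 0) (.cons (nat_lit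 0x8860804000) (nat_lit 1) (.cons (nat_lit 0x8860608000) (nat_lit 0) (.cons (nat_lit 0x8850808000) (nat_lit 0) (.cons (nat_lit 0x8090404000) (nat_lit 1) (.cons (nat_lit 0x8080604000) (nat_lit 1) (.cons (nat_lit 0x8080408000) (nat_lit 0) (.nil))))))))))))) (.nd (nat_lit 0x88b0608100) (.cons (nat_lit 0x8860608000) (nat_lit 0) (.cons (nat_lit 0x8080408000) (nat_lit 0) (.nil))) (.nd (nat_lit 0x88a1000000) (.cons (nat_lit 0x88a0200000) (nat_lit 0) (.cons (nat_lit 0x88a0200000) (nat_lit 1) (.cons (nat_lit 0x88a0200000) (nat_lit 2) (.cons (nat_lit 0x8890400000) (nat_lit 0) (.cons (nat_lit 0x8890400000) (nat_lit 1) (.cons (nat_lit 0x8890400000) (nat_lit 2) (.cons (nat_lit 0x8890400000) (nat_lit 3) (.cons (nat_lit 0x8880600000) (nat_lit 1) (.cons (nat_lit 0x8880600000) (nat_lit 2) (.cons (nat_lit 0x8880600000) (nat_lit 3) (.cons (nat_lit 0x80a0400000) (nat_lit 2) (.cons (nat_lit 0x80a0400000) (nat_lit 3) (.cons (nat_lit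 0x80a0400000) (nat_lit 4) (.cons (nat_lit 0x8090600000) (nat_lit 2) (.cons (nat_lit 0x8090600000) (nat_lit 3) (.nil)))))))))))))))) .lf .lf) (.nd (nat_lit 0x88b060c080) (.cons (nat_lit 0x8870604000) (nat_lit 0) (.cons (nat_lit 0x8870604000) (nat_lit 1) (.cons (nat_lit 0x8860608000) (nat_lit 0) (.cons (nat_lit 0x8080604000) (nat_lit 1) (.nil))))) .lf .lf)) (.nd (nat_lit 0x88b0a04080) (.cons (nat_lit 0x8890204000) (nat_lit 0) (.cons (nat_lit 0x8880404000) (nat_lit 0) (.cons (nat_lit 0x8880404000) (nat_lit 1) (.cons (nat_lit 0x8880404000) (nat_lit 2) (.cons (nat_lit 0x8870604000) (nat_lit 0) (.cons (nat_lit 0x8870604000) (nat_lit 1) (.cons (nat_lit 0x8860804000) (nat_lit 0) (.cons (nat_lit 0x8860804000) (nat_lit 1) (.cons (nat_lit 0x8090404000) (nat_lit 1) (.cons (nat_lit 0x8080604000) (nat_lit 1) (.cons (nat_lit 0x8070804000) (nat_lit 2) (.nil)))))))))))) (.nd (nat_lit 0x88b080c000) (.cons (nat_lit 0x8880600000)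 (nat_lit 0) (.cons (nat_lit 0x8880600000) (nat_lit 1) (.cons (nat_lit 0x8880600000) (nat_lit 2) (.cons (nat_lit 0x8880600000) (nat_lit 3) (.cons (nat_lit 0x8870800000) (nat_lit 1) (.cons (nat_lit 0x8870800000) (nat_lit 2) (.cons (nat_lit 0x8870800000) (nat_lit 3) (.cons (nat_lit 0x8870604000) (nat_lit 0) (.cons (nat_lit 0x8870604000) (nat_lit 1) (.cons (nat_lit 0x8860804000) (nat_lit 0) (.cons (nat_lit 0x8860804000) (nat_lit 1) (.cons (nat_lit 0x8860608000) (nat_lit 0) (.cons (nat_lit 0x8850808000) (nat_lit 0) (.cons (nat_lit 0x8090600000) (nat_lit 2) (.cons (nat_lit 0x8090600000) (nat_lit 3) (.cons (nat_lit 0x8080800000) (nat_lit 4) (.cons (nat_lit 0x8080800000) (nat_lit 5) (.nil)))))))))))))))))) .lf .lf) .lf)))) (.nd (nat_lit 0x88d0a00000) (.cons (nat_lit 0x88b0000000) (nat_lit 0) (.cons (nat_lit 0x88a0200000) (nat_lit 0) (.cons (nat_lit 0x88a0200000) (nat_lit 1) (.cons (nat_lit 0x88a0200000) (nat_lit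 2) (.cons (nat_lit 0x8890400000) (nat_lit 2) (.cons (nat_lit 0x8890400000) (nat_lit 3) (.cons (nat_lit 0x8880600000) (nat_lit 1) (.cons (nat_lit 0x8880600000) (nat_lit 2) (.cons (nat_lit 0x8880600000) (nat_lit 3) (.cons (nat_lit 0x8870800000) (nat_lit 1) (.cons (nat_lit 0x8870800000) (nat_lit 2) (.cons (nat_lit 0x8870800000) (nat_lit 3) (.cons (nat_lit 0x8860a00000) (nat_lit 0) (.cons (nat_lit 0x8860a00000) (nat_lit 1) (.nil))))))))))))))) (.nd (nat_lit 0x88c0808000) (.cons (nat_lit 0x8890400000) (nat_lit 0) (.cons (nat_lit 0x8890400000) (nat_lit 1) (.cons (nat_lit 0x8890400000) (nat_lit 2) (.cons (nat_lit 0x8890400000) (nat_lit 3) (.cons (nat_lit 0x8880600000) (nat_lit 0) (.cons (nat_lit 0x8880600000) (nat_lit 1) (.cons (nat_lit 0x8880600000) (nat_lit 2) (.cons (nat_lit 0x8880600000) (nat_lit 3) (.cons (nat_lit 0x8880404000) (nat_lit 0) (.cons (nat_lit 0x8880404000) (nat_lit 1) (.cons (nat_lit 0x8880404000)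 (nat_lit 2) (.cons (nat_lit 0x8870800000) (nat_lit 1) (.cons (nat_lit 0x8870800000) (nat_lit 2) (.cons (nat_lit 0x8870800000) (nat_lit 3) (.cons (nat_lit 0x8870604000) (nat_lit 0) (.cons (nat_lit 0x8870604000) (nat_lit 1) (.cons (nat_lit 0x8860804000) (nat_lit 0) (.cons (nat_lit 0x8860804000) (nat_lit 1) (.cons (nat_lit 0x8860608000) (nat_lit 0) (.cons (nat_lit 0x8850808000) (nat_lit 0) (.cons (nat_lit 0x80a0400000) (nat_lit 2) (.cons (nat_lit 0x80a0400000) (nat_lit 3) (.cons (nat_lit 0x80a0400000) (nat_lit 4) (.cons (nat_lit 0x8090600000) (nat_lit 2) (.cons (nat_lit 0x8090600000) (nat_lit 3) (.nil)))))))))))))))))))))))))) (.nd (nat_lit 0x88c0608080) (.cons (nat_lit 0x8880404000) (nat_lit 0) (.cons (nat_lit 0x8880404000) (nat_lit 1) (.cons (nat_lit 0x8880404000) (nat_lit 2) (.cons (nat_lit 0x8870604000) (nat_lit 0) (.cons (nat_lit 0x8870604000) (nat_lit 1) (.cons (nat_lit 0x8860608000) (nat_lit 0) (.cons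 (nat_lit 0x8090404000) (nat_lit 1) (.nil)))))))) (.nd (nat_lit 0x88b0e00000) (.cons (nat_lit 0x88b0000000) (nat_lit 0) (.cons (nat_lit 0x88a0200000) (nat_lit 0) (.cons (nat_lit 0x88a0200000) (nat_lit 1) (.cons (nat_lit 0x88a0200000) (nat_lit 2) (.cons (nat_lit 0x8890400000) (nat_lit 2) (.cons (nat_lit 0x8890400000) (nat_lit 3) (.cons (nat_lit 0x8880600000) (nat_lit 1) (.cons (nat_lit 0x8880600000) (nat_lit 2) (.cons (nat_lit 0x8880600000) (nat_lit 3) (.cons (nat_lit 0x8870800000) (nat_lit 1) (.cons (nat_lit 0x8870800000) (nat_lit 2) (.cons (nat_lit 0x8870800000) (nat_lit 3) (.cons (nat_lit 0x80a0400000) (nat_lit 3) (.cons (nat_lit 0x80a0400000) (nat_lit 4) (.nil))))))))))))))) (.nd (nat_lit 0x88b0c04000) (.cons (nat_lit 0x88a0200000) (nat_lit 0) (.cons (nat_lit 0x88a0200000) (nat_lit 1) (.cons (nat_lit 0x88a0200000) (nat_lit 2) (.cons (nat_lit 0x8890400000) (nat_lit 0) (.cons (nat_lit 0x8890400000) (nat_lit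 1) (.cons (nat_lit 0x8890400000) (nat_lit 2) (.cons (nat_lit 0x8890400000) (nat_lit 3) (.cons (nat_lit 0x8890204000) (nat_lit 0) (.cons (nat_lit 0x8880600000) (nat_lit 1) (.cons (nat_lit 0x8880600000) (nat_lit 2) (.cons (nat_lit 0x8880600000) (nat_lit 3) (.cons (nat_lit 0x8880404000) (nat_lit 1) (.cons (nat_lit 0x8880404000) (nat_lit 2) (.cons (nat_lit 0x8870800000) (nat_lit 1) (.cons (nat_lit 0x8870800000) (nat_lit 2) (.cons (nat_lit 0x8870800000) (nat_lit 3) (.cons (nat_lit 0x8870604000) (nat_lit 0) (.cons (nat_lit 0x8870604000) (nat_lit 1) (.cons (nat_lit 0x8860a00000) (nat_lit 0) (.cons (nat_lit 0x8860a00000) (nat_lit 1) (.cons (nat_lit 0x8860804000) (nat_lit 0) (.cons (nat_lit 0x8860804000) (nat_lit 1) (.cons (nat_lit 0x80a0400000) (nat_lit 2) (.cons (nat_lit 0x80a0400000) (nat_lit 3) (.cons (nat_lit 0x80a0400000) (nat_lit 4) (.cons (nat_lit 0x8090600000) (nat_lit 2) (.cons (nat_lit 0x8090600000) (nat_lit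 3) (.cons (nat_lit 0x8090404000) (nat_lit 1) (.nil))))))))))))))))))))))))))))) .lf .lf) (.nd (nat_lit 0x88c0408100) (.cons (nat_lit 0x8870408000) (nat_lit 0) (.cons (nat_lit 0x8080408000) (nat_lit 0) (.nil))) .lf .lf)) (.nd (nat_lit 0x88c0804080) (.cons (nat_lit 0x8890204000) (nat_lit 0) (.cons (nat_lit 0x8880404000) (nat_lit 1) (.cons (nat_lit 0x8880404000) (nat_lit 2) (.cons (nat_lit 0x8870604000) (nat_lit 0) (.cons (nat_lit 0x8870604000) (nat_lit 1) (.cons (nat_lit 0x8860804000) (nat_lit 0) (.cons (nat_lit 0x8860804000) (nat_lit 1) (.nil)))))))) (.nd (nat_lit 0x88c060c000) (.cons (nat_lit 0x8880600000) (nat_lit 1) (.cons (nat_lit 0x8880600000) (nat_lit 2) (.cons (nat_lit 0x8880600000) (nat_lit 3) (.cons (nat_lit 0x8870604000) (nat_lit 0) (.cons (nat_lit 0x8870604000) (nat_lit 1) (.cons (nat_lit 0x8860608000) (nat_lit 0) (.nil))))))) .lf .lf) .lf)) (.nd (nat_lit 0x88d0604080) (.cons (nat_lit 0x8890204000)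 (nat_lit 0) (.cons (nat_lit 0x8880404000) (nat_lit 0) (.cons (nat_lit 0x8880404000) (nat_lit 1) (.cons (nat_lit 0x8880404000) (nat_lit 2) (.cons (nat_lit 0x8870604000) (nat_lit 0) (.cons (nat_lit 0x8870604000) (nat_lit 1) (.nil))))))) (.nd (nat_lit 0x88c0c00000) (.cons (nat_lit 0x88b0000000) (nat_lit 0) (.cons (nat_lit 0x88a0200000) (nat_lit 0) (.cons (nat_lit 0x88a0200000) (nat_lit 1) (.cons (nat_lit 0x88a0200000) (nat_lit 2) (.cons (nat_lit 0x8890400000) (nat_lit 0) (.cons (nat_lit 0x8890400000) (nat_lit 1) (.cons (nat_lit 0x8890400000) (nat_lit 2) (.cons (nat_lit 0x8890400000) (nat_lit 3) (.cons (nat_lit 0x8880600000) (nat_lit 1) (.cons (nat_lit 0x8880600000) (nat_lit 2) (.cons (nat_lit 0x8880600000) (nat_lit 3) (.cons (nat_lit 0x8870800000) (nat_lit 1) (.cons (nat_lit 0x8870800000) (nat_lit 2) (.cons (nat_lit 0x8870800000) (nat_lit 3) (.cons (nat_lit 0x8860a00000) (nat_lit 0) (.cons (nat_lit 0x8860a00000)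 (nat_lit 1) (.cons (nat_lit 0x80c0000000) (nat_lit 1) (.cons (nat_lit 0x80c0000000) (nat_lit 2) (.cons (nat_lit 0x80a0400000) (nat_lit 2) (.cons (nat_lit 0x80a0400000) (nat_lit 3) (.cons (nat_lit 0x80a0400000) (nat_lit 4) (.nil)))))))))))))))))))))) (.nd (nat_lit 0x88c0a04000) (.cons (nat_lit 0x88a0200000) (nat_lit 0) (.cons (nat_lit 0x88a0200000) (nat_lit 1) (.cons (nat_lit 0x88a0200000) (nat_lit 2) (.cons (nat_lit 0x8890400000) (nat_lit 0) (.cons (nat_lit 0x8890400000) (nat_lit 1) (.cons (nat_lit 0x8890400000) (nat_lit 2) (.cons (nat_lit 0x8890400000) (nat_lit 3) (.cons (nat_lit 0x8890204000) (nat_lit 0) (.cons (nat_lit 0x8880600000) (nat_lit 1) (.cons (nat_lit 0x8880600000) (nat_lit 2) (.cons (nat_lit 0x8880600000) (nat_lit 3) (.cons (nat_lit 0x8880404000) (nat_lit 1) (.cons (nat_lit 0x8880404000) (nat_lit 2) (.cons (nat_lit 0x8870800000) (nat_lit 1) (.cons (nat_lit 0x8870800000) (nat_lit 2) (.cons (nat_lit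 0x8870800000) (nat_lit 3) (.cons (nat_lit 0x8870604000) (nat_lit 0) (.cons (nat_lit 0x8870604000) (nat_lit 1) (.cons (nat_lit 0x8860a00000) (nat_lit 0) (.cons (nat_lit 0x8860a00000) (nat_lit 1) (.cons (nat_lit 0x8860804000) (nat_lit 0) (.cons (nat_lit 0x8860804000) (nat_lit 1) (.cons (nat_lit 0x80a0400000) (nat_lit 3) (.cons (nat_lit 0x80a0400000) (nat_lit 4) (.nil))))))))))))))))))))))))) .lf .lf) (.nd (nat_lit 0x88d0408080) (.cons (nat_lit 0x8880404000) (nat_lit 0) (.cons (nat_lit 0x8880404000) (nat_lit 1) (.cons (nat_lit 0x8880404000) (nat_lit 2) (.nil)))) .lf .lf)) (.nd (nat_lit 0x88d0804000) (.cons (nat_lit 0x88a0200000) (nat_lit 0) (.cons (nat_lit 0x88a0200000) (nat_lit 1) (.cons (nat_lit 0x88a0200000) (nat_lit 2) (.cons (nat_lit 0x8890400000) (nat_lit 0) (.cons (nat_lit 0x8890400000) (nat_lit 1) (.cons (nat_lit 0x8890400000) (nat_lit 2) (.cons (nat_lit 0x8890400000) (nat_lit 3) (.cons (nat_lit 0x8890204000)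 (nat_lit 0) (.cons (nat_lit 0x8880600000) (nat_lit 1) (.cons (nat_lit 0x8880600000) (nat_lit 2) (.cons (nat_lit 0x8880600000) (nat_lit 3) (.cons (nat_lit 0x8880404000) (nat_lit 1) (.cons (nat_lit 0x8880404000) (nat_lit 2) (.cons (nat_lit 0x8870800000) (nat_lit 1) (.cons (nat_lit 0x8870800000) (nat_lit 2) (.cons (nat_lit 0x8870800000) (nat_lit 3) (.cons (nat_lit 0x8870604000) (nat_lit 0) (.cons (nat_lit 0x8870604000) (nat_lit 1) (.cons (nat_lit 0x8860804000) (nat_lit 0) (.cons (nat_lit 0x8860804000) (nat_lit 1) (.nil))))))))))))))))))))) (.nd (nat_lit 0x88d0608000) (.cons (nat_lit 0x8890400000) (nat_lit 0) (.cons (nat_lit 0x8890400000) (nat_lit 1) (.cons (nat_lit 0x8890400000) (nat_lit 2) (.cons (nat_lit 0x8890400000) (nat_lit 3) (.cons (nat_lit 0x8880600000) (nat_lit 1) (.cons (nat_lit 0x8880600000) (nat_lit 2) (.cons (nat_lit 0x8880600000) (nat_lit 3) (.cons (nat_lit 0x8880404000) (nat_lit 1) (.cons (nat_lit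 0x8880404000) (nat_lit 2) (.cons (nat_lit 0x8870604000) (nat_lit 0) (.cons (nat_lit 0x8870604000) (nat_lit 1) (.cons (nat_lit 0x8860608000) (nat_lit 0) (.nil))))))))))))) .lf .lf) .lf))) (.nd (nat_lit 0x88f0600000) (.cons (nat_lit 0x88b0000000) (nat_lit 0) (.cons (nat_lit 0x88a0200000) (nat_lit 0) (.cons (nat_lit 0x88a0200000) (nat_lit 1) (.cons (nat_lit 0x88a0200000) (nat_lit 2) (.cons (nat_lit 0x8890400000) (nat_lit 2) (.cons (nat_lit 0x8890400000) (nat_lit 3) (.nil))))))) (.nd (nat_lit 0x88e0800000) (.cons (nat_lit 0x88b0000000) (nat_lit 0) (.cons (nat_lit 0x88a0200000) (nat_lit 0) (.cons (nat_lit 0x88a0200000) (nat_lit 1) (.cons (nat_lit 0x88a0200000) (nat_lit 2) (.cons (nat_lit 0x8890400000) (nat_lit 0) (.cons (nat_lit 0x8890400000) (nat_lit 1) (.cons (nat_lit 0x8890400000) (nat_lit 2) (.cons (nat_lit 0x8890400000) (nat_lit 3) (.cons (nat_lit 0x8880600000) (nat_lit 1) (.cons (nat_lit 0x8880600000) (nat_lit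 2) (.cons (nat_lit 0x8880600000) (nat_lit 3) (.cons (nat_lit 0x8870800000) (nat_lit 1) (.cons (nat_lit 0x8870800000) (nat_lit 3) (.nil)))))))))))))) (.nd (nat_lit 0x88e0408000) (.cons (nat_lit 0x8890400000) (nat_lit 0) (.cons (nat_lit 0x8890400000) (nat_lit 1) (.cons (nat_lit 0x8890400000) (nat_lit 2) (.cons (nat_lit 0x8890400000) (nat_lit 3) (.cons (nat_lit 0x8880404000) (nat_lit 0) (.cons (nat_lit 0x8880404000) (nat_lit 1) (.cons (nat_lit 0x8880404000) (nat_lit 2) (.nil)))))))) (.nd (nat_lit 0x88e0404080) (.cons (nat_lit 0x8890204000) (nat_lit 0) (.cons (nat_lit 0x8880404000) (nat_lit 1) (.nil))) .lf .lf) (.nd (nat_lit 0x88e0604000) (.cons (nat_lit 0x88a0200000) (nat_lit 0) (.cons (nat_lit 0x88a0200000) (nat_lit 1) (.cons (nat_lit 0x88a0200000) (nat_lit 2) (.cons (nat_lit 0x8890400000) (nat_lit 1) (.cons (nat_lit 0x8890400000) (nat_lit 2) (.cons (nat_lit 0x8890400000) (nat_lit 3) (.cons (nat_lit 0x8890204000)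 (nat_lit 0) (.cons (nat_lit 0x8880600000) (nat_lit 1) (.cons (nat_lit 0x8880600000) (nat_lit 2) (.cons (nat_lit 0x8880600000) (nat_lit 3) (.cons (nat_lit 0x8880404000) (nat_lit 1) (.nil)))))))))))) .lf .lf)) (.nd (nat_lit 0x88f0404000) (.cons (nat_lit 0x88a0200000) (nat_lit 0) (.cons (nat_lit 0x88a0200000) (nat_lit 1) (.cons (nat_lit 0x88a0200000) (nat_lit 2) (.cons (nat_lit 0x8890400000) (nat_lit 1) (.cons (nat_lit 0x8890400000) (nat_lit 3) (.cons (nat_lit 0x8890204000) (nat_lit 0) (.nil))))))) (.nd (nat_lit 0x88f0204080) (.cons (nat_lit 0x8890204000) (nat_lit 0) (.nil)) .lf .lf) .lf)) (.nd (nat_lit 0x9060a10100) (.cons (nat_lit 0x8850808000) (nat_lit 0) (.nil)) (.nd (nat_lit 0x8900400000) (.cons (nat_lit 0x88b0000000) (nat_lit 0) (.cons (nat_lit 0x88a0200000) (nat_lit 0) (.cons (nat_lit 0x88a0200000) (nat_lit 1) (.cons (nat_lit 0x88a0200000) (nat_lit 2) (.nil))))) (.nd (nat_lit 0x8900204000) (.cons (nat_lit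 0x88a0200000) (nat_lit 1) (.nil)) .lf .lf) (.nd (nat_lit 0x9060810180) (.cons (nat_lit 0x8040810000) (nat_lit 0) (.nil)) .lf .lf)) (.nd (nat_lit 0x9060c10080) (.cons (nat_lit 0x8860804000) (nat_lit 0) (.cons (nat_lit 0x8860804000) (nat_lit 1) (.cons (nat_lit 0x8060a04000) (nat_lit 0) (.nil)))) (.nd (nat_lit 0x9060c0c100) (.cons (nat_lit 0x8860608000) (nat_lit 0) (.cons (nat_lit 0x8060808000) (nat_lit 1) (.nil))) .lf .lf) .lf)))))

noncomputable def tP_5_7_10 : PTr := (.nd (nat_lit 0x9091000000) (.cons (nat_lit 0x9090200000) (nat_lit 0) (.cons (nat_lit 0x9090200000) (nat_lit 1) (.cons (nat_lit 0x9090200000) (nat_lit 2) (.cons (nat_lit 0x9080400000) (nat_lit 1) (.cons (nat_lit 0x9080400000) (nat_lit 2) (.cons (nat_lit 0x9080400000) (nat_lit 3) (.cons (nat_lit 0x9080400000) (nat_lit 4) (.cons (nat_lit 0x8890400000) (nat_lit 2) (.cons (nat_lit 0x8890400000) (nat_lit 3) (.cons (nat_lit 0x8880600000) (nat_lit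 3) (.nil))))))))))) (.nd (nat_lit 0x9080c08080) (.cons (nat_lit 0x9070404000) (nat_lit 0) (.cons (nat_lit 0x9070404000) (nat_lit 1) (.cons (nat_lit 0x9060604000) (nat_lit 0) (.cons (nat_lit 0x9060408000) (nat_lit 0) (.cons (nat_lit 0x9060408000) (nat_lit 1) (.cons (nat_lit 0x8880404000) (nat_lit 1) (.cons (nat_lit 0x8880404000) (nat_lit 2) (.cons (nat_lit 0x8870604000) (nat_lit 0) (.cons (nat_lit 0x8870604000) (nat_lit 1) (.cons (nat_lit 0x8860804000) (nat_lit 1) (.cons (nat_lit 0x8860608000) (nat_lit 0) (.cons (nat_lit 0x8080408000) (nat_lit 1) (.nil))))))))))))) (.nd (nat_lit 0x9070e08080) (.cons (nat_lit 0x9070404000) (nat_lit 0) (.cons (nat_lit 0x9070404000) (nat_lit 1) (.cons (nat_lit 0x8870604000) (nat_lit 1) (.nil)))) (.nd (nat_lit 0x9070a14000) (.cons (nat_lit 0x8860a00000) (nat_lit 1) (.nil)) (.nd (nat_lit 0x9070a0c100) (.cons (nat_lit 0x8860608000) (nat_lit 0) (.cons (nat_lit 0x8850808000) (nat_lit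 0) (.nil))) (.nd (nat_lit 0x9070810100) (.cons (nat_lit 0x9040808000) (nat_lit 0) (.cons (nat_lit 0x8850808000) (nat_lit 0) (.cons (nat_lit 0x8060808000) (nat_lit 1) (.nil)))) .lf .lf) (.nd (nat_lit 0x9070a10080) (.cons (nat_lit 0x9050804000) (nat_lit 0) (.cons (nat_lit 0x8860804000) (nat_lit 1) (.cons (nat_lit 0x8850808000) (nat_lit 0) (.cons (nat_lit 0x8070804000) (nat_lit 2) (.nil))))) .lf .lf)) (.nd (nat_lit 0x9070c0c080) (.cons (nat_lit 0x9060604000) (nat_lit 0) (.cons (nat_lit 0x8870604000) (nat_lit 0) (.cons (nat_lit 0x8870604000) (nat_lit 1) (.cons (nat_lit 0x8860804000) (nat_lit 1) (.cons (nat_lit 0x8860608000) (nat_lit 0) (.cons (nat_lit 0x8070804000) (nat_lit 2) (.nil))))))) (.nd (nat_lit 0x9070c08100) (.cons (nat_lit 0x9060408000) (nat_lit 0) (.cons (nat_lit 0x9060408000) (nat_lit 1) (.cons (nat_lit 0x8860608000) (nat_lit 0) (.nil)))) .lf .lf) (.nd (nat_lit 0x9070c10000) (.cons (nat_lit 0x9060800000)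 (nat_lit 0) (.cons (nat_lit 0x9060800000) (nat_lit 1) (.cons (nat_lit 0x9060800000) (nat_lit 2) (.cons (nat_lit 0x9060800000) (nat_lit 3) (.cons (nat_lit 0x8870800000) (nat_lit 1) (.cons (nat_lit 0x8870800000) (nat_lit 2) (.cons (nat_lit 0x8870800000) (nat_lit 3) (.cons (nat_lit 0x8860a00000) (nat_lit 1) (.cons (nat_lit 0x8860804000) (nat_lit 1) (.cons (nat_lit 0x8070804000) (nat_lit 2) (.nil))))))))))) .lf .lf))) (.nd (nat_lit 0x9080a08100) (.cons (nat_lit 0x9060408000) (nat_lit 0) (.cons (nat_lit 0x9060408000) (nat_lit 1) (.cons (nat_lit 0x8860608000) (nat_lit 0) (.cons (nat_lit 0x8850808000) (nat_lit 0) (.cons (nat_lit 0x8080408000) (nat_lit 1) (.nil)))))) (.nd (nat_lit 0x908080c100) (.cons (nat_lit 0x9040808000) (nat_lit 0) (.cons (nat_lit 0x8860608000) (nat_lit 0) (.cons (nat_lit 0x8850808000) (nat_lit 0) (.nil)))) (.nd (nat_lit 0x9070e0c000) (.cons (nat_lit 0x9070600000) (nat_lit 1) (.cons (nat_lit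 0x9070600000) (nat_lit 2) (.cons (nat_lit 0x8870800000) (nat_lit 2) (.cons (nat_lit 0x8870800000) (nat_lit 3) (.cons (nat_lit 0x8870604000) (nat_lit 1) (.nil)))))) .lf .lf) (.nd (nat_lit 0x9080810080) (.cons (nat_lit 0x9050804000) (nat_lit 0) (.cons (nat_lit 0x9040808000) (nat_lit 0) (.cons (nat_lit 0x8860804000) (nat_lit 0) (.cons (nat_lit 0x8860804000) (nat_lit 1) (.cons (nat_lit 0x8850808000) (nat_lit 0) (.cons (nat_lit 0x8070804000) (nat_lit 2) (.nil))))))) .lf .lf)) (.nd (nat_lit 0x9080a10000) (.cons (nat_lit 0x9060800000) (nat_lit 0) (.cons (nat_lit 0x9060800000) (nat_lit 1) (.cons (nat_lit 0x9060800000) (nat_lit 2) (.cons (nat_lit 0x9060800000) (nat_lit 3) (.cons (nat_lit 0x9050804000) (nat_lit 0) (.cons (nat_lit 0x8870800000) (nat_lit 1) (.cons (nat_lit 0x8870800000) (nat_lit 2) (.cons (nat_lit 0x8870800000) (nat_lit 3) (.cons (nat_lit 0x8860a00000) (nat_lit 1) (.cons (nat_lit 0x8860804000) (nat_lit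 1) (.cons (nat_lit 0x8850808000) (nat_lit 0) (.cons (nat_lit 0x8080800000) (nat_lit 5) (.nil))))))))))))) (.nd (nat_lit 0x9080a0c080) (.cons (nat_lit 0x9060604000) (nat_lit 0) (.cons (nat_lit 0x9050804000) (nat_lit 0) (.cons (nat_lit 0x8870604000) (nat_lit 0) (.cons (nat_lit 0x8870604000) (nat_lit 1) (.cons (nat_lit 0x8860804000) (nat_lit 1) (.cons (nat_lit 0x8860608000) (nat_lit 0) (.cons (nat_lit 0x8850808000) (nat_lit 0) (.nil)))))))) .lf .lf) .lf))) (.nd (nat_lit 0x909080c080) (.cons (nat_lit 0x9060604000) (nat_lit 0) (.cons (nat_lit 0x9050804000) (nat_lit 0) (.cons (nat_lit 0x9040808000) (nat_lit 0) (.cons (nat_lit 0x8870604000) (nat_lit 0) (.cons (nat_lit 0x8870604000) (nat_lit 1) (.cons (nat_lit 0x8860804000) (nat_lit 1) (.cons (nat_lit 0x8860608000) (nat_lit 0) (.cons (nat_lit 0x8850808000) (nat_lit 0) (.nil))))))))) (.nd (nat_lit 0x9081004000) (.cons (nat_lit 0x9080400000) (nat_lit 0) (.cons (nat_lit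 0x9080400000) (nat_lit 1) (.cons (nat_lit 0x9080400000) (nat_lit 2) (.cons (nat_lit 0x9080400000) (nat_lit 3) (.cons (nat_lit 0x9080400000) (nat_lit 4) (.cons (nat_lit 0x8880600000) (nat_lit 1) (.cons (nat_lit 0x8880600000) (nat_lit 2) (.cons (nat_lit 0x8880600000) (nat_lit 3) (.cons (nat_lit 0x8880404000) (nat_lit 2) (.nil)))))))))) (.nd (nat_lit 0x9080e04080) (.cons (nat_lit 0x9070404000) (nat_lit 0) (.cons (nat_lit 0x9070404000) (nat_lit 1) (.cons (nat_lit 0x8880404000) (nat_lit 1) (.cons (nat_lit 0x8880404000) (nat_lit 2) (.cons (nat_lit 0x8870604000) (nat_lit 1) (.nil)))))) (.nd (nat_lit 0x9080c0c000) (.cons (nat_lit 0x9070600000) (nat_lit 0) (.cons (nat_lit 0x9070600000) (nat_lit 1) (.cons (nat_lit 0x9070600000) (nat_lit 2) (.cons (nat_lit 0x9060800000) (nat_lit 0) (.cons (nat_lit 0x9060800000) (nat_lit 1) (.cons (nat_lit 0x9060800000) (nat_lit 2) (.cons (nat_lit 0x9060800000) (nat_lit 3) (.cons (nat_lit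 0x9060604000) (nat_lit 0) (.cons (nat_lit 0x8880600000) (nat_lit 1) (.cons (nat_lit 0x8880600000) (nat_lit 2) (.cons (nat_lit 0x8880600000) (nat_lit 3) (.cons (nat_lit 0x8870800000) (nat_lit 1) (.cons (nat_lit 0x8870800000) (nat_lit 2) (.cons (nat_lit 0x8870800000) (nat_lit 3) (.cons (nat_lit 0x8870604000) (nat_lit 1) (.cons (nat_lit 0x8860a00000) (nat_lit 1) (.cons (nat_lit 0x8860804000) (nat_lit 1) (.cons (nat_lit 0x8860608000) (nat_lit 0) (.cons (nat_lit 0x8080800000) (nat_lit 5) (.nil)))))))))))))))))))) .lf .lf) (.nd (nat_lit 0x9080e08000) (.cons (nat_lit 0x9080400000) (nat_lit 0) (.cons (nat_lit 0x9080400000) (nat_lit 1) (.cons (nat_lit 0x9080400000) (nat_lit 2) (.cons (nat_lit 0x9080400000) (nat_lit 3) (.cons (nat_lit 0x9080400000) (nat_lit 4) (.cons (nat_lit 0x9070600000) (nat_lit 1) (.cons (nat_lit 0x9070600000) (nat_lit 2) (.cons (nat_lit 0x9070404000) (nat_lit 0) (.cons (nat_lit 0x9070404000)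 (nat_lit 1) (.cons (nat_lit 0x8880600000) (nat_lit 1) (.cons (nat_lit 0x8880600000) (nat_lit 2) (.cons (nat_lit 0x8880600000) (nat_lit 3) (.cons (nat_lit 0x8880404000) (nat_lit 1) (.cons (nat_lit 0x8880404000) (nat_lit 2) (.cons (nat_lit 0x8870800000) (nat_lit 3) (.cons (nat_lit 0x8870604000) (nat_lit 1) (.cons (nat_lit 0x8080800000) (nat_lit 5) (.nil)))))))))))))))))) .lf .lf)) (.nd (nat_lit 0x9090808100) (.cons (nat_lit 0x9060408000) (nat_lit 0) (.cons (nat_lit 0x9060408000) (nat_lit 1) (.cons (nat_lit 0x9040808000) (nat_lit 0) (.cons (nat_lit 0x8860608000) (nat_lit 0) (.cons (nat_lit 0x8850808000) (nat_lit 0) (.nil)))))) (.nd (nat_lit 0x909060c100) (.cons (nat_lit 0x8860608000) (nat_lit 0) (.nil)) .lf .lf) .lf)) (.nd (nat_lit 0x9090c04080) (.cons (nat_lit 0x9070404000) (nat_lit 0) (.cons (nat_lit 0x9070404000) (nat_lit 1) (.cons (nat_lit 0x9060604000) (nat_lit 0) (.cons (nat_lit 0x8890204000) (nat_lit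 0) (.cons (nat_lit 0x8880404000) (nat_lit 1) (.cons (nat_lit 0x8880404000) (nat_lit 2) (.cons (nat_lit 0x8870604000) (nat_lit 1) (.cons (nat_lit 0x8860804000) (nat_lit 1) (.nil))))))))) (.nd (nat_lit 0x9090a08080) (.cons (nat_lit 0x9070404000) (nat_lit 0) (.cons (nat_lit 0x9070404000) (nat_lit 1) (.cons (nat_lit 0x9060604000) (nat_lit 0) (.cons (nat_lit 0x9060408000) (nat_lit 0) (.cons (nat_lit 0x9060408000) (nat_lit 1) (.cons (nat_lit 0x9050804000) (nat_lit 0) (.cons (nat_lit 0x8880404000) (nat_lit 1) (.cons (nat_lit 0x8880404000) (nat_lit 2) (.cons (nat_lit 0x8870604000) (nat_lit 1) (.cons (nat_lit 0x8860804000) (nat_lit 1) (.cons (nat_lit 0x8860608000) (nat_lit 0) (.cons (nat_lit 0x8850808000) (nat_lit 0) (.nil))))))))))))) (.nd (nat_lit 0x9090810000) (.cons (nat_lit 0x9060800000) (nat_lit 0) (.cons (nat_lit 0x9060800000) (nat_lit 1) (.cons (nat_lit 0x9060800000) (nat_lit 2) (.cons (nat_lit 0x9060800000)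 (nat_lit 3) (.cons (nat_lit 0x9050804000) (nat_lit 0) (.cons (nat_lit 0x9040808000) (nat_lit 0) (.cons (nat_lit 0x8870800000) (nat_lit 1) (.cons (nat_lit 0x8870800000) (nat_lit 2) (.cons (nat_lit 0x8870800000) (nat_lit 3) (.cons (nat_lit 0x8860804000) (nat_lit 1) (.cons (nat_lit 0x8850808000) (nat_lit 0) (.nil)))))))))))) .lf .lf) (.nd (nat_lit 0x9090a0c000) (.cons (nat_lit 0x9070600000) (nat_lit 1) (.cons (nat_lit 0x9070600000) (nat_lit 2) (.cons (nat_lit 0x9060800000) (nat_lit 0) (.cons (nat_lit 0x9060800000) (nat_lit 1) (.cons (nat_lit 0x9060800000) (nat_lit 2) (.cons (nat_lit 0x9060800000) (nat_lit 3) (.cons (nat_lit 0x9060604000) (nat_lit 0) (.cons (nat_lit 0x9050804000) (nat_lit 0) (.cons (nat_lit 0x8880600000) (nat_lit 1) (.cons (nat_lit 0x8880600000) (nat_lit 2) (.cons (nat_lit 0x8880600000) (nat_lit 3) (.cons (nat_lit 0x8870800000) (nat_lit 2) (.cons (nat_lit 0x8870800000) (nat_lit 3) (.cons (nat_lit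 0x8870604000) (nat_lit 1) (.cons (nat_lit 0x8860a00000) (nat_lit 1) (.cons (nat_lit 0x8860804000) (nat_lit 1) (.cons (nat_lit 0x8860608000) (nat_lit 0) (.cons (nat_lit 0x8850808000) (nat_lit 0) (.nil))))))))))))))))))) .lf .lf)) (.nd (nat_lit 0x9090e04000) (.cons (nat_lit 0x9090200000) (nat_lit 0) (.cons (nat_lit 0x9090200000) (nat_lit 1) (.cons (nat_lit 0x9090200000) (nat_lit 2) (.cons (nat_lit 0x9080400000) (nat_lit 1) (.cons (nat_lit 0x9080400000) (nat_lit 2) (.cons (nat_lit 0x9080400000) (nat_lit 3) (.cons (nat_lit 0x9080400000) (nat_lit 4) (.cons (nat_lit 0x9070600000) (nat_lit 1) (.cons (nat_lit 0x9070600000) (nat_lit 2) (.cons (nat_lit 0x9070404000) (nat_lit 0) (.cons (nat_lit 0x9070404000) (nat_lit 1) (.cons (nat_lit 0x8890400000) (nat_lit 2) (.cons (nat_lit 0x8890400000) (nat_lit 3) (.cons (nat_lit 0x8890204000) (nat_lit 0) (.cons (nat_lit 0x8880600000) (nat_lit 2) (.cons (nat_lit 0x8880600000)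 (nat_lit 3) (.cons (nat_lit 0x8880404000) (nat_lit 2) (.cons (nat_lit 0x8870800000) (nat_lit 3) (.cons (nat_lit 0x8870604000) (nat_lit 1) (.nil)))))))))))))))))))) (.nd (nat_lit 0x9090c08000) (.cons (nat_lit 0x9080400000) (nat_lit 0) (.cons (nat_lit 0x9080400000) (nat_lit 1) (.cons (nat_lit 0x9080400000) (nat_lit 2) (.cons (nat_lit 0x9080400000) (nat_lit 3) (.cons (nat_lit 0x9080400000) (nat_lit 4) (.cons (nat_lit 0x9070600000) (nat_lit 1) (.cons (nat_lit 0x9070600000) (nat_lit 2) (.cons (nat_lit 0x9070404000) (nat_lit 0) (.cons (nat_lit 0x9070404000) (nat_lit 1) (.cons (nat_lit 0x9060800000) (nat_lit 0) (.cons (nat_lit 0x9060800000) (nat_lit 1) (.cons (nat_lit 0x9060800000) (nat_lit 2) (.cons (nat_lit 0x9060800000) (nat_lit 3) (.cons (nat_lit 0x9060604000) (nat_lit 0) (.cons (nat_lit 0x9060408000) (nat_lit 0) (.cons (nat_lit 0x9060408000) (nat_lit 1) (.cons (nat_lit 0x8890400000) (nat_lit 2) (.cons (nat_lit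 0x8890400000) (nat_lit 3) (.cons (nat_lit 0x8880600000) (nat_lit 1) (.cons (nat_lit 0x8880600000) (nat_lit 2) (.cons (nat_lit 0x8880600000) (nat_lit 3) (.cons (nat_lit 0x8880404000) (nat_lit 1) (.cons (nat_lit 0x8880404000) (nat_lit 2) (.cons (nat_lit 0x8870800000) (nat_lit 3) (.cons (nat_lit 0x8870604000) (nat_lit 1) (.cons (nat_lit 0x8860a00000) (nat_lit 1) (.cons (nat_lit 0x8860804000) (nat_lit 1) (.cons (nat_lit 0x8860608000) (nat_lit 0) (.nil))))))))))))))))))))))))))))) .lf .lf) .lf)))) (.nd (nat_lit 0x90b0a04000) (.cons (nat_lit 0x9090200000) (nat_lit 0) (.cons (nat_lit 0x9090200000) (nat_lit 1) (.cons (nat_lit 0x9090200000) (nat_lit 2) (.cons (nat_lit 0x9080400000) (nat_lit 1) (.cons (nat_lit 0x9080400000) (nat_lit 2) (.cons (nat_lit 0x9080400000) (nat_lit 3) (.cons (nat_lit 0x9080400000) (nat_lit 4) (.cons (nat_lit 0x9070600000) (nat_lit 1) (.cons (nat_lit 0x9070600000) (nat_lit 2) (.cons (nat_lit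 0x9070404000) (nat_lit 0) (.cons (nat_lit 0x9070404000) (nat_lit 1) (.cons (nat_lit 0x9060800000) (nat_lit 0) (.cons (nat_lit 0x9060800000) (nat_lit 1) (.cons (nat_lit 0x9060800000) (nat_lit 2) (.cons (nat_lit 0x9060800000) (nat_lit 3) (.cons (nat_lit 0x9060604000) (nat_lit 0) (.cons (nat_lit 0x9050804000) (nat_lit 0) (.cons (nat_lit 0x88a0200000) (nat_lit 1) (.cons (nat_lit 0x88a0200000) (nat_lit 2) (.cons (nat_lit 0x8890400000) (nat_lit 2) (.cons (nat_lit 0x8890400000) (nat_lit 3) (.cons (nat_lit 0x8890204000) (nat_lit 0) (.cons (nat_lit 0x8880600000) (nat_lit 2) (.cons (nat_lit 0x8880600000) (nat_lit 3) (.cons (nat_lit 0x8880404000) (nat_lit 2) (.cons (nat_lit 0x8870800000) (nat_lit 3) (.nil))))))))))))))))))))))))))) (.nd (nat_lit 0x90a0c04000) (.cons (nat_lit 0x9090200000) (nat_lit 0) (.cons (nat_lit 0x9090200000) (nat_lit 1) (.cons (nat_lit 0x9090200000) (nat_lit 2) (.cons (nat_lit 0x9080400000) (nat_lit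 0) (.cons (nat_lit 0x9080400000) (nat_lit 1) (.cons (nat_lit 0x9080400000) (nat_lit 2) (.cons (nat_lit 0x9080400000) (nat_lit 3) (.cons (nat_lit 0x9080400000) (nat_lit 4) (.cons (nat_lit 0x9070600000) (nat_lit 1) (.cons (nat_lit 0x9070600000) (nat_lit 2) (.cons (nat_lit 0x9070404000) (nat_lit 0) (.cons (nat_lit 0x9070404000) (nat_lit 1) (.cons (nat_lit 0x9060800000) (nat_lit 0) (.cons (nat_lit 0x9060800000) (nat_lit 1) (.cons (nat_lit 0x9060800000) (nat_lit 2) (.cons (nat_lit 0x9060800000) (nat_lit 3) (.cons (nat_lit 0x9060604000) (nat_lit 0) (.cons (nat_lit 0x88a0200000) (nat_lit 1) (.cons (nat_lit 0x88a0200000) (nat_lit 2) (.cons (nat_lit 0x8890400000) (nat_lit 2) (.cons (nat_lit 0x8890400000) (nat_lit 3) (.cons (nat_lit 0x8890204000) (nat_lit 0) (.cons (nat_lit 0x8880600000) (nat_lit 1) (.cons (nat_lit 0x8880600000) (nat_lit 2) (.cons (nat_lit 0x8880600000) (nat_lit 3) (.cons (nat_lit 0x8880404000) (nat_lit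 2) (.cons (nat_lit 0x8870800000) (nat_lit 3) (.cons (nat_lit 0x8870604000) (nat_lit 1) (.cons (nat_lit 0x8860a00000) (nat_lit 1) (.nil)))))))))))))))))))))))))))))) (.nd (nat_lit 0x90a080c000) (.cons (nat_lit 0x9070600000) (nat_lit 0) (.cons (nat_lit 0x9070600000) (nat_lit 1) (.cons (nat_lit 0x9070600000) (nat_lit 2) (.cons (nat_lit 0x9060800000) (nat_lit 0) (.cons (nat_lit 0x9060800000) (nat_lit 1) (.cons (nat_lit 0x9060800000) (nat_lit 2) (.cons (nat_lit 0x9060800000) (nat_lit 3) (.cons (nat_lit 0x9060604000) (nat_lit 0) (.cons (nat_lit 0x9050804000) (nat_lit 0) (.cons (nat_lit 0x9040808000) (nat_lit 0) (.cons (nat_lit 0x8880600000) (nat_lit 1) (.cons (nat_lit 0x8880600000) (nat_lit 2) (.cons (nat_lit 0x8880600000) (nat_lit 3) (.cons (nat_lit 0x8870800000) (nat_lit 2) (.cons (nat_lit 0x8870800000) (nat_lit 3) (.cons (nat_lit 0x8870604000) (nat_lit 1) (.cons (nat_lit 0x8860804000) (nat_lit 1) (.cons (nat_lit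 0x8860608000) (nat_lit 0) (.nil))))))))))))))))))) (.nd (nat_lit 0x90a060c080) (.cons (nat_lit 0x9060604000) (nat_lit 0) (.cons (nat_lit 0x8870604000) (nat_lit 1) (.nil))) (.nd (nat_lit 0x90a0608100) (.cons (nat_lit 0x9060408000) (nat_lit 0) (.cons (nat_lit 0x9060408000) (nat_lit 1) (.cons (nat_lit 0x8860608000) (nat_lit 0) (.nil)))) .lf .lf) (.nd (nat_lit 0x90a0808080) (.cons (nat_lit 0x9070404000) (nat_lit 0) (.cons (nat_lit 0x9070404000) (nat_lit 1) (.cons (nat_lit 0x9060604000) (nat_lit 0) (.cons (nat_lit 0x9060408000) (nat_lit 0) (.cons (nat_lit 0x9060408000) (nat_lit 1) (.cons (nat_lit 0x9050804000) (nat_lit 0) (.cons (nat_lit 0x9040808000) (nat_lit 0) (.cons (nat_lit 0x8880404000) (nat_lit 1) (.cons (nat_lit 0x8880404000) (nat_lit 2) (.cons (nat_lit 0x8870604000) (nat_lit 0) (.cons (nat_lit 0x8870604000) (nat_lit 1) (.cons (nat_lit 0x8860804000) (nat_lit 1) (.cons (nat_lit 0x8860608000) (nat_lit 0)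 (.nil)))))))))))))) .lf .lf)) (.nd (nat_lit 0x90a0a08000) (.cons (nat_lit 0x9080400000) (nat_lit 0) (.cons (nat_lit 0x9080400000) (nat_lit 1) (.cons (nat_lit 0x9080400000) (nat_lit 2) (.cons (nat_lit 0x9080400000) (nat_lit 3) (.cons (nat_lit 0x9080400000) (nat_lit 4) (.cons (nat_lit 0x9070600000) (nat_lit 1) (.cons (nat_lit 0x9070600000) (nat_lit 2) (.cons (nat_lit 0x9070404000) (nat_lit 0) (.cons (nat_lit 0x9070404000) (nat_lit 1) (.cons (nat_lit 0x9060800000) (nat_lit 0) (.cons (nat_lit 0x9060800000) (nat_lit 1) (.cons (nat_lit 0x9060800000) (nat_lit 2) (.cons (nat_lit 0x9060800000) (nat_lit 3) (.cons (nat_lit 0x9060604000) (nat_lit 0) (.cons (nat_lit 0x9060408000) (nat_lit 0) (.cons (nat_lit 0x9060408000) (nat_lit 1) (.cons (nat_lit 0x9050804000) (nat_lit 0) (.cons (nat_lit 0x8890400000) (nat_lit 2) (.cons (nat_lit 0x8890400000) (nat_lit 3) (.cons (nat_lit 0x8880600000) (nat_lit 1) (.cons (nat_lit 0x8880600000)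 (nat_lit 2) (.cons (nat_lit 0x8880600000) (nat_lit 3) (.cons (nat_lit 0x8880404000) (nat_lit 1) (.cons (nat_lit 0x8880404000) (nat_lit 2) (.cons (nat_lit 0x8870800000) (nat_lit 3) (.cons (nat_lit 0x8870604000) (nat_lit 1) (.cons (nat_lit 0x8860a00000) (nat_lit 1) (.cons (nat_lit 0x8860804000) (nat_lit 1) (.cons (nat_lit 0x8860608000) (nat_lit 0) (.nil)))))))))))))))))))))))))))))) (.nd (nat_lit 0x90a0a04080) (.cons (nat_lit 0x9070404000) (nat_lit 0) (.cons (nat_lit 0x9070404000) (nat_lit 1) (.cons (nat_lit 0x9060604000) (nat_lit 0) (.cons (nat_lit 0x9050804000) (nat_lit 0) (.cons (nat_lit 0x8890204000) (nat_lit 0) (.cons (nat_lit 0x8880404000) (nat_lit 1) (.cons (nat_lit 0x8880404000) (nat_lit 2) (.cons (nat_lit 0x8870604000) (nat_lit 1) (.nil))))))))) .lf .lf) .lf)) (.nd (nat_lit 0x90b060c000) (.cons (nat_lit 0x9070600000) (nat_lit 1) (.cons (nat_lit 0x9070600000) (nat_lit 2) (.cons (nat_lit 0x9060604000)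 (nat_lit 0) (.cons (nat_lit 0x8880600000) (nat_lit 2) (.cons (nat_lit 0x8880600000) (nat_lit 3) (.cons (nat_lit 0x8870604000) (nat_lit 1) (.nil))))))) (.nd (nat_lit 0x90b0408100) (.cons (nat_lit 0x9060408000) (nat_lit 0) (.cons (nat_lit 0x9060408000) (nat_lit 1) (.nil))) (.nd (nat_lit 0x90a0e00000) (.cons (nat_lit 0x90a0000000) (nat_lit 0) (.cons (nat_lit 0x90a0000000) (nat_lit 1) (.cons (nat_lit 0x90a0000000) (nat_lit 2) (.cons (nat_lit 0x9090200000) (nat_lit 0) (.cons (nat_lit 0x9090200000) (nat_lit 1) (.cons (nat_lit 0x9090200000) (nat_lit 2) (.cons (nat_lit 0x9080400000) (nat_lit 1) (.cons (nat_lit 0x9080400000) (nat_lit 2) (.cons (nat_lit 0x9080400000) (nat_lit 3) (.cons (nat_lit 0x9080400000) (nat_lit 4) (.cons (nat_lit 0x9070600000) (nat_lit 1) (.cons (nat_lit 0x9070600000) (nat_lit 2) (.cons (nat_lit 0x88a0200000) (nat_lit 1) (.cons (nat_lit 0x88a0200000) (nat_lit 2) (.cons (nat_lit 0x8890400000)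 (nat_lit 2) (.cons (nat_lit 0x8890400000) (nat_lit 3) (.cons (nat_lit 0x8880600000) (nat_lit 3) (.cons (nat_lit 0x8870800000) (nat_lit 3) (.nil))))))))))))))))))) .lf .lf) (.nd (nat_lit 0x90b0608080) (.cons (nat_lit 0x9070404000) (nat_lit 0) (.cons (nat_lit 0x9070404000) (nat_lit 1) (.cons (nat_lit 0x9060604000) (nat_lit 0) (.cons (nat_lit 0x9060408000) (nat_lit 0) (.cons (nat_lit 0x9060408000) (nat_lit 1) (.cons (nat_lit 0x8880404000) (nat_lit 1) (.cons (nat_lit 0x8880404000) (nat_lit 2) (.cons (nat_lit 0x8870604000) (nat_lit 1) (.nil))))))))) .lf .lf)) (.nd (nat_lit 0x90b0808000) (.cons (nat_lit 0x9080400000) (nat_lit 0) (.cons (nat_lit 0x9080400000) (nat_lit 1) (.cons (nat_lit 0x9080400000) (nat_lit 2) (.cons (nat_lit 0x9080400000) (nat_lit 3) (.cons (nat_lit 0x9080400000) (nat_lit 4) (.cons (nat_lit 0x9070600000) (nat_lit 1) (.cons (nat_lit 0x9070600000) (nat_lit 2) (.cons (nat_lit 0x9070404000) (nat_lit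 0) (.cons (nat_lit 0x9070404000) (nat_lit 1) (.cons (nat_lit 0x9060800000) (nat_lit 0) (.cons (nat_lit 0x9060800000) (nat_lit 1) (.cons (nat_lit 0x9060800000) (nat_lit 2) (.cons (nat_lit 0x9060800000) (nat_lit 3) (.cons (nat_lit 0x9060604000) (nat_lit 0) (.cons (nat_lit 0x9060408000) (nat_lit 0) (.cons (nat_lit 0x9060408000) (nat_lit 1) (.cons (nat_lit 0x9050804000) (nat_lit 0) (.cons (nat_lit 0x9040808000) (nat_lit 0) (.cons (nat_lit 0x8890400000) (nat_lit 2) (.cons (nat_lit 0x8890400000) (nat_lit 3) (.cons (nat_lit 0x8880600000) (nat_lit 1) (.cons (nat_lit 0x8880600000) (nat_lit 2) (.cons (nat_lit 0x8880600000) (nat_lit 3) (.cons (nat_lit 0x8880404000) (nat_lit 1) (.cons (nat_lit 0x8880404000) (nat_lit 2) (.cons (nat_lit 0x8870800000) (nat_lit 3) (.nil))))))))))))))))))))))))))) (.nd (nat_lit 0x90b0804080) (.cons (nat_lit 0x9070404000) (nat_lit 0) (.cons (nat_lit 0x9070404000) (nat_lit 1) (.cons (nat_lit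 0x9060604000) (nat_lit 0) (.cons (nat_lit 0x9050804000) (nat_lit 0) (.cons (nat_lit 0x8890204000) (nat_lit 0) (.cons (nat_lit 0x8880404000) (nat_lit 1) (.cons (nat_lit 0x8880404000) (nat_lit 2) (.cons (nat_lit 0x8870604000) (nat_lit 1) (.nil))))))))) .lf .lf) .lf))) (.nd (nat_lit 0x90d0404080) (.cons (nat_lit 0x9070404000) (nat_lit 0) (.cons (nat_lit 0x9070404000) (nat_lit 1) (.cons (nat_lit 0x8890204000) (nat_lit 0) (.nil)))) (.nd (nat_lit 0x90c0608000) (.cons (nat_lit 0x9080400000) (nat_lit 0) (.cons (nat_lit 0x9080400000) (nat_lit 1) (.cons (nat_lit 0x9080400000) (nat_lit 2) (.cons (nat_lit 0x9080400000) (nat_lit 3) (.cons (nat_lit 0x9080400000) (nat_lit 4) (.cons (nat_lit 0x9070600000) (nat_lit 1) (.cons (nat_lit 0x9070600000) (nat_lit 2) (.cons (nat_lit 0x9070404000) (nat_lit 0) (.cons (nat_lit 0x9070404000) (nat_lit 1) (.cons (nat_lit 0x9060604000) (nat_lit 0) (.cons (nat_lit 0x9060408000) (nat_lit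 0) (.cons (nat_lit 0x9060408000) (nat_lit 1) (.cons (nat_lit 0x8890400000) (nat_lit 2) (.cons (nat_lit 0x8890400000) (nat_lit 3) (.cons (nat_lit 0x8880600000) (nat_lit 2) (.cons (nat_lit 0x8880600000) (nat_lit 3) (.nil))))))))))))))))) (.nd (nat_lit 0x90c0408080) (.cons (nat_lit 0x9070404000) (nat_lit 0) (.cons (nat_lit 0x9070404000) (nat_lit 1) (.cons (nat_lit 0x9060408000) (nat_lit 0) (.cons (nat_lit 0x9060408000) (nat_lit 1) (.cons (nat_lit 0x8880404000) (nat_lit 1) (.nil)))))) (.nd (nat_lit 0x90b0c00000) (.cons (nat_lit 0x90a0000000) (nat_lit 0) (.cons (nat_lit 0x90a0000000) (nat_lit 1) (.cons (nat_lit 0x90a0000000) (nat_lit 2) (.cons (nat_lit 0x9090200000) (nat_lit 0) (.cons (nat_lit 0x9090200000) (nat_lit 1) (.cons (nat_lit 0x9090200000) (nat_lit 2) (.cons (nat_lit 0x9080400000) (nat_lit 1) (.cons (nat_lit 0x9080400000) (nat_lit 2) (.cons (nat_lit 0x9080400000) (nat_lit 3) (.cons (nat_lit 0x9080400000)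 (nat_lit 4) (.cons (nat_lit 0x9070600000) (nat_lit 1) (.cons (nat_lit 0x9070600000) (nat_lit 2) (.cons (nat_lit 0x9060800000) (nat_lit 0) (.cons (nat_lit 0x9060800000) (nat_lit 1) (.cons (nat_lit 0x9060800000) (nat_lit 2) (.cons (nat_lit 0x9060800000) (nat_lit 3) (.cons (nat_lit 0x88a0200000) (nat_lit 1) (.cons (nat_lit 0x88a0200000) (nat_lit 2) (.cons (nat_lit 0x8890400000) (nat_lit 2) (.cons (nat_lit 0x8890400000) (nat_lit 3) (.cons (nat_lit 0x8880600000) (nat_lit 3) (.nil)))))))))))))))))))))) .lf .lf) (.nd (nat_lit 0x90c0604080) (.cons (nat_lit 0x9070404000) (nat_lit 0) (.cons (nat_lit 0x9070404000) (nat_lit 1) (.cons (nat_lit 0x9060604000) (nat_lit 0) (.cons (nat_lit 0x8890204000) (nat_lit 0) (.nil))))) .lf .lf)) (.nd (nat_lit 0x90c0a00000) (.cons (nat_lit 0x90a0000000) (nat_lit 0) (.cons (nat_lit 0x90a0000000) (nat_lit 1) (.cons (nat_lit 0x90a0000000) (nat_lit 2) (.cons (nat_lit 0x9090200000) (nat_lit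 0) (.cons (nat_lit 0x9090200000) (nat_lit 1) (.cons (nat_lit 0x9090200000) (nat_lit 2) (.cons (nat_lit 0x9080400000) (nat_lit 1) (.cons (nat_lit 0x9080400000) (nat_lit 2) (.cons (nat_lit 0x9080400000) (nat_lit 3) (.cons (nat_lit 0x9080400000) (nat_lit 4) (.cons (nat_lit 0x9070600000) (nat_lit 1) (.cons (nat_lit 0x9070600000) (nat_lit 2) (.cons (nat_lit 0x9060800000) (nat_lit 0) (.cons (nat_lit 0x9060800000) (nat_lit 1) (.cons (nat_lit 0x9060800000) (nat_lit 2) (.cons (nat_lit 0x9060800000) (nat_lit 3) (.cons (nat_lit 0x88a0200000) (nat_lit 1) (.cons (nat_lit 0x88a0200000) (nat_lit 2) (.cons (nat_lit 0x8890400000) (nat_lit 2) (.cons (nat_lit 0x8890400000) (nat_lit 3) (.cons (nat_lit 0x8880600000) (nat_lit 3) (.nil)))))))))))))))))))))) (.nd (nat_lit 0x90c0804000) (.cons (nat_lit 0x9090200000) (nat_lit 0) (.cons (nat_lit 0x9090200000) (nat_lit 1) (.cons (nat_lit 0x9090200000) (nat_lit 2) (.cons (nat_lit 0x9080400000)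 (nat_lit 0) (.cons (nat_lit 0x9080400000) (nat_lit 1) (.cons (nat_lit 0x9080400000) (nat_lit 2) (.cons (nat_lit 0x9080400000) (nat_lit 3) (.cons (nat_lit 0x9080400000) (nat_lit 4) (.cons (nat_lit 0x9070600000) (nat_lit 1) (.cons (nat_lit 0x9070600000) (nat_lit 2) (.cons (nat_lit 0x9070404000) (nat_lit 0) (.cons (nat_lit 0x9070404000) (nat_lit 1) (.cons (nat_lit 0x9060800000) (nat_lit 0) (.cons (nat_lit 0x9060800000) (nat_lit 1) (.cons (nat_lit 0x9060800000) (nat_lit 2) (.cons (nat_lit 0x9060800000) (nat_lit 3) (.cons (nat_lit 0x9060604000) (nat_lit 0) (.cons (nat_lit 0x9050804000) (nat_lit 0) (.cons (nat_lit 0x88a0200000) (nat_lit 1) (.cons (nat_lit 0x88a0200000) (nat_lit 2) (.cons (nat_lit 0x8890400000) (nat_lit 2) (.cons (nat_lit 0x8890400000) (nat_lit 3) (.cons (nat_lit 0x8890204000) (nat_lit 0) (.cons (nat_lit 0x8880600000) (nat_lit 3) (.nil))))))))))))))))))))))))) .lf .lf) .lf)) (.nd (nat_lit 0x90e0404000)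 (.cons (nat_lit 0x9090200000) (nat_lit 0) (.cons (nat_lit 0x9090200000) (nat_lit 1) (.cons (nat_lit 0x9090200000) (nat_lit 2) (.cons (nat_lit 0x9080400000) (nat_lit 1) (.cons (nat_lit 0x9080400000) (nat_lit 2) (.cons (nat_lit 0x9080400000) (nat_lit 3) (.cons (nat_lit 0x9080400000) (nat_lit 4) (.cons (nat_lit 0x9070404000) (nat_lit 0) (.cons (nat_lit 0x9070404000) (nat_lit 1) (.nil)))))))))) (.nd (nat_lit 0x90d0604000) (.cons (nat_lit 0x9090200000) (nat_lit 0) (.cons (nat_lit 0x9090200000) (nat_lit 1) (.cons (nat_lit 0x9090200000) (nat_lit 2) (.cons (nat_lit 0x9080400000) (nat_lit 1) (.cons (nat_lit 0x9080400000) (nat_lit 2) (.cons (nat_lit 0x9080400000) (nat_lit 3) (.cons (nat_lit 0x9080400000) (nat_lit 4) (.cons (nat_lit 0x9070600000) (nat_lit 1) (.cons (nat_lit 0x9070600000) (nat_lit 2) (.cons (nat_lit 0x9070404000) (nat_lit 0) (.cons (nat_lit 0x9070404000) (nat_lit 1) (.cons (nat_lit 0x9060604000) (nat_lit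 0) (.cons (nat_lit 0x88a0200000) (nat_lit 1) (.cons (nat_lit 0x88a0200000) (nat_lit 2) (.cons (nat_lit 0x8890400000) (nat_lit 3) (.nil)))))))))))))))) (.nd (nat_lit 0x90d0408000) (.cons (nat_lit 0x9080400000) (nat_lit 0) (.cons (nat_lit 0x9080400000) (nat_lit 1) (.cons (nat_lit 0x9080400000) (nat_lit 2) (.cons (nat_lit 0x9080400000) (nat_lit 3) (.cons (nat_lit 0x9080400000) (nat_lit 4) (.cons (nat_lit 0x9070404000) (nat_lit 0) (.cons (nat_lit 0x9070404000) (nat_lit 1) (.cons (nat_lit 0x9060408000) (nat_lit 0) (.cons (nat_lit 0x9060408000) (nat_lit 1) (.nil)))))))))) .lf .lf) (.nd (nat_lit 0x90d0800000) (.cons (nat_lit 0x90a0000000) (nat_lit 0) (.cons (nat_lit 0x90a0000000) (nat_lit 1) (.cons (nat_lit 0x90a0000000) (nat_lit 2) (.cons (nat_lit 0x9090200000) (nat_lit 0) (.cons (nat_lit 0x9090200000) (nat_lit 1) (.cons (nat_lit 0x9090200000) (nat_lit 2) (.cons (nat_lit 0x9080400000) (nat_lit 1) (.cons (nat_lit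 0x9080400000) (nat_lit 2) (.cons (nat_lit 0x9080400000) (nat_lit 3) (.cons (nat_lit 0x9080400000) (nat_lit 4) (.cons (nat_lit 0x9070600000) (nat_lit 1) (.cons (nat_lit 0x9070600000) (nat_lit 2) (.cons (nat_lit 0x9060800000) (nat_lit 0) (.cons (nat_lit 0x9060800000) (nat_lit 1) (.cons (nat_lit 0x9060800000) (nat_lit 2) (.cons (nat_lit 0x9060800000) (nat_lit 3) (.cons (nat_lit 0x88a0200000) (nat_lit 1) (.nil)))))))))))))))))) .lf .lf)) (.nd (nat_lit 0x90f0204000) (.cons (nat_lit 0x9090200000) (nat_lit 1) (.cons (nat_lit 0x9090200000) (nat_lit 2) (.nil))) (.nd (nat_lit 0x90e0600000) (.cons (nat_lit 0x90a0000000) (nat_lit 0) (.cons (nat_lit 0x90a0000000) (nat_lit 1) (.cons (nat_lit 0x90a0000000) (nat_lit 2) (.cons (nat_lit 0x9090200000) (nat_lit 0) (.cons (nat_lit 0x9090200000) (nat_lit 1) (.cons (nat_lit 0x9090200000) (nat_lit 2) (.cons (nat_lit 0x9080400000) (nat_lit 1) (.cons (nat_lit 0x9080400000) (nat_lit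 2) (.cons (nat_lit 0x9080400000) (nat_lit 3) (.cons (nat_lit 0x9080400000) (nat_lit 4) (.cons (nat_lit 0x9070600000) (nat_lit 1) (.cons (nat_lit 0x9070600000) (nat_lit 2) (.nil))))))))))))) .lf .lf) .lf)))))

noncomputable def tP_5_7_11 : PTr := (.nd (nat_lit 0x9890608100) (.cons (nat_lit 0x9850408000) (nat_lit 0) (.cons (nat_lit 0x9060408000) (nat_lit 1) (.nil))) (.nd (nat_lit 0x9870a10000) (.cons (nat_lit 0x9850800000) (nat_lit 0) (.cons (nat_lit 0x9060800000) (nat_lit 1) (.cons (nat_lit 0x9060800000) (nat_lit 2) (.cons (nat_lit 0x9060800000) (nat_lit 3) (.cons (nat_lit 0x9050804000) (nat_lit 0) (.cons (nat_lit 0x8870800000) (nat_lit 3) (.nil))))))) (.nd (nat_lit 0x9860c08100) (.cons (nat_lit 0x9060408000) (nat_lit 0) (.cons (nat_lit 0x9060408000) (nat_lit 1) (.cons (nat_lit 0x8860608000) (nat_lit 0) (.nil)))) (.nd (nat_lit 0x9860810100) (.cons (nat_lit 0x9040808000) (nat_lit 0) (.cons (nat_lit 0x8850808000)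 (nat_lit 0) (.nil))) (.nd (nat_lit 0x9110000000) (.cons (nat_lit 0x90a0000000) (nat_lit 0) (.nil)) (.nd (nat_lit 0x9100200000) (.cons (nat_lit 0x90a0000000) (nat_lit 0) (.cons (nat_lit 0x90a0000000) (nat_lit 1) (.cons (nat_lit 0x90a0000000) (nat_lit 2) (.cons (nat_lit 0x9090200000) (nat_lit 2) (.nil))))) .lf .lf) (.nd (nat_lit 0x9840810200) (.cons (nat_lit 0x8040810000) (nat_lit 0) (.nil)) .lf .lf)) (.nd (nat_lit 0x9860a10080) (.cons (nat_lit 0x9050804000) (nat_lit 0) (.cons (nat_lit 0x8860804000) (nat_lit 1) (.nil))) (.nd (nat_lit 0x9860a0c100) (.cons (nat_lit 0x8860608000) (nat_lit 0) (.nil)) .lf .lf) .lf)) (.nd (nat_lit 0x9870810080) (.cons (nat_lit 0x9840804000) (nat_lit 0) (.cons (nat_lit 0x9050804000) (nat_lit 0) (.cons (nat_lit 0x9040808000) (nat_lit 0) (.cons (nat_lit 0x8860804000) (nat_lit 1) (.nil))))) (.nd (nat_lit 0x9860c10000) (.cons (nat_lit 0x9060800000) (nat_lit 0) (.cons (nat_lit 0x9060800000)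 (nat_lit 1) (.cons (nat_lit 0x9060800000) (nat_lit 2) (.cons (nat_lit 0x9060800000) (nat_lit 3) (.cons (nat_lit 0x8860a00000) (nat_lit 1) (.cons (nat_lit 0x8860804000) (nat_lit 1) (.nil))))))) (.nd (nat_lit 0x9860c0c080) (.cons (nat_lit 0x9060604000) (nat_lit 0) (.cons (nat_lit 0x8860804000) (nat_lit 1) (.nil))) .lf .lf) (.nd (nat_lit 0x987080c100) (.cons (nat_lit 0x9040808000) (nat_lit 0) (.cons (nat_lit 0x8860608000) (nat_lit 0) (.nil))) .lf .lf)) (.nd (nat_lit 0x9870a0c080) (.cons (nat_lit 0x9850604000) (nat_lit 0) (.cons (nat_lit 0x9060604000) (nat_lit 0) (.cons (nat_lit 0x9050804000) (nat_lit 0) (.cons (nat_lit 0x8870604000) (nat_lit 1) (.cons (nat_lit 0x8860804000) (nat_lit 1) (.nil)))))) (.nd (nat_lit 0x9870a08100) (.cons (nat_lit 0x9850408000) (nat_lit 0) (.cons (nat_lit 0x9060408000) (nat_lit 1) (.nil))) .lf .lf) .lf))) (.nd (nat_lit 0x9880810000) (.cons (nat_lit 0x9850800000) (nat_lit 0) (.cons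 (nat_lit 0x9840804000) (nat_lit 0) (.cons (nat_lit 0x9060800000) (nat_lit 0) (.cons (nat_lit 0x9060800000) (nat_lit 1) (.cons (nat_lit 0x9060800000) (nat_lit 2) (.cons (nat_lit 0x9060800000) (nat_lit 3) (.cons (nat_lit 0x9050804000) (nat_lit 0) (.cons (nat_lit 0x9040808000) (nat_lit 0) (.cons (nat_lit 0x8870800000) (nat_lit 3) (.cons (nat_lit 0x8860804000) (nat_lit 1) (.nil))))))))))) (.nd (nat_lit 0x9870e08000) (.cons (nat_lit 0x9870400000) (nat_lit 1) (.cons (nat_lit 0x9870400000) (nat_lit 2) (.cons (nat_lit 0x9870400000) (nat_lit 3) (.cons (nat_lit 0x9070600000) (nat_lit 2) (.cons (nat_lit 0x9070404000) (nat_lit 1) (.nil)))))) (.nd (nat_lit 0x9870c0c000) (.cons (nat_lit 0x9860600000) (nat_lit 0) (.cons (nat_lit 0x9860600000) (nat_lit 1) (.cons (nat_lit 0x9860600000) (nat_lit 2) (.cons (nat_lit 0x9070600000) (nat_lit 1) (.cons (nat_lit 0x9070600000) (nat_lit 2) (.cons (nat_lit 0x9060800000) (nat_lit 1)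 (.cons (nat_lit 0x9060800000) (nat_lit 2) (.cons (nat_lit 0x9060800000) (nat_lit 3) (.cons (nat_lit 0x9060604000) (nat_lit 0) (.cons (nat_lit 0x8870800000) (nat_lit 3) (.cons (nat_lit 0x8870604000) (nat_lit 1) (.nil)))))))))))) (.nd (nat_lit 0x9870c08080) (.cons (nat_lit 0x9860404000) (nat_lit 0) (.cons (nat_lit 0x9070404000) (nat_lit 0) (.cons (nat_lit 0x9070404000) (nat_lit 1) (.cons (nat_lit 0x9060604000) (nat_lit 0) (.cons (nat_lit 0x9060408000) (nat_lit 1) (.cons (nat_lit 0x8870604000) (nat_lit 1) (.nil))))))) .lf .lf) (.nd (nat_lit 0x9870e04080) (.cons (nat_lit 0x9870204000) (nat_lit 0) (.cons (nat_lit 0x9070404000) (nat_lit 0) (.cons (nat_lit 0x9070404000) (nat_lit 1) (.cons (nat_lit 0x8870604000) (nat_lit 1) (.nil))))) .lf .lf)) (.nd (nat_lit 0x988080c080) (.cons (nat_lit 0x9850604000) (nat_lit 0) (.cons (nat_lit 0x9840804000) (nat_lit 0) (.cons (nat_lit 0x9060604000) (nat_lit 0) (.cons (nat_lit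 0x9050804000) (nat_lit 0) (.cons (nat_lit 0x9040808000) (nat_lit 0) (.cons (nat_lit 0x8870604000) (nat_lit 1) (.nil))))))) (.nd (nat_lit 0x9880808100) (.cons (nat_lit 0x9850408000) (nat_lit 0) (.cons (nat_lit 0x9060408000) (nat_lit 0) (.cons (nat_lit 0x9060408000) (nat_lit 1) (.cons (nat_lit 0x9040808000) (nat_lit 0) (.cons (nat_lit 0x8860608000) (nat_lit 0) (.nil)))))) .lf .lf) .lf)) (.nd (nat_lit 0x9880c08000) (.cons (nat_lit 0x9870400000) (nat_lit 0) (.cons (nat_lit 0x9870400000) (nat_lit 1) (.cons (nat_lit 0x9870400000) (nat_lit 2) (.cons (nat_lit 0x9870400000) (nat_lit 3) (.cons (nat_lit 0x9860600000) (nat_lit 0) (.cons (nat_lit 0x9860600000) (nat_lit 1) (.cons (nat_lit 0x9860600000) (nat_lit 2) (.cons (nat_lit 0x9860404000) (nat_lit 0) (.cons (nat_lit 0x9080400000) (nat_lit 1) (.cons (nat_lit 0x9080400000) (nat_lit 2) (.cons (nat_lit 0x9080400000) (nat_lit 3) (.cons (nat_lit 0x9080400000) (nat_lit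 4) (.cons (nat_lit 0x9070600000) (nat_lit 1) (.cons (nat_lit 0x9070600000) (nat_lit 2) (.cons (nat_lit 0x9070404000) (nat_lit 0) (.cons (nat_lit 0x9070404000) (nat_lit 1) (.cons (nat_lit 0x9060800000) (nat_lit 1) (.cons (nat_lit 0x9060800000) (nat_lit 2) (.cons (nat_lit 0x9060800000) (nat_lit 3) (.cons (nat_lit 0x9060604000) (nat_lit 0) (.cons (nat_lit 0x9060408000) (nat_lit 1) (.cons (nat_lit 0x8880600000) (nat_lit 3) (.cons (nat_lit 0x8880404000) (nat_lit 2) (.cons (nat_lit 0x8870800000) (nat_lit 3) (.nil))))))))))))))))))))))))) (.nd (nat_lit 0x9880a0c000) (.cons (nat_lit 0x9860600000) (nat_lit 0) (.cons (nat_lit 0x9860600000) (nat_lit 1) (.cons (nat_lit 0x9860600000) (nat_lit 2) (.cons (nat_lit 0x9850800000) (nat_lit 0) (.cons (nat_lit 0x9850604000) (nat_lit 0) (.cons (nat_lit 0x9070600000) (nat_lit 1) (.cons (nat_lit 0x9070600000) (nat_lit 2) (.cons (nat_lit 0x9060800000) (nat_lit 1) (.cons (nat_lit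 0x9060800000) (nat_lit 2) (.cons (nat_lit 0x9060800000) (nat_lit 3) (.cons (nat_lit 0x9060604000) (nat_lit 0) (.cons (nat_lit 0x9050804000) (nat_lit 0) (.cons (nat_lit 0x8880600000) (nat_lit 3) (.cons (nat_lit 0x8870604000) (nat_lit 1) (.nil))))))))))))))) (.nd (nat_lit 0x9880a08080) (.cons (nat_lit 0x9860404000) (nat_lit 0) (.cons (nat_lit 0x9850604000) (nat_lit 0) (.cons (nat_lit 0x9850408000) (nat_lit 0) (.cons (nat_lit 0x9070404000) (nat_lit 0) (.cons (nat_lit 0x9070404000) (nat_lit 1) (.cons (nat_lit 0x9060604000) (nat_lit 0) (.cons (nat_lit 0x9060408000) (nat_lit 1) (.cons (nat_lit 0x9050804000) (nat_lit 0) (.cons (nat_lit 0x8880404000) (nat_lit 2) (.cons (nat_lit 0x8870604000) (nat_lit 1) (.nil))))))))))) .lf .lf) (.nd (nat_lit 0x9880c04080) (.cons (nat_lit 0x9870204000) (nat_lit 0) (.cons (nat_lit 0x9860404000) (nat_lit 0) (.cons (nat_lit 0x9070404000) (nat_lit 1) (.cons (nat_lit 0x9060604000) (nat_lit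 0) (.cons (nat_lit 0x8880404000) (nat_lit 2) (.nil)))))) .lf .lf)) (.nd (nat_lit 0x9881000000) (.cons (nat_lit 0x9880200000) (nat_lit 0) (.cons (nat_lit 0x9880200000) (nat_lit 1) (.cons (nat_lit 0x9880200000) (nat_lit 2) (.cons (nat_lit 0x9080400000) (nat_lit 1) (.cons (nat_lit 0x9080400000) (nat_lit 2) (.cons (nat_lit 0x9080400000) (nat_lit 3) (.cons (nat_lit 0x9080400000) (nat_lit 4) (.cons (nat_lit 0x8880600000) (nat_lit 3) (.nil))))))))) (.nd (nat_lit 0x9880e04000) (.cons (nat_lit 0x9880200000) (nat_lit 0) (.cons (nat_lit 0x9880200000) (nat_lit 1) (.cons (nat_lit 0x9880200000) (nat_lit 2) (.cons (nat_lit 0x9870400000) (nat_lit 1) (.cons (nat_lit 0x9870400000) (nat_lit 2) (.cons (nat_lit 0x9870400000) (nat_lit 3) (.cons (nat_lit 0x9870204000) (nat_lit 0) (.cons (nat_lit 0x9080400000) (nat_lit 1) (.cons (nat_lit 0x9080400000) (nat_lit 2) (.cons (nat_lit 0x9080400000) (nat_lit 3) (.cons (nat_lit 0x9080400000)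 (nat_lit 4) (.cons (nat_lit 0x9070600000) (nat_lit 2) (.cons (nat_lit 0x9070404000) (nat_lit 1) (.cons (nat_lit 0x8880600000) (nat_lit 3) (.nil))))))))))))))) .lf .lf) .lf)))) (.nd (nat_lit 0x98a0c00000) (.cons (nat_lit 0x9890000000) (nat_lit 0) (.cons (nat_lit 0x9890000000) (nat_lit 1) (.cons (nat_lit 0x9880200000) (nat_lit 0) (.cons (nat_lit 0x9880200000) (nat_lit 1) (.cons (nat_lit 0x9880200000) (nat_lit 2) (.cons (nat_lit 0x9870400000) (nat_lit 1) (.cons (nat_lit 0x9870400000) (nat_lit 2) (.cons (nat_lit 0x9870400000) (nat_lit 3) (.cons (nat_lit 0x9860600000) (nat_lit 0) (.cons (nat_lit 0x9860600000) (nat_lit 1) (.cons (nat_lit 0x9860600000) (nat_lit 2) (.cons (nat_lit 0x90a0000000) (nat_lit 1) (.cons (nat_lit 0x90a0000000) (nat_lit 2) (.cons (nat_lit 0x9090200000) (nat_lit 1) (.cons (nat_lit 0x9090200000) (nat_lit 2) (.cons (nat_lit 0x9080400000) (nat_lit 1) (.cons (nat_lit 0x9080400000) (nat_lit 2)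 (.cons (nat_lit 0x9080400000) (nat_lit 3) (.cons (nat_lit 0x9080400000) (nat_lit 4) (.cons (nat_lit 0x9070600000) (nat_lit 2) (.cons (nat_lit 0x9060800000) (nat_lit 1) (.cons (nat_lit 0x9060800000) (nat_lit 2) (.cons (nat_lit 0x9060800000) (nat_lit 3) (.nil)))))))))))))))))))))))) (.nd (nat_lit 0x9890e00000) (.cons (nat_lit 0x9890000000) (nat_lit 0) (.cons (nat_lit 0x9890000000) (nat_lit 1) (.cons (nat_lit 0x9880200000) (nat_lit 1) (.cons (nat_lit 0x9880200000) (nat_lit 2) (.cons (nat_lit 0x9870400000) (nat_lit 1) (.cons (nat_lit 0x9870400000) (nat_lit 2) (.cons (nat_lit 0x9870400000) (nat_lit 3) (.cons (nat_lit 0x9090200000) (nat_lit 1) (.cons (nat_lit 0x9090200000) (nat_lit 2) (.cons (nat_lit 0x9080400000) (nat_lit 3) (.cons (nat_lit 0x9080400000) (nat_lit 4) (.cons (nat_lit 0x9070600000) (nat_lit 2) (.nil))))))))))))) (.nd (nat_lit 0x9890a04080) (.cons (nat_lit 0x9870204000) (nat_lit 0) (.cons (nat_lit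 0x9860404000) (nat_lit 0) (.cons (nat_lit 0x9850604000) (nat_lit 0) (.cons (nat_lit 0x9070404000) (nat_lit 0) (.cons (nat_lit 0x9070404000) (nat_lit 1) (.cons (nat_lit 0x9060604000) (nat_lit 0) (.cons (nat_lit 0x9050804000) (nat_lit 0) (.cons (nat_lit 0x8880404000) (nat_lit 2) (.nil))))))))) (.nd (nat_lit 0x9890808080) (.cons (nat_lit 0x9860404000) (nat_lit 0) (.cons (nat_lit 0x9850604000) (nat_lit 0) (.cons (nat_lit 0x9850408000) (nat_lit 0) (.cons (nat_lit 0x9840804000) (nat_lit 0) (.cons (nat_lit 0x9070404000) (nat_lit 0) (.cons (nat_lit 0x9070404000) (nat_lit 1) (.cons (nat_lit 0x9060604000) (nat_lit 0) (.cons (nat_lit 0x9060408000) (nat_lit 1) (.cons (nat_lit 0x9050804000) (nat_lit 0) (.cons (nat_lit 0x9040808000) (nat_lit 0) (.cons (nat_lit 0x8880404000) (nat_lit 2) (.nil)))))))))))) (.nd (nat_lit 0x989060c080) (.cons (nat_lit 0x9850604000) (nat_lit 0) (.cons (nat_lit 0x9060604000) (nat_lit 0) (.cons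 (nat_lit 0x8870604000) (nat_lit 1) (.nil)))) .lf .lf) (.nd (nat_lit 0x989080c000) (.cons (nat_lit 0x9860600000) (nat_lit 0) (.cons (nat_lit 0x9860600000) (nat_lit 1) (.cons (nat_lit 0x9860600000) (nat_lit 2) (.cons (nat_lit 0x9850800000) (nat_lit 0) (.cons (nat_lit 0x9850604000) (nat_lit 0) (.cons (nat_lit 0x9840804000) (nat_lit 0) (.cons (nat_lit 0x9070600000) (nat_lit 1) (.cons (nat_lit 0x9070600000) (nat_lit 2) (.cons (nat_lit 0x9060800000) (nat_lit 1) (.cons (nat_lit 0x9060800000) (nat_lit 2) (.cons (nat_lit 0x9060800000) (nat_lit 3) (.cons (nat_lit 0x9060604000) (nat_lit 0) (.cons (nat_lit 0x9050804000) (nat_lit 0) (.cons (nat_lit 0x9040808000) (nat_lit 0) (.cons (nat_lit 0x8880600000) (nat_lit 3) (.nil)))))))))))))))) .lf .lf)) (.nd (nat_lit 0x9890c04000) (.cons (nat_lit 0x9880200000) (nat_lit 0) (.cons (nat_lit 0x9880200000) (nat_lit 1) (.cons (nat_lit 0x9880200000) (nat_lit 2) (.cons (nat_lit 0x9870400000)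 (nat_lit 1) (.cons (nat_lit 0x9870400000) (nat_lit 2) (.cons (nat_lit 0x9870400000) (nat_lit 3) (.cons (nat_lit 0x9870204000) (nat_lit 0) (.cons (nat_lit 0x9860600000) (nat_lit 0) (.cons (nat_lit 0x9860600000) (nat_lit 1) (.cons (nat_lit 0x9860600000) (nat_lit 2) (.cons (nat_lit 0x9860404000) (nat_lit 0) (.cons (nat_lit 0x9090200000) (nat_lit 1) (.cons (nat_lit 0x9090200000) (nat_lit 2) (.cons (nat_lit 0x9080400000) (nat_lit 1) (.cons (nat_lit 0x9080400000) (nat_lit 2) (.cons (nat_lit 0x9080400000) (nat_lit 3) (.cons (nat_lit 0x9080400000) (nat_lit 4) (.cons (nat_lit 0x9070600000) (nat_lit 2) (.cons (nat_lit 0x9070404000) (nat_lit 1) (.cons (nat_lit 0x9060800000) (nat_lit 1) (.cons (nat_lit 0x9060800000) (nat_lit 2) (.cons (nat_lit 0x9060800000) (nat_lit 3) (.cons (nat_lit 0x9060604000) (nat_lit 0) (.cons (nat_lit 0x8880600000) (nat_lit 3) (.nil))))))))))))))))))))))))) (.nd (nat_lit 0x9890a08000) (.cons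 (nat_lit 0x9870400000) (nat_lit 1) (.cons (nat_lit 0x9870400000) (nat_lit 2) (.cons (nat_lit 0x9870400000) (nat_lit 3) (.cons (nat_lit 0x9860600000) (nat_lit 0) (.cons (nat_lit 0x9860600000) (nat_lit 1) (.cons (nat_lit 0x9860600000) (nat_lit 2) (.cons (nat_lit 0x9860404000) (nat_lit 0) (.cons (nat_lit 0x9850800000) (nat_lit 0) (.cons (nat_lit 0x9850604000) (nat_lit 0) (.cons (nat_lit 0x9850408000) (nat_lit 0) (.cons (nat_lit 0x9080400000) (nat_lit 1) (.cons (nat_lit 0x9080400000) (nat_lit 2) (.cons (nat_lit 0x9080400000) (nat_lit 3) (.cons (nat_lit 0x9080400000) (nat_lit 4) (.cons (nat_lit 0x9070600000) (nat_lit 2) (.cons (nat_lit 0x9070404000) (nat_lit 1) (.cons (nat_lit 0x9060800000) (nat_lit 1) (.cons (nat_lit 0x9060800000) (nat_lit 2) (.cons (nat_lit 0x9060800000) (nat_lit 3) (.cons (nat_lit 0x9060604000) (nat_lit 0) (.cons (nat_lit 0x9060408000) (nat_lit 1) (.cons (nat_lit 0x9050804000) (nat_lit 0)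 (.cons (nat_lit 0x8880600000) (nat_lit 3) (.nil)))))))))))))))))))))))) .lf .lf) .lf)) (.nd (nat_lit 0x98a0804080) (.cons (nat_lit 0x9870204000) (nat_lit 0) (.cons (nat_lit 0x9860404000) (nat_lit 0) (.cons (nat_lit 0x9850604000) (nat_lit 0) (.cons (nat_lit 0x9840804000) (nat_lit 0) (.cons (nat_lit 0x9070404000) (nat_lit 1) (.cons (nat_lit 0x9060604000) (nat_lit 0) (.cons (nat_lit 0x9050804000) (nat_lit 0) (.nil)))))))) (.nd (nat_lit 0x98a0608080) (.cons (nat_lit 0x9860404000) (nat_lit 0) (.cons (nat_lit 0x9850604000) (nat_lit 0) (.cons (nat_lit 0x9850408000) (nat_lit 0) (.cons (nat_lit 0x9070404000) (nat_lit 0) (.cons (nat_lit 0x9070404000) (nat_lit 1) (.cons (nat_lit 0x9060604000) (nat_lit 0) (.cons (nat_lit 0x9060408000) (nat_lit 1) (.nil)))))))) (.nd (nat_lit 0x98a0408100) (.cons (nat_lit 0x9850408000) (nat_lit 0) (.cons (nat_lit 0x9060408000) (nat_lit 0) (.cons (nat_lit 0x9060408000) (nat_lit 1) (.nil))))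 .lf .lf) (.nd (nat_lit 0x98a060c000) (.cons (nat_lit 0x9860600000) (nat_lit 0) (.cons (nat_lit 0x9860600000) (nat_lit 1) (.cons (nat_lit 0x9860600000) (nat_lit 2) (.cons (nat_lit 0x9850604000) (nat_lit 0) (.cons (nat_lit 0x9070600000) (nat_lit 2) (.cons (nat_lit 0x9060604000) (nat_lit 0) (.nil))))))) .lf .lf)) (.nd (nat_lit 0x98a0a04000) (.cons (nat_lit 0x9880200000) (nat_lit 0) (.cons (nat_lit 0x9880200000) (nat_lit 1) (.cons (nat_lit 0x9880200000) (nat_lit 2) (.cons (nat_lit 0x9870400000) (nat_lit 1) (.cons (nat_lit 0x9870400000) (nat_lit 2) (.cons (nat_lit 0x9870400000) (nat_lit 3) (.cons (nat_lit 0x9870204000) (nat_lit 0) (.cons (nat_lit 0x9860600000) (nat_lit 0) (.cons (nat_lit 0x9860600000) (nat_lit 1) (.cons (nat_lit 0x9860600000) (nat_lit 2) (.cons (nat_lit 0x9860404000) (nat_lit 0) (.cons (nat_lit 0x9850800000) (nat_lit 0) (.cons (nat_lit 0x9850604000) (nat_lit 0) (.cons (nat_lit 0x9090200000) (nat_lit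 1) (.cons (nat_lit 0x9090200000) (nat_lit 2) (.cons (nat_lit 0x9080400000) (nat_lit 1) (.cons (nat_lit 0x9080400000) (nat_lit 2) (.cons (nat_lit 0x9080400000) (nat_lit 3) (.cons (nat_lit 0x9080400000) (nat_lit 4) (.cons (nat_lit 0x9070600000) (nat_lit 2) (.cons (nat_lit 0x9070404000) (nat_lit 1) (.cons (nat_lit 0x9060800000) (nat_lit 1) (.cons (nat_lit 0x9060800000) (nat_lit 2) (.cons (nat_lit 0x9060800000) (nat_lit 3) (.cons (nat_lit 0x9060604000) (nat_lit 0) (.cons (nat_lit 0x9050804000) (nat_lit 0) (.nil))))))))))))))))))))))))))) (.nd (nat_lit 0x98a0808000) (.cons (nat_lit 0x9870400000) (nat_lit 0) (.cons (nat_lit 0x9870400000) (nat_lit 1) (.cons (nat_lit 0x9870400000) (nat_lit 2) (.cons (nat_lit 0x9870400000) (nat_lit 3) (.cons (nat_lit 0x9860600000) (nat_lit 0) (.cons (nat_lit 0x9860600000) (nat_lit 1) (.cons (nat_lit 0x9860600000) (nat_lit 2) (.cons (nat_lit 0x9860404000) (nat_lit 0) (.cons (nat_lit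 0x9850800000) (nat_lit 0) (.cons (nat_lit 0x9850604000) (nat_lit 0) (.cons (nat_lit 0x9850408000) (nat_lit 0) (.cons (nat_lit 0x9840804000) (nat_lit 0) (.cons (nat_lit 0x9080400000) (nat_lit 1) (.cons (nat_lit 0x9080400000) (nat_lit 2) (.cons (nat_lit 0x9080400000) (nat_lit 3) (.cons (nat_lit 0x9080400000) (nat_lit 4) (.cons (nat_lit 0x9070600000) (nat_lit 1) (.cons (nat_lit 0x9070600000) (nat_lit 2) (.cons (nat_lit 0x9070404000) (nat_lit 0) (.cons (nat_lit 0x9070404000) (nat_lit 1) (.cons (nat_lit 0x9060800000) (nat_lit 1) (.cons (nat_lit 0x9060800000) (nat_lit 2) (.cons (nat_lit 0x9060800000) (nat_lit 3) (.cons (nat_lit 0x9060604000) (nat_lit 0) (.cons (nat_lit 0x9060408000) (nat_lit 1) (.cons (nat_lit 0x9050804000) (nat_lit 0) (.cons (nat_lit 0x9040808000) (nat_lit 0) (.nil)))))))))))))))))))))))))))) .lf .lf) .lf))) (.nd (nat_lit 0x98c0408000) (.cons (nat_lit 0x9870400000) (nat_lit 0) (.cons (nat_lit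 0x9870400000) (nat_lit 1) (.cons (nat_lit 0x9870400000) (nat_lit 2) (.cons (nat_lit 0x9870400000) (nat_lit 3) (.cons (nat_lit 0x9860404000) (nat_lit 0) (.cons (nat_lit 0x9850408000) (nat_lit 0) (.cons (nat_lit 0x9080400000) (nat_lit 1) (.cons (nat_lit 0x9080400000) (nat_lit 2) (.cons (nat_lit 0x9080400000) (nat_lit 3) (.cons (nat_lit 0x9080400000) (nat_lit 4) (.cons (nat_lit 0x9070404000) (nat_lit 1) (.nil)))))))))))) (.nd (nat_lit 0x98b0804000) (.cons (nat_lit 0x9880200000) (nat_lit 0) (.cons (nat_lit 0x9880200000) (nat_lit 1) (.cons (nat_lit 0x9880200000) (nat_lit 2) (.cons (nat_lit 0x9870400000) (nat_lit 1) (.cons (nat_lit 0x9870400000) (nat_lit 2) (.cons (nat_lit 0x9870400000) (nat_lit 3) (.cons (nat_lit 0x9870204000) (nat_lit 0) (.cons (nat_lit 0x9860600000) (nat_lit 0) (.cons (nat_lit 0x9860600000) (nat_lit 1) (.cons (nat_lit 0x9860600000) (nat_lit 2) (.cons (nat_lit 0x9860404000) (nat_lit 0) (.cons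 (nat_lit 0x9850800000) (nat_lit 0) (.cons (nat_lit 0x9850604000) (nat_lit 0) (.cons (nat_lit 0x9840804000) (nat_lit 0) (.cons (nat_lit 0x9090200000) (nat_lit 1) (.cons (nat_lit 0x9090200000) (nat_lit 2) (.cons (nat_lit 0x9080400000) (nat_lit 1) (.cons (nat_lit 0x9080400000) (nat_lit 2) (.cons (nat_lit 0x9080400000) (nat_lit 3) (.cons (nat_lit 0x9080400000) (nat_lit 4) (.cons (nat_lit 0x9070600000) (nat_lit 2) (.cons (nat_lit 0x9070404000) (nat_lit 1) (.cons (nat_lit 0x9060800000) (nat_lit 1) (.cons (nat_lit 0x9060800000) (nat_lit 2) (.cons (nat_lit 0x9060800000) (nat_lit 3) (.nil)))))))))))))))))))))))))) (.nd (nat_lit 0x98b0604080) (.cons (nat_lit 0x9870204000) (nat_lit 0) (.cons (nat_lit 0x9860404000) (nat_lit 0) (.cons (nat_lit 0x9850604000) (nat_lit 0) (.cons (nat_lit 0x9070404000) (nat_lit 0) (.cons (nat_lit 0x9070404000) (nat_lit 1) (.cons (nat_lit 0x9060604000) (nat_lit 0) (.nil))))))) (.nd (nat_lit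 0x98b0408080) (.cons (nat_lit 0x9860404000) (nat_lit 0) (.cons (nat_lit 0x9850408000) (nat_lit 0) (.cons (nat_lit 0x9070404000) (nat_lit 0) (.cons (nat_lit 0x9070404000) (nat_lit 1) (.nil))))) .lf .lf) (.nd (nat_lit 0x98b0608000) (.cons (nat_lit 0x9870400000) (nat_lit 1) (.cons (nat_lit 0x9870400000) (nat_lit 2) (.cons (nat_lit 0x9870400000) (nat_lit 3) (.cons (nat_lit 0x9860600000) (nat_lit 0) (.cons (nat_lit 0x9860600000) (nat_lit 1) (.cons (nat_lit 0x9860600000) (nat_lit 2) (.cons (nat_lit 0x9860404000) (nat_lit 0) (.cons (nat_lit 0x9850604000) (nat_lit 0) (.cons (nat_lit 0x9850408000) (nat_lit 0) (.cons (nat_lit 0x9080400000) (nat_lit 1) (.cons (nat_lit 0x9080400000) (nat_lit 2) (.cons (nat_lit 0x9080400000) (nat_lit 3) (.cons (nat_lit 0x9080400000) (nat_lit 4) (.cons (nat_lit 0x9070600000) (nat_lit 2) (.cons (nat_lit 0x9070404000) (nat_lit 1) (.cons (nat_lit 0x9060604000) (nat_lit 0) (.nil)))))))))))))))))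 .lf .lf)) (.nd (nat_lit 0x98c0404080) (.cons (nat_lit 0x9870204000) (nat_lit 0) (.cons (nat_lit 0x9860404000) (nat_lit 0) (.cons (nat_lit 0x9070404000) (nat_lit 1) (.nil)))) (.nd (nat_lit 0x98b0a00000) (.cons (nat_lit 0x9890000000) (nat_lit 0) (.cons (nat_lit 0x9890000000) (nat_lit 1) (.cons (nat_lit 0x9880200000) (nat_lit 1) (.cons (nat_lit 0x9880200000) (nat_lit 2) (.cons (nat_lit 0x9870400000) (nat_lit 1) (.cons (nat_lit 0x9870400000) (nat_lit 2) (.cons (nat_lit 0x9870400000) (nat_lit 3) (.cons (nat_lit 0x9860600000) (nat_lit 0) (.cons (nat_lit 0x9860600000) (nat_lit 1) (.cons (nat_lit 0x9860600000) (nat_lit 2) (.cons (nat_lit 0x9850800000) (nat_lit 0) (.cons (nat_lit 0x90a0000000) (nat_lit 1) (.cons (nat_lit 0x90a0000000) (nat_lit 2) (.cons (nat_lit 0x9090200000) (nat_lit 1) (.cons (nat_lit 0x9090200000) (nat_lit 2) (.cons (nat_lit 0x9080400000) (nat_lit 3) (.cons (nat_lit 0x9080400000) (nat_lit 4) (.cons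 (nat_lit 0x9070600000) (nat_lit 2) (.nil))))))))))))))))))) .lf .lf) .lf)) (.nd (nat_lit 0x98d0404000) (.cons (nat_lit 0x9880200000) (nat_lit 0) (.cons (nat_lit 0x9880200000) (nat_lit 1) (.cons (nat_lit 0x9880200000) (nat_lit 2) (.cons (nat_lit 0x9870400000) (nat_lit 1) (.cons (nat_lit 0x9870400000) (nat_lit 2) (.cons (nat_lit 0x9870400000) (nat_lit 3) (.cons (nat_lit 0x9870204000) (nat_lit 0) (.cons (nat_lit 0x9860404000) (nat_lit 0) (.cons (nat_lit 0x9090200000) (nat_lit 1) (.cons (nat_lit 0x9090200000) (nat_lit 2) (.cons (nat_lit 0x9080400000) (nat_lit 2) (.nil)))))))))))) (.nd (nat_lit 0x98c0800000) (.cons (nat_lit 0x9890000000) (nat_lit 0) (.cons (nat_lit 0x9890000000) (nat_lit 1) (.cons (nat_lit 0x9880200000) (nat_lit 0) (.cons (nat_lit 0x9880200000) (nat_lit 1) (.cons (nat_lit 0x9880200000) (nat_lit 2) (.cons (nat_lit 0x9870400000) (nat_lit 1) (.cons (nat_lit 0x9870400000) (nat_lit 2) (.cons (nat_lit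 0x9870400000) (nat_lit 3) (.cons (nat_lit 0x9860600000) (nat_lit 0) (.cons (nat_lit 0x9860600000) (nat_lit 1) (.cons (nat_lit 0x9860600000) (nat_lit 2) (.cons (nat_lit 0x9850800000) (nat_lit 0) (.cons (nat_lit 0x90a0000000) (nat_lit 1) (.cons (nat_lit 0x90a0000000) (nat_lit 2) (.cons (nat_lit 0x9090200000) (nat_lit 1) (.cons (nat_lit 0x9090200000) (nat_lit 2) (.cons (nat_lit 0x9080400000) (nat_lit 1) (.cons (nat_lit 0x9080400000) (nat_lit 2) (.cons (nat_lit 0x9080400000) (nat_lit 3) (.cons (nat_lit 0x9080400000) (nat_lit 4) (.cons (nat_lit 0x9070600000) (nat_lit 2) (.nil)))))))))))))))))))))) (.nd (nat_lit 0x98c0604000) (.cons (nat_lit 0x9880200000) (nat_lit 0) (.cons (nat_lit 0x9880200000) (nat_lit 1) (.cons (nat_lit 0x9880200000) (nat_lit 2) (.cons (nat_lit 0x9870400000) (nat_lit 1) (.cons (nat_lit 0x9870400000) (nat_lit 2) (.cons (nat_lit 0x9870400000) (nat_lit 3) (.cons (nat_lit 0x9870204000) (nat_lit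 0) (.cons (nat_lit 0x9860600000) (nat_lit 0) (.cons (nat_lit 0x9860600000) (nat_lit 1) (.cons (nat_lit 0x9860600000) (nat_lit 2) (.cons (nat_lit 0x9860404000) (nat_lit 0) (.cons (nat_lit 0x9850604000) (nat_lit 0) (.cons (nat_lit 0x9090200000) (nat_lit 1) (.cons (nat_lit 0x9090200000) (nat_lit 2) (.cons (nat_lit 0x9080400000) (nat_lit 2) (.cons (nat_lit 0x9080400000) (nat_lit 3) (.cons (nat_lit 0x9080400000) (nat_lit 4) (.nil)))))))))))))))))) .lf .lf) (.nd (nat_lit 0x98d0204080) (.cons (nat_lit 0x9870204000) (nat_lit 0) (.nil)) .lf .lf)) (.nd (nat_lit 0x98e0204000) (.cons (nat_lit 0x9880200000) (nat_lit 1) (.cons (nat_lit 0x9880200000) (nat_lit 2) (.cons (nat_lit 0x9870204000) (nat_lit 0) (.nil)))) (.nd (nat_lit 0x98d0600000) (.cons (nat_lit 0x9890000000) (nat_lit 0) (.cons (nat_lit 0x9890000000) (nat_lit 1) (.cons (nat_lit 0x9880200000) (nat_lit 1) (.cons (nat_lit 0x9880200000) (nat_lit 2) (.cons (nat_lit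 0x9870400000) (nat_lit 1) (.cons (nat_lit 0x9870400000) (nat_lit 2) (.cons (nat_lit 0x9870400000) (nat_lit 3) (.cons (nat_lit 0x9860600000) (nat_lit 0) (.cons (nat_lit 0x9860600000) (nat_lit 1) (.cons (nat_lit 0x9860600000) (nat_lit 2) (.cons (nat_lit 0x90a0000000) (nat_lit 1) (.cons (nat_lit 0x90a0000000) (nat_lit 2) (.cons (nat_lit 0x9090200000) (nat_lit 2) (.nil)))))))))))))) .lf .lf) .lf)))))

noncomputable def tP_5_7_12 : PTr := (.nd (nat_lit 0xa09060c000) (.cons (nat_lit 0xa050600000) (nat_lit 0) (.cons (nat_lit 0x9860600000) (nat_lit 1) (.cons (nat_lit 0x9860600000) (nat_lit 2) (.cons (nat_lit 0x9850604000) (nat_lit 0) (.cons (nat_lit 0x9070600000) (nat_lit 2) (.nil)))))) (.nd (nat_lit 0xa070a0c000) (.cons (nat_lit 0xa050600000) (nat_lit 0) (.cons (nat_lit 0x9860600000) (nat_lit 1) (.cons (nat_lit 0x9860600000) (nat_lit 2) (.cons (nat_lit 0x9850800000) (nat_lit 0) (.cons (nat_lit 0x9850604000) (nat_lit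 0) (.cons (nat_lit 0x9070600000) (nat_lit 2) (.cons (nat_lit 0x9060800000) (nat_lit 2) (.cons (nat_lit 0x9060800000) (nat_lit 3) (.nil))))))))) (.nd (nat_lit 0xa060a10000) (.cons (nat_lit 0x9850800000) (nat_lit 0) (.cons (nat_lit 0x9060800000) (nat_lit 2) (.cons (nat_lit 0x9060800000) (nat_lit 3) (.nil)))) (.nd (nat_lit 0xa06080c100) (.cons (nat_lit 0x9040808000) (nat_lit 0) (.nil)) (.nd (nat_lit 0x9900000000) (.cons (nat_lit 0x9890000000) (nat_lit 0) (.cons (nat_lit 0x9890000000) (nat_lit 1) (.nil))) (.nd (nat_lit 0x98f0200000) (.cons (nat_lit 0x9890000000) (nat_lit 0) (.cons (nat_lit 0x9890000000) (nat_lit 1) (.cons (nat_lit 0x9880200000) (nat_lit 1) (.cons (nat_lit 0x9880200000) (nat_lit 2) (.nil))))) .lf .lf) (.nd (nat_lit 0xa050810100) (.cons (nat_lit 0x9040808000) (nat_lit 0) (.nil)) .lf .lf)) (.nd (nat_lit 0xa060a08100) (.cons (nat_lit 0x9850408000) (nat_lit 0) (.cons (nat_lit 0x9060408000) (nat_lit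 1) (.nil))) (.nd (nat_lit 0xa060810080) (.cons (nat_lit 0x9840804000) (nat_lit 0) (.cons (nat_lit 0x9050804000) (nat_lit 0) (.cons (nat_lit 0x9040808000) (nat_lit 0) (.nil)))) .lf .lf) (.nd (nat_lit 0xa060a0c080) (.cons (nat_lit 0x9850604000) (nat_lit 0) (.cons (nat_lit 0x9060604000) (nat_lit 0) (.nil))) .lf .lf))) (.nd (nat_lit 0xa07080c080) (.cons (nat_lit 0x9850604000) (nat_lit 0) (.cons (nat_lit 0x9840804000) (nat_lit 0) (.cons (nat_lit 0x9060604000) (nat_lit 0) (.cons (nat_lit 0x9040808000) (nat_lit 0) (.nil))))) (.nd (nat_lit 0xa060c0c000) (.cons (nat_lit 0x9860600000) (nat_lit 0) (.cons (nat_lit 0x9860600000) (nat_lit 1) (.cons (nat_lit 0x9860600000) (nat_lit 2) (.cons (nat_lit 0x9060800000) (nat_lit 1) (.cons (nat_lit 0x9060800000) (nat_lit 2) (.cons (nat_lit 0x9060800000) (nat_lit 3) (.nil))))))) (.nd (nat_lit 0xa060c08080) (.cons (nat_lit 0x9860404000) (nat_lit 0) (.cons (nat_lit 0x9060604000)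 (nat_lit 0) (.cons (nat_lit 0x9060408000) (nat_lit 1) (.nil)))) .lf .lf) (.nd (nat_lit 0xa070808100) (.cons (nat_lit 0xa040408000) (nat_lit 0) (.cons (nat_lit 0x9850408000) (nat_lit 0) (.cons (nat_lit 0x9060408000) (nat_lit 1) (.nil)))) .lf .lf)) (.nd (nat_lit 0xa070a08080) (.cons (nat_lit 0xa050404000) (nat_lit 0) (.cons (nat_lit 0x9860404000) (nat_lit 0) (.cons (nat_lit 0x9850604000) (nat_lit 0) (.cons (nat_lit 0x9850408000) (nat_lit 0) (.cons (nat_lit 0x9070404000) (nat_lit 1) (.cons (nat_lit 0x9060408000) (nat_lit 1) (.nil))))))) (.nd (nat_lit 0xa070810000) (.cons (nat_lit 0xa040800000) (nat_lit 0) (.cons (nat_lit 0xa040800000) (nat_lit 1) (.cons (nat_lit 0x9850800000) (nat_lit 0) (.cons (nat_lit 0x9840804000) (nat_lit 0) (.cons (nat_lit 0x9060800000) (nat_lit 1) (.cons (nat_lit 0x9060800000) (nat_lit 2) (.cons (nat_lit 0x9060800000) (nat_lit 3) (.nil)))))))) .lf .lf) .lf))) (.nd (nat_lit 0xa08080c000)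 (.cons (nat_lit 0xa050600000) (nat_lit 0) (.cons (nat_lit 0xa040800000) (nat_lit 0) (.cons (nat_lit 0xa040800000) (nat_lit 1) (.cons (nat_lit 0x9860600000) (nat_lit 0) (.cons (nat_lit 0x9860600000) (nat_lit 1) (.cons (nat_lit 0x9860600000) (nat_lit 2) (.cons (nat_lit 0x9850800000) (nat_lit 0) (.cons (nat_lit 0x9850604000) (nat_lit 0) (.cons (nat_lit 0x9840804000) (nat_lit 0) (.cons (nat_lit 0x9070600000) (nat_lit 2) (.cons (nat_lit 0x9060800000) (nat_lit 2) (.cons (nat_lit 0x9060800000) (nat_lit 3) (.nil))))))))))))) (.nd (nat_lit 0xa080608100) (.cons (nat_lit 0xa040408000) (nat_lit 0) (.cons (nat_lit 0x9850408000) (nat_lit 0) (.cons (nat_lit 0x9060408000) (nat_lit 1) (.nil)))) (.nd (nat_lit 0xa070c08000) (.cons (nat_lit 0xa060400000) (nat_lit 0) (.cons (nat_lit 0xa060400000) (nat_lit 1) (.cons (nat_lit 0xa060400000) (nat_lit 2) (.cons (nat_lit 0xa060400000) (nat_lit 3) (.cons (nat_lit 0x9870400000) (nat_lit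 1) (.cons (nat_lit 0x9870400000) (nat_lit 2) (.cons (nat_lit 0x9870400000) (nat_lit 3) (.cons (nat_lit 0x9860600000) (nat_lit 1) (.cons (nat_lit 0x9860600000) (nat_lit 2) (.cons (nat_lit 0x9860404000) (nat_lit 0) (.cons (nat_lit 0x9070600000) (nat_lit 2) (.cons (nat_lit 0x9070404000) (nat_lit 1) (.cons (nat_lit 0x9060800000) (nat_lit 3) (.nil)))))))))))))) (.nd (nat_lit 0xa070c04080) (.cons (nat_lit 0x9870204000) (nat_lit 0) (.cons (nat_lit 0x9860404000) (nat_lit 0) (.cons (nat_lit 0x9070404000) (nat_lit 1) (.nil)))) .lf .lf) (.nd (nat_lit 0xa070e04000) (.cons (nat_lit 0xa070200000) (nat_lit 0) (.cons (nat_lit 0xa070200000) (nat_lit 1) (.cons (nat_lit 0x9870400000) (nat_lit 2) (.cons (nat_lit 0x9870400000) (nat_lit 3) (.cons (nat_lit 0x9870204000) (nat_lit 0) (.cons (nat_lit 0x9070600000) (nat_lit 2) (.nil))))))) .lf .lf)) (.nd (nat_lit 0xa080808080) (.cons (nat_lit 0xa050404000) (nat_lit 0) (.cons (nat_lit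 0xa040408000) (nat_lit 0) (.cons (nat_lit 0x9860404000) (nat_lit 0) (.cons (nat_lit 0x9850604000) (nat_lit 0) (.cons (nat_lit 0x9850408000) (nat_lit 0) (.cons (nat_lit 0x9840804000) (nat_lit 0) (.cons (nat_lit 0x9070404000) (nat_lit 1) (.cons (nat_lit 0x9060604000) (nat_lit 0) (.cons (nat_lit 0x9060408000) (nat_lit 1) (.nil)))))))))) (.nd (nat_lit 0xa08060c080) (.cons (nat_lit 0x9850604000) (nat_lit 0) (.nil)) .lf .lf) .lf)) (.nd (nat_lit 0xa080e00000) (.cons (nat_lit 0xa080000000) (nat_lit 0) (.cons (nat_lit 0xa080000000) (nat_lit 1) (.cons (nat_lit 0xa080000000) (nat_lit 2) (.cons (nat_lit 0xa070200000) (nat_lit 0) (.cons (nat_lit 0xa070200000) (nat_lit 1) (.cons (nat_lit 0x9880200000) (nat_lit 1) (.cons (nat_lit 0x9880200000) (nat_lit 2) (.cons (nat_lit 0x9870400000) (nat_lit 2) (.cons (nat_lit 0x9870400000) (nat_lit 3) (.cons (nat_lit 0x9080400000) (nat_lit 4) (.nil))))))))))) (.nd (nat_lit 0xa080a08000)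 (.cons (nat_lit 0xa060400000) (nat_lit 0) (.cons (nat_lit 0xa060400000) (nat_lit 1) (.cons (nat_lit 0xa060400000) (nat_lit 2) (.cons (nat_lit 0xa060400000) (nat_lit 3) (.cons (nat_lit 0xa050600000) (nat_lit 0) (.cons (nat_lit 0xa050404000) (nat_lit 0) (.cons (nat_lit 0x9870400000) (nat_lit 1) (.cons (nat_lit 0x9870400000) (nat_lit 2) (.cons (nat_lit 0x9870400000) (nat_lit 3) (.cons (nat_lit 0x9860600000) (nat_lit 1) (.cons (nat_lit 0x9860600000) (nat_lit 2) (.cons (nat_lit 0x9860404000) (nat_lit 0) (.cons (nat_lit 0x9850800000) (nat_lit 0) (.cons (nat_lit 0x9850604000) (nat_lit 0) (.cons (nat_lit 0x9850408000) (nat_lit 0) (.cons (nat_lit 0x9080400000) (nat_lit 3) (.cons (nat_lit 0x9080400000) (nat_lit 4) (.cons (nat_lit 0x9070600000) (nat_lit 2) (.cons (nat_lit 0x9070404000) (nat_lit 1) (.cons (nat_lit 0x9060800000) (nat_lit 3) (.nil))))))))))))))))))))) (.nd (nat_lit 0xa080a04080) (.cons (nat_lit 0xa050404000)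 (nat_lit 0) (.cons (nat_lit 0x9870204000) (nat_lit 0) (.cons (nat_lit 0x9860404000) (nat_lit 0) (.cons (nat_lit 0x9850604000) (nat_lit 0) (.cons (nat_lit 0x9070404000) (nat_lit 1) (.nil)))))) .lf .lf) (.nd (nat_lit 0xa080c04000) (.cons (nat_lit 0xa070200000) (nat_lit 0) (.cons (nat_lit 0xa070200000) (nat_lit 1) (.cons (nat_lit 0xa060400000) (nat_lit 0) (.cons (nat_lit 0xa060400000) (nat_lit 1) (.cons (nat_lit 0xa060400000) (nat_lit 2) (.cons (nat_lit 0xa060400000) (nat_lit 3) (.cons (nat_lit 0x9880200000) (nat_lit 1) (.cons (nat_lit 0x9880200000) (nat_lit 2) (.cons (nat_lit 0x9870400000) (nat_lit 1) (.cons (nat_lit 0x9870400000) (nat_lit 2) (.cons (nat_lit 0x9870400000) (nat_lit 3) (.cons (nat_lit 0x9870204000) (nat_lit 0) (.cons (nat_lit 0x9860600000) (nat_lit 1) (.cons (nat_lit 0x9860600000) (nat_lit 2) (.cons (nat_lit 0x9860404000) (nat_lit 0) (.cons (nat_lit 0x9080400000) (nat_lit 3) (.cons (nat_lit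 0x9080400000) (nat_lit 4) (.cons (nat_lit 0x9070600000) (nat_lit 2) (.cons (nat_lit 0x9060800000) (nat_lit 3) (.nil)))))))))))))))))))) .lf .lf)) (.nd (nat_lit 0xa090608080) (.cons (nat_lit 0xa050404000) (nat_lit 0) (.cons (nat_lit 0xa040408000) (nat_lit 0) (.cons (nat_lit 0x9860404000) (nat_lit 0) (.cons (nat_lit 0x9850604000) (nat_lit 0) (.cons (nat_lit 0x9850408000) (nat_lit 0) (.cons (nat_lit 0x9070404000) (nat_lit 1) (.nil))))))) (.nd (nat_lit 0xa090408100) (.cons (nat_lit 0xa040408000) (nat_lit 0) (.cons (nat_lit 0x9850408000) (nat_lit 0) (.nil))) .lf .lf) .lf)))) (.nd (nat_lit 0xa0c0404000) (.cons (nat_lit 0xa070200000) (nat_lit 0) (.cons (nat_lit 0xa070200000) (nat_lit 1) (.cons (nat_lit 0xa060400000) (nat_lit 0) (.cons (nat_lit 0xa060400000) (nat_lit 1) (.cons (nat_lit 0xa060400000) (nat_lit 2) (.cons (nat_lit 0xa060400000) (nat_lit 3) (.cons (nat_lit 0xa050404000) (nat_lit 0) (.cons (nat_lit 0x9880200000)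 (nat_lit 1) (.cons (nat_lit 0x9880200000) (nat_lit 2) (.cons (nat_lit 0x9870400000) (nat_lit 2) (.cons (nat_lit 0x9870400000) (nat_lit 3) (.cons (nat_lit 0x9870204000) (nat_lit 0) (.nil))))))))))))) (.nd (nat_lit 0xa0a0608000) (.cons (nat_lit 0xa060400000) (nat_lit 0) (.cons (nat_lit 0xa060400000) (nat_lit 1) (.cons (nat_lit 0xa060400000) (nat_lit 2) (.cons (nat_lit 0xa060400000) (nat_lit 3) (.cons (nat_lit 0xa050600000) (nat_lit 0) (.cons (nat_lit 0xa050404000) (nat_lit 0) (.cons (nat_lit 0xa040408000) (nat_lit 0) (.cons (nat_lit 0x9870400000) (nat_lit 1) (.cons (nat_lit 0x9870400000) (nat_lit 2) (.cons (nat_lit 0x9870400000) (nat_lit 3) (.cons (nat_lit 0x9860600000) (nat_lit 1) (.cons (nat_lit 0x9860600000) (nat_lit 2) (.cons (nat_lit 0x9860404000) (nat_lit 0) (.cons (nat_lit 0x9850604000) (nat_lit 0) (.cons (nat_lit 0x9850408000) (nat_lit 0) (.cons (nat_lit 0x9080400000) (nat_lit 4) (.nil)))))))))))))))))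 (.nd (nat_lit 0xa090c00000) (.cons (nat_lit 0xa080000000) (nat_lit 0) (.cons (nat_lit 0xa080000000) (nat_lit 1) (.cons (nat_lit 0xa080000000) (nat_lit 2) (.cons (nat_lit 0xa070200000) (nat_lit 0) (.cons (nat_lit 0xa070200000) (nat_lit 1) (.cons (nat_lit 0xa060400000) (nat_lit 0) (.cons (nat_lit 0xa060400000) (nat_lit 1) (.cons (nat_lit 0xa060400000) (nat_lit 2) (.cons (nat_lit 0xa060400000) (nat_lit 3) (.cons (nat_lit 0x9890000000) (nat_lit 1) (.cons (nat_lit 0x9880200000) (nat_lit 1) (.cons (nat_lit 0x9880200000) (nat_lit 2) (.cons (nat_lit 0x9870400000) (nat_lit 2) (.cons (nat_lit 0x9870400000) (nat_lit 3) (.cons (nat_lit 0x9860600000) (nat_lit 1) (.cons (nat_lit 0x9860600000) (nat_lit 2) (.cons (nat_lit 0x9090200000) (nat_lit 2) (.cons (nat_lit 0x9080400000) (nat_lit 3) (.nil))))))))))))))))))) (.nd (nat_lit 0xa090808000) (.cons (nat_lit 0xa060400000) (nat_lit 0) (.cons (nat_lit 0xa060400000) (nat_lit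 1) (.cons (nat_lit 0xa060400000) (nat_lit 2) (.cons (nat_lit 0xa060400000) (nat_lit 3) (.cons (nat_lit 0xa050600000) (nat_lit 0) (.cons (nat_lit 0xa050404000) (nat_lit 0) (.cons (nat_lit 0xa040800000) (nat_lit 0) (.cons (nat_lit 0xa040800000) (nat_lit 1) (.cons (nat_lit 0xa040408000) (nat_lit 0) (.cons (nat_lit 0x9870400000) (nat_lit 1) (.cons (nat_lit 0x9870400000) (nat_lit 2) (.cons (nat_lit 0x9870400000) (nat_lit 3) (.cons (nat_lit 0x9860600000) (nat_lit 1) (.cons (nat_lit 0x9860600000) (nat_lit 2) (.cons (nat_lit 0x9860404000) (nat_lit 0) (.cons (nat_lit 0x9850800000) (nat_lit 0) (.cons (nat_lit 0x9850604000) (nat_lit 0) (.cons (nat_lit 0x9850408000) (nat_lit 0) (.cons (nat_lit 0x9840804000) (nat_lit 0) (.cons (nat_lit 0x9080400000) (nat_lit 3) (.cons (nat_lit 0x9080400000) (nat_lit 4) (.cons (nat_lit 0x9070600000) (nat_lit 2) (.cons (nat_lit 0x9070404000) (nat_lit 1) (.nil)))))))))))))))))))))))) (.nd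 (nat_lit 0xa090804080) (.cons (nat_lit 0xa050404000) (nat_lit 0) (.cons (nat_lit 0x9870204000) (nat_lit 0) (.cons (nat_lit 0x9860404000) (nat_lit 0) (.cons (nat_lit 0x9850604000) (nat_lit 0) (.cons (nat_lit 0x9840804000) (nat_lit 0) (.cons (nat_lit 0x9070404000) (nat_lit 1) (.nil))))))) .lf .lf) (.nd (nat_lit 0xa090a04000) (.cons (nat_lit 0xa070200000) (nat_lit 0) (.cons (nat_lit 0xa070200000) (nat_lit 1) (.cons (nat_lit 0xa060400000) (nat_lit 0) (.cons (nat_lit 0xa060400000) (nat_lit 1) (.cons (nat_lit 0xa060400000) (nat_lit 2) (.cons (nat_lit 0xa060400000) (nat_lit 3) (.cons (nat_lit 0xa050600000) (nat_lit 0) (.cons (nat_lit 0xa050404000) (nat_lit 0) (.cons (nat_lit 0x9880200000) (nat_lit 1) (.cons (nat_lit 0x9880200000) (nat_lit 2) (.cons (nat_lit 0x9870400000) (nat_lit 2) (.cons (nat_lit 0x9870400000) (nat_lit 3) (.cons (nat_lit 0x9870204000) (nat_lit 0) (.cons (nat_lit 0x9860600000) (nat_lit 1) (.cons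 (nat_lit 0x9860600000) (nat_lit 2) (.cons (nat_lit 0x9860404000) (nat_lit 0) (.cons (nat_lit 0x9850800000) (nat_lit 0) (.cons (nat_lit 0x9850604000) (nat_lit 0) (.cons (nat_lit 0x9090200000) (nat_lit 2) (.cons (nat_lit 0x9080400000) (nat_lit 4) (.cons (nat_lit 0x9070600000) (nat_lit 2) (.nil)))))))))))))))))))))) .lf .lf)) (.nd (nat_lit 0xa0a0604080) (.cons (nat_lit 0xa050404000) (nat_lit 0) (.cons (nat_lit 0x9870204000) (nat_lit 0) (.cons (nat_lit 0x9860404000) (nat_lit 0) (.cons (nat_lit 0x9850604000) (nat_lit 0) (.nil))))) (.nd (nat_lit 0xa0a0408080) (.cons (nat_lit 0xa050404000) (nat_lit 0) (.cons (nat_lit 0xa040408000) (nat_lit 0) (.cons (nat_lit 0x9860404000) (nat_lit 0) (.cons (nat_lit 0x9850408000) (nat_lit 0) (.cons (nat_lit 0x9070404000) (nat_lit 1) (.nil)))))) .lf .lf) .lf)) (.nd (nat_lit 0xa0b0408000) (.cons (nat_lit 0xa060400000) (nat_lit 0) (.cons (nat_lit 0xa060400000) (nat_lit 1) (.cons (nat_lit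 0xa060400000) (nat_lit 2) (.cons (nat_lit 0xa060400000) (nat_lit 3) (.cons (nat_lit 0xa050404000) (nat_lit 0) (.cons (nat_lit 0xa040408000) (nat_lit 0) (.cons (nat_lit 0x9870400000) (nat_lit 1) (.cons (nat_lit 0x9870400000) (nat_lit 2) (.cons (nat_lit 0x9870400000) (nat_lit 3) (.cons (nat_lit 0x9860404000) (nat_lit 0) (.cons (nat_lit 0x9850408000) (nat_lit 0) (.nil)))))))))))) (.nd (nat_lit 0xa0a0a00000) (.cons (nat_lit 0xa080000000) (nat_lit 0) (.cons (nat_lit 0xa080000000) (nat_lit 1) (.cons (nat_lit 0xa080000000) (nat_lit 2) (.cons (nat_lit 0xa070200000) (nat_lit 0) (.cons (nat_lit 0xa070200000) (nat_lit 1) (.cons (nat_lit 0xa060400000) (nat_lit 0) (.cons (nat_lit 0xa060400000) (nat_lit 1) (.cons (nat_lit 0xa060400000) (nat_lit 2) (.cons (nat_lit 0xa060400000) (nat_lit 3) (.cons (nat_lit 0xa050600000) (nat_lit 0) (.cons (nat_lit 0x9890000000) (nat_lit 1) (.cons (nat_lit 0x9880200000) (nat_lit 1) (.cons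 (nat_lit 0x9880200000) (nat_lit 2) (.cons (nat_lit 0x9870400000) (nat_lit 2) (.cons (nat_lit 0x9870400000) (nat_lit 3) (.cons (nat_lit 0x9860600000) (nat_lit 1) (.cons (nat_lit 0x9860600000) (nat_lit 2) (.cons (nat_lit 0x9850800000) (nat_lit 0) (.cons (nat_lit 0x90a0000000) (nat_lit 2) (.cons (nat_lit 0x9090200000) (nat_lit 2) (.cons (nat_lit 0x9080400000) (nat_lit 4) (.nil)))))))))))))))))))))) (.nd (nat_lit 0xa0a0804000) (.cons (nat_lit 0xa070200000) (nat_lit 0) (.cons (nat_lit 0xa070200000) (nat_lit 1) (.cons (nat_lit 0xa060400000) (nat_lit 0) (.cons (nat_lit 0xa060400000) (nat_lit 1) (.cons (nat_lit 0xa060400000) (nat_lit 2) (.cons (nat_lit 0xa060400000) (nat_lit 3) (.cons (nat_lit 0xa050600000) (nat_lit 0) (.cons (nat_lit 0xa050404000) (nat_lit 0) (.cons (nat_lit 0xa040800000) (nat_lit 0) (.cons (nat_lit 0xa040800000) (nat_lit 1) (.cons (nat_lit 0x9880200000) (nat_lit 1) (.cons (nat_lit 0x9880200000)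 (nat_lit 2) (.cons (nat_lit 0x9870400000) (nat_lit 1) (.cons (nat_lit 0x9870400000) (nat_lit 2) (.cons (nat_lit 0x9870400000) (nat_lit 3) (.cons (nat_lit 0x9870204000) (nat_lit 0) (.cons (nat_lit 0x9860600000) (nat_lit 1) (.cons (nat_lit 0x9860600000) (nat_lit 2) (.cons (nat_lit 0x9860404000) (nat_lit 0) (.cons (nat_lit 0x9850800000) (nat_lit 0) (.cons (nat_lit 0x9850604000) (nat_lit 0) (.cons (nat_lit 0x9840804000) (nat_lit 0) (.cons (nat_lit 0x9090200000) (nat_lit 2) (.cons (nat_lit 0x9080400000) (nat_lit 3) (.nil))))))))))))))))))))))))) .lf .lf) (.nd (nat_lit 0xa0b0404080) (.cons (nat_lit 0xa050404000) (nat_lit 0) (.cons (nat_lit 0x9870204000) (nat_lit 0) (.cons (nat_lit 0x9860404000) (nat_lit 0) (.nil)))) .lf .lf)) (.nd (nat_lit 0xa0b0800000) (.cons (nat_lit 0xa080000000) (nat_lit 0) (.cons (nat_lit 0xa080000000) (nat_lit 1) (.cons (nat_lit 0xa080000000) (nat_lit 2) (.cons (nat_lit 0xa070200000) (nat_lit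 0) (.cons (nat_lit 0xa070200000) (nat_lit 1) (.cons (nat_lit 0xa060400000) (nat_lit 0) (.cons (nat_lit 0xa060400000) (nat_lit 1) (.cons (nat_lit 0xa060400000) (nat_lit 2) (.cons (nat_lit 0xa060400000) (nat_lit 3) (.cons (nat_lit 0xa050600000) (nat_lit 0) (.cons (nat_lit 0xa040800000) (nat_lit 0) (.cons (nat_lit 0xa040800000) (nat_lit 1) (.cons (nat_lit 0x9890000000) (nat_lit 1) (.cons (nat_lit 0x9880200000) (nat_lit 1) (.cons (nat_lit 0x9880200000) (nat_lit 2) (.cons (nat_lit 0x9870400000) (nat_lit 2) (.cons (nat_lit 0x9870400000) (nat_lit 3) (.cons (nat_lit 0x9860600000) (nat_lit 1) (.cons (nat_lit 0x9860600000) (nat_lit 2) (.cons (nat_lit 0x9850800000) (nat_lit 0) (.nil))))))))))))))))))))) (.nd (nat_lit 0xa0b0604000) (.cons (nat_lit 0xa070200000) (nat_lit 0) (.cons (nat_lit 0xa070200000) (nat_lit 1) (.cons (nat_lit 0xa060400000) (nat_lit 0) (.cons (nat_lit 0xa060400000) (nat_lit 1) (.cons (nat_lit 0xa060400000)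 (nat_lit 2) (.cons (nat_lit 0xa060400000) (nat_lit 3) (.cons (nat_lit 0xa050600000) (nat_lit 0) (.cons (nat_lit 0xa050404000) (nat_lit 0) (.cons (nat_lit 0x9880200000) (nat_lit 1) (.cons (nat_lit 0x9880200000) (nat_lit 2) (.cons (nat_lit 0x9870400000) (nat_lit 2) (.cons (nat_lit 0x9870400000) (nat_lit 3) (.cons (nat_lit 0x9870204000) (nat_lit 0) (.cons (nat_lit 0x9860600000) (nat_lit 1) (.cons (nat_lit 0x9860600000) (nat_lit 2) (.cons (nat_lit 0x9860404000) (nat_lit 0) (.cons (nat_lit 0x9850604000) (nat_lit 0) (.nil)))))))))))))))))) .lf .lf) .lf))) (.nd (nat_lit 0xa850810080) (.cons (nat_lit 0x9840804000) (nat_lit 0) (.nil)) (.nd (nat_lit 0xa0e0200000) (.cons (nat_lit 0xa080000000) (nat_lit 0) (.cons (nat_lit 0xa080000000) (nat_lit 1) (.cons (nat_lit 0xa080000000) (nat_lit 2) (.cons (nat_lit 0xa070200000) (nat_lit 0) (.cons (nat_lit 0xa070200000) (nat_lit 1) (.cons (nat_lit 0x9890000000) (nat_lit 1) (.nil)))))))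 (.nd (nat_lit 0xa0d0204000) (.cons (nat_lit 0xa070200000) (nat_lit 0) (.cons (nat_lit 0xa070200000) (nat_lit 1) (.cons (nat_lit 0x9880200000) (nat_lit 2) (.cons (nat_lit 0x9870204000) (nat_lit 0) (.nil))))) (.nd (nat_lit 0xa0c0600000) (.cons (nat_lit 0xa080000000) (nat_lit 0) (.cons (nat_lit 0xa080000000) (nat_lit 1) (.cons (nat_lit 0xa080000000) (nat_lit 2) (.cons (nat_lit 0xa070200000) (nat_lit 0) (.cons (nat_lit 0xa070200000) (nat_lit 1) (.cons (nat_lit 0xa060400000) (nat_lit 0) (.cons (nat_lit 0xa060400000) (nat_lit 1) (.cons (nat_lit 0xa060400000) (nat_lit 2) (.cons (nat_lit 0xa060400000) (nat_lit 3) (.cons (nat_lit 0xa050600000) (nat_lit 0) (.cons (nat_lit 0x9890000000) (nat_lit 1) (.cons (nat_lit 0x9880200000) (nat_lit 1) (.cons (nat_lit 0x9880200000) (nat_lit 2) (.cons (nat_lit 0x9870400000) (nat_lit 2) (.cons (nat_lit 0x9870400000) (nat_lit 3) (.cons (nat_lit 0x9860600000) (nat_lit 1) (.cons (nat_lit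 0x9860600000) (nat_lit 2) (.nil)))))))))))))))))) .lf .lf) (.nd (nat_lit 0xa0d0400000) (.cons (nat_lit 0xa080000000) (nat_lit 0) (.cons (nat_lit 0xa080000000) (nat_lit 1) (.cons (nat_lit 0xa080000000) (nat_lit 2) (.cons (nat_lit 0xa070200000) (nat_lit 0) (.cons (nat_lit 0xa070200000) (nat_lit 1) (.cons (nat_lit 0xa060400000) (nat_lit 0) (.cons (nat_lit 0xa060400000) (nat_lit 1) (.cons (nat_lit 0xa060400000) (nat_lit 2) (.cons (nat_lit 0xa060400000) (nat_lit 3) (.cons (nat_lit 0x9890000000) (nat_lit 1) (.cons (nat_lit 0x9880200000) (nat_lit 1) (.cons (nat_lit 0x9880200000) (nat_lit 2) (.nil))))))))))))) .lf .lf)) (.nd (nat_lit 0xa840810100) (.cons (nat_lit 0x9040808000) (nat_lit 0) (.nil)) (.nd (nat_lit 0xa0f0000000) (.cons (nat_lit 0xa080000000) (nat_lit 0) (.cons (nat_lit 0xa080000000) (nat_lit 1) (.cons (nat_lit 0xa080000000) (nat_lit 2) (.nil)))) .lf .lf) .lf)) (.nd (nat_lit 0xa860810000) (.cons (nat_lit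 0xa040800000) (nat_lit 0) (.cons (nat_lit 0xa040800000) (nat_lit 1) (.cons (nat_lit 0x9850800000) (nat_lit 0) (.cons (nat_lit 0x9840804000) (nat_lit 0) (.cons (nat_lit 0x9060800000) (nat_lit 3) (.nil)))))) (.nd (nat_lit 0xa860808100) (.cons (nat_lit 0xa040408000) (nat_lit 0) (.cons (nat_lit 0x9850408000) (nat_lit 0) (.cons (nat_lit 0x9060408000) (nat_lit 1) (.nil)))) (.nd (nat_lit 0xa850a0c080) (.cons (nat_lit 0x9850604000) (nat_lit 0) (.nil)) .lf .lf) (.nd (nat_lit 0xa86080c080) (.cons (nat_lit 0x9850604000) (nat_lit 0) (.cons (nat_lit 0x9840804000) (nat_lit 0) (.nil))) .lf .lf)) (.nd (nat_lit 0xa860a0c000) (.cons (nat_lit 0xa050600000) (nat_lit 0) (.cons (nat_lit 0x9860600000) (nat_lit 1) (.cons (nat_lit 0x9860600000) (nat_lit 2) (.cons (nat_lit 0x9850604000) (nat_lit 0) (.nil))))) (.nd (nat_lit 0xa860a08080) (.cons (nat_lit 0xa050404000) (nat_lit 0) (.cons (nat_lit 0x9860404000) (nat_lit 0) (.cons (nat_lit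 0x9850604000) (nat_lit 0) (.nil)))) .lf .lf) .lf)))))

noncomputable def tP_5_7_13 : PTr := (.nd (nat_lit 0xa8c0204000) (.cons (nat_lit 0xa860200000) (nat_lit 0) (.cons (nat_lit 0xa860200000) (nat_lit 1) (.cons (nat_lit 0xa070200000) (nat_lit 1) (.nil)))) (.nd (nat_lit 0xa880a04000) (.cons (nat_lit 0xa860200000) (nat_lit 0) (.cons (nat_lit 0xa860200000) (nat_lit 1) (.cons (nat_lit 0xa850400000) (nat_lit 0) (.cons (nat_lit 0xa850400000) (nat_lit 1) (.cons (nat_lit 0xa070200000) (nat_lit 0) (.cons (nat_lit 0xa070200000) (nat_lit 1) (.cons (nat_lit 0xa060400000) (nat_lit 1) (.cons (nat_lit 0xa060400000) (nat_lit 2) (.cons (nat_lit 0xa060400000) (nat_lit 3) (.cons (nat_lit 0xa050600000) (nat_lit 0) (.cons (nat_lit 0xa050404000) (nat_lit 0) (.cons (nat_lit 0x9880200000) (nat_lit 2) (.cons (nat_lit 0x9870400000) (nat_lit 2) (.cons (nat_lit 0x9870400000) (nat_lit 3) (.cons (nat_lit 0x9870204000) (nat_lit 0) (.cons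 (nat_lit 0x9860600000) (nat_lit 2) (.nil))))))))))))))))) (.nd (nat_lit 0xa870c04000) (.cons (nat_lit 0xa860200000) (nat_lit 0) (.cons (nat_lit 0xa860200000) (nat_lit 1) (.cons (nat_lit 0xa070200000) (nat_lit 0) (.cons (nat_lit 0xa070200000) (nat_lit 1) (.cons (nat_lit 0xa060400000) (nat_lit 1) (.cons (nat_lit 0xa060400000) (nat_lit 2) (.cons (nat_lit 0xa060400000) (nat_lit 3) (.cons (nat_lit 0x9870400000) (nat_lit 2) (.cons (nat_lit 0x9870400000) (nat_lit 3) (.cons (nat_lit 0x9870204000) (nat_lit 0) (.cons (nat_lit 0x9860600000) (nat_lit 2) (.nil)))))))))))) (.nd (nat_lit 0xa87080c000) (.cons (nat_lit 0xa840600000) (nat_lit 0) (.cons (nat_lit 0xa050600000) (nat_lit 0) (.cons (nat_lit 0xa040800000) (nat_lit 0) (.cons (nat_lit 0xa040800000) (nat_lit 1) (.cons (nat_lit 0x9860600000) (nat_lit 1) (.cons (nat_lit 0x9860600000) (nat_lit 2) (.cons (nat_lit 0x9850604000) (nat_lit 0) (.cons (nat_lit 0x9840804000)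 (nat_lit 0) (.nil))))))))) (.nd (nat_lit 0xa87060c080) (.cons (nat_lit 0x9850604000) (nat_lit 0) (.nil)) (.nd (nat_lit 0xa870608100) (.cons (nat_lit 0xa040408000) (nat_lit 0) (.nil)) .lf .lf) (.nd (nat_lit 0xa870808080) (.cons (nat_lit 0xa840404000) (nat_lit 0) (.cons (nat_lit 0xa050404000) (nat_lit 0) (.cons (nat_lit 0xa040408000) (nat_lit 0) (.cons (nat_lit 0x9860404000) (nat_lit 0) (.cons (nat_lit 0x9850604000) (nat_lit 0) (.cons (nat_lit 0x9840804000) (nat_lit 0) (.nil))))))) .lf .lf)) (.nd (nat_lit 0xa870a08000) (.cons (nat_lit 0xa850400000) (nat_lit 0) (.cons (nat_lit 0xa850400000) (nat_lit 1) (.cons (nat_lit 0xa060400000) (nat_lit 1) (.cons (nat_lit 0xa060400000) (nat_lit 2) (.cons (nat_lit 0xa060400000) (nat_lit 3) (.cons (nat_lit 0xa050600000) (nat_lit 0) (.cons (nat_lit 0xa050404000) (nat_lit 0) (.cons (nat_lit 0x9870400000) (nat_lit 2) (.cons (nat_lit 0x9870400000) (nat_lit 3) (.cons (nat_lit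 0x9860600000) (nat_lit 2) (.cons (nat_lit 0x9850604000) (nat_lit 0) (.nil)))))))))))) (.nd (nat_lit 0xa870a04080) (.cons (nat_lit 0xa050404000) (nat_lit 0) (.cons (nat_lit 0x9870204000) (nat_lit 0) (.cons (nat_lit 0x9860404000) (nat_lit 0) (.cons (nat_lit 0x9850604000) (nat_lit 0) (.nil))))) .lf .lf) .lf)) (.nd (nat_lit 0xa88060c000) (.cons (nat_lit 0xa840600000) (nat_lit 0) (.cons (nat_lit 0xa050600000) (nat_lit 0) (.cons (nat_lit 0x9860600000) (nat_lit 2) (.nil)))) (.nd (nat_lit 0xa880408100) (.cons (nat_lit 0xa040408000) (nat_lit 0) (.cons (nat_lit 0x9850408000) (nat_lit 0) (.nil))) (.nd (nat_lit 0xa870e00000) (.cons (nat_lit 0xa870000000) (nat_lit 1) (.cons (nat_lit 0xa070200000) (nat_lit 1) (.nil))) .lf .lf) (.nd (nat_lit 0xa880608080) (.cons (nat_lit 0xa840404000) (nat_lit 0) (.cons (nat_lit 0xa050404000) (nat_lit 0) (.cons (nat_lit 0xa040408000) (nat_lit 0) (.cons (nat_lit 0x9860404000) (nat_lit 0)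 (.cons (nat_lit 0x9850604000) (nat_lit 0) (.nil)))))) .lf .lf)) (.nd (nat_lit 0xa880808000) (.cons (nat_lit 0xa850400000) (nat_lit 0) (.cons (nat_lit 0xa850400000) (nat_lit 1) (.cons (nat_lit 0xa840600000) (nat_lit 0) (.cons (nat_lit 0xa840404000) (nat_lit 0) (.cons (nat_lit 0xa060400000) (nat_lit 0) (.cons (nat_lit 0xa060400000) (nat_lit 1) (.cons (nat_lit 0xa060400000) (nat_lit 2) (.cons (nat_lit 0xa060400000) (nat_lit 3) (.cons (nat_lit 0xa050600000) (nat_lit 0) (.cons (nat_lit 0xa050404000) (nat_lit 0) (.cons (nat_lit 0xa040800000) (nat_lit 0) (.cons (nat_lit 0xa040800000) (nat_lit 1) (.cons (nat_lit 0xa040408000) (nat_lit 0) (.cons (nat_lit 0x9870400000) (nat_lit 2) (.cons (nat_lit 0x9870400000) (nat_lit 3) (.cons (nat_lit 0x9860600000) (nat_lit 1) (.cons (nat_lit 0x9860600000) (nat_lit 2) (.cons (nat_lit 0x9860404000) (nat_lit 0) (.cons (nat_lit 0x9850604000) (nat_lit 0) (.cons (nat_lit 0x9840804000)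 (nat_lit 0) (.nil))))))))))))))))))))) (.nd (nat_lit 0xa880804080) (.cons (nat_lit 0xa840404000) (nat_lit 0) (.cons (nat_lit 0xa050404000) (nat_lit 0) (.cons (nat_lit 0x9870204000) (nat_lit 0) (.cons (nat_lit 0x9850604000) (nat_lit 0) (.nil))))) .lf .lf) .lf))) (.nd (nat_lit 0xa8a0404080) (.cons (nat_lit 0xa840404000) (nat_lit 0) (.cons (nat_lit 0xa050404000) (nat_lit 0) (.nil))) (.nd (nat_lit 0xa890608000) (.cons (nat_lit 0xa850400000) (nat_lit 0) (.cons (nat_lit 0xa850400000) (nat_lit 1) (.cons (nat_lit 0xa840600000) (nat_lit 0) (.cons (nat_lit 0xa840404000) (nat_lit 0) (.cons (nat_lit 0xa060400000) (nat_lit 1) (.cons (nat_lit 0xa060400000) (nat_lit 2) (.cons (nat_lit 0xa060400000) (nat_lit 3) (.cons (nat_lit 0xa050600000) (nat_lit 0) (.cons (nat_lit 0xa050404000) (nat_lit 0) (.cons (nat_lit 0xa040408000) (nat_lit 0) (.cons (nat_lit 0x9870400000) (nat_lit 2) (.cons (nat_lit 0x9870400000) (nat_lit 3) (.cons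 (nat_lit 0x9860600000) (nat_lit 2) (.nil)))))))))))))) (.nd (nat_lit 0xa890408080) (.cons (nat_lit 0xa840404000) (nat_lit 0) (.cons (nat_lit 0xa050404000) (nat_lit 0) (.cons (nat_lit 0xa040408000) (nat_lit 0) (.cons (nat_lit 0x9860404000) (nat_lit 0) (.nil))))) (.nd (nat_lit 0xa880c00000) (.cons (nat_lit 0xa870000000) (nat_lit 0) (.cons (nat_lit 0xa870000000) (nat_lit 1) (.cons (nat_lit 0xa860200000) (nat_lit 0) (.cons (nat_lit 0xa860200000) (nat_lit 1) (.cons (nat_lit 0xa080000000) (nat_lit 0) (.cons (nat_lit 0xa080000000) (nat_lit 1) (.cons (nat_lit 0xa080000000) (nat_lit 2) (.cons (nat_lit 0xa070200000) (nat_lit 0) (.cons (nat_lit 0xa070200000) (nat_lit 1) (.cons (nat_lit 0xa060400000) (nat_lit 1) (.cons (nat_lit 0xa060400000) (nat_lit 2) (.cons (nat_lit 0xa060400000) (nat_lit 3) (.cons (nat_lit 0x9880200000) (nat_lit 2) (.cons (nat_lit 0x9870400000) (nat_lit 2) (.cons (nat_lit 0x9870400000) (nat_lit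 3) (.cons (nat_lit 0x9860600000) (nat_lit 2) (.nil))))))))))))))))) .lf .lf) (.nd (nat_lit 0xa890604080) (.cons (nat_lit 0xa840404000) (nat_lit 0) (.cons (nat_lit 0xa050404000) (nat_lit 0) (.cons (nat_lit 0x9870204000) (nat_lit 0) (.cons (nat_lit 0x9860404000) (nat_lit 0) (.nil))))) .lf .lf)) (.nd (nat_lit 0xa890a00000) (.cons (nat_lit 0xa870000000) (nat_lit 1) (.cons (nat_lit 0xa860200000) (nat_lit 0) (.cons (nat_lit 0xa860200000) (nat_lit 1) (.cons (nat_lit 0xa850400000) (nat_lit 0) (.cons (nat_lit 0xa850400000) (nat_lit 1) (.cons (nat_lit 0xa080000000) (nat_lit 0) (.cons (nat_lit 0xa080000000) (nat_lit 1) (.cons (nat_lit 0xa080000000) (nat_lit 2) (.cons (nat_lit 0xa070200000) (nat_lit 1) (.cons (nat_lit 0xa060400000) (nat_lit 1) (.cons (nat_lit 0xa060400000) (nat_lit 2) (.cons (nat_lit 0xa060400000) (nat_lit 3) (.cons (nat_lit 0xa050600000) (nat_lit 0) (.cons (nat_lit 0x9880200000) (nat_lit 2) (.cons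 (nat_lit 0x9860600000) (nat_lit 2) (.nil)))))))))))))))) (.nd (nat_lit 0xa890804000) (.cons (nat_lit 0xa860200000) (nat_lit 0) (.cons (nat_lit 0xa860200000) (nat_lit 1) (.cons (nat_lit 0xa850400000) (nat_lit 0) (.cons (nat_lit 0xa850400000) (nat_lit 1) (.cons (nat_lit 0xa840600000) (nat_lit 0) (.cons (nat_lit 0xa840404000) (nat_lit 0) (.cons (nat_lit 0xa070200000) (nat_lit 0) (.cons (nat_lit 0xa070200000) (nat_lit 1) (.cons (nat_lit 0xa060400000) (nat_lit 1) (.cons (nat_lit 0xa060400000) (nat_lit 2) (.cons (nat_lit 0xa060400000) (nat_lit 3) (.cons (nat_lit 0xa050600000) (nat_lit 0) (.cons (nat_lit 0xa050404000) (nat_lit 0) (.cons (nat_lit 0xa040800000) (nat_lit 0) (.cons (nat_lit 0xa040800000) (nat_lit 1) (.cons (nat_lit 0x9880200000) (nat_lit 2) (.cons (nat_lit 0x9870400000) (nat_lit 2) (.cons (nat_lit 0x9870400000) (nat_lit 3) (.cons (nat_lit 0x9870204000) (nat_lit 0) (.cons (nat_lit 0x9860600000) (nat_lit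 2) (.nil))))))))))))))))))))) .lf .lf) .lf)) (.nd (nat_lit 0xa8b0204080) (.cons (nat_lit 0x9870204000) (nat_lit 0) (.nil)) (.nd (nat_lit 0xa8a0604000) (.cons (nat_lit 0xa860200000) (nat_lit 0) (.cons (nat_lit 0xa860200000) (nat_lit 1) (.cons (nat_lit 0xa850400000) (nat_lit 0) (.cons (nat_lit 0xa850400000) (nat_lit 1) (.cons (nat_lit 0xa840600000) (nat_lit 0) (.cons (nat_lit 0xa840404000) (nat_lit 0) (.cons (nat_lit 0xa070200000) (nat_lit 0) (.cons (nat_lit 0xa070200000) (nat_lit 1) (.cons (nat_lit 0xa060400000) (nat_lit 1) (.cons (nat_lit 0xa060400000) (nat_lit 2) (.cons (nat_lit 0xa060400000) (nat_lit 3) (.cons (nat_lit 0xa050600000) (nat_lit 0) (.cons (nat_lit 0xa050404000) (nat_lit 0) (.cons (nat_lit 0x9880200000) (nat_lit 2) (.cons (nat_lit 0x9870400000) (nat_lit 3) (.cons (nat_lit 0x9870204000) (nat_lit 0) (.nil))))))))))))))))) (.nd (nat_lit 0xa8a0408000) (.cons (nat_lit 0xa850400000) (nat_lit 0) (.cons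 (nat_lit 0xa850400000) (nat_lit 1) (.cons (nat_lit 0xa840404000) (nat_lit 0) (.cons (nat_lit 0xa060400000) (nat_lit 0) (.cons (nat_lit 0xa060400000) (nat_lit 1) (.cons (nat_lit 0xa060400000) (nat_lit 2) (.cons (nat_lit 0xa060400000) (nat_lit 3) (.cons (nat_lit 0xa050404000) (nat_lit 0) (.cons (nat_lit 0xa040408000) (nat_lit 0) (.cons (nat_lit 0x9870400000) (nat_lit 2) (.cons (nat_lit 0x9870400000) (nat_lit 3) (.nil)))))))))))) .lf .lf) (.nd (nat_lit 0xa8a0800000) (.cons (nat_lit 0xa870000000) (nat_lit 0) (.cons (nat_lit 0xa870000000) (nat_lit 1) (.cons (nat_lit 0xa860200000) (nat_lit 0) (.cons (nat_lit 0xa860200000) (nat_lit 1) (.cons (nat_lit 0xa850400000) (nat_lit 0) (.cons (nat_lit 0xa850400000) (nat_lit 1) (.cons (nat_lit 0xa840600000) (nat_lit 0) (.cons (nat_lit 0xa080000000) (nat_lit 0) (.cons (nat_lit 0xa080000000) (nat_lit 1) (.cons (nat_lit 0xa080000000) (nat_lit 2) (.cons (nat_lit 0xa070200000)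 (nat_lit 0) (.cons (nat_lit 0xa070200000) (nat_lit 1) (.cons (nat_lit 0xa060400000) (nat_lit 1) (.cons (nat_lit 0xa060400000) (nat_lit 2) (.cons (nat_lit 0xa060400000) (nat_lit 3) (.cons (nat_lit 0xa050600000) (nat_lit 0) (.cons (nat_lit 0xa040800000) (nat_lit 0) (.cons (nat_lit 0xa040800000) (nat_lit 1) (.cons (nat_lit 0x9880200000) (nat_lit 2) (.cons (nat_lit 0x9870400000) (nat_lit 2) (.cons (nat_lit 0x9870400000) (nat_lit 3) (.nil)))))))))))))))))))))) .lf .lf)) (.nd (nat_lit 0xa8b0600000) (.cons (nat_lit 0xa870000000) (nat_lit 1) (.cons (nat_lit 0xa860200000) (nat_lit 0) (.cons (nat_lit 0xa860200000) (nat_lit 1) (.cons (nat_lit 0xa850400000) (nat_lit 0) (.cons (nat_lit 0xa850400000) (nat_lit 1) (.cons (nat_lit 0xa840600000) (nat_lit 0) (.cons (nat_lit 0xa080000000) (nat_lit 0) (.cons (nat_lit 0xa080000000) (nat_lit 1) (.cons (nat_lit 0xa080000000) (nat_lit 2) (.cons (nat_lit 0xa070200000) (nat_lit 1)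 (.cons (nat_lit 0xa060400000) (nat_lit 1) (.cons (nat_lit 0xa060400000) (nat_lit 2) (.cons (nat_lit 0xa060400000) (nat_lit 3) (.cons (nat_lit 0xa050600000) (nat_lit 0) (.nil))))))))))))))) (.nd (nat_lit 0xa8b0404000) (.cons (nat_lit 0xa860200000) (nat_lit 0) (.cons (nat_lit 0xa860200000) (nat_lit 1) (.cons (nat_lit 0xa850400000) (nat_lit 0) (.cons (nat_lit 0xa850400000) (nat_lit 1) (.cons (nat_lit 0xa840404000) (nat_lit 0) (.cons (nat_lit 0xa070200000) (nat_lit 0) (.cons (nat_lit 0xa070200000) (nat_lit 1) (.cons (nat_lit 0xa060400000) (nat_lit 1) (.cons (nat_lit 0xa060400000) (nat_lit 2) (.cons (nat_lit 0xa060400000) (nat_lit 3) (.cons (nat_lit 0xa050404000) (nat_lit 0) (.cons (nat_lit 0x9880200000) (nat_lit 2) (.nil))))))))))))) .lf .lf) .lf)))) (.nd (nat_lit 0xb060c04000) (.cons (nat_lit 0xa860200000) (nat_lit 0) (.cons (nat_lit 0xa860200000) (nat_lit 1) (.cons (nat_lit 0xa060400000) (nat_lit 1) (.cons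 (nat_lit 0xa060400000) (nat_lit 2) (.cons (nat_lit 0xa060400000) (nat_lit 3) (.nil)))))) (.nd (nat_lit 0xb050810000) (.cons (nat_lit 0xa040800000) (nat_lit 0) (.cons (nat_lit 0xa040800000) (nat_lit 1) (.nil))) (.nd (nat_lit 0xb040810080) (.cons (nat_lit 0x9840804000) (nat_lit 0) (.nil)) (.nd (nat_lit 0xa8d0200000) (.cons (nat_lit 0xa870000000) (nat_lit 1) (.cons (nat_lit 0xa860200000) (nat_lit 0) (.cons (nat_lit 0xa860200000) (nat_lit 1) (.cons (nat_lit 0xa080000000) (nat_lit 0) (.cons (nat_lit 0xa080000000) (nat_lit 1) (.cons (nat_lit 0xa080000000) (nat_lit 2) (.nil))))))) (.nd (nat_lit 0xa8c0400000) (.cons (nat_lit 0xa870000000) (nat_lit 0) (.cons (nat_lit 0xa870000000) (nat_lit 1) (.cons (nat_lit 0xa860200000) (nat_lit 0) (.cons (nat_lit 0xa860200000) (nat_lit 1) (.cons (nat_lit 0xa850400000) (nat_lit 0) (.cons (nat_lit 0xa850400000) (nat_lit 1) (.cons (nat_lit 0xa080000000) (nat_lit 0) (.cons (nat_lit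 0xa080000000) (nat_lit 1) (.cons (nat_lit 0xa080000000) (nat_lit 2) (.cons (nat_lit 0xa070200000) (nat_lit 0) (.cons (nat_lit 0xa070200000) (nat_lit 1) (.cons (nat_lit 0xa060400000) (nat_lit 1) (.cons (nat_lit 0xa060400000) (nat_lit 2) (.cons (nat_lit 0xa060400000) (nat_lit 3) (.nil))))))))))))))) .lf .lf) (.nd (nat_lit 0xa8e0000000) (.cons (nat_lit 0xa870000000) (nat_lit 0) (.cons (nat_lit 0xa870000000) (nat_lit 1) (.cons (nat_lit 0xa080000000) (nat_lit 0) (.cons (nat_lit 0xa080000000) (nat_lit 1) (.nil))))) .lf .lf)) (.nd (nat_lit 0xb05080c080) (.cons (nat_lit 0x9850604000) (nat_lit 0) (.nil)) (.nd (nat_lit 0xb050808100) (.cons (nat_lit 0xa040408000) (nat_lit 0) (.nil)) .lf .lf) .lf)) (.nd (nat_lit 0xb06080c000) (.cons (nat_lit 0xa840600000) (nat_lit 0) (.cons (nat_lit 0xa050600000) (nat_lit 0) (.cons (nat_lit 0xa040800000) (nat_lit 0) (.cons (nat_lit 0xa040800000) (nat_lit 1) (.cons (nat_lit 0x9860600000)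 (nat_lit 2) (.nil)))))) (.nd (nat_lit 0xb060608100) (.cons (nat_lit 0xa040408000) (nat_lit 0) (.nil)) (.nd (nat_lit 0xb050a08080) (.cons (nat_lit 0xa050404000) (nat_lit 0) (.nil)) .lf .lf) (.nd (nat_lit 0xb060808080) (.cons (nat_lit 0xa840404000) (nat_lit 0) (.cons (nat_lit 0xa050404000) (nat_lit 0) (.cons (nat_lit 0xa040408000) (nat_lit 0) (.cons (nat_lit 0x9850604000) (nat_lit 0) (.nil))))) .lf .lf)) (.nd (nat_lit 0xb060a08000) (.cons (nat_lit 0xa850400000) (nat_lit 0) (.cons (nat_lit 0xa850400000) (nat_lit 1) (.cons (nat_lit 0xa060400000) (nat_lit 1) (.cons (nat_lit 0xa060400000) (nat_lit 2) (.cons (nat_lit 0xa060400000) (nat_lit 3) (.cons (nat_lit 0xa050404000) (nat_lit 0) (.cons (nat_lit 0x9860600000) (nat_lit 2) (.nil)))))))) (.nd (nat_lit 0xb060a04080) (.cons (nat_lit 0xa050404000) (nat_lit 0) (.nil)) .lf .lf) .lf))) (.nd (nat_lit 0xb070c00000) (.cons (nat_lit 0xb060000000) (nat_lit 0) (.cons (nat_lit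 0xb060000000) (nat_lit 1) (.cons (nat_lit 0xb060000000) (nat_lit 2) (.cons (nat_lit 0xa870000000) (nat_lit 1) (.cons (nat_lit 0xa860200000) (nat_lit 0) (.cons (nat_lit 0xa860200000) (nat_lit 1) (.cons (nat_lit 0xa070200000) (nat_lit 1) (.cons (nat_lit 0xa060400000) (nat_lit 2) (.cons (nat_lit 0xa060400000) (nat_lit 3) (.nil)))))))))) (.nd (nat_lit 0xb070804080) (.cons (nat_lit 0xa840404000) (nat_lit 0) (.cons (nat_lit 0xa050404000) (nat_lit 0) (.cons (nat_lit 0x9870204000) (nat_lit 0) (.nil)))) (.nd (nat_lit 0xb070608080) (.cons (nat_lit 0xa840404000) (nat_lit 0) (.cons (nat_lit 0xa050404000) (nat_lit 0) (.cons (nat_lit 0xa040408000) (nat_lit 0) (.nil)))) (.nd (nat_lit 0xb070408100) (.cons (nat_lit 0xb020408000) (nat_lit 0) (.cons (nat_lit 0xa040408000) (nat_lit 0) (.nil))) .lf .lf) (.nd (nat_lit 0xb07060c000) (.cons (nat_lit 0xa840600000) (nat_lit 0) (.cons (nat_lit 0x9860600000) (nat_lit 2) (.nil))) .lf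 .lf)) (.nd (nat_lit 0xb070a04000) (.cons (nat_lit 0xb050200000) (nat_lit 0) (.cons (nat_lit 0xa860200000) (nat_lit 0) (.cons (nat_lit 0xa860200000) (nat_lit 1) (.cons (nat_lit 0xa850400000) (nat_lit 0) (.cons (nat_lit 0xa850400000) (nat_lit 1) (.cons (nat_lit 0xa070200000) (nat_lit 1) (.cons (nat_lit 0xa060400000) (nat_lit 2) (.cons (nat_lit 0xa060400000) (nat_lit 3) (.cons (nat_lit 0xa050404000) (nat_lit 0) (.cons (nat_lit 0x9870204000) (nat_lit 0) (.nil))))))))))) (.nd (nat_lit 0xb070808000) (.cons (nat_lit 0xb040400000) (nat_lit 0) (.cons (nat_lit 0xb040400000) (nat_lit 1) (.cons (nat_lit 0xa850400000) (nat_lit 0) (.cons (nat_lit 0xa850400000) (nat_lit 1) (.cons (nat_lit 0xa840600000) (nat_lit 0) (.cons (nat_lit 0xa840404000) (nat_lit 0) (.cons (nat_lit 0xa060400000) (nat_lit 1) (.cons (nat_lit 0xa060400000) (nat_lit 2) (.cons (nat_lit 0xa060400000) (nat_lit 3) (.cons (nat_lit 0xa050404000) (nat_lit 0)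 (.cons (nat_lit 0xa040800000) (nat_lit 0) (.cons (nat_lit 0xa040800000) (nat_lit 1) (.cons (nat_lit 0xa040408000) (nat_lit 0) (.nil)))))))))))))) .lf .lf) .lf)) (.nd (nat_lit 0xb080804000) (.cons (nat_lit 0xb050200000) (nat_lit 0) (.cons (nat_lit 0xb040400000) (nat_lit 0) (.cons (nat_lit 0xb040400000) (nat_lit 1) (.cons (nat_lit 0xa860200000) (nat_lit 0) (.cons (nat_lit 0xa860200000) (nat_lit 1) (.cons (nat_lit 0xa850400000) (nat_lit 0) (.cons (nat_lit 0xa850400000) (nat_lit 1) (.cons (nat_lit 0xa840600000) (nat_lit 0) (.cons (nat_lit 0xa840404000) (nat_lit 0) (.cons (nat_lit 0xa070200000) (nat_lit 1) (.cons (nat_lit 0xa060400000) (nat_lit 1) (.cons (nat_lit 0xa060400000) (nat_lit 2) (.cons (nat_lit 0xa060400000) (nat_lit 3) (.cons (nat_lit 0xa050404000) (nat_lit 0) (.cons (nat_lit 0xa040800000) (nat_lit 0) (.cons (nat_lit 0xa040800000) (nat_lit 1) (.nil))))))))))))))))) (.nd (nat_lit 0xb080604080) (.cons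 (nat_lit 0xa840404000) (nat_lit 0) (.cons (nat_lit 0xa050404000) (nat_lit 0) (.nil))) (.nd (nat_lit 0xb080408080) (.cons (nat_lit 0xb020408000) (nat_lit 0) (.cons (nat_lit 0xa840404000) (nat_lit 0) (.cons (nat_lit 0xa050404000) (nat_lit 0) (.cons (nat_lit 0xa040408000) (nat_lit 0) (.nil))))) .lf .lf) (.nd (nat_lit 0xb080608000) (.cons (nat_lit 0xb040400000) (nat_lit 0) (.cons (nat_lit 0xb040400000) (nat_lit 1) (.cons (nat_lit 0xa850400000) (nat_lit 0) (.cons (nat_lit 0xa850400000) (nat_lit 1) (.cons (nat_lit 0xa840600000) (nat_lit 0) (.cons (nat_lit 0xa840404000) (nat_lit 0) (.cons (nat_lit 0xa060400000) (nat_lit 1) (.cons (nat_lit 0xa060400000) (nat_lit 2) (.cons (nat_lit 0xa060400000) (nat_lit 3) (.cons (nat_lit 0xa050404000) (nat_lit 0) (.cons (nat_lit 0xa040408000) (nat_lit 0) (.nil)))))))))))) .lf .lf)) (.nd (nat_lit 0xb090404080) (.cons (nat_lit 0xa840404000) (nat_lit 0) (.cons (nat_lit 0xa050404000)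 (nat_lit 0) (.nil))) (.nd (nat_lit 0xb080a00000) (.cons (nat_lit 0xb060000000) (nat_lit 0) (.cons (nat_lit 0xb060000000) (nat_lit 1) (.cons (nat_lit 0xb060000000) (nat_lit 2) (.cons (nat_lit 0xb050200000) (nat_lit 0) (.cons (nat_lit 0xa870000000) (nat_lit 1) (.cons (nat_lit 0xa860200000) (nat_lit 0) (.cons (nat_lit 0xa860200000) (nat_lit 1) (.cons (nat_lit 0xa850400000) (nat_lit 0) (.cons (nat_lit 0xa850400000) (nat_lit 1) (.cons (nat_lit 0xa080000000) (nat_lit 1) (.cons (nat_lit 0xa080000000) (nat_lit 2) (.cons (nat_lit 0xa070200000) (nat_lit 1) (.cons (nat_lit 0xa060400000) (nat_lit 2) (.cons (nat_lit 0xa060400000) (nat_lit 3) (.nil))))))))))))))) .lf .lf) .lf)))))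

noncomputable def tP_5_7_14 : PTr := (.nd (nat_lit 0xb880408000) (.cons (nat_lit 0xb830400000) (nat_lit 0) (.cons (nat_lit 0xb040400000) (nat_lit 0) (.cons (nat_lit 0xb040400000) (nat_lit 1) (.cons (nat_lit 0xb020408000) (nat_lit 0) (.cons (nat_lit 0xa850400000) (nat_lit 0) (.cons (nat_lit 0xa850400000) (nat_lit 1) (.cons (nat_lit 0xa840404000) (nat_lit 0) (.cons (nat_lit 0xa060400000) (nat_lit 2) (.cons (nat_lit 0xa060400000) (nat_lit 3) (.nil)))))))))) (.nd (nat_lit 0xb850a08000) (.cons (nat_lit 0xa850400000) (nat_lit 1) (.nil)) (.nd (nat_lit 0xb0c0200000) (.cons (nat_lit 0xb060000000) (nat_lit 0) (.cons (nat_lit 0xb060000000) (nat_lit 1) (.cons (nat_lit 0xb060000000) (nat_lit 2) (.cons (nat_lit 0xb050200000) (nat_lit 0) (.cons (nat_lit 0xa870000000) (nat_lit 1) (.cons (nat_lit 0xa860200000) (nat_lit 0) (.cons (nat_lit 0xa860200000) (nat_lit 1) (.cons (nat_lit 0xa080000000) (nat_lit 1) (.nil)))))))))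 (.nd (nat_lit 0xb0a0600000) (.cons (nat_lit 0xb060000000) (nat_lit 0) (.cons (nat_lit 0xb060000000) (nat_lit 1) (.cons (nat_lit 0xb060000000) (nat_lit 2) (.cons (nat_lit 0xb050200000) (nat_lit 0) (.cons (nat_lit 0xb040400000) (nat_lit 0) (.cons (nat_lit 0xb040400000) (nat_lit 1) (.cons (nat_lit 0xa870000000) (nat_lit 1) (.cons (nat_lit 0xa860200000) (nat_lit 0) (.cons (nat_lit 0xa860200000) (nat_lit 1) (.cons (nat_lit 0xa850400000) (nat_lit 0) (.cons (nat_lit 0xa850400000) (nat_lit 1) (.cons (nat_lit 0xa840600000) (nat_lit 0) (.cons (nat_lit 0xa080000000) (nat_lit 1) (.cons (nat_lit 0xa080000000) (nat_lit 2) (.cons (nat_lit 0xa070200000) (nat_lit 1) (.cons (nat_lit 0xa060400000) (nat_lit 3) (.nil))))))))))))))))) (.nd (nat_lit 0xb090800000) (.cons (nat_lit 0xb060000000) (nat_lit 0) (.cons (nat_lit 0xb060000000) (nat_lit 1) (.cons (nat_lit 0xb060000000) (nat_lit 2) (.cons (nat_lit 0xb050200000) (nat_lit 0)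 (.cons (nat_lit 0xb040400000) (nat_lit 0) (.cons (nat_lit 0xb040400000) (nat_lit 1) (.cons (nat_lit 0xa870000000) (nat_lit 1) (.cons (nat_lit 0xa860200000) (nat_lit 0) (.cons (nat_lit 0xa860200000) (nat_lit 1) (.cons (nat_lit 0xa850400000) (nat_lit 0) (.cons (nat_lit 0xa850400000) (nat_lit 1) (.cons (nat_lit 0xa840600000) (nat_lit 0) (.cons (nat_lit 0xa080000000) (nat_lit 1) (.cons (nat_lit 0xa080000000) (nat_lit 2) (.cons (nat_lit 0xa070200000) (nat_lit 1) (.cons (nat_lit 0xa060400000) (nat_lit 2) (.cons (nat_lit 0xa060400000) (nat_lit 3) (.nil)))))))))))))))))) (.nd (nat_lit 0xb090604000) (.cons (nat_lit 0xb050200000) (nat_lit 0) (.cons (nat_lit 0xb040400000) (nat_lit 0) (.cons (nat_lit 0xb040400000) (nat_lit 1) (.cons (nat_lit 0xa860200000) (nat_lit 0) (.cons (nat_lit 0xa860200000) (nat_lit 1) (.cons (nat_lit 0xa850400000) (nat_lit 0) (.cons (nat_lit 0xa850400000) (nat_lit 1) (.cons (nat_lit 0xa840600000)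 (nat_lit 0) (.cons (nat_lit 0xa840404000) (nat_lit 0) (.cons (nat_lit 0xa070200000) (nat_lit 1) (.cons (nat_lit 0xa060400000) (nat_lit 2) (.cons (nat_lit 0xa060400000) (nat_lit 3) (.cons (nat_lit 0xa050404000) (nat_lit 0) (.nil)))))))))))))) .lf .lf) (.nd (nat_lit 0xb0a0404000) (.cons (nat_lit 0xb050200000) (nat_lit 0) (.cons (nat_lit 0xb040400000) (nat_lit 0) (.cons (nat_lit 0xb040400000) (nat_lit 1) (.cons (nat_lit 0xa860200000) (nat_lit 0) (.cons (nat_lit 0xa860200000) (nat_lit 1) (.cons (nat_lit 0xa850400000) (nat_lit 0) (.cons (nat_lit 0xa850400000) (nat_lit 1) (.cons (nat_lit 0xa840404000) (nat_lit 0) (.cons (nat_lit 0xa070200000) (nat_lit 1) (.cons (nat_lit 0xa060400000) (nat_lit 2) (.cons (nat_lit 0xa060400000) (nat_lit 3) (.nil)))))))))))) .lf .lf)) (.nd (nat_lit 0xb0b0400000) (.cons (nat_lit 0xb060000000) (nat_lit 0) (.cons (nat_lit 0xb060000000) (nat_lit 1) (.cons (nat_lit 0xb060000000) (nat_lit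 2) (.cons (nat_lit 0xb050200000) (nat_lit 0) (.cons (nat_lit 0xb040400000) (nat_lit 0) (.cons (nat_lit 0xb040400000) (nat_lit 1) (.cons (nat_lit 0xa870000000) (nat_lit 1) (.cons (nat_lit 0xa860200000) (nat_lit 0) (.cons (nat_lit 0xa860200000) (nat_lit 1) (.cons (nat_lit 0xa850400000) (nat_lit 0) (.cons (nat_lit 0xa850400000) (nat_lit 1) (.cons (nat_lit 0xa080000000) (nat_lit 1) (.cons (nat_lit 0xa080000000) (nat_lit 2) (.nil)))))))))))))) (.nd (nat_lit 0xb0b0204000) (.cons (nat_lit 0xb050200000) (nat_lit 0) (.cons (nat_lit 0xa860200000) (nat_lit 0) (.cons (nat_lit 0xa860200000) (nat_lit 1) (.nil)))) .lf .lf) .lf)) (.nd (nat_lit 0xb850808080) (.cons (nat_lit 0xa840404000) (nat_lit 0) (.cons (nat_lit 0xa050404000) (nat_lit 0) (.nil))) (.nd (nat_lit 0xb840808100) (.cons (nat_lit 0xa040408000) (nat_lit 0) (.nil)) (.nd (nat_lit 0xb0d0000000) (.cons (nat_lit 0xb060000000) (nat_lit 0) (.cons (nat_lit 0xb060000000)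 (nat_lit 1) (.cons (nat_lit 0xb060000000) (nat_lit 2) (.cons (nat_lit 0xa870000000) (nat_lit 1) (.nil))))) .lf .lf) (.nd (nat_lit 0xb840810000) (.cons (nat_lit 0xa040800000) (nat_lit 0) (.cons (nat_lit 0xa040800000) (nat_lit 1) (.nil))) .lf .lf)) (.nd (nat_lit 0xb850a04080) (.cons (nat_lit 0xa050404000) (nat_lit 0) (.nil)) (.nd (nat_lit 0xb85080c000) (.cons (nat_lit 0xa840600000) (nat_lit 0) (.cons (nat_lit 0xa040800000) (nat_lit 1) (.nil))) .lf .lf) .lf))) (.nd (nat_lit 0xb860c00000) (.cons (nat_lit 0xb060000000) (nat_lit 0) (.cons (nat_lit 0xb060000000) (nat_lit 1) (.cons (nat_lit 0xb060000000) (nat_lit 2) (.cons (nat_lit 0xa860200000) (nat_lit 0) (.cons (nat_lit 0xa860200000) (nat_lit 1) (.cons (nat_lit 0xa060400000) (nat_lit 2) (.cons (nat_lit 0xa060400000) (nat_lit 3) (.nil)))))))) (.nd (nat_lit 0xb860804080) (.cons (nat_lit 0xa840404000) (nat_lit 0) (.nil)) (.nd (nat_lit 0xb860608080) (.cons (nat_lit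 0xa840404000) (nat_lit 0) (.cons (nat_lit 0xa050404000) (nat_lit 0) (.nil))) (.nd (nat_lit 0xb860408100) (.cons (nat_lit 0xb020408000) (nat_lit 0) (.cons (nat_lit 0xa040408000) (nat_lit 0) (.nil))) .lf .lf) (.nd (nat_lit 0xb86060c000) (.cons (nat_lit 0xa840600000) (nat_lit 0) (.nil)) .lf .lf)) (.nd (nat_lit 0xb860a04000) (.cons (nat_lit 0xb050200000) (nat_lit 0) (.cons (nat_lit 0xa860200000) (nat_lit 0) (.cons (nat_lit 0xa860200000) (nat_lit 1) (.cons (nat_lit 0xa850400000) (nat_lit 1) (.cons (nat_lit 0xa060400000) (nat_lit 3) (.nil)))))) (.nd (nat_lit 0xb860808000) (.cons (nat_lit 0xb040400000) (nat_lit 0) (.cons (nat_lit 0xb040400000) (nat_lit 1) (.cons (nat_lit 0xa850400000) (nat_lit 0) (.cons (nat_lit 0xa850400000) (nat_lit 1) (.cons (nat_lit 0xa840600000) (nat_lit 0) (.cons (nat_lit 0xa840404000) (nat_lit 0) (.cons (nat_lit 0xa060400000) (nat_lit 2) (.cons (nat_lit 0xa060400000) (nat_lit 3) (.cons (nat_lit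 0xa050404000) (nat_lit 0) (.nil)))))))))) .lf .lf) .lf)) (.nd (nat_lit 0xb870804000) (.cons (nat_lit 0xb840200000) (nat_lit 0) (.cons (nat_lit 0xb050200000) (nat_lit 0) (.cons (nat_lit 0xb040400000) (nat_lit 0) (.cons (nat_lit 0xb040400000) (nat_lit 1) (.cons (nat_lit 0xa860200000) (nat_lit 0) (.cons (nat_lit 0xa860200000) (nat_lit 1) (.cons (nat_lit 0xa850400000) (nat_lit 1) (.cons (nat_lit 0xa840600000) (nat_lit 0) (.cons (nat_lit 0xa840404000) (nat_lit 0) (.cons (nat_lit 0xa060400000) (nat_lit 2) (.cons (nat_lit 0xa060400000) (nat_lit 3) (.nil)))))))))))) (.nd (nat_lit 0xb870604080) (.cons (nat_lit 0xa840404000) (nat_lit 0) (.cons (nat_lit 0xa050404000) (nat_lit 0) (.nil))) (.nd (nat_lit 0xb870408080) (.cons (nat_lit 0xb020408000) (nat_lit 0) (.cons (nat_lit 0xa840404000) (nat_lit 0) (.nil))) .lf .lf) (.nd (nat_lit 0xb870608000) (.cons (nat_lit 0xb830400000) (nat_lit 0) (.cons (nat_lit 0xb040400000) (nat_lit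 0) (.cons (nat_lit 0xb040400000) (nat_lit 1) (.cons (nat_lit 0xa850400000) (nat_lit 1) (.cons (nat_lit 0xa840600000) (nat_lit 0) (.cons (nat_lit 0xa840404000) (nat_lit 0) (.cons (nat_lit 0xa060400000) (nat_lit 3) (.nil)))))))) .lf .lf)) (.nd (nat_lit 0xb880404080) (.cons (nat_lit 0xa840404000) (nat_lit 0) (.nil)) (.nd (nat_lit 0xb870a00000) (.cons (nat_lit 0xb850000000) (nat_lit 0) (.cons (nat_lit 0xb060000000) (nat_lit 1) (.cons (nat_lit 0xb060000000) (nat_lit 2) (.cons (nat_lit 0xb050200000) (nat_lit 0) (.cons (nat_lit 0xa870000000) (nat_lit 1) (.cons (nat_lit 0xa860200000) (nat_lit 1) (.cons (nat_lit 0xa850400000) (nat_lit 1) (.nil)))))))) .lf .lf) .lf)))) (.nd (nat_lit 0xc050808000) (.cons (nat_lit 0xb040400000) (nat_lit 0) (.cons (nat_lit 0xb040400000) (nat_lit 1) (.cons (nat_lit 0xa850400000) (nat_lit 1) (.cons (nat_lit 0xa840404000) (nat_lit 0) (.nil))))) (.nd (nat_lit 0xb8b0200000) (.cons (nat_lit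 0xb850000000) (nat_lit 0) (.cons (nat_lit 0xb840200000) (nat_lit 0) (.cons (nat_lit 0xb060000000) (nat_lit 1) (.cons (nat_lit 0xb060000000) (nat_lit 2) (.cons (nat_lit 0xb050200000) (nat_lit 0) (.cons (nat_lit 0xa870000000) (nat_lit 1) (.nil))))))) (.nd (nat_lit 0xb890600000) (.cons (nat_lit 0xb850000000) (nat_lit 0) (.cons (nat_lit 0xb840200000) (nat_lit 0) (.cons (nat_lit 0xb830400000) (nat_lit 0) (.cons (nat_lit 0xb060000000) (nat_lit 1) (.cons (nat_lit 0xb060000000) (nat_lit 2) (.cons (nat_lit 0xb050200000) (nat_lit 0) (.cons (nat_lit 0xb040400000) (nat_lit 0) (.cons (nat_lit 0xb040400000) (nat_lit 1) (.cons (nat_lit 0xa870000000) (nat_lit 1) (.cons (nat_lit 0xa860200000) (nat_lit 1) (.cons (nat_lit 0xa850400000) (nat_lit 1) (.cons (nat_lit 0xa840600000) (nat_lit 0) (.nil))))))))))))) (.nd (nat_lit 0xb880800000) (.cons (nat_lit 0xb850000000) (nat_lit 0) (.cons (nat_lit 0xb840200000) (nat_lit 0) (.cons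 (nat_lit 0xb060000000) (nat_lit 0) (.cons (nat_lit 0xb060000000) (nat_lit 1) (.cons (nat_lit 0xb060000000) (nat_lit 2) (.cons (nat_lit 0xb050200000) (nat_lit 0) (.cons (nat_lit 0xb040400000) (nat_lit 0) (.cons (nat_lit 0xb040400000) (nat_lit 1) (.cons (nat_lit 0xa870000000) (nat_lit 1) (.cons (nat_lit 0xa860200000) (nat_lit 0) (.cons (nat_lit 0xa860200000) (nat_lit 1) (.cons (nat_lit 0xa850400000) (nat_lit 1) (.cons (nat_lit 0xa840600000) (nat_lit 0) (.cons (nat_lit 0xa080000000) (nat_lit 2) (.cons (nat_lit 0xa060400000) (nat_lit 3) (.nil)))))))))))))))) (.nd (nat_lit 0xb880604000) (.cons (nat_lit 0xb840200000) (nat_lit 0) (.cons (nat_lit 0xb830400000) (nat_lit 0) (.cons (nat_lit 0xb050200000) (nat_lit 0) (.cons (nat_lit 0xb040400000) (nat_lit 0) (.cons (nat_lit 0xb040400000) (nat_lit 1) (.cons (nat_lit 0xa860200000) (nat_lit 0) (.cons (nat_lit 0xa860200000) (nat_lit 1) (.cons (nat_lit 0xa850400000) (nat_lit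 1) (.cons (nat_lit 0xa840600000) (nat_lit 0) (.cons (nat_lit 0xa840404000) (nat_lit 0) (.nil))))))))))) .lf .lf) (.nd (nat_lit 0xb890404000) (.cons (nat_lit 0xb840200000) (nat_lit 0) (.cons (nat_lit 0xb830400000) (nat_lit 0) (.cons (nat_lit 0xb050200000) (nat_lit 0) (.cons (nat_lit 0xb040400000) (nat_lit 0) (.cons (nat_lit 0xb040400000) (nat_lit 1) (.cons (nat_lit 0xa860200000) (nat_lit 0) (.cons (nat_lit 0xa860200000) (nat_lit 1) (.cons (nat_lit 0xa850400000) (nat_lit 1) (.cons (nat_lit 0xa840404000) (nat_lit 0) (.nil)))))))))) .lf .lf)) (.nd (nat_lit 0xb8a0400000) (.cons (nat_lit 0xb850000000) (nat_lit 0) (.cons (nat_lit 0xb840200000) (nat_lit 0) (.cons (nat_lit 0xb830400000) (nat_lit 0) (.cons (nat_lit 0xb060000000) (nat_lit 0) (.cons (nat_lit 0xb060000000) (nat_lit 1) (.cons (nat_lit 0xb060000000) (nat_lit 2) (.cons (nat_lit 0xb050200000) (nat_lit 0) (.cons (nat_lit 0xb040400000) (nat_lit 0) (.cons (nat_lit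 0xb040400000) (nat_lit 1) (.cons (nat_lit 0xa870000000) (nat_lit 1) (.cons (nat_lit 0xa860200000) (nat_lit 0) (.cons (nat_lit 0xa860200000) (nat_lit 1) (.cons (nat_lit 0xa850400000) (nat_lit 1) (.nil)))))))))))))) (.nd (nat_lit 0xb8a0204000) (.cons (nat_lit 0xb840200000) (nat_lit 0) (.cons (nat_lit 0xb050200000) (nat_lit 0) (.cons (nat_lit 0xa860200000) (nat_lit 1) (.nil)))) .lf .lf) .lf)) (.nd (nat_lit 0xc050408100) (.cons (nat_lit 0xb020408000) (nat_lit 0) (.nil)) (.nd (nat_lit 0xc040808080) (.cons (nat_lit 0xa840404000) (nat_lit 0) (.nil)) (.nd (nat_lit 0xb8c0000000) (.cons (nat_lit 0xb850000000) (nat_lit 0) (.cons (nat_lit 0xb060000000) (nat_lit 0) (.cons (nat_lit 0xb060000000) (nat_lit 1) (.cons (nat_lit 0xb060000000) (nat_lit 2) (.cons (nat_lit 0xa870000000) (nat_lit 1) (.nil)))))) .lf .lf) (.nd (nat_lit 0xc04080c000) (.cons (nat_lit 0xa840600000) (nat_lit 0) (.nil)) .lf .lf)) (.nd (nat_lit 0xc050804080)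 (.cons (nat_lit 0xa840404000) (nat_lit 0) (.nil)) (.nd (nat_lit 0xc050608080) (.cons (nat_lit 0xa840404000) (nat_lit 0) (.nil)) .lf .lf) .lf))) (.nd (nat_lit 0xc070408000) (.cons (nat_lit 0xc020400000) (nat_lit 0) (.cons (nat_lit 0xb830400000) (nat_lit 0) (.cons (nat_lit 0xb040400000) (nat_lit 0) (.cons (nat_lit 0xb040400000) (nat_lit 1) (.cons (nat_lit 0xb020408000) (nat_lit 0) (.cons (nat_lit 0xa850400000) (nat_lit 1) (.nil))))))) (.nd (nat_lit 0xc060804000) (.cons (nat_lit 0xb840200000) (nat_lit 0) (.cons (nat_lit 0xb050200000) (nat_lit 0) (.cons (nat_lit 0xb040400000) (nat_lit 0) (.cons (nat_lit 0xb040400000) (nat_lit 1) (.cons (nat_lit 0xa860200000) (nat_lit 1) (.cons (nat_lit 0xa850400000) (nat_lit 1) (.cons (nat_lit 0xa840404000) (nat_lit 0) (.nil)))))))) (.nd (nat_lit 0xc060408080) (.cons (nat_lit 0xb020408000) (nat_lit 0) (.cons (nat_lit 0xa840404000) (nat_lit 0) (.nil))) (.nd (nat_lit 0xc050a04000)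 (.cons (nat_lit 0xb050200000) (nat_lit 0) (.nil)) .lf .lf) (.nd (nat_lit 0xc060608000) (.cons (nat_lit 0xb830400000) (nat_lit 0) (.cons (nat_lit 0xb040400000) (nat_lit 0) (.cons (nat_lit 0xb040400000) (nat_lit 1) (.cons (nat_lit 0xa850400000) (nat_lit 1) (.cons (nat_lit 0xa840404000) (nat_lit 0) (.nil)))))) .lf .lf)) (.nd (nat_lit 0xc070404080) (.cons (nat_lit 0xa840404000) (nat_lit 0) (.nil)) (.nd (nat_lit 0xc060a00000) (.cons (nat_lit 0xb850000000) (nat_lit 0) (.cons (nat_lit 0xb060000000) (nat_lit 1) (.cons (nat_lit 0xb060000000) (nat_lit 2) (.cons (nat_lit 0xb050200000) (nat_lit 0) (.cons (nat_lit 0xa860200000) (nat_lit 1) (.nil)))))) .lf .lf) .lf)) (.nd (nat_lit 0xc080600000) (.cons (nat_lit 0xc040000000) (nat_lit 0) (.cons (nat_lit 0xc040000000) (nat_lit 1) (.cons (nat_lit 0xb850000000) (nat_lit 0) (.cons (nat_lit 0xb840200000) (nat_lit 0) (.cons (nat_lit 0xb830400000) (nat_lit 0) (.cons (nat_lit 0xb060000000)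 (nat_lit 1) (.cons (nat_lit 0xb060000000) (nat_lit 2) (.cons (nat_lit 0xb050200000) (nat_lit 0) (.cons (nat_lit 0xb040400000) (nat_lit 0) (.cons (nat_lit 0xb040400000) (nat_lit 1) (.cons (nat_lit 0xa860200000) (nat_lit 1) (.nil)))))))))))) (.nd (nat_lit 0xc070800000) (.cons (nat_lit 0xc040000000) (nat_lit 0) (.cons (nat_lit 0xc040000000) (nat_lit 1) (.cons (nat_lit 0xb850000000) (nat_lit 0) (.cons (nat_lit 0xb840200000) (nat_lit 0) (.cons (nat_lit 0xb060000000) (nat_lit 1) (.cons (nat_lit 0xb060000000) (nat_lit 2) (.cons (nat_lit 0xb050200000) (nat_lit 0) (.cons (nat_lit 0xb040400000) (nat_lit 0) (.cons (nat_lit 0xb040400000) (nat_lit 1) (.cons (nat_lit 0xa860200000) (nat_lit 1) (.nil))))))))))) (.nd (nat_lit 0xc070604000) (.cons (nat_lit 0xb840200000) (nat_lit 0) (.cons (nat_lit 0xb830400000) (nat_lit 0) (.cons (nat_lit 0xb050200000) (nat_lit 0) (.cons (nat_lit 0xb040400000) (nat_lit 0) (.cons (nat_lit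 0xb040400000) (nat_lit 1) (.cons (nat_lit 0xa860200000) (nat_lit 1) (.cons (nat_lit 0xa840404000) (nat_lit 0) (.nil)))))))) .lf .lf) (.nd (nat_lit 0xc080404000) (.cons (nat_lit 0xc020400000) (nat_lit 0) (.cons (nat_lit 0xb840200000) (nat_lit 0) (.cons (nat_lit 0xb830400000) (nat_lit 0) (.cons (nat_lit 0xb050200000) (nat_lit 0) (.cons (nat_lit 0xb040400000) (nat_lit 0) (.cons (nat_lit 0xb040400000) (nat_lit 1) (.cons (nat_lit 0xa860200000) (nat_lit 1) (.nil)))))))) .lf .lf)) (.nd (nat_lit 0xc090400000) (.cons (nat_lit 0xc040000000) (nat_lit 0) (.cons (nat_lit 0xc040000000) (nat_lit 1) (.cons (nat_lit 0xc020400000) (nat_lit 0) (.cons (nat_lit 0xb850000000) (nat_lit 0) (.cons (nat_lit 0xb840200000) (nat_lit 0) (.cons (nat_lit 0xb830400000) (nat_lit 0) (.cons (nat_lit 0xb060000000) (nat_lit 1) (.cons (nat_lit 0xb060000000) (nat_lit 2) (.cons (nat_lit 0xb050200000) (nat_lit 0) (.cons (nat_lit 0xb040400000) (nat_lit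 0) (.cons (nat_lit 0xb040400000) (nat_lit 1) (.nil)))))))))))) (.nd (nat_lit 0xc090204000) (.cons (nat_lit 0xb840200000) (nat_lit 0) (.cons (nat_lit 0xb050200000) (nat_lit 0) (.nil))) .lf .lf) .lf)))))

noncomputable def tP_5_7_15 : PTr := (.nd (nat_lit 0xd090000000) (.cons (nat_lit 0xd020000000) (nat_lit 0) (.cons (nat_lit 0xc830000000) (nat_lit 0) (.cons (nat_lit 0xc040000000) (nat_lit 0) (.cons (nat_lit 0xc040000000) (nat_lit 1) (.nil))))) (.nd (nat_lit 0xc880400000) (.cons (nat_lit 0xc830000000) (nat_lit 0) (.cons (nat_lit 0xc040000000) (nat_lit 0) (.cons (nat_lit 0xc040000000) (nat_lit 1) (.cons (nat_lit 0xc020400000) (nat_lit 0) (.cons (nat_lit 0xb850000000) (nat_lit 0) (.cons (nat_lit 0xb840200000) (nat_lit 0) (.cons (nat_lit 0xb830400000) (nat_lit 0) (.cons (nat_lit 0xb060000000) (nat_lit 1) (.cons (nat_lit 0xb060000000) (nat_lit 2) (.cons (nat_lit 0xb050200000) (nat_lit 0) (.nil))))))))))) (.nd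 (nat_lit 0xc850804000) (.cons (nat_lit 0xb840200000) (nat_lit 0) (.cons (nat_lit 0xb050200000) (nat_lit 0) (.cons (nat_lit 0xb040400000) (nat_lit 1) (.nil)))) (.nd (nat_lit 0xc850408080) (.cons (nat_lit 0xb020408000) (nat_lit 0) (.nil)) (.nd (nat_lit 0xc840408100) (.cons (nat_lit 0xb020408000) (nat_lit 0) (.nil)) (.nd (nat_lit 0xc0b0000000) (.cons (nat_lit 0xc040000000) (nat_lit 0) (.cons (nat_lit 0xc040000000) (nat_lit 1) (.cons (nat_lit 0xb850000000) (nat_lit 0) (.cons (nat_lit 0xb060000000) (nat_lit 1) (.nil))))) .lf .lf) (.nd (nat_lit 0xc840808000) (.cons (nat_lit 0xb040400000) (nat_lit 0) (.cons (nat_lit 0xb040400000) (nat_lit 1) (.cons (nat_lit 0xa840404000) (nat_lit 0) (.nil)))) .lf .lf)) (.nd (nat_lit 0xc850608000) (.cons (nat_lit 0xb830400000) (nat_lit 0) (.cons (nat_lit 0xb040400000) (nat_lit 1) (.nil))) (.nd (nat_lit 0xc850604080) (.cons (nat_lit 0xa840404000) (nat_lit 0) (.nil)) .lf .lf) .lf))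 (.nd (nat_lit 0xc870404000) (.cons (nat_lit 0xc020400000) (nat_lit 0) (.cons (nat_lit 0xb840200000) (nat_lit 0) (.cons (nat_lit 0xb830400000) (nat_lit 0) (.cons (nat_lit 0xb050200000) (nat_lit 0) (.cons (nat_lit 0xb040400000) (nat_lit 1) (.nil)))))) (.nd (nat_lit 0xc860604000) (.cons (nat_lit 0xb840200000) (nat_lit 0) (.cons (nat_lit 0xb830400000) (nat_lit 0) (.cons (nat_lit 0xb050200000) (nat_lit 0) (.cons (nat_lit 0xb040400000) (nat_lit 1) (.nil))))) (.nd (nat_lit 0xc860408000) (.cons (nat_lit 0xc020400000) (nat_lit 0) (.cons (nat_lit 0xb830400000) (nat_lit 0) (.cons (nat_lit 0xb040400000) (nat_lit 0) (.cons (nat_lit 0xb040400000) (nat_lit 1) (.cons (nat_lit 0xb020408000) (nat_lit 0) (.nil)))))) .lf .lf) (.nd (nat_lit 0xc860800000) (.cons (nat_lit 0xc040000000) (nat_lit 0) (.cons (nat_lit 0xc040000000) (nat_lit 1) (.cons (nat_lit 0xb850000000) (nat_lit 0) (.cons (nat_lit 0xb840200000) (nat_lit 0) (.cons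 (nat_lit 0xb060000000) (nat_lit 1) (.cons (nat_lit 0xb060000000) (nat_lit 2) (.cons (nat_lit 0xb050200000) (nat_lit 0) (.cons (nat_lit 0xb040400000) (nat_lit 1) (.nil))))))))) .lf .lf)) (.nd (nat_lit 0xc880204000) (.cons (nat_lit 0xb840200000) (nat_lit 0) (.nil)) (.nd (nat_lit 0xc870600000) (.cons (nat_lit 0xc830000000) (nat_lit 0) (.cons (nat_lit 0xc040000000) (nat_lit 0) (.cons (nat_lit 0xc040000000) (nat_lit 1) (.cons (nat_lit 0xb840200000) (nat_lit 0) (.cons (nat_lit 0xb830400000) (nat_lit 0) (.cons (nat_lit 0xb060000000) (nat_lit 1) (.cons (nat_lit 0xb060000000) (nat_lit 2) (.nil)))))))) .lf .lf) .lf))) (.nd (nat_lit 0xd050604000) (.cons (nat_lit 0xb840200000) (nat_lit 0) (.cons (nat_lit 0xb830400000) (nat_lit 0) (.nil))) (.nd (nat_lit 0xd040608000) (.cons (nat_lit 0xb830400000) (nat_lit 0) (.nil)) (.nd (nat_lit 0xc8a0000000) (.cons (nat_lit 0xc830000000) (nat_lit 0) (.cons (nat_lit 0xc040000000) (nat_lit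 0) (.cons (nat_lit 0xc040000000) (nat_lit 1) (.cons (nat_lit 0xb850000000) (nat_lit 0) (.cons (nat_lit 0xb060000000) (nat_lit 1) (.nil)))))) (.nd (nat_lit 0xc890200000) (.cons (nat_lit 0xc830000000) (nat_lit 0) (.cons (nat_lit 0xc040000000) (nat_lit 0) (.cons (nat_lit 0xc040000000) (nat_lit 1) (.cons (nat_lit 0xb840200000) (nat_lit 0) (.cons (nat_lit 0xb060000000) (nat_lit 1) (.nil)))))) .lf .lf) (.nd (nat_lit 0xd040408080) (.cons (nat_lit 0xb020408000) (nat_lit 0) (.nil)) .lf .lf)) (.nd (nat_lit 0xd050408000) (.cons (nat_lit 0xc020400000) (nat_lit 0) (.cons (nat_lit 0xb830400000) (nat_lit 0) (.cons (nat_lit 0xb040400000) (nat_lit 1) (.nil)))) (.nd (nat_lit 0xd040804000) (.cons (nat_lit 0xb840200000) (nat_lit 0) (.cons (nat_lit 0xb040400000) (nat_lit 1) (.nil))) .lf .lf) .lf)) (.nd (nat_lit 0xd070204000) (.cons (nat_lit 0xb840200000) (nat_lit 0) (.nil)) (.nd (nat_lit 0xd060404000) (.cons (nat_lit 0xc020400000)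 (nat_lit 0) (.cons (nat_lit 0xb840200000) (nat_lit 0) (.cons (nat_lit 0xb830400000) (nat_lit 0) (.nil)))) (.nd (nat_lit 0xd050800000) (.cons (nat_lit 0xc040000000) (nat_lit 0) (.cons (nat_lit 0xc040000000) (nat_lit 1) (.cons (nat_lit 0xb840200000) (nat_lit 0) (.nil)))) .lf .lf) (.nd (nat_lit 0xd060600000) (.cons (nat_lit 0xc830000000) (nat_lit 0) (.cons (nat_lit 0xc040000000) (nat_lit 0) (.cons (nat_lit 0xc040000000) (nat_lit 1) (.cons (nat_lit 0xb840200000) (nat_lit 0) (.cons (nat_lit 0xb830400000) (nat_lit 0) (.cons (nat_lit 0xb060000000) (nat_lit 2) (.nil))))))) .lf .lf)) (.nd (nat_lit 0xd080200000) (.cons (nat_lit 0xd020000000) (nat_lit 0) (.cons (nat_lit 0xc830000000) (nat_lit 0) (.cons (nat_lit 0xc040000000) (nat_lit 0) (.cons (nat_lit 0xc040000000) (nat_lit 1) (.cons (nat_lit 0xb840200000) (nat_lit 0) (.nil)))))) (.nd (nat_lit 0xd070400000) (.cons (nat_lit 0xd020000000) (nat_lit 0) (.cons (nat_lit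 0xc830000000) (nat_lit 0) (.cons (nat_lit 0xc040000000) (nat_lit 0) (.cons (nat_lit 0xc040000000) (nat_lit 1) (.cons (nat_lit 0xc020400000) (nat_lit 0) (.cons (nat_lit 0xb840200000) (nat_lit 0) (.cons (nat_lit 0xb830400000) (nat_lit 0) (.nil)))))))) .lf .lf) .lf)))) (.nd (nat_lit 0xe060200000) (.cons (nat_lit 0xd020000000) (nat_lit 0) (.cons (nat_lit 0xc830000000) (nat_lit 0) (.cons (nat_lit 0xc040000000) (nat_lit 1) (.nil)))) (.nd (nat_lit 0xd860400000) (.cons (nat_lit 0xd020000000) (nat_lit 0) (.cons (nat_lit 0xc830000000) (nat_lit 0) (.cons (nat_lit 0xc040000000) (nat_lit 0) (.cons (nat_lit 0xc040000000) (nat_lit 1) (.cons (nat_lit 0xc020400000) (nat_lit 0) (.cons (nat_lit 0xb840200000) (nat_lit 0) (.nil))))))) (.nd (nat_lit 0xd840800000) (.cons (nat_lit 0xc040000000) (nat_lit 0) (.cons (nat_lit 0xc040000000) (nat_lit 1) (.cons (nat_lit 0xb840200000) (nat_lit 0) (.nil)))) (.nd (nat_lit 0xd840408000) (.cons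 (nat_lit 0xc020400000) (nat_lit 0) (.cons (nat_lit 0xb830400000) (nat_lit 0) (.nil))) (.nd (nat_lit 0xd820408100) (.cons (nat_lit 0xb020408000) (nat_lit 0) (.nil)) .lf .lf) (.nd (nat_lit 0xd840604000) (.cons (nat_lit 0xb840200000) (nat_lit 0) (.nil)) .lf .lf)) (.nd (nat_lit 0xd850600000) (.cons (nat_lit 0xc830000000) (nat_lit 0) (.cons (nat_lit 0xc040000000) (nat_lit 1) (.nil))) (.nd (nat_lit 0xd850404000) (.cons (nat_lit 0xc020400000) (nat_lit 0) (.cons (nat_lit 0xb840200000) (nat_lit 0) (.nil))) .lf .lf) .lf)) (.nd (nat_lit 0xe040404000) (.cons (nat_lit 0xc020400000) (nat_lit 0) (.nil)) (.nd (nat_lit 0xd880000000) (.cons (nat_lit 0xd020000000) (nat_lit 0) (.cons (nat_lit 0xc830000000) (nat_lit 0) (.cons (nat_lit 0xc040000000) (nat_lit 0) (.cons (nat_lit 0xc040000000) (nat_lit 1) (.nil))))) (.nd (nat_lit 0xd870200000) (.cons (nat_lit 0xd020000000) (nat_lit 0) (.cons (nat_lit 0xc830000000) (nat_lit 0) (.cons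 (nat_lit 0xc040000000) (nat_lit 1) (.nil)))) .lf .lf) (.nd (nat_lit 0xe030408000) (.cons (nat_lit 0xc020400000) (nat_lit 0) (.nil)) .lf .lf)) (.nd (nat_lit 0xe050400000) (.cons (nat_lit 0xd020000000) (nat_lit 0) (.cons (nat_lit 0xc830000000) (nat_lit 0) (.cons (nat_lit 0xc040000000) (nat_lit 1) (.nil)))) (.nd (nat_lit 0xe040600000) (.cons (nat_lit 0xc830000000) (nat_lit 0) (.cons (nat_lit 0xc040000000) (nat_lit 1) (.nil))) .lf .lf) .lf))) (.nd (nat_lit 0xf040200000) (.cons (nat_lit 0xd020000000) (nat_lit 0) (.nil)) (.nd (nat_lit 0xe850200000) (.cons (nat_lit 0xd020000000) (nat_lit 0) (.nil)) (.nd (nat_lit 0xe820408000) (.cons (nat_lit 0xc020400000) (nat_lit 0) (.nil)) (.nd (nat_lit 0xe070000000) (.cons (nat_lit 0xe000000000) (nat_lit 0) (.cons (nat_lit 0xd020000000) (nat_lit 0) (.cons (nat_lit 0xc830000000) (nat_lit 0) (.nil)))) .lf .lf) (.nd (nat_lit 0xe840400000) (.cons (nat_lit 0xd020000000) (nat_lit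 0) (.cons (nat_lit 0xc830000000) (nat_lit 0) (.cons (nat_lit 0xc040000000) (nat_lit 1) (.nil)))) .lf .lf)) (.nd (nat_lit 0xf030400000) (.cons (nat_lit 0xd020000000) (nat_lit 0) (.nil)) (.nd (nat_lit 0xe860000000) (.cons (nat_lit 0xe000000000) (nat_lit 0) (.cons (nat_lit 0xd020000000) (nat_lit 0) (.cons (nat_lit 0xc830000000) (nat_lit 0) (.nil)))) .lf .lf) .lf)) (.nd (nat_lit 0x10030000000) (.cons (nat_lit 0xe000000000) (nat_lit 0) (.nil)) (.nd (nat_lit 0xf820400000) (.cons (nat_lit 0xd020000000) (nat_lit 0) (.nil)) (.nd (nat_lit 0xf050000000) (.cons (nat_lit 0xe000000000) (nat_lit 0) (.cons (nat_lit 0xd020000000) (nat_lit 0) (.nil))) .lf .lf) (.nd (nat_lit 0xf840000000) (.cons (nat_lit 0xe000000000) (nat_lit 0) (.cons (nat_lit 0xd020000000) (nat_lit 0) (.nil))) .lf .lf)) (.nd (nat_lit 0x11800000000) (.cons (nat_lit 0xe000000000) (nat_lit 0) (.nil)) (.nd (nat_lit 0x10820000000) (.cons (nat_lit 0xe000000000)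 (nat_lit 0) (.nil)) .lf .lf) .lf)))))

/-- pivots of level (5, 7) -/
noncomputable def tP_5_7 : PTr := (.nd (nat_lit 0x80b0808100) (.cons (nat_lit 0x8080408000) (nat_lit 0) (.cons (nat_lit 0x8080408000) (nat_lit 1) (.cons (nat_lit 0x8070608000) (nat_lit 0) (.cons (nat_lit 0x8060808000) (nat_lit 0) (.cons (nat_lit 0x8060808000) (nat_lit 1) (.nil)))))) (.nd (nat_lit 0x7070c10200) (.cons (nat_lit 0x7060810000) (nat_lit 0) (.nil)) (.nd (nat_lit 0x60a140c000) (.cons (nat_lit 0x60a0c00000) (nat_lit 0) (.cons (nat_lit 0x60a0c00000) (nat_lit 1) (.cons (nat_lit 0x60a0c00000) (nat_lit 2) (.nil)))) (.nd (nat_lit 0x58a1214000) (.cons (nat_lit 0x58a0e00000) (nat_lit 0) (.cons (nat_lit 0x58a0c04000) (nat_lit 0) (.nil))) tP_5_7_0 tP_5_7_1) (.nd (nat_lit 0x68a0a10180) (.cons (nat_lit 0x688080c000) (nat_lit 0) (.cons (nat_lit 0x6870a0c000) (nat_lit 0) (.nil))) tP_5_7_2 tP_5_7_3)) (.nd (nat_lit 0x7890c0c100) (.cons (nat_lit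 0x7880608000) (nat_lit 0) (.cons (nat_lit 0x7880608000) (nat_lit 1) (.cons (nat_lit 0x7870808000) (nat_lit 1) (.cons (nat_lit 0x7860a08000) (nat_lit 0) (.cons (nat_lit 0x786080c000) (nat_lit 0) (.cons (nat_lit 0x7080808000) (nat_lit 1) (.cons (nat_lit 0x7080808000) (nat_lit 2) (.nil)))))))) (.nd (nat_lit 0x70b1008000) (.cons (nat_lit 0x70b0600000) (nat_lit 0) (.cons (nat_lit 0x70b0600000) (nat_lit 1) (.cons (nat_lit 0x70b0404000) (nat_lit 0) (.cons (nat_lit 0x70b0404000) (nat_lit 1) (.cons (nat_lit 0x70a0800000) (nat_lit 0) (.cons (nat_lit 0x70a0800000) (nat_lit 1) (.cons (nat_lit 0x70a0800000) (nat_lit 2) (.cons (nat_lit 0x70a0800000) (nat_lit 3) (.cons (nat_lit 0x70a0800000) (nat_lit 4) (.cons (nat_lit 0x70a0604000) (nat_lit 0) (.cons (nat_lit 0x70a0604000) (nat_lit 1) (.cons (nat_lit 0x70a0408000) (nat_lit 0) (.cons (nat_lit 0x70a0408000) (nat_lit 1) (.cons (nat_lit 0x7090a00000) (nat_lit 2) (.cons (nat_lit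 0x7090804000) (nat_lit 2) (.cons (nat_lit 0x7080c00000) (nat_lit 2) (.cons (nat_lit 0x7080c00000) (nat_lit 3) (.nil)))))))))))))))))) tP_5_7_4 tP_5_7_5) (.nd (nat_lit 0x78e0804080) (.cons (nat_lit 0x78b0204000) (nat_lit 0) (.cons (nat_lit 0x78a0404000) (nat_lit 0) (.cons (nat_lit 0x78a0404000) (nat_lit 1) (.nil)))) tP_5_7_6 tP_5_7_7))) (.nd (nat_lit 0x98e0400000) (.cons (nat_lit 0x9890000000) (nat_lit 0) (.cons (nat_lit 0x9890000000) (nat_lit 1) (.cons (nat_lit 0x9880200000) (nat_lit 0) (.cons (nat_lit 0x9880200000) (nat_lit 1) (.cons (nat_lit 0x9880200000) (nat_lit 2) (.cons (nat_lit 0x9870400000) (nat_lit 1) (.cons (nat_lit 0x9870400000) (nat_lit 2) (.cons (nat_lit 0x9870400000) (nat_lit 3) (.cons (nat_lit 0x90a0000000) (nat_lit 1) (.cons (nat_lit 0x90a0000000) (nat_lit 2) (.cons (nat_lit 0x9090200000) (nat_lit 2) (.nil)))))))))))) (.nd (nat_lit 0x9060c14000) (.cons (nat_lit 0x8860a00000) (nat_lit 0) (.cons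 (nat_lit 0x8860a00000) (nat_lit 1) (.cons (nat_lit 0x8060c00000) (nat_lit 2) (.nil)))) (.nd (nat_lit 0x8881004080) (.cons (nat_lit 0x8880404000) (nat_lit 1) (.cons (nat_lit 0x8880404000) (nat_lit 2) (.nil))) tP_5_7_8 tP_5_7_9) (.nd (nat_lit 0x90f0400000) (.cons (nat_lit 0x90a0000000) (nat_lit 0) (.cons (nat_lit 0x90a0000000) (nat_lit 1) (.cons (nat_lit 0x90a0000000) (nat_lit 2) (.cons (nat_lit 0x9090200000) (nat_lit 0) (.cons (nat_lit 0x9090200000) (nat_lit 1) (.cons (nat_lit 0x9090200000) (nat_lit 2) (.cons (nat_lit 0x9080400000) (nat_lit 2) (.nil)))))))) tP_5_7_10 tP_5_7_11)) (.nd (nat_lit 0xb090408000) (.cons (nat_lit 0xb040400000) (nat_lit 0) (.cons (nat_lit 0xb040400000) (nat_lit 1) (.cons (nat_lit 0xb020408000) (nat_lit 0) (.cons (nat_lit 0xa850400000) (nat_lit 0) (.cons (nat_lit 0xa850400000) (nat_lit 1) (.cons (nat_lit 0xa840404000) (nat_lit 0) (.cons (nat_lit 0xa060400000) (nat_lit 1) (.cons (nat_lit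 0xa060400000) (nat_lit 2) (.cons (nat_lit 0xa060400000) (nat_lit 3) (.nil)))))))))) (.nd (nat_lit 0xa860c08000) (.cons (nat_lit 0xa060400000) (nat_lit 0) (.cons (nat_lit 0xa060400000) (nat_lit 1) (.cons (nat_lit 0xa060400000) (nat_lit 2) (.cons (nat_lit 0xa060400000) (nat_lit 3) (.cons (nat_lit 0x9860600000) (nat_lit 1) (.cons (nat_lit 0x9860600000) (nat_lit 2) (.cons (nat_lit 0x9860404000) (nat_lit 0) (.cons (nat_lit 0x9060800000) (nat_lit 3) (.nil))))))))) tP_5_7_12 tP_5_7_13) (.nd (nat_lit 0xc0a0200000) (.cons (nat_lit 0xc040000000) (nat_lit 0) (.cons (nat_lit 0xc040000000) (nat_lit 1) (.cons (nat_lit 0xb850000000) (nat_lit 0) (.cons (nat_lit 0xb840200000) (nat_lit 0) (.cons (nat_lit 0xb060000000) (nat_lit 1) (.cons (nat_lit 0xb060000000) (nat_lit 2) (.cons (nat_lit 0xb050200000) (nat_lit 0) (.nil)))))))) tP_5_7_14 tP_5_7_15))))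

end Crest.Agent.R187.SN.KD
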