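import Crest.Agent.R187.SN.KD.NBase

/-!
# Row 187, PLAN S, generated certificate data (mod 127): blocks, levels (a, b), a <= 4, and (5, b), b <= 4

Written by a C++ program (helper662) from the recursion of `SN/Spec.lean`; canonical (RREF)
frames.  The tables are only data: every property is checked by the kernel elsewhere.
-/

set_option autoImplicit false
set_option maxRecDepth 100000

namespace Crest.Agent.R187.SN.KD

noncomputable def nb_1_0_0 : NE := .cons (nat_lit 0x800000000) (nat_lit 0x6d) (.nil)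

/-- blocks of the `N` tables (1, 0) to (1, 1) -/
noncomputable def tNB_1_0 : NTr := (.nd (nat_lit 0) nb_1_0_0 .lf .lf)

noncomputable def nb_1_1_0 : NE := .cons (nat_lit 0x1000000000) (nat_lit 0x7c) (.nil)

/-- blocks of the `N` tables (1, 1) to (1, 2) -/
noncomputable def tNB_1_1 : NTr := (.nd (nat_lit 0x800000000) nb_1_1_0 .lf .lf)

noncomputable def nb_1_2_0 : NE := .cons (nat_lit 0x1800000000) (nat_lit 0x6c) (.nil)

/-- blocks of the `N` tables (1, 2) to (1, 3) -/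
noncomputable def tNB_1_2 : NTr := (.nd (nat_lit 0x1000000000) nb_1_2_0 .lf .lf)

noncomputable def nb_1_3_0 : NE := .cons (nat_lit 0x2000000000) (nat_lit 0x68) (.nil)

/-- blocks of the `N` tables (1, 3) to (1, 4) -/
noncomputable def tNB_1_3 : NTr := (.nd (nat_lit 0x1800000000) nb_1_3_0 .lf .lf)

noncomputable def nb_1_4_0 : NE := .cons (nat_lit 0x2800000000) (nat_lit 0x12) (.nil)

/-- blocks of the `N` tables (1, 4) to (1, 5) -/
noncomputable def tNB_1_4 : NTr := (.nd (nat_lit 0x2000000000) nb_1_4_0 .lf .lf)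

noncomputable def nb_1_5_0 : NE := .cons (nat_lit 0x3000000000) (nat_lit 9) (.nil)

/-- blocks of the `N` tables (1, 5) to (1, 6) -/
noncomputable def tNB_1_5 : NTr := (.nd (nat_lit 0x2800000000) nb_1_5_0 .lf .lf)

noncomputable def nb_1_6_0 : NE := .cons (nat_lit 0x3800000000) (nat_lit 0x1c) (.nil)

/-- blocks of the `N` tables (1, 6) to (1, 7) -/
noncomputable def tNB_1_6 : NTr := (.nd (nat_lit 0x3000000000) nb_1_6_0 .lf .lf)

noncomputable def nb_2_0_0 : NE := .cons (nat_lit 0x1000000000) (nat_lit 0x36) (.nil)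

/-- blocks of the `N` tables (2, 0) to (2, 1) -/
noncomputable def tNB_2_0 : NTr := (.nd (nat_lit 0) nb_2_0_0 .lf .lf)

noncomputable def nb_2_1_0 : NE := .cons (nat_lit 0x2000000000) (nat_lit 0x38) (.cons (nat_lit 0x1020000000) (nat_lit 0x77) (.nil))

/-- blocks of the `N` tables (2, 1) to (2, 2) -/
noncomputable def tNB_2_1 : NTr := (.nd (nat_lit 0x1000000000) nb_2_1_0 .lf .lf)

noncomputable def nb_2_2_1 : NE := .cons (nat_lit 0x2020000000) (nat_lit 0x70) (.nil)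

noncomputable def nb_2_2_0 : NE := .cons (nat_lit 0x3000000000) (nat_lit 0x23) (.cons (nat_lit 0x2020000000) (nat_lit 0x49) (.nil))

/-- blocks of the `N` tables (2, 2) to (2, 3) -/
noncomputable def tNB_2_2 : NTr := (.nd (nat_lit 0x2000000000) nb_2_2_0 (.nd (nat_lit 0x1020000000) nb_2_2_1 .lf .lf) .lf)

noncomputable def nb_2_3_1 : NE := .cons (nat_lit 0x3020000000) (nat_lit 0xc) (.cons (nat_lit 0x2040000000) (nat_lit 0x51) (.nil))

noncomputable def nb_2_3_0 : NE := .cons (nat_lit 0x4000000000) (nat_lit 0x22) (.cons (nat_lit 0x3020000000) (nat_lit 0x59) (.nil))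

/-- blocks of the `N` tables (2, 3) to (2, 4) -/
noncomputable def tNB_2_3 : NTr := (.nd (nat_lit 0x3000000000) nb_2_3_0 (.nd (nat_lit 0x2020000000) nb_2_3_1 .lf .lf) .lf)

noncomputable def nb_2_4_2 : NE := .cons (nat_lit 0x3040000000) (nat_lit 0x69) (.nil)

noncomputable def nb_2_4_1 : NE := .cons (nat_lit 0x4020000000) (nat_lit 0x21) (.cons (nat_lit 0x3040000000) (nat_lit 0x6e) (.nil))

noncomputable def nb_2_4_0 : NE := .cons (nat_lit 0x5000000000) (nat_lit 0x5c) (.cons (nat_lit 0x4020000000) (nat_lit 0x6d) (.nil))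

/-- blocks of the `N` tables (2, 4) to (2, 5) -/
noncomputable def tNB_2_4 : NTr := (.nd (nat_lit 0x3020000000) nb_2_4_1 (.nd (nat_lit 0x2040000000) nb_2_4_2 .lf .lf) (.nd (nat_lit 0x4000000000) nb_2_4_0 .lf .lf))

noncomputable def nb_2_5_2 : NE := .cons (nat_lit 0x4040000000) (nat_lit 0x43) (.cons (nat_lit 0x3060000000) (nat_lit 0x67) (.nil))

noncomputable def nb_2_5_1 : NE := .cons (nat_lit 0x5020000000) (nat_lit 0x1a) (.cons (nat_lit 0x4040000000) (nat_lit 5) (.nil))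

noncomputable def nb_2_5_0 : NE := .cons (nat_lit 0x6000000000) (nat_lit 9) (.cons (nat_lit 0x5020000000) (nat_lit 0x39) (.nil))

/-- blocks of the `N` tables (2, 5) to (2, 6) -/
noncomputable def tNB_2_5 : NTr := (.nd (nat_lit 0x4020000000) nb_2_5_1 (.nd (nat_lit 0x3040000000) nb_2_5_2 .lf .lf) (.nd (nat_lit 0x5000000000) nb_2_5_0 .lf .lf))

noncomputable def nb_2_6_3 : NE := .cons (nat_lit 0x4060000000) (nat_lit 9) (.nil)

noncomputable def nb_2_6_2 : NE := .cons (nat_lit 0x5040000000) (nat_lit 0x52) (.cons (nat_lit 0x4060000000) (nat_lit 0x52) (.nil))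

noncomputable def nb_2_6_1 : NE := .cons (nat_lit 0x6020000000) (nat_lit 0x52) (.cons (nat_lit 0x5040000000) (nat_lit 0x58) (.nil))

noncomputable def nb_2_6_0 : NE := .cons (nat_lit 0x7000000000) (nat_lit 0x47) (.cons (nat_lit 0x6020000000) (nat_lit 0x56) (.nil))

/-- blocks of the `N` tables (2, 6) to (2, 7) -/
noncomputable def tNB_2_6 : NTr := (.nd (nat_lit 0x5020000000) nb_2_6_1 (.nd (nat_lit 0x4040000000) nb_2_6_2 (.nd (nat_lit 0x3060000000) nb_2_6_3 .lf .lf) .lf) (.nd (nat_lit 0x6000000000) nb_2_6_0 .lf .lf))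

noncomputable def nb_3_0_0 : NE := .cons (nat_lit 0x1800000000) (nat_lit 0x75) (.nil)

/-- blocks of the `N` tables (3, 0) to (3, 1) -/
noncomputable def tNB_3_0 : NTr := (.nd (nat_lit 0) nb_3_0_0 .lf .lf)

noncomputable def nb_3_1_0 : NE := .cons (nat_lit 0x3000000000) (nat_lit 0x54) (.cons (nat_lit 0x2020000000) (nat_lit 0x63) (.nil))

/-- blocks of the `N` tables (3, 1) to (3, 2) -/
noncomputable def tNB_3_1 : NTr := (.nd (nat_lit 0x1800000000) nb_3_1_0 .lf .lf)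

noncomputable def nb_3_2_1 : NE := .cons (nat_lit 0x3820000000) (nat_lit 0x66) (.cons (nat_lit 0x3030000000) (nat_lit 0x2a) (.cons (nat_lit 0x2820400000) (nat_lit 0x1e) (.cons (nat_lit 0x2040200000) (nat_lit 0x57) (.nil))))

noncomputable def nb_3_2_0 : NE := .cons (nat_lit 0x4800000000) (nat_lit 0x5b) (.cons (nat_lit 0x3820000000) (nat_lit 0x37) (.cons (nat_lit 0x3030000000) (nat_lit 0x2b) (.nil)))

/-- blocks of the `N` tables (3, 2) to (3, 3) -/
noncomputable def tNB_3_2 : NTr := (.nd (nat_lit 0x3000000000) nb_3_2_0 (.nd (nat_lit 0x2020000000) nb_3_2_1 .lf .lf) .lf)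

noncomputable def nb_3_3_4 : NE := .cons (nat_lit 0x3840200000) (nat_lit 7) (.cons (nat_lit 0x3040400000) (nat_lit 0x22) (.cons (nat_lit 0x2040800000) (nat_lit 0x59) (.nil)))

noncomputable def nb_3_3_3 : NE := .cons (nat_lit 0x4020400000) (nat_lit 7) (.cons (nat_lit 0x3040400000) (nat_lit 0x7c) (.nil))

noncomputable def nb_3_3_2 : NE := .cons (nat_lit 0x4830000000) (nat_lit 0x49) (.cons (nat_lit 0x4040000000) (nat_lit 0x45) (.cons (nat_lit 0x3840200000) (nat_lit 0x61) (.cons (nat_lit 0x3060000000) (nat_lit 0x4d) (.cons (nat_lit 0x3040400000) (nat_lit 0x49) (.nil)))))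

noncomputable def nb_3_3_1 : NE := .cons (nat_lit 0x5020000000) (nat_lit 0x4a) (.cons (nat_lit 0x4830000000) (nat_lit 0x2b) (.cons (nat_lit 0x4040000000) (nat_lit 0x59) (.cons (nat_lit 0x4020400000) (nat_lit 0x53) (.cons (nat_lit 0x3840200000) (nat_lit 0x26) (.nil)))))

noncomputable def nb_3_3_0 : NE := .cons (nat_lit 0x6000000000) (nat_lit 0x6b) (.cons (nat_lit 0x5020000000) (nat_lit 0x7d) (.cons (nat_lit 0x4830000000) (nat_lit 0x28) (.nil)))

/-- blocks of the `N` tables (3, 3) to (3, 4) -/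
noncomputable def tNB_3_3 : NTr := (.nd (nat_lit 0x3030000000) nb_3_3_2 (.nd (nat_lit 0x2820400000) nb_3_3_3 (.nd (nat_lit 0x2040200000) nb_3_3_4 .lf .lf) .lf) (.nd (nat_lit 0x4800000000) nb_3_3_0 (.nd (nat_lit 0x3820000000) nb_3_3_1 .lf .lf) .lf))

noncomputable def nb_3_4_8 : NE := .cons (nat_lit 0x3840800000) (nat_lit 4) (.nil)

noncomputable def nb_3_4_7 : NE := .cons (nat_lit 0x4840400000) (nat_lit 0x52) (.cons (nat_lit 0x4050400000) (nat_lit 0x7b) (.cons (nat_lit 0x3840800000) (nat_lit 0x66) (.cons (nat_lit 0x3060600000) (nat_lit 0x47) (.nil))))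

noncomputable def nb_3_4_6 : NE := .cons (nat_lit 0x4860000000) (nat_lit 0x43) (.cons (nat_lit 0x4060200000) (nat_lit 0x30) (.cons (nat_lit 0x3060600000) (nat_lit 0x4a) (.nil)))

noncomputable def nb_3_4_5 : NE := .cons (nat_lit 0x5040200000) (nat_lit 0x6a) (.cons (nat_lit 0x4840400000) (nat_lit 0x5e) (.cons (nat_lit 0x4060200000) (nat_lit 0x6b) (.cons (nat_lit 0x4050400000) (nat_lit 0x42) (.cons (nat_lit 0x3840800000) (nat_lit 0x18) (.nil)))))

noncomputable def nb_3_4_4 : NE := .cons (nat_lit 0x5820400000) (nat_lit 0x70) (.cons (nat_lit 0x4840400000) (nat_lit 0x5b) (.cons (nat_lit 0x4050400000) (nat_lit 0x65) (.nil)))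

noncomputable def nb_3_4_3 : NE := .cons (nat_lit 0x5840000000) (nat_lit 0x69) (.cons (nat_lit 0x5050000000) (nat_lit 0x30) (.cons (nat_lit 0x5040200000) (nat_lit 0x7c) (.cons (nat_lit 0x4860000000) (nat_lit 0x56) (.cons (nat_lit 0x4840400000) (nat_lit 0x15) (.cons (nat_lit 0x4060200000) (nat_lit 0x2a) (.cons (nat_lit 0x4050400000) (nat_lit 0x50) (.nil)))))))

noncomputable def nb_3_4_2 : NE := .cons (nat_lit 0x6030000000) (nat_lit 0x20) (.cons (nat_lit 0x5840000000) (nat_lit 0x2f) (.cons (nat_lit 0x5050000000) (nat_lit 0x64) (.cons (nat_lit 0x5040200000) (nat_lit 0x4b) (.cons (nat_lit 0x4860000000) (nat_lit 0x13) (.cons (nat_lit 0x4840400000) (nat_lit 0x68) (.nil))))))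

noncomputable def nb_3_4_1 : NE := .cons (nat_lit 0x6820000000) (nat_lit 0x45) (.cons (nat_lit 0x6030000000) (nat_lit 0x67) (.cons (nat_lit 0x5840000000) (nat_lit 0x65) (.cons (nat_lit 0x5820400000) (nat_lit 0x70) (.cons (nat_lit 0x5050000000) (nat_lit 3) (.cons (nat_lit 0x5040200000) (nat_lit 0x19) (.nil))))))

noncomputable def nb_3_4_0 : NE := .cons (nat_lit 0x7800000000) (nat_lit 0x6d) (.cons (nat_lit 0x6820000000) (nat_lit 0x3e) (.cons (nat_lit 0x6030000000) (nat_lit 0x66) (.nil)))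

/-- blocks of the `N` tables (3, 4) to (3, 5) -/
noncomputable def tNB_3_4 : NTr := (.nd (nat_lit 0x4020400000) nb_3_4_4 (.nd (nat_lit 0x3060000000) nb_3_4_6 (.nd (nat_lit 0x3040400000) nb_3_4_7 (.nd (nat_lit 0x2040800000) nb_3_4_8 .lf .lf) .lf) (.nd (nat_lit 0x3840200000) nb_3_4_5 .lf .lf)) (.nd (nat_lit 0x5020000000) nb_3_4_1 (.nd (nat_lit 0x4830000000) nb_3_4_2 (.nd (nat_lit 0x4040000000) nb_3_4_3 .lf .lf) .lf) (.nd (nat_lit 0x6000000000) nb_3_4_0 .lf .lf)))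

noncomputable def nb_3_5_12 : NE := .cons (nat_lit 0x4860600000) (nat_lit 0xe) (.cons (nat_lit 0x4060800000) (nat_lit 0x5d) (.cons (nat_lit 0x3060c00000) (nat_lit 0x5f) (.nil)))

noncomputable def nb_3_5_11 : NE := .cons (nat_lit 0x5040800000) (nat_lit 0x37) (.cons (nat_lit 0x4060800000) (nat_lit 0x3d) (.nil))

noncomputable def nb_3_5_10 : NE := .cons (nat_lit 0x5850400000) (nat_lit 0x5e) (.cons (nat_lit 0x5060400000) (nat_lit 0x32) (.cons (nat_lit 0x4860600000) (nat_lit 0x78) (.cons (nat_lit 0x4080400000) (nat_lit 9) (.cons (nat_lit 0x4060800000) (nat_lit 0x13) (.nil)))))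

noncomputable def nb_3_5_9 : NE := .cons (nat_lit 0x5860200000) (nat_lit 0x5b) (.cons (nat_lit 0x5070200000) (nat_lit 0x1c) (.cons (nat_lit 0x5060400000) (nat_lit 0x50) (.cons (nat_lit 0x4860600000) (nat_lit 0x6a) (.cons (nat_lit 0x4080400000) (nat_lit 0x3e) (.cons (nat_lit 0x4060800000) (nat_lit 0x33) (.nil))))))

noncomputable def nb_3_5_8 : NE := .cons (nat_lit 0x6040400000) (nat_lit 0x14) (.cons (nat_lit 0x5850400000) (nat_lit 0x43) (.cons (nat_lit 0x5060400000) (nat_lit 0x21) (.cons (nat_lit 0x5040800000) (nat_lit 0x6f) (.cons (nat_lit 0x4860600000) (nat_lit 0x2d) (.nil)))))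

noncomputable def nb_3_5_7 : NE := .cons (nat_lit 0x6060000000) (nat_lit 0xb80) (.cons (nat_lit 0x5860200000) (nat_lit 0x25) (.cons (nat_lit 0x5080000000) (nat_lit 0x1a) (.cons (nat_lit 0x5070200000) (nat_lit 0x1e) (.cons (nat_lit 0x5060400000) (nat_lit 0x35) (.cons (nat_lit 0x4860600000) (nat_lit 0x79) (.nil))))))

noncomputable def nb_3_5_6 : NE := .cons (nat_lit 0x6840200000) (nat_lit 0x6a) (.cons (nat_lit 0x6040400000) (nat_lit 0x38) (.cons (nat_lit 0x5860200000) (nat_lit 0x40) (.cons (nat_lit 0x5850400000) (nat_lit 0x5d) (.cons (nat_lit 0x5070200000) (nat_lit 0x21) (.cons (nat_lit 0x5060400000) (nat_lit 0x2f) (.cons (nat_lit 0x5040800000) (nat_lit 0x42) (.nil)))))))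

noncomputable def nb_3_5_5 : NE := .cons (nat_lit 0x6850000000) (nat_lit 0x51) (.cons (nat_lit 0x6060000000) (nat_lit 0x2ff9) (.cons (nat_lit 0x5860200000) (nat_lit 0x68) (.cons (nat_lit 0x5850400000) (nat_lit 0x37) (.cons (nat_lit 0x5080000000) (nat_lit 0x1a) (.cons (nat_lit 0x5070200000) (nat_lit 0x25) (.cons (nat_lit 0x5060400000) (nat_lit 3) (.nil)))))))

noncomputable def nb_3_5_4 : NE := .cons (nat_lit 0x7020400000) (nat_lit 0x39) (.cons (nat_lit 0x6040400000) (nat_lit 0x44) (.cons (nat_lit 0x5850400000) (nat_lit 0x7d) (.nil)))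

noncomputable def nb_3_5_3 : NE := .cons (nat_lit 0x7040000000) (nat_lit 0x12) (.cons (nat_lit 0x6850000000) (nat_lit 0x36) (.cons (nat_lit 0x6840200000) (nat_lit 0x29) (.cons (nat_lit 0x6060000000) (nat_lit 0x3c65) (.cons (nat_lit 0x6040400000) (nat_lit 0x73) (.cons (nat_lit 0x5860200000) (nat_lit 0x43) (.cons (nat_lit 0x5850400000) (nat_lit 0x24) (.nil)))))))

noncomputable def nb_3_5_2 : NE := .cons (nat_lit 0x7830000000) (nat_lit 0x5c) (.cons (nat_lit 0x7040000000) (nat_lit 0x29) (.cons (nat_lit 0x6850000000) (nat_lit 0x42) (.cons (nat_lit 0x6840200000) (nat_lit 0x45) (.cons (nat_lit 0x6060000000) (nat_lit 0x1dc4) (.cons (nat_lit 0x6040400000) (nat_lit 2) (.nil))))))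

noncomputable def nb_3_5_1 : NE := .cons (nat_lit 0x8020000000) (nat_lit 0x23) (.cons (nat_lit 0x7830000000) (nat_lit 0x12) (.cons (nat_lit 0x7040000000) (nat_lit 0x1b) (.cons (nat_lit 0x7020400000) (nat_lit 0x66) (.cons (nat_lit 0x6850000000) (nat_lit 0x30) (.cons (nat_lit 0x6840200000) (nat_lit 0x16) (.nil))))))

noncomputable def nb_3_5_0 : NE := .cons (nat_lit 0x9000000000) (nat_lit 0x62) (.cons (nat_lit 0x8020000000) (nat_lit 5) (.cons (nat_lit 0x7830000000) (nat_lit 0x42) (.nil)))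

/-- blocks of the `N` tables (3, 5) to (3, 6) -/
noncomputable def tNB_3_5 : NTr := (.nd (nat_lit 0x5040200000) nb_3_5_6 (.nd (nat_lit 0x4060200000) nb_3_5_9 (.nd (nat_lit 0x3840800000) nb_3_5_11 (.nd (nat_lit 0x3060600000) nb_3_5_12 .lf .lf) (.nd (nat_lit 0x4050400000) nb_3_5_10 .lf .lf)) (.nd (nat_lit 0x4860000000) nb_3_5_7 (.nd (nat_lit 0x4840400000) nb_3_5_8 .lf .lf) .lf)) (.nd (nat_lit 0x6030000000) nb_3_5_2 (.nd (nat_lit 0x5820400000) nb_3_5_4 (.nd (nat_lit 0x5050000000) nb_3_5_5 .lf .lf) (.nd (nat_lit 0x5840000000) nb_3_5_3 .lf .lf)) (.nd (nat_lit 0x7800000000) nb_3_5_0 (.nd (nat_lit 0x6820000000) nb_3_5_1 .lf .lf) .lf)))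

noncomputable def nb_3_6_18 : NE := .cons (nat_lit 0x4860c00000) (nat_lit 0x3f) (.nil)

noncomputable def nb_3_6_17 : NE := .cons (nat_lit 0x5860800000) (nat_lit 0x5d) (.cons (nat_lit 0x5070800000) (nat_lit 0x76) (.cons (nat_lit 0x4860c00000) (nat_lit 0x6f) (.cons (nat_lit 0x4080a00000) (nat_lit 0xe) (.nil))))

noncomputable def nb_3_6_16 : NE := .cons (nat_lit 0x5880400000) (nat_lit 0x7c) (.cons (nat_lit 0x5080600000) (nat_lit 5) (.cons (nat_lit 0x4080a00000) (nat_lit 8) (.nil)))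

noncomputable def nb_3_6_15 : NE := .cons (nat_lit 0x6060600000) (nat_lit 0x42) (.cons (nat_lit 0x5860800000) (nat_lit 4) (.cons (nat_lit 0x5080600000) (nat_lit 0x73) (.cons (nat_lit 0x5070800000) (nat_lit 0x15) (.cons (nat_lit 0x4860c00000) (nat_lit 0x63) (.nil)))))

noncomputable def nb_3_6_14 : NE := .cons (nat_lit 0x6840800000) (nat_lit 0x45) (.cons (nat_lit 0x5860800000) (nat_lit 0x3d) (.cons (nat_lit 0x5070800000) (nat_lit 0xe) (.nil)))

noncomputable def nb_3_6_13 : NE := .cons (nat_lit 0x6860400000) (nat_lit 0x5f) (.cons (nat_lit 0x6070400000) (nat_lit 0x69) (.cons (nat_lit 0x6060600000) (nat_lit 0x60) (.cons (nat_lit 0x5880400000) (nat_lit 0x66) (.cons (nat_lit 0x5860800000) (nat_lit 0x39) (.cons (nat_lit 0x5080600000) (nat_lit 0x3a) (.cons (nat_lit 0x5070800000) (nat_lit 0x41) (.nil)))))))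

noncomputable def nb_3_6_12 : NE := .cons (nat_lit 0x6870200000) (nat_lit 0x49) (.cons (nat_lit 0x6080200000) (nat_lit 0x1d) (.cons (nat_lit 0x6070400000) (nat_lit 0x4e) (.cons (nat_lit 0x5880400000) (nat_lit 0x1e) (.cons (nat_lit 0x50a0200000) (nat_lit 0x3f) (.cons (nat_lit 0x5080600000) (nat_lit 0x27) (.cons (nat_lit 0x5070800000) (nat_lit 0x1b) (.nil)))))))

noncomputable def nb_3_6_11 : NE := .cons (nat_lit 0x6880000000) (nat_lit 0x72) (.cons (nat_lit 0x6090000000) (nat_lit 0x21) (.cons (nat_lit 0x6080200000) (nat_lit 0x38) (.cons (nat_lit 0x5880400000) (nat_lit 0x75) (.cons (nat_lit 0x50a0200000) (nat_lit 0xb) (.cons (nat_lit 0x5080600000) (nat_lit 0xe) (.nil))))))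

noncomputable def nb_3_6_10 : NE := .cons (nat_lit 0x7050400000) (nat_lit 0x4b) (.cons (nat_lit 0x6860400000) (nat_lit 0x58) (.cons (nat_lit 0x6070400000) (nat_lit 0x22) (.cons (nat_lit 0x6060600000) (nat_lit 0x25) (.cons (nat_lit 0x5880400000) (nat_lit 0x44) (.cons (nat_lit 0x5860800000) (nat_lit 0x72) (.nil))))))

noncomputable def nb_3_6_9 : NE := .cons (nat_lit 0x7060200000) (nat_lit 0x21) (.cons (nat_lit 0x6870200000) (nat_lit 0x4a) (.cons (nat_lit 0x6860400000) (nat_lit 0x57) (.cons (nat_lit 0x6080200000) (nat_lit 0x4d) (.cons (nat_lit 0x6070400000) (nat_lit 0x3f) (.cons (nat_lit 0x6060600000) (nat_lit 0x5b) (.cons (nat_lit 0x5880400000) (nat_lit 0xf) (.cons (nat_lit 0x5860800000) (nat_lit 0x67) (.nil))))))))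

noncomputable def nb_3_6_8 : NE := .cons (nat_lit 0x7840400000) (nat_lit 0x1a) (.cons (nat_lit 0x7050400000) (nat_lit 0x5e) (.cons (nat_lit 0x6860400000) (nat_lit 0x34) (.cons (nat_lit 0x6840800000) (nat_lit 0x6d) (.cons (nat_lit 0x6070400000) (nat_lit 0x73) (.cons (nat_lit 0x6060600000) (nat_lit 0x54) (.nil))))))

noncomputable def nb_3_6_7 : NE := .cons (nat_lit 0x7860000000) (nat_lit 0x81c061) (.cons (nat_lit 0x7070000000) (nat_lit 0x52) (.cons (nat_lit 0x7060200000) (nat_lit 0x21fa) (.cons (nat_lit 0x6880000000) (nat_lit 0x3433) (.cons (nat_lit 0x6870200000) (nat_lit 0xecf) (.cons (nat_lit 0x6860400000) (nat_lit 0x3a74) (.cons (nat_lit 0x6090000000) (nat_lit 0x706) (.cons (nat_lit 0x6080200000) (nat_lit 0x1122) (.cons (nat_lit 0x6070400000) (nat_lit 0x3616) (.cons (nat_lit 0x6060600000) (nat_lit 0x2c3a) (.nil))))))))))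

noncomputable def nb_3_6_6 : NE := .cons (nat_lit 0x8040200000) (nat_lit 0x53) (.cons (nat_lit 0x7840400000) (nat_lit 0x7e) (.cons (nat_lit 0x7060200000) (nat_lit 0x2d) (.cons (nat_lit 0x7050400000) (nat_lit 0x51) (.cons (nat_lit 0x6870200000) (nat_lit 0x38) (.cons (nat_lit 0x6860400000) (nat_lit 0x66) (.cons (nat_lit 0x6840800000) (nat_lit 0x2f) (.nil)))))))

noncomputable def nb_3_6_5 : NE := .cons (nat_lit 0x8050000000) (nat_lit 0x79) (.cons (nat_lit 0x7860000000) (nat_lit 0x29c5) (.cons (nat_lit 0x7070000000) (nat_lit 0x54) (.cons (nat_lit 0x7060200000) (nat_lit 0x78) (.cons (nat_lit 0x7050400000) (nat_lit 0x2b) (.cons (nat_lit 0x6880000000) (nat_lit 0x31) (.cons (nat_lit 0x6870200000) (nat_lit 0x11) (.cons (nat_lit 0x6860400000) (nat_lit 0x20) (.nil))))))))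

noncomputable def nb_3_6_4 : NE := .cons (nat_lit 0x8820400000) (nat_lit 0x18) (.cons (nat_lit 0x7840400000) (nat_lit 0x1a) (.cons (nat_lit 0x7050400000) (nat_lit 0x59) (.nil)))

noncomputable def nb_3_6_3 : NE := .cons (nat_lit 0x8840000000) (nat_lit 0x22) (.cons (nat_lit 0x8050000000) (nat_lit 0x58) (.cons (nat_lit 0x8040200000) (nat_lit 0x4f) (.cons (nat_lit 0x7860000000) (nat_lit 0x3d5d) (.cons (nat_lit 0x7840400000) (nat_lit 0x57) (.cons (nat_lit 0x7070000000) (nat_lit 0x7e) (.cons (nat_lit 0x7060200000) (nat_lit 0x67) (.cons (nat_lit 0x7050400000) (nat_lit 0x25) (.nil))))))))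

noncomputable def nb_3_6_2 : NE := .cons (nat_lit 0x9030000000) (nat_lit 0x77) (.cons (nat_lit 0x8840000000) (nat_lit 0x18) (.cons (nat_lit 0x8050000000) (nat_lit 0x2c) (.cons (nat_lit 0x8040200000) (nat_lit 0x1b) (.cons (nat_lit 0x7860000000) (nat_lit 0x1d3a) (.cons (nat_lit 0x7840400000) (nat_lit 0x30) (.nil))))))

noncomputable def nb_3_6_1 : NE := .cons (nat_lit 0x9820000000) (nat_lit 0x33) (.cons (nat_lit 0x9030000000) (nat_lit 0x41) (.cons (nat_lit 0x8840000000) (nat_lit 0x48) (.cons (nat_lit 0x8820400000) (nat_lit 0x79) (.cons (nat_lit 0x8050000000) (nat_lit 0x4a) (.cons (nat_lit 0x8040200000) (nat_lit 0x5d) (.nil))))))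

noncomputable def nb_3_6_0 : NE := .cons (nat_lit 0xa800000000) (nat_lit 0x1f) (.cons (nat_lit 0x9820000000) (nat_lit 0x58) (.cons (nat_lit 0x9030000000) (nat_lit 0x3f) (.nil)))

/-- blocks of the `N` tables (3, 6) to (3, 7) -/
noncomputable def tNB_3_6 : NTr := (.nd (nat_lit 0x5860200000) nb_3_6_9 (.nd (nat_lit 0x5040800000) nb_3_6_14 (.nd (nat_lit 0x4080400000) nb_3_6_16 (.nd (nat_lit 0x4060800000) nb_3_6_17 (.nd (nat_lit 0x3060c00000) nb_3_6_18 .lf .lf) .lf) (.nd (nat_lit 0x4860600000) nb_3_6_15 .lf .lf)) (.nd (nat_lit 0x5080000000) nb_3_6_11 (.nd (nat_lit 0x5070200000) nb_3_6_12 (.nd (nat_lit 0x5060400000) nb_3_6_13 .lf .lf) .lf) (.nd (nat_lit 0x5850400000) nb_3_6_10 .lf .lf))) (.nd (nat_lit 0x7020400000) nb_3_6_4 (.nd (nat_lit 0x6840200000) nb_3_6_6 (.nd (nat_lit 0x6060000000) nb_3_6_7 (.nd (nat_lit 0x6040400000) nb_3_6_8 .lf .lf) .lf) (.nd (nat_lit 0x6850000000) nb_3_6_5 .lf .lf)) (.nd (nat_lit 0x8020000000)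 nb_3_6_1 (.nd (nat_lit 0x7830000000) nb_3_6_2 (.nd (nat_lit 0x7040000000) nb_3_6_3 .lf .lf) .lf) (.nd (nat_lit 0x9000000000) nb_3_6_0 .lf .lf))))

noncomputable def nb_4_0_0 : NE := .cons (nat_lit 0x2000000000) (nat_lit 0x67) (.nil)

/-- blocks of the `N` tables (4, 0) to (4, 1) -/
noncomputable def tNB_4_0 : NTr := (.nd (nat_lit 0) nb_4_0_0 .lf .lf)

noncomputable def nb_4_1_0 : NE := .cons (nat_lit 0x4000000000) (nat_lit 0x2f) (.cons (nat_lit 0x3020000000) (nat_lit 0x43) (.cons (nat_lit 0x2040000000) (nat_lit 0x47) (.nil)))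

/-- blocks of the `N` tables (4, 1) to (4, 2) -/
noncomputable def tNB_4_1 : NTr := (.nd (nat_lit 0x2000000000) nb_4_1_0 .lf .lf)

noncomputable def nb_4_2_2 : NE := .cons (nat_lit 0x4040000000) (nat_lit 0x1e) (.cons (nat_lit 0x3840200000) (nat_lit 0x49) (.cons (nat_lit 0x3040400000) (nat_lit 0x57) (.cons (nat_lit 0x2040800000) (nat_lit 0x69) (.nil))))

noncomputable def nb_4_2_1 : NE := .cons (nat_lit 0x5020000000) (nat_lit 0x64) (.cons (nat_lit 0x4830000000) (nat_lit 0x64) (.cons (nat_lit 0x4040000000) (nat_lit 0x54) (.cons (nat_lit 0x4020400000) (nat_lit 0x39) (.cons (nat_lit 0x3840200000) (nat_lit 0x48) (.cons (nat_lit 0x3060000000) (nat_lit 0x5a) (.cons (nat_lit 0x3040400000) (nat_lit 0x15) (.nil)))))))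

noncomputable def nb_4_2_0 : NE := .cons (nat_lit 0x6000000000) (nat_lit 0x42) (.cons (nat_lit 0x5020000000) (nat_lit 0x20) (.cons (nat_lit 0x4830000000) (nat_lit 0x7a) (.cons (nat_lit 0x4040000000) (nat_lit 0x49) (.nil))))

/-- blocks of the `N` tables (4, 2) to (4, 3) -/
noncomputable def tNB_4_2 : NTr := (.nd (nat_lit 0x3020000000) nb_4_2_1 (.nd (nat_lit 0x2040000000) nb_4_2_2 .lf .lf) (.nd (nat_lit 0x4000000000) nb_4_2_0 .lf .lf))

noncomputable def nb_4_3_8 : NE := .cons (nat_lit 0x4040800000) (nat_lit 0x1c00) (.cons (nat_lit 0x3840804000) (nat_lit 0x4c) (.cons (nat_lit 0x3040808000) (nat_lit 0x5c) (.cons (nat_lit 0x2040810000) (nat_lit 0x3c) (.nil))))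

noncomputable def nb_4_3_7 : NE := .cons (nat_lit 0x5040400000) (nat_lit 0x1e80) (.cons (nat_lit 0x4850400000) (nat_lit 0x11) (.cons (nat_lit 0x4840600000) (nat_lit 0x48) (.cons (nat_lit 0x4840404000) (nat_lit 0x6b) (.cons (nat_lit 0x4060400000) (nat_lit 0xcba) (.cons (nat_lit 0x4050404000) (nat_lit 0x3a) (.cons (nat_lit 0x4040800000) (nat_lit 0x21e1) (.cons (nat_lit 0x4040408000) (nat_lit 0x1e) (.cons (nat_lit 0x3860600000) (nat_lit 0x26) (.cons (nat_lit 0x3850604000) (nat_lit 3) (.cons (nat_lit 0x3840804000) (nat_lit 0x6b) (.cons (nat_lit 0x3060800000) (nat_lit 0x3f) (.cons (nat_lit 0x3060408000) (nat_lit 0x3d) (.cons (nat_lit 0x3040808000) (nat_lit 0x1b) (.nil))))))))))))))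

noncomputable def nb_4_3_6 : NE := .cons (nat_lit 0x5060000000) (nat_lit 0x1700) (.cons (nat_lit 0x4860200000) (nat_lit 0x2b) (.cons (nat_lit 0x4060400000) (nat_lit 0x6c) (.cons (nat_lit 0x3860600000) (nat_lit 5) (.cons (nat_lit 0x3060800000) (nat_lit 0x7c) (.nil)))))

noncomputable def nb_4_3_5 : NE := .cons (nat_lit 0x5840200000) (nat_lit 0x3a) (.cons (nat_lit 0x5050200000) (nat_lit 0x6d) (.cons (nat_lit 0x5040400000) (nat_lit 0x6c4) (.cons (nat_lit 0x4860200000) (nat_lit 0x40) (.cons (nat_lit 0x4850400000) (nat_lit 0x7b) (.cons (nat_lit 0x4840600000) (nat_lit 0x50) (.cons (nat_lit 0x4840404000) (nat_lit 7) (.cons (nat_lit 0x4060400000) (nat_lit 0x523) (.cons (nat_lit 0x4050404000) (nat_lit 0x26) (.cons (nat_lit 0x4040800000) (nat_lit 0x21d7) (.cons (nat_lit 0x3870204000) (nat_lit 0x11) (.cons (nat_lit 0x3860600000) (nat_lit 0x5a) (.cons (nat_lit 0x3850604000) (nat_lit 0x34) (.cons (nat_lit 0x3840804000)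 (nat_lit 0x35) (.nil))))))))))))))

noncomputable def nb_4_3_4 : NE := .cons (nat_lit 0x6020400000) (nat_lit 0x65) (.cons (nat_lit 0x5830400000) (nat_lit 0x52) (.cons (nat_lit 0x5040400000) (nat_lit 0x31ce) (.cons (nat_lit 0x5020408000) (nat_lit 0x77) (.cons (nat_lit 0x4850400000) (nat_lit 0xb) (.cons (nat_lit 0x4840404000) (nat_lit 0x63) (.cons (nat_lit 0x4060400000) (nat_lit 0x61) (.cons (nat_lit 0x4050404000) (nat_lit 0x26) (.cons (nat_lit 0x4040408000) (nat_lit 0x77) (.nil)))))))))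

noncomputable def nb_4_3_3 : NE := .cons (nat_lit 0x6040000000) (nat_lit 0x3a00) (.cons (nat_lit 0x5840200000) (nat_lit 0x26) (.cons (nat_lit 0x5060000000) (nat_lit 0x3488) (.cons (nat_lit 0x5050200000) (nat_lit 0x4b) (.cons (nat_lit 0x5040400000) (nat_lit 0x1938) (.cons (nat_lit 0x4860200000) (nat_lit 0x14) (.cons (nat_lit 0x4850400000) (nat_lit 0x7b) (.cons (nat_lit 0x4840600000) (nat_lit 0x67) (.cons (nat_lit 0x4080000000) (nat_lit 0x5b) (.cons (nat_lit 0x4060400000) (nat_lit 0x3bf5) (.cons (nat_lit 0x4040800000) (nat_lit 0x1436) (.nil)))))))))))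

noncomputable def nb_4_3_2 : NE := .cons (nat_lit 0x6830000000) (nat_lit 0x6e) (.cons (nat_lit 0x6040000000) (nat_lit 0xe0d) (.cons (nat_lit 0x5840200000) (nat_lit 0x5d) (.cons (nat_lit 0x5830400000) (nat_lit 0x5a) (.cons (nat_lit 0x5060000000) (nat_lit 0x3799) (.cons (nat_lit 0x5050200000) (nat_lit 0x44) (.cons (nat_lit 0x5040400000) (nat_lit 0x1dfb) (.cons (nat_lit 0x4860200000) (nat_lit 0x47) (.cons (nat_lit 0x4850400000) (nat_lit 1) (.cons (nat_lit 0x4840600000) (nat_lit 0x6a) (.nil))))))))))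

noncomputable def nb_4_3_1 : NE := .cons (nat_lit 0x7020000000) (nat_lit 0x56) (.cons (nat_lit 0x6830000000) (nat_lit 0x4f) (.cons (nat_lit 0x6040000000) (nat_lit 0x3c88) (.cons (nat_lit 0x6020400000) (nat_lit 0x54) (.cons (nat_lit 0x5840200000) (nat_lit 0x3a) (.cons (nat_lit 0x5830400000) (nat_lit 0x78) (.cons (nat_lit 0x5060000000) (nat_lit 0x417) (.cons (nat_lit 0x5050200000) (nat_lit 8) (.cons (nat_lit 0x5040400000) (nat_lit 0x281a) (.nil)))))))))

noncomputable def nb_4_3_0 : NE := .cons (nat_lit 0x8000000000) (nat_lit 7) (.cons (nat_lit 0x7020000000) (nat_lit 0x6d) (.cons (nat_lit 0x6830000000) (nat_lit 0x2f) (.cons (nat_lit 0x6040000000) (nat_lit 0x26a1) (.nil))))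

/-- blocks of the `N` tables (4, 3) to (4, 4) -/
noncomputable def tNB_4_3 : NTr := (.nd (nat_lit 0x4020400000) nb_4_3_4 (.nd (nat_lit 0x3060000000) nb_4_3_6 (.nd (nat_lit 0x3040400000) nb_4_3_7 (.nd (nat_lit 0x2040800000) nb_4_3_8 .lf .lf) .lf) (.nd (nat_lit 0x3840200000) nb_4_3_5 .lf .lf)) (.nd (nat_lit 0x5020000000) nb_4_3_1 (.nd (nat_lit 0x4830000000) nb_4_3_2 (.nd (nat_lit 0x4040000000) nb_4_3_3 .lf .lf) .lf) (.nd (nat_lit 0x6000000000) nb_4_3_0 .lf .lf)))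

noncomputable def nb_4_4_27 : NE := .cons (nat_lit 0x4040810000) (nat_lit 0xb) (.nil)

noncomputable def nb_4_4_26 : NE := .cons (nat_lit 0x5040808000) (nat_lit 0x18) (.cons (nat_lit 0x4850808000) (nat_lit 0x20) (.cons (nat_lit 0x4060808000) (nat_lit 0x7c) (.cons (nat_lit 0x4040810000) (nat_lit 0x23) (.cons (nat_lit 0x386080c000) (nat_lit 0x12) (.nil)))))

noncomputable def nb_4_4_25 : NE := .cons (nat_lit 0x5060408000) (nat_lit 0x1c) (.cons (nat_lit 0x4860608000) (nat_lit 0x6c) (.cons (nat_lit 0x4060808000) (nat_lit 0x74) (.cons (nat_lit 0x3060c08000) (nat_lit 0x30) (.nil))))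

noncomputable def nb_4_4_24 : NE := .cons (nat_lit 0x5060800000) (nat_lit 0xa0000) (.cons (nat_lit 0x4860a00000) (nat_lit 0x59) (.cons (nat_lit 0x4860804000) (nat_lit 4) (.cons (nat_lit 0x4060c00000) (nat_lit 0x33) (.cons (nat_lit 0x4060a04000) (nat_lit 0x54) (.cons (nat_lit 0x4060808000) (nat_lit 0x2c) (.cons (nat_lit 0x386080c000) (nat_lit 0x23) (.cons (nat_lit 0x3060c08000) (nat_lit 0x77) (.nil))))))))

noncomputable def nb_4_4_23 : NE := .cons (nat_lit 0x5840804000) (nat_lit 0x17) (.cons (nat_lit 0x5050804000) (nat_lit 0x7a) (.cons (nat_lit 0x5040808000) (nat_lit 0x6b) (.cons (nat_lit 0x4860804000) (nat_lit 0x78) (.cons (nat_lit 0x4850808000) (nat_lit 0x42) (.cons (nat_lit 0x4070804000) (nat_lit 0x47) (.cons (nat_lit 0x4060808000) (nat_lit 0x18) (.cons (nat_lit 0x4040810000) (nat_lit 0x77) (.cons (nat_lit 0x386080c000) (nat_lit 0x45) (.nil)))))))))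

noncomputable def nb_4_4_22 : NE := .cons (nat_lit 0x5850604000) (nat_lit 0x55) (.cons (nat_lit 0x5060604000) (nat_lit 0x64) (.cons (nat_lit 0x5050804000) (nat_lit 0x3d) (.cons (nat_lit 0x4870604000) (nat_lit 0x51) (.cons (nat_lit 0x4860804000) (nat_lit 0x33) (.cons (nat_lit 0x4860608000) (nat_lit 0x4d) (.cons (nat_lit 0x4850808000) (nat_lit 0x69) (.cons (nat_lit 0x4070804000) (nat_lit 0x58) (.cons (nat_lit 0x4060a04000) (nat_lit 0x20) (.cons (nat_lit 0x4060808000) (nat_lit 0xe) (.cons (nat_lit 0x386080c000) (nat_lit 0x17) (.nil)))))))))))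

noncomputable def nb_4_4_21 : NE := .cons (nat_lit 0x5860600000) (nat_lit 0x800) (.cons (nat_lit 0x5070600000) (nat_lit 0x36) (.cons (nat_lit 0x5060800000) (nat_lit 0x1a6500) (.cons (nat_lit 0x5060604000) (nat_lit 0x72) (.cons (nat_lit 0x4870800000) (nat_lit 0x5f) (.cons (nat_lit 0x4870604000) (nat_lit 0x16) (.cons (nat_lit 0x4860a00000) (nat_lit 0x27) (.cons (nat_lit 0x4860804000) (nat_lit 0x66) (.cons (nat_lit 0x4860608000) (nat_lit 0x7b) (.cons (nat_lit 0x4070804000) (nat_lit 0x2f) (.cons (nat_lit 0x4060c00000) (nat_lit 0x1e) (.cons (nat_lit 0x4060a04000) (nat_lit 0xd) (.cons (nat_lit 0x4060808000) (nat_lit 0x65) (.cons (nat_lit 0x386080c000) (nat_lit 0x38) (.nil))))))))))))))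

noncomputable def nb_4_4_20 : NE := .cons (nat_lit 0x5870204000) (nat_lit 0x57) (.cons (nat_lit 0x5070404000) (nat_lit 0x1a) (.cons (nat_lit 0x4870604000) (nat_lit 0x21) (.cons (nat_lit 0x4070804000) (nat_lit 0x77) (.nil))))

noncomputable def nb_4_4_19 : NE := .cons (nat_lit 0x6040408000) (nat_lit 0x33) (.cons (nat_lit 0x5850408000) (nat_lit 0x2d) (.cons (nat_lit 0x5060408000) (nat_lit 0x56) (.cons (nat_lit 0x5040808000) (nat_lit 0x45) (.cons (nat_lit 0x4860608000) (nat_lit 0x6d) (.cons (nat_lit 0x4850808000) (nat_lit 0) (.cons (nat_lit 0x4080408000) (nat_lit 0x4a) (.cons (nat_lit 0x4060808000) (nat_lit 0x43) (.nil))))))))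

noncomputable def nb_4_4_18 : NE := .cons (nat_lit 0x6040800000) (nat_lit 0x644c007) (.cons (nat_lit 0x5850800000) (nat_lit 5) (.cons (nat_lit 0x5840804000) (nat_lit 0x1310) (.cons (nat_lit 0x5060800000) (nat_lit 0x70491407e) (.cons (nat_lit 0x5050804000) (nat_lit 0x1415) (.cons (nat_lit 0x5040808000) (nat_lit 0x2f3e) (.cons (nat_lit 0x4870800000) (nat_lit 0x55) (.cons (nat_lit 0x4860804000) (nat_lit 0x26c3) (.cons (nat_lit 0x4850808000) (nat_lit 0x3010) (.cons (nat_lit 0x4080800000) (nat_lit 0x20c1) (.cons (nat_lit 0x4070804000) (nat_lit 0x1b9f) (.cons (nat_lit 0x4060808000) (nat_lit 0x792) (.cons (nat_lit 0x4040810000) (nat_lit 0x861) (.nil)))))))))))))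

noncomputable def nb_4_4_17 : NE := .cons (nat_lit 0x6050404000) (nat_lit 0x76) (.cons (nat_lit 0x5860404000) (nat_lit 0x14) (.cons (nat_lit 0x5850604000) (nat_lit 0x2c) (.cons (nat_lit 0x5850408000) (nat_lit 0x18) (.cons (nat_lit 0x5070404000) (nat_lit 0x7e) (.cons (nat_lit 0x5060604000) (nat_lit 0x4d) (.cons (nat_lit 0x5060408000) (nat_lit 0x42) (.cons (nat_lit 0x5050804000) (nat_lit 0x6d) (.cons (nat_lit 0x4880404000) (nat_lit 0x6a) (.cons (nat_lit 0x4870604000) (nat_lit 0x37) (.cons (nat_lit 0x4860804000) (nat_lit 0x78) (.cons (nat_lit 0x4860608000) (nat_lit 0x2a) (.cons (nat_lit 0x4850808000) (nat_lit 0x7c) (.cons (nat_lit 0x4080408000) (nat_lit 0x3a) (.cons (nat_lit 0x4070804000) (nat_lit 0x76) (.cons (nat_lit 0x4060a04000) (nat_lit 0x66) (.cons (nat_lit 0x4060808000) (nat_lit 0x12) (.nil)))))))))))))))))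

noncomputable def nb_4_4_16 : NE := .cons (nat_lit 0x6060400000) (nat_lit 0xb000190000) (.cons (nat_lit 0x5870400000) (nat_lit 0x7c0004a) (.cons (nat_lit 0x5860600000) (nat_lit 0xd968074) (.cons (nat_lit 0x5860404000) (nat_lit 0x3500) (.cons (nat_lit 0x5080400000) (nat_lit 0xdc8807c) (.cons (nat_lit 0x5070600000) (nat_lit 0x3e7e) (.cons (nat_lit 0x5070404000) (nat_lit 0x3c9f) (.cons (nat_lit 0x5060800000) (nat_lit 0x11940798042) (.cons (nat_lit 0x5060604000) (nat_lit 0xfaf) (.cons (nat_lit 0x5060408000) (nat_lit 0x294a) (.cons (nat_lit 0x4880600000) (nat_lit 0x211e) (.cons (nat_lit 0x4880404000) (nat_lit 0x3f2d) (.cons (nat_lit 0x4870800000) (nat_lit 0x223e) (.cons (nat_lit 0x4870604000) (nat_lit 0x15e1) (.cons (nat_lit 0x4860a00000) (nat_lit 0x1e28) (.cons (nat_lit 0x4860804000) (nat_lit 0x23f1) (.cons (nat_lit 0x4860608000) (nat_lit 0x2811) (.cons (nat_lit 0x4080800000) (nat_lit 0x3a1e) (.cons (nat_lit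 0x4080408000) (nat_lit 0x630) (.cons (nat_lit 0x4070804000) (nat_lit 0x1128) (.cons (nat_lit 0x4060c00000) (nat_lit 0x18c) (.cons (nat_lit 0x4060a04000) (nat_lit 0x29d6) (.cons (nat_lit 0x4060808000) (nat_lit 0xeab) (.nil)))))))))))))))))))))))

noncomputable def nb_4_4_15 : NE := .cons (nat_lit 0x6080000000) (nat_lit 0x1380) (.cons (nat_lit 0x5880200000) (nat_lit 0x61) (.cons (nat_lit 0x5080400000) (nat_lit 0x28eb) (.cons (nat_lit 0x4880600000) (nat_lit 0x11) (.cons (nat_lit 0x4080800000) (nat_lit 1) (.nil)))))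

noncomputable def nb_4_4_14 : NE := .cons (nat_lit 0x6840404000) (nat_lit 0x74) (.cons (nat_lit 0x6050404000) (nat_lit 0x21) (.cons (nat_lit 0x6040408000) (nat_lit 0x1f) (.cons (nat_lit 0x5860404000) (nat_lit 0x39) (.cons (nat_lit 0x5850604000) (nat_lit 0x3f) (.cons (nat_lit 0x5850408000) (nat_lit 0x6b) (.cons (nat_lit 0x5840804000) (nat_lit 0x25) (.cons (nat_lit 0x5070404000) (nat_lit 0x54) (.cons (nat_lit 0x5060604000) (nat_lit 0x42) (.cons (nat_lit 0x5060408000) (nat_lit 0x5e) (.cons (nat_lit 0x5050804000) (nat_lit 0x19) (.cons (nat_lit 0x5040808000) (nat_lit 0x1b) (.cons (nat_lit 0x4880404000) (nat_lit 0x2c) (.cons (nat_lit 0x4870604000) (nat_lit 0x2f) (.cons (nat_lit 0x4860804000) (nat_lit 0x39) (.cons (nat_lit 0x4860608000) (nat_lit 0x5c) (.cons (nat_lit 0x4850808000) (nat_lit 0x4a) (.nil)))))))))))))))))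

noncomputable def nb_4_4_13 : NE := .cons (nat_lit 0x6840600000) (nat_lit 0x76) (.cons (nat_lit 0x6050600000) (nat_lit 0x54) (.cons (nat_lit 0x6040800000) (nat_lit 0x2b05) (.cons (nat_lit 0x5860600000) (nat_lit 0x13fa) (.cons (nat_lit 0x5850800000) (nat_lit 0x6e) (.cons (nat_lit 0x5850604000) (nat_lit 0x1b) (.cons (nat_lit 0x5840804000) (nat_lit 0x6c) (.cons (nat_lit 0x5070600000) (nat_lit 0x27) (.cons (nat_lit 0x5060800000) (nat_lit 0x110d60) (.cons (nat_lit 0x5060604000) (nat_lit 0xa) (.cons (nat_lit 0x5050804000) (nat_lit 0x22) (.cons (nat_lit 0x5040808000) (nat_lit 0x25) (.cons (nat_lit 0x4880600000) (nat_lit 0x28) (.cons (nat_lit 0x4870800000) (nat_lit 0x60) (.cons (nat_lit 0x4870604000) (nat_lit 8) (.cons (nat_lit 0x4860804000) (nat_lit 0x3a) (.cons (nat_lit 0x4860608000) (nat_lit 0x3b) (.cons (nat_lit 0x4850808000) (nat_lit 0x52) (.nil))))))))))))))))))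

noncomputable def nb_4_4_12 : NE := .cons (nat_lit 0x6850400000) (nat_lit 0x2900) (.cons (nat_lit 0x6060400000) (nat_lit 0x27df) (.cons (nat_lit 0x6050600000) (nat_lit 0x67) (.cons (nat_lit 0x6050404000) (nat_lit 0x19) (.cons (nat_lit 0x5870400000) (nat_lit 0x86f) (.cons (nat_lit 0x5860600000) (nat_lit 0x1bf7) (.cons (nat_lit 0x5860404000) (nat_lit 0x5e) (.cons (nat_lit 0x5850800000) (nat_lit 0x16) (.cons (nat_lit 0x5850604000) (nat_lit 0x1f) (.cons (nat_lit 0x5850408000) (nat_lit 0x62) (.cons (nat_lit 0x5080400000) (nat_lit 0xd35) (.cons (nat_lit 0x5070600000) (nat_lit 0x43) (.cons (nat_lit 0x5070404000) (nat_lit 0x32) (.cons (nat_lit 0x5060800000) (nat_lit 0x217e8) (.cons (nat_lit 0x5060604000) (nat_lit 0x6d) (.cons (nat_lit 0x5060408000) (nat_lit 0x15) (.cons (nat_lit 0x5050804000) (nat_lit 0x3f) (.cons (nat_lit 0x4880600000) (nat_lit 0x6b) (.cons (nat_lit 0x4880404000) (nat_lit 0x4a) (.cons (nat_lit 0x4870800000)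 (nat_lit 0x36) (.cons (nat_lit 0x4870604000) (nat_lit 0x29) (.cons (nat_lit 0x4860a00000) (nat_lit 0x58) (.cons (nat_lit 0x4860804000) (nat_lit 0x69) (.cons (nat_lit 0x4860608000) (nat_lit 0x72) (.cons (nat_lit 0x4850808000) (nat_lit 0x63) (.nil)))))))))))))))))))))))))

noncomputable def nb_4_4_11 : NE := .cons (nat_lit 0x6860200000) (nat_lit 0x3c00) (.cons (nat_lit 0x6070200000) (nat_lit 0x5d) (.cons (nat_lit 0x6060400000) (nat_lit 0x1633) (.cons (nat_lit 0x5880200000) (nat_lit 0x2c) (.cons (nat_lit 0x5870400000) (nat_lit 0x14) (.cons (nat_lit 0x5870204000) (nat_lit 0x41) (.cons (nat_lit 0x5860600000) (nat_lit 0x2ee7) (.cons (nat_lit 0x5860404000) (nat_lit 0) (.cons (nat_lit 0x5090200000) (nat_lit 0x3c) (.cons (nat_lit 0x5080400000) (nat_lit 0x31be) (.cons (nat_lit 0x5070600000) (nat_lit 0x31) (.cons (nat_lit 0x5070404000) (nat_lit 0x60) (.cons (nat_lit 0x5060800000) (nat_lit 0x2bf21) (.cons (nat_lit 0x5060604000)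 (nat_lit 2) (.cons (nat_lit 0x4880600000) (nat_lit 0x5c) (.cons (nat_lit 0x4880404000) (nat_lit 0x17) (.cons (nat_lit 0x4870800000) (nat_lit 0x45) (.cons (nat_lit 0x4870604000) (nat_lit 0x23) (.cons (nat_lit 0x4860a00000) (nat_lit 0x7b) (.cons (nat_lit 0x4860804000) (nat_lit 0x46) (.nil))))))))))))))))))))

noncomputable def nb_4_4_10 : NE := .cons (nat_lit 0x7020408000) (nat_lit 0x37) (.cons (nat_lit 0x6040408000) (nat_lit 0x7e) (.cons (nat_lit 0x5850408000) (nat_lit 0x37) (.cons (nat_lit 0x5060408000) (nat_lit 0x1b) (.nil))))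

noncomputable def nb_4_4_9 : NE := .cons (nat_lit 0x7040400000) (nat_lit 0x1e08010) (.cons (nat_lit 0x6850400000) (nat_lit 0xe15402a) (.cons (nat_lit 0x6840600000) (nat_lit 0x14c) (.cons (nat_lit 0x6840404000) (nat_lit 0x29a3) (.cons (nat_lit 0x6060400000) (nat_lit 0x104e4ae9744) (.cons (nat_lit 0x6050600000) (nat_lit 0x8e5) (.cons (nat_lit 0x6050404000) (nat_lit 0x2cf8) (.cons (nat_lit 0x6040800000) (nat_lit 0x65a027) (.cons (nat_lit 0x6040408000) (nat_lit 0x3d63) (.cons (nat_lit 0x5870400000) (nat_lit 0xb40d2f0) (.cons (nat_lit 0x5860600000) (nat_lit 0x4c5d825) (.cons (nat_lit 0x5860404000) (nat_lit 0x9f8) (.cons (nat_lit 0x5850800000) (nat_lit 0x9be) (.cons (nat_lit 0x5850604000) (nat_lit 0x31f9) (.cons (nat_lit 0x5850408000) (nat_lit 0x5ea) (.cons (nat_lit 0x5840804000) (nat_lit 0x3148) (.cons (nat_lit 0x5080400000) (nat_lit 0x3fd40ea) (.cons (nat_lit 0x5070600000) (nat_lit 0x246a) (.cons (nat_lit 0x5070404000)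 (nat_lit 0x1fc6) (.cons (nat_lit 0x5060800000) (nat_lit 0x15a31e29333) (.cons (nat_lit 0x5060604000) (nat_lit 0x30bf) (.cons (nat_lit 0x5060408000) (nat_lit 0x368d) (.cons (nat_lit 0x5050804000) (nat_lit 0x2948) (.cons (nat_lit 0x5040808000) (nat_lit 0x14b0) (.nil))))))))))))))))))))))))

noncomputable def nb_4_4_8 : NE := .cons (nat_lit 0x7050200000) (nat_lit 0x4f) (.cons (nat_lit 0x6860200000) (nat_lit 0x1a3d) (.cons (nat_lit 0x6850400000) (nat_lit 0x3d02) (.cons (nat_lit 0x6070200000) (nat_lit 0x6c) (.cons (nat_lit 0x6060400000) (nat_lit 0x12737d) (.cons (nat_lit 0x6050600000) (nat_lit 0x78) (.cons (nat_lit 0x6050404000) (nat_lit 0x6e) (.cons (nat_lit 0x5880200000) (nat_lit 0x6a) (.cons (nat_lit 0x5870400000) (nat_lit 0x14be) (.cons (nat_lit 0x5870204000) (nat_lit 0x22) (.cons (nat_lit 0x5860600000) (nat_lit 0x19ce) (.cons (nat_lit 0x5860404000) (nat_lit 0x2e) (.cons (nat_lit 0x5850800000) (nat_lit 0x62)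 (.cons (nat_lit 0x5850604000) (nat_lit 0x75) (.cons (nat_lit 0x5090200000) (nat_lit 0xf) (.cons (nat_lit 0x5080400000) (nat_lit 0x20d9) (.cons (nat_lit 0x5070600000) (nat_lit 0x3a) (.cons (nat_lit 0x5070404000) (nat_lit 0x74) (.cons (nat_lit 0x5060800000) (nat_lit 0x17a44a) (.cons (nat_lit 0x5060604000) (nat_lit 0) (.cons (nat_lit 0x5050804000) (nat_lit 0x28) (.nil)))))))))))))))))))))

noncomputable def nb_4_4_7 : NE := .cons (nat_lit 0x7060000000) (nat_lit 0x19d8066) (.cons (nat_lit 0x6870000000) (nat_lit 0x4a) (.cons (nat_lit 0x6860200000) (nat_lit 0xb69005a) (.cons (nat_lit 0x6080000000) (nat_lit 0xb725058) (.cons (nat_lit 0x6070200000) (nat_lit 0x228e) (.cons (nat_lit 0x6060400000) (nat_lit 0x1665dcfcf) (.cons (nat_lit 0x5880200000) (nat_lit 0x198d) (.cons (nat_lit 0x5870400000) (nat_lit 0xfb2f4) (.cons (nat_lit 0x5860600000) (nat_lit 0x7a5d346) (.cons (nat_lit 0x50a0000000) (nat_lit 0x2558) (.cons (nat_lit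 0x5090200000) (nat_lit 0x334c) (.cons (nat_lit 0x5080400000) (nat_lit 0xc47180a) (.cons (nat_lit 0x5070600000) (nat_lit 0xc7e) (.cons (nat_lit 0x5060800000) (nat_lit 0x15ec5ab8b5e) (.nil))))))))))))))

noncomputable def nb_4_4_6 : NE := .cons (nat_lit 0x7830400000) (nat_lit 0x18) (.cons (nat_lit 0x7040400000) (nat_lit 0x39f7) (.cons (nat_lit 0x6850400000) (nat_lit 0xbe2) (.cons (nat_lit 0x6840600000) (nat_lit 0x34) (.cons (nat_lit 0x6840404000) (nat_lit 0x2c) (.cons (nat_lit 0x6060400000) (nat_lit 0x12722a) (.cons (nat_lit 0x6050600000) (nat_lit 0x1c) (.cons (nat_lit 0x6050404000) (nat_lit 0x2a) (.cons (nat_lit 0x6040408000) (nat_lit 0x7b) (.cons (nat_lit 0x5870400000) (nat_lit 0x350b) (.cons (nat_lit 0x5860600000) (nat_lit 0x66c) (.cons (nat_lit 0x5860404000) (nat_lit 0) (.cons (nat_lit 0x5850604000) (nat_lit 0x2c) (.cons (nat_lit 0x5850408000) (nat_lit 0x5f) (.nil))))))))))))))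

noncomputable def nb_4_4_5 : NE := .cons (nat_lit 0x7840200000) (nat_lit 0x56) (.cons (nat_lit 0x7050200000) (nat_lit 0x66) (.cons (nat_lit 0x7040400000) (nat_lit 0x382f) (.cons (nat_lit 0x6860200000) (nat_lit 0x298e) (.cons (nat_lit 0x6850400000) (nat_lit 0x186b) (.cons (nat_lit 0x6840600000) (nat_lit 0x31) (.cons (nat_lit 0x6840404000) (nat_lit 0x18) (.cons (nat_lit 0x6070200000) (nat_lit 0x68) (.cons (nat_lit 0x6060400000) (nat_lit 0x145f63) (.cons (nat_lit 0x6050600000) (nat_lit 0x37) (.cons (nat_lit 0x6050404000) (nat_lit 0x32) (.cons (nat_lit 0x6040800000) (nat_lit 0x1bc1) (.cons (nat_lit 0x5880200000) (nat_lit 0x1f) (.cons (nat_lit 0x5870400000) (nat_lit 0xed3) (.cons (nat_lit 0x5870204000) (nat_lit 7) (.cons (nat_lit 0x5860600000) (nat_lit 0x3d52) (.cons (nat_lit 0x5860404000) (nat_lit 0x4f) (.cons (nat_lit 0x5850800000) (nat_lit 0x31) (.cons (nat_lit 0x5850604000) (nat_lit 0xe) (.cons (nat_lit 0x5840804000)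 (nat_lit 0x30) (.nil))))))))))))))))))))

noncomputable def nb_4_4_4 : NE := .cons (nat_lit 0x8020400000) (nat_lit 0x65) (.cons (nat_lit 0x7830400000) (nat_lit 0x52) (.cons (nat_lit 0x7040400000) (nat_lit 0x11f8) (.cons (nat_lit 0x7020408000) (nat_lit 0x43) (.cons (nat_lit 0x6850400000) (nat_lit 0x32f8) (.cons (nat_lit 0x6840404000) (nat_lit 0x29) (.cons (nat_lit 0x6060400000) (nat_lit 0x9af2) (.cons (nat_lit 0x6050404000) (nat_lit 0x44) (.cons (nat_lit 0x6040408000) (nat_lit 0x13) (.nil)))))))))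

noncomputable def nb_4_4_3 : NE := .cons (nat_lit 0x8040000000) (nat_lit 0xd64c05e) (.cons (nat_lit 0x7850000000) (nat_lit 0x74) (.cons (nat_lit 0x7840200000) (nat_lit 0x2f6a) (.cons (nat_lit 0x7060000000) (nat_lit 0xad6cdfc) (.cons (nat_lit 0x7050200000) (nat_lit 0x37aa) (.cons (nat_lit 0x7040400000) (nat_lit 0x8971779) (.cons (nat_lit 0x6870000000) (nat_lit 0x1890) (.cons (nat_lit 0x6860200000) (nat_lit 0x89458b0) (.cons (nat_lit 0x6850400000) (nat_lit 0x1c28ef3) (.cons (nat_lit 0x6840600000) (nat_lit 0xa01) (.cons (nat_lit 0x6080000000) (nat_lit 0x4234014) (.cons (nat_lit 0x6070200000) (nat_lit 0x2f4d) (.cons (nat_lit 0x6060400000) (nat_lit 0x1b8073cd32e) (.cons (nat_lit 0x6050600000) (nat_lit 0x2b0b) (.cons (nat_lit 0x6040800000) (nat_lit 0xa8da643) (.nil)))))))))))))))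

noncomputable def nb_4_4_2 : NE := .cons (nat_lit 0x8830000000) (nat_lit 0x55) (.cons (nat_lit 0x8040000000) (nat_lit 0x2ced) (.cons (nat_lit 0x7850000000) (nat_lit 0xd) (.cons (nat_lit 0x7840200000) (nat_lit 0x3a) (.cons (nat_lit 0x7830400000) (nat_lit 7) (.cons (nat_lit 0x7060000000) (nat_lit 0x3a9f) (.cons (nat_lit 0x7050200000) (nat_lit 0x13) (.cons (nat_lit 0x7040400000) (nat_lit 0x3238) (.cons (nat_lit 0x6870000000) (nat_lit 0x6a) (.cons (nat_lit 0x6860200000) (nat_lit 0xd99) (.cons (nat_lit 0x6850400000) (nat_lit 0x301e) (.cons (nat_lit 0x6840600000) (nat_lit 0x5e) (.nil))))))))))))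

noncomputable def nb_4_4_1 : NE := .cons (nat_lit 0x9020000000) (nat_lit 0x64) (.cons (nat_lit 0x8830000000) (nat_lit 0x79) (.cons (nat_lit 0x8040000000) (nat_lit 0x32a0) (.cons (nat_lit 0x8020400000) (nat_lit 0x6a) (.cons (nat_lit 0x7850000000) (nat_lit 0x10) (.cons (nat_lit 0x7840200000) (nat_lit 0x35) (.cons (nat_lit 0x7830400000) (nat_lit 0x56) (.cons (nat_lit 0x7060000000) (nat_lit 0x5a2) (.cons (nat_lit 0x7050200000) (nat_lit 0x41) (.cons (nat_lit 0x7040400000) (nat_lit 0x1ef6) (.nil))))))))))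

noncomputable def nb_4_4_0 : NE := .cons (nat_lit 0xa000000000) (nat_lit 0x2e) (.cons (nat_lit 0x9020000000) (nat_lit 2) (.cons (nat_lit 0x8830000000) (nat_lit 0x5d) (.cons (nat_lit 0x8040000000) (nat_lit 0xafb) (.nil))))

/-- blocks of the `N` tables (4, 4) to (4, 5) -/
noncomputable def tNB_4_4 : NTr := (.nd (nat_lit 0x4840600000) nb_4_4_13 (.nd (nat_lit 0x3870204000) nb_4_4_20 (.nd (nat_lit 0x3060800000) nb_4_4_24 (.nd (nat_lit 0x3040808000) nb_4_4_26 (.nd (nat_lit 0x2040810000) nb_4_4_27 .lf .lf) (.nd (nat_lit 0x3060408000) nb_4_4_25 .lf .lf)) (.nd (nat_lit 0x3850604000) nb_4_4_22 (.nd (nat_lit 0x3840804000) nb_4_4_23 .lf .lf) (.nd (nat_lit 0x3860600000) nb_4_4_21 .lf .lf))) (.nd (nat_lit 0x4060400000) nb_4_4_16 (.nd (nat_lit 0x4040800000) nb_4_4_18 (.nd (nat_lit 0x4040408000) nb_4_4_19 .lf .lf) (.nd (nat_lit 0x4050404000) nb_4_4_17 .lf .lf)) (.nd (nat_lit 0x4840404000) nb_4_4_14 (.nd (nat_lit 0x4080000000)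 nb_4_4_15 .lf .lf) .lf))) (.nd (nat_lit 0x5830400000) nb_4_4_6 (.nd (nat_lit 0x5040400000) nb_4_4_9 (.nd (nat_lit 0x4860200000) nb_4_4_11 (.nd (nat_lit 0x4850400000) nb_4_4_12 .lf .lf) (.nd (nat_lit 0x5020408000) nb_4_4_10 .lf .lf)) (.nd (nat_lit 0x5060000000) nb_4_4_7 (.nd (nat_lit 0x5050200000) nb_4_4_8 .lf .lf) .lf)) (.nd (nat_lit 0x6830000000) nb_4_4_2 (.nd (nat_lit 0x6020400000) nb_4_4_4 (.nd (nat_lit 0x5840200000) nb_4_4_5 .lf .lf) (.nd (nat_lit 0x6040000000) nb_4_4_3 .lf .lf)) (.nd (nat_lit 0x8000000000) nb_4_4_0 (.nd (nat_lit 0x7020000000) nb_4_4_1 .lf .lf) .lf))))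

noncomputable def nb_4_5_59 : NE := .cons (nat_lit 0x5060c08000) (nat_lit 0x2d80) (.cons (nat_lit 0x4860c0c000) (nat_lit 0x6e) (.cons (nat_lit 0x4060c10000) (nat_lit 0x34) (.cons (nat_lit 0x3060c18000) (nat_lit 0x71) (.nil))))

noncomputable def nb_4_5_58 : NE := .cons (nat_lit 0x586080c000) (nat_lit 0x66) (.cons (nat_lit 0x507080c000) (nat_lit 0x2b) (.cons (nat_lit 0x5060810000) (nat_lit 0x22) (.cons (nat_lit 0x4870a0c000) (nat_lit 0x4d) (.cons (nat_lit 0x4860c0c000) (nat_lit 0x3c) (.cons (nat_lit 0x4060c10000) (nat_lit 0x24) (.nil))))))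

noncomputable def nb_4_5_57 : NE := .cons (nat_lit 0x6040810000) (nat_lit 0x51) (.cons (nat_lit 0x5060810000) (nat_lit 0x70) (.cons (nat_lit 0x4080810000) (nat_lit 0x3e) (.nil)))

noncomputable def nb_4_5_56 : NE := .cons (nat_lit 0x6060808000) (nat_lit 0x3280) (.cons (nat_lit 0x5870808000) (nat_lit 0x23) (.cons (nat_lit 0x5860a08000) (nat_lit 0x1b) (.cons (nat_lit 0x586080c000) (nat_lit 0xa) (.cons (nat_lit 0x5080808000) (nat_lit 0x26c5) (.cons (nat_lit 0x507080c000) (nat_lit 0x51) (.cons (nat_lit 0x5060c08000) (nat_lit 0xad0) (.cons (nat_lit 0x5060810000) (nat_lit 0x37) (.cons (nat_lit 0x4880a08000) (nat_lit 0x55) (.cons (nat_lit 0x4870a0c000) (nat_lit 0x58) (.cons (nat_lit 0x4860c0c000) (nat_lit 0x22) (.cons (nat_lit 0x4080c08000) (nat_lit 8) (.cons (nat_lit 0x4080810000) (nat_lit 0x72) (.cons (nat_lit 0x4060c10000) (nat_lit 0x5f) (.nil))))))))))))))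

noncomputable def nb_4_5_55 : NE := .cons (nat_lit 0x6060a04000) (nat_lit 0x56) (.cons (nat_lit 0x5870a04000) (nat_lit 0x3d1a) (.cons (nat_lit 0x5860c04000) (nat_lit 0x63) (.cons (nat_lit 0x5860a08000) (nat_lit 0x23) (.cons (nat_lit 0x5080a04000) (nat_lit 0x4b) (.cons (nat_lit 0x5070c04000) (nat_lit 0x1a) (.cons (nat_lit 0x5060c08000) (nat_lit 0x1ae) (.cons (nat_lit 0x4880c04000) (nat_lit 0x30) (.cons (nat_lit 0x4880a08000) (nat_lit 0x41) (.cons (nat_lit 0x4870a0c000) (nat_lit 0x57) (.cons (nat_lit 0x4860c0c000) (nat_lit 0x4f) (.cons (nat_lit 0x4080c08000) (nat_lit 0) (.cons (nat_lit 0x4060c10000) (nat_lit 0x37) (.nil)))))))))))))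

noncomputable def nb_4_5_54 : NE := .cons (nat_lit 0x6060c00000) (nat_lit 0x1c0000) (.cons (nat_lit 0x5870c00000) (nat_lit 0x6d) (.cons (nat_lit 0x5860c04000) (nat_lit 0x50) (.cons (nat_lit 0x5080c00000) (nat_lit 0x3200) (.cons (nat_lit 0x5070c04000) (nat_lit 0x4c) (.cons (nat_lit 0x5060c08000) (nat_lit 0x461) (.cons (nat_lit 0x4880c04000) (nat_lit 0x34) (.cons (nat_lit 0x4860c0c000) (nat_lit 0x3f) (.cons (nat_lit 0x4080c08000) (nat_lit 0x6f) (.cons (nat_lit 0x4060c10000) (nat_lit 9) (.nil))))))))))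

noncomputable def nb_4_5_53 : NE := .cons (nat_lit 0x6070804000) (nat_lit 0xc00) (.cons (nat_lit 0x5880804000) (nat_lit 0x5b3) (.cons (nat_lit 0x5870a04000) (nat_lit 0x1b1f) (.cons (nat_lit 0x5870808000) (nat_lit 0x2d) (.cons (nat_lit 0x5080a04000) (nat_lit 0x48) (.cons (nat_lit 0x5080808000) (nat_lit 0x2fde) (.cons (nat_lit 0x5070c04000) (nat_lit 0x2d) (.cons (nat_lit 0x507080c000) (nat_lit 0x51) (.cons (nat_lit 0x4880c04000) (nat_lit 0xf) (.cons (nat_lit 0x4880a08000) (nat_lit 0x7d) (.cons (nat_lit 0x4870a0c000) (nat_lit 0x62) (.cons (nat_lit 0x4080c08000) (nat_lit 0x29) (.cons (nat_lit 0x4080810000) (nat_lit 0x21) (.nil)))))))))))))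

noncomputable def nb_4_5_52 : NE := .cons (nat_lit 0x6080408000) (nat_lit 0x2400) (.cons (nat_lit 0x5880608000) (nat_lit 0xa) (.cons (nat_lit 0x5080808000) (nat_lit 9) (.cons (nat_lit 0x4880a08000) (nat_lit 0x4f) (.cons (nat_lit 0x4080c08000) (nat_lit 0x7b) (.nil)))))

noncomputable def nb_4_5_51 : NE := .cons (nat_lit 0x6080800000) (nat_lit 0x5c00000) (.cons (nat_lit 0x5880a00000) (nat_lit 0x371e) (.cons (nat_lit 0x5880804000) (nat_lit 0x29f3) (.cons (nat_lit 0x5080c00000) (nat_lit 0xb80) (.cons (nat_lit 0x5080a04000) (nat_lit 0x5b) (.cons (nat_lit 0x5080808000) (nat_lit 6) (.cons (nat_lit 0x4880c04000) (nat_lit 0x1d) (.cons (nat_lit 0x4880a08000) (nat_lit 0x32) (.cons (nat_lit 0x4081000000) (nat_lit 0x39) (.cons (nat_lit 0x4080c08000) (nat_lit 0x3e) (.cons (nat_lit 0x4080810000) (nat_lit 5) (.nil)))))))))))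

noncomputable def nb_4_5_50 : NE := .cons (nat_lit 0x6850808000) (nat_lit 0x1b) (.cons (nat_lit 0x6060808000) (nat_lit 0x20c7) (.cons (nat_lit 0x5870808000) (nat_lit 0x64) (.cons (nat_lit 0x5860a08000) (nat_lit 0x20) (.cons (nat_lit 0x586080c000) (nat_lit 0x6c) (.cons (nat_lit 0x5080808000) (nat_lit 0x24cf) (.cons (nat_lit 0x507080c000) (nat_lit 0xe) (.cons (nat_lit 0x5060810000) (nat_lit 0x56) (.cons (nat_lit 0x4880a08000) (nat_lit 0x4c) (.cons (nat_lit 0x4870a0c000) (nat_lit 0xc) (.nil))))))))))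

noncomputable def nb_4_5_49 : NE := .cons (nat_lit 0x6860608000) (nat_lit 0x21) (.cons (nat_lit 0x6070608000) (nat_lit 0x15) (.cons (nat_lit 0x6060808000) (nat_lit 0x1cc) (.cons (nat_lit 0x5880608000) (nat_lit 0x3c) (.cons (nat_lit 0x5870808000) (nat_lit 3) (.cons (nat_lit 0x5860a08000) (nat_lit 0x6b) (.cons (nat_lit 0x586080c000) (nat_lit 0x57) (.cons (nat_lit 0x5080808000) (nat_lit 0x316c) (.cons (nat_lit 0x507080c000) (nat_lit 0x60) (.cons (nat_lit 0x5060c08000) (nat_lit 0x38c6) (.cons (nat_lit 0x489060c000) (nat_lit 0x57) (.cons (nat_lit 0x4880a08000) (nat_lit 0x49) (.cons (nat_lit 0x4870a0c000) (nat_lit 0x70) (.cons (nat_lit 0x4860c0c000) (nat_lit 0x4d) (.nil))))))))))))))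

noncomputable def nb_4_5_48 : NE := .cons (nat_lit 0x6860804000) (nat_lit 0x3680) (.cons (nat_lit 0x6070804000) (nat_lit 0xd98) (.cons (nat_lit 0x6060a04000) (nat_lit 0x7b) (.cons (nat_lit 0x6060808000) (nat_lit 0xa08) (.cons (nat_lit 0x5880804000) (nat_lit 0x3932) (.cons (nat_lit 0x5870a04000) (nat_lit 0x2606) (.cons (nat_lit 0x5870808000) (nat_lit 0x38) (.cons (nat_lit 0x5860c04000) (nat_lit 0x72) (.cons (nat_lit 0x5860a08000) (nat_lit 0x2a) (.cons (nat_lit 0x586080c000) (nat_lit 0x22) (.cons (nat_lit 0x5090804000) (nat_lit 0x14) (.cons (nat_lit 0x5080a04000) (nat_lit 0x6c) (.cons (nat_lit 0x5080808000) (nat_lit 0x84f) (.cons (nat_lit 0x5070c04000) (nat_lit 0x11) (.cons (nat_lit 0x507080c000) (nat_lit 0x43) (.cons (nat_lit 0x5060c08000) (nat_lit 0xad0) (.cons (nat_lit 0x5060810000) (nat_lit 0x3e) (.cons (nat_lit 0x4880c04000) (nat_lit 0x43) (.cons (nat_lit 0x4880a08000) (nat_lit 0x54) (.cons (nat_lit 0x4870a0c000)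 (nat_lit 0x4e) (.cons (nat_lit 0x4860c0c000) (nat_lit 0x4c) (.nil)))))))))))))))))))))

noncomputable def nb_4_5_47 : NE := .cons (nat_lit 0x6860a00000) (nat_lit 0x3900) (.cons (nat_lit 0x6070a00000) (nat_lit 0xe) (.cons (nat_lit 0x6060c00000) (nat_lit 0x130980) (.cons (nat_lit 0x6060a04000) (nat_lit 0x4f) (.cons (nat_lit 0x5880a00000) (nat_lit 0x33ad) (.cons (nat_lit 0x5870c00000) (nat_lit 0x65) (.cons (nat_lit 0x5870a04000) (nat_lit 0x2491) (.cons (nat_lit 0x5860c04000) (nat_lit 0x3f) (.cons (nat_lit 0x5860a08000) (nat_lit 0x7d) (.cons (nat_lit 0x5090a00000) (nat_lit 0x77) (.cons (nat_lit 0x5080c00000) (nat_lit 0x3263) (.cons (nat_lit 0x5080a04000) (nat_lit 0x27) (.cons (nat_lit 0x5070c04000) (nat_lit 0x50) (.cons (nat_lit 0x5060c08000) (nat_lit 0x22ea) (.cons (nat_lit 0x4880c04000) (nat_lit 0x1a) (.cons (nat_lit 0x4880a08000) (nat_lit 3) (.cons (nat_lit 0x4870a0c000) (nat_lit 0x57) (.cons (nat_lit 0x4860c0c000)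 (nat_lit 0x20) (.nil))))))))))))))))))

noncomputable def nb_4_5_46 : NE := .cons (nat_lit 0x6870604000) (nat_lit 0x200) (.cons (nat_lit 0x6080604000) (nat_lit 0x5e) (.cons (nat_lit 0x6070804000) (nat_lit 0x1331) (.cons (nat_lit 0x6070608000) (nat_lit 0x5e) (.cons (nat_lit 0x5890604000) (nat_lit 0x340f) (.cons (nat_lit 0x5880804000) (nat_lit 0x23a0) (.cons (nat_lit 0x5880608000) (nat_lit 0x64) (.cons (nat_lit 0x5870a04000) (nat_lit 0x2db) (.cons (nat_lit 0x5870808000) (nat_lit 0x79) (.cons (nat_lit 0x5090804000) (nat_lit 0x64) (.cons (nat_lit 0x5080a04000) (nat_lit 0x4d) (.cons (nat_lit 0x5080808000) (nat_lit 0x2c6e) (.cons (nat_lit 0x5070c04000) (nat_lit 0x4c) (.cons (nat_lit 0x507080c000) (nat_lit 0x14) (.cons (nat_lit 0x489060c000) (nat_lit 2) (.cons (nat_lit 0x4880c04000) (nat_lit 0x28) (.cons (nat_lit 0x4880a08000) (nat_lit 4) (.cons (nat_lit 0x4870a0c000) (nat_lit 0x33) (.nil))))))))))))))))))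

noncomputable def nb_4_5_45 : NE := .cons (nat_lit 0x6870800000) (nat_lit 0x1ac000) (.cons (nat_lit 0x6080800000) (nat_lit 0x4197500) (.cons (nat_lit 0x6070a00000) (nat_lit 0x22) (.cons (nat_lit 0x6070804000) (nat_lit 0x3719) (.cons (nat_lit 0x5890800000) (nat_lit 2) (.cons (nat_lit 0x5880a00000) (nat_lit 0x15bf) (.cons (nat_lit 0x5880804000) (nat_lit 0x1f2c) (.cons (nat_lit 0x5870c00000) (nat_lit 0x6c) (.cons (nat_lit 0x5870a04000) (nat_lit 0x316c) (.cons (nat_lit 0x5870808000) (nat_lit 0x6a) (.cons (nat_lit 0x5090a00000) (nat_lit 0) (.cons (nat_lit 0x5090804000) (nat_lit 0x34) (.cons (nat_lit 0x5080c00000) (nat_lit 0x14e7) (.cons (nat_lit 0x5080a04000) (nat_lit 0x11) (.cons (nat_lit 0x5080808000) (nat_lit 0x452) (.cons (nat_lit 0x5070c04000) (nat_lit 0x27) (.cons (nat_lit 0x507080c000) (nat_lit 0x1f) (.cons (nat_lit 0x4880c04000) (nat_lit 0x44) (.cons (nat_lit 0x4880a08000) (nat_lit 0x75) (.cons (nat_lit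 0x4870a0c000) (nat_lit 0x70) (.nil))))))))))))))))))))

noncomputable def nb_4_5_44 : NE := .cons (nat_lit 0x6880404000) (nat_lit 0x3500) (.cons (nat_lit 0x6090404000) (nat_lit 0x64) (.cons (nat_lit 0x6080604000) (nat_lit 0x60) (.cons (nat_lit 0x6080408000) (nat_lit 0x27d3) (.cons (nat_lit 0x5890604000) (nat_lit 0x1079) (.cons (nat_lit 0x5880804000) (nat_lit 0x3a50) (.cons (nat_lit 0x5880608000) (nat_lit 0x5c) (.cons (nat_lit 0x5090804000) (nat_lit 0x12) (.cons (nat_lit 0x5080a04000) (nat_lit 0x22) (.cons (nat_lit 0x5080808000) (nat_lit 0xec4) (.cons (nat_lit 0x4880c04000) (nat_lit 0x1a) (.cons (nat_lit 0x4880a08000) (nat_lit 0x74) (.nil))))))))))))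

noncomputable def nb_4_5_43 : NE := .cons (nat_lit 0x6880600000) (nat_lit 0xec000) (.cons (nat_lit 0x6090600000) (nat_lit 0xbd9) (.cons (nat_lit 0x6080800000) (nat_lit 0x631f80) (.cons (nat_lit 0x6080604000) (nat_lit 0x7c) (.cons (nat_lit 0x5890800000) (nat_lit 0x54) (.cons (nat_lit 0x5890604000) (nat_lit 0x1aa5) (.cons (nat_lit 0x5880a00000) (nat_lit 0x665) (.cons (nat_lit 0x5880804000) (nat_lit 0x621) (.cons (nat_lit 0x5880608000) (nat_lit 0x7b) (.cons (nat_lit 0x5090a00000) (nat_lit 0x6e) (.cons (nat_lit 0x5090804000) (nat_lit 0xd) (.cons (nat_lit 0x5080c00000) (nat_lit 0x2846) (.cons (nat_lit 0x5080a04000) (nat_lit 0x48) (.cons (nat_lit 0x5080808000) (nat_lit 0x31ec) (.cons (nat_lit 0x489060c000) (nat_lit 0x11) (.cons (nat_lit 0x4880c04000) (nat_lit 0x32) (.cons (nat_lit 0x4880a08000) (nat_lit 0x5d) (.nil)))))))))))))))))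

noncomputable def nb_4_5_42 : NE := .cons (nat_lit 0x7040808000) (nat_lit 0x2e) (.cons (nat_lit 0x6850808000) (nat_lit 0x3a) (.cons (nat_lit 0x6060808000) (nat_lit 0x3327) (.cons (nat_lit 0x6040810000) (nat_lit 0x20) (.cons (nat_lit 0x5870808000) (nat_lit 0x45) (.cons (nat_lit 0x586080c000) (nat_lit 0x69) (.cons (nat_lit 0x5080808000) (nat_lit 0x62) (.cons (nat_lit 0x507080c000) (nat_lit 0x3f) (.cons (nat_lit 0x5060810000) (nat_lit 0x11) (.nil)))))))))

noncomputable def nb_4_5_41 : NE := .cons (nat_lit 0x7050804000) (nat_lit 0x25) (.cons (nat_lit 0x6860804000) (nat_lit 0x3f64) (.cons (nat_lit 0x6850808000) (nat_lit 9) (.cons (nat_lit 0x6070804000) (nat_lit 0x1362) (.cons (nat_lit 0x6060a04000) (nat_lit 0x23) (.cons (nat_lit 0x6060808000) (nat_lit 0x1e05) (.cons (nat_lit 0x5880804000) (nat_lit 0xeeb) (.cons (nat_lit 0x5870a04000) (nat_lit 0x239d) (.cons (nat_lit 0x5870808000) (nat_lit 0x2c) (.cons (nat_lit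 0x5860a08000) (nat_lit 0x16) (.cons (nat_lit 0x586080c000) (nat_lit 0x14) (.cons (nat_lit 0x5090804000) (nat_lit 2) (.cons (nat_lit 0x5080a04000) (nat_lit 0x79) (.cons (nat_lit 0x5080808000) (nat_lit 0x22bf) (.cons (nat_lit 0x507080c000) (nat_lit 0xe) (.cons (nat_lit 0x5060810000) (nat_lit 0x6e) (.nil))))))))))))))))

noncomputable def nb_4_5_40 : NE := .cons (nat_lit 0x7060408000) (nat_lit 0x1380) (.cons (nat_lit 0x6860608000) (nat_lit 0x23) (.cons (nat_lit 0x6080408000) (nat_lit 0x2609) (.cons (nat_lit 0x6070608000) (nat_lit 0x7c) (.cons (nat_lit 0x6060808000) (nat_lit 0x3f5a) (.cons (nat_lit 0x5880608000) (nat_lit 0x2e) (.cons (nat_lit 0x5870808000) (nat_lit 0x30) (.cons (nat_lit 0x5860a08000) (nat_lit 0x60) (.cons (nat_lit 0x50a0408000) (nat_lit 0x5d) (.cons (nat_lit 0x5080808000) (nat_lit 0x14e9) (.cons (nat_lit 0x5060c08000) (nat_lit 0x358c) (.nil)))))))))))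

noncomputable def nb_4_5_39 : NE := .cons (nat_lit 0x7060604000) (nat_lit 0x3a) (.cons (nat_lit 0x6870604000) (nat_lit 0x1ddd) (.cons (nat_lit 0x6860804000) (nat_lit 0x374a) (.cons (nat_lit 0x6860608000) (nat_lit 0x51) (.cons (nat_lit 0x6080604000) (nat_lit 0x31) (.cons (nat_lit 0x6070804000) (nat_lit 0x3f2f) (.cons (nat_lit 0x6070608000) (nat_lit 0x70) (.cons (nat_lit 0x6060a04000) (nat_lit 0x28) (.cons (nat_lit 0x6060808000) (nat_lit 0x3869) (.cons (nat_lit 0x5890604000) (nat_lit 0x245d) (.cons (nat_lit 0x5880804000) (nat_lit 0x3b67) (.cons (nat_lit 0x5880608000) (nat_lit 0x1d) (.cons (nat_lit 0x5870a04000) (nat_lit 0x2527) (.cons (nat_lit 0x5870808000) (nat_lit 0x3d) (.cons (nat_lit 0x5860c04000) (nat_lit 0xe) (.cons (nat_lit 0x5860a08000) (nat_lit 0x75) (.cons (nat_lit 0x586080c000) (nat_lit 0x40) (.cons (nat_lit 0x5090804000) (nat_lit 0x10) (.cons (nat_lit 0x5080a04000) (nat_lit 0x4c) (.cons (nat_lit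 0x5080808000) (nat_lit 0x2233) (.cons (nat_lit 0x5070c04000) (nat_lit 0x5f) (.cons (nat_lit 0x507080c000) (nat_lit 0x2f) (.cons (nat_lit 0x5060c08000) (nat_lit 0x183e) (.nil)))))))))))))))))))))))

noncomputable def nb_4_5_38 : NE := .cons (nat_lit 0x7060800000) (nat_lit 0x6016005400000b800000) (.cons (nat_lit 0x6870800000) (nat_lit 0xa802d000001a) (.cons (nat_lit 0x6860a00000) (nat_lit 0x2f00740006e) (.cons (nat_lit 0x6860804000) (nat_lit 0x2c2d2c01200) (.cons (nat_lit 0x6080800000) (nat_lit 0x85963e900ea6002800063) (.cons (nat_lit 0x6070a00000) (nat_lit 0x178000) (.cons (nat_lit 0x6070804000) (nat_lit 0x18ae0d90119) (.cons (nat_lit 0x6060c00000) (nat_lit 0x44c7eb9008a00005) (.cons (nat_lit 0x6060a04000) (nat_lit 0x65666) (.cons (nat_lit 0x6060808000) (nat_lit 0x2638ea295c2) (.cons (nat_lit 0x5890800000) (nat_lit 0x6b) (.cons (nat_lit 0x5880a00000) (nat_lit 0x283f9ba3135) (.cons (nat_lit 0x5880804000) (nat_lit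 0x3de8fd288fa) (.cons (nat_lit 0x5870c00000) (nat_lit 0x18c068) (.cons (nat_lit 0x5870a04000) (nat_lit 0x4bc48d34bb) (.cons (nat_lit 0x5870808000) (nat_lit 0x1b7054) (.cons (nat_lit 0x5860c04000) (nat_lit 0x8d116) (.cons (nat_lit 0x5860a08000) (nat_lit 0x5fb8f) (.cons (nat_lit 0x586080c000) (nat_lit 0x1596d7) (.cons (nat_lit 0x50a0800000) (nat_lit 0x2d5dc574022) (.cons (nat_lit 0x5090a00000) (nat_lit 0x1ac02e) (.cons (nat_lit 0x5090804000) (nat_lit 0x1735dd) (.cons (nat_lit 0x5080c00000) (nat_lit 0x333a37a8070) (.cons (nat_lit 0x5080a04000) (nat_lit 0x6d08c) (.cons (nat_lit 0x5080808000) (nat_lit 0x1efcf5f1c93) (.cons (nat_lit 0x5070c04000) (nat_lit 0x835ef) (.cons (nat_lit 0x507080c000) (nat_lit 0x1f1ce) (.cons (nat_lit 0x5060c08000) (nat_lit 0x95d90de073) (.cons (nat_lit 0x5060810000) (nat_lit 0x1d0022) (.nil)))))))))))))))))))))))))))))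

noncomputable def nb_4_5_37 : NE := .cons (nat_lit 0x7070404000) (nat_lit 0x1c80) (.cons (nat_lit 0x6880404000) (nat_lit 0x2778) (.cons (nat_lit 0x6870604000) (nat_lit 0x2ffa) (.cons (nat_lit 0x6090404000) (nat_lit 0x6e) (.cons (nat_lit 0x6080604000) (nat_lit 0x24) (.cons (nat_lit 0x6080408000) (nat_lit 0x1694) (.cons (nat_lit 0x6070804000) (nat_lit 0x28a9) (.cons (nat_lit 0x6070608000) (nat_lit 0x7d) (.cons (nat_lit 0x58a0404000) (nat_lit 0x24) (.cons (nat_lit 0x5890604000) (nat_lit 0x3e13) (.cons (nat_lit 0x5880804000) (nat_lit 0x324d) (.cons (nat_lit 0x5880608000) (nat_lit 0x73) (.cons (nat_lit 0x5870a04000) (nat_lit 0x1ace) (.cons (nat_lit 0x5870808000) (nat_lit 0x6e) (.cons (nat_lit 0x50a0408000) (nat_lit 8) (.cons (nat_lit 0x5090804000) (nat_lit 0x71) (.cons (nat_lit 0x5080a04000) (nat_lit 0x16) (.cons (nat_lit 0x5080808000) (nat_lit 0x1246) (.cons (nat_lit 0x5070c04000) (nat_lit 0x68) (.nil)))))))))))))))))))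

noncomputable def nb_4_5_36 : NE := .cons (nat_lit 0x7070600000) (nat_lit 0x1600) (.cons (nat_lit 0x6880600000) (nat_lit 0x1e0080) (.cons (nat_lit 0x6870800000) (nat_lit 0xa0980) (.cons (nat_lit 0x6870604000) (nat_lit 0x1528) (.cons (nat_lit 0x6090600000) (nat_lit 0x2e21) (.cons (nat_lit 0x6080800000) (nat_lit 0xe15ca00) (.cons (nat_lit 0x6080604000) (nat_lit 0x13) (.cons (nat_lit 0x6070a00000) (nat_lit 0x15) (.cons (nat_lit 0x6070804000) (nat_lit 0x1c9e) (.cons (nat_lit 0x6070608000) (nat_lit 0x1f) (.cons (nat_lit 0x58a0600000) (nat_lit 0x46) (.cons (nat_lit 0x5890800000) (nat_lit 0x48) (.cons (nat_lit 0x5890604000) (nat_lit 0x1739) (.cons (nat_lit 0x5880a00000) (nat_lit 0x183a) (.cons (nat_lit 0x5880804000) (nat_lit 0xa7a) (.cons (nat_lit 0x5880608000) (nat_lit 0x27) (.cons (nat_lit 0x5870c00000) (nat_lit 0x2b) (.cons (nat_lit 0x5870a04000) (nat_lit 0x19b6) (.cons (nat_lit 0x5870808000) (nat_lit 0x75) (.cons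 (nat_lit 0x50a0800000) (nat_lit 0xa03) (.cons (nat_lit 0x5090a00000) (nat_lit 0x74) (.cons (nat_lit 0x5090804000) (nat_lit 0x76) (.cons (nat_lit 0x5080c00000) (nat_lit 0x868) (.cons (nat_lit 0x5080a04000) (nat_lit 0x3f) (.cons (nat_lit 0x5080808000) (nat_lit 0x1cee) (.cons (nat_lit 0x5070c04000) (nat_lit 0x3d) (.cons (nat_lit 0x507080c000) (nat_lit 0x6d) (.nil)))))))))))))))))))))))))))

noncomputable def nb_4_5_35 : NE := .cons (nat_lit 0x7080400000) (nat_lit 0xd4000510000000) (.cons (nat_lit 0x6890400000) (nat_lit 0xa000012) (.cons (nat_lit 0x6880600000) (nat_lit 0x36d3d400051) (.cons (nat_lit 0x6880404000) (nat_lit 0xe059800) (.cons (nat_lit 0x60a0400000) (nat_lit 0x1546ec0c048) (.cons (nat_lit 0x6090600000) (nat_lit 0xd6f2980) (.cons (nat_lit 0x6090404000) (nat_lit 0x15aa) (.cons (nat_lit 0x6080800000) (nat_lit 0xd8481841dbc07c) (.cons (nat_lit 0x6080604000) (nat_lit 0x21bd) (.cons (nat_lit 0x6080408000)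 (nat_lit 0x80c97d8) (.cons (nat_lit 0x58a0600000) (nat_lit 0x21e4) (.cons (nat_lit 0x58a0404000) (nat_lit 0x2ba) (.cons (nat_lit 0x5890800000) (nat_lit 0x3480) (.cons (nat_lit 0x5890604000) (nat_lit 0xaf96f0e) (.cons (nat_lit 0x5880a00000) (nat_lit 0xad1036f) (.cons (nat_lit 0x5880804000) (nat_lit 0x2fcf004) (.cons (nat_lit 0x5880608000) (nat_lit 0x2015) (.cons (nat_lit 0x50a0800000) (nat_lit 0xa311e43) (.cons (nat_lit 0x50a0408000) (nat_lit 0x2a0e) (.cons (nat_lit 0x5090a00000) (nat_lit 0x32a6) (.cons (nat_lit 0x5090804000) (nat_lit 0x1988) (.cons (nat_lit 0x5080c00000) (nat_lit 0x11574cb) (.cons (nat_lit 0x5080a04000) (nat_lit 0x3b20) (.cons (nat_lit 0x5080808000) (nat_lit 0x271fe20) (.nil))))))))))))))))))))))))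

noncomputable def nb_4_5_34 : NE := .cons (nat_lit 0x7090200000) (nat_lit 0x100) (.cons (nat_lit 0x68a0200000) (nat_lit 0x2d00) (.cons (nat_lit 0x6890400000) (nat_lit 0x780) (.cons (nat_lit 0x6890204000) (nat_lit 0x4d) (.cons (nat_lit 0x60a0400000) (nat_lit 0x1adb00) (.cons (nat_lit 0x6090600000) (nat_lit 0x3513) (.cons (nat_lit 0x6090404000) (nat_lit 0x4c) (.cons (nat_lit 0x58a0600000) (nat_lit 0x34) (.cons (nat_lit 0x58a0404000) (nat_lit 0) (.cons (nat_lit 0x5890800000) (nat_lit 0x6b) (.cons (nat_lit 0x5890604000) (nat_lit 0xc36) (.cons (nat_lit 0x50a0800000) (nat_lit 0x26e5) (.cons (nat_lit 0x5090a00000) (nat_lit 0x76) (.cons (nat_lit 0x5090804000) (nat_lit 0x25) (.nil))))))))))))))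

noncomputable def nb_4_5_33 : NE := .cons (nat_lit 0x70a0000000) (nat_lit 0x3b00) (.cons (nat_lit 0x68a0200000) (nat_lit 8) (.cons (nat_lit 0x60a0400000) (nat_lit 0x130) (.cons (nat_lit 0x58a0600000) (nat_lit 0x39) (.cons (nat_lit 0x50a0800000) (nat_lit 0x1bba) (.nil)))))

noncomputable def nb_4_5_32 : NE := .cons (nat_lit 0x7840804000) (nat_lit 0xa) (.cons (nat_lit 0x7050804000) (nat_lit 0x2f) (.cons (nat_lit 0x7040808000) (nat_lit 0x6b) (.cons (nat_lit 0x6860804000) (nat_lit 0x301) (.cons (nat_lit 0x6850808000) (nat_lit 4) (.cons (nat_lit 0x6070804000) (nat_lit 0x1f11) (.cons (nat_lit 0x6060808000) (nat_lit 0x3730) (.cons (nat_lit 0x6040810000) (nat_lit 0x4a) (.cons (nat_lit 0x5880804000) (nat_lit 0x8ca) (.cons (nat_lit 0x5870808000) (nat_lit 0x78) (.cons (nat_lit 0x586080c000) (nat_lit 0x7c) (.nil)))))))))))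

noncomputable def nb_4_5_31 : NE := .cons (nat_lit 0x7850408000) (nat_lit 0x2f) (.cons (nat_lit 0x7060408000) (nat_lit 0x2db5) (.cons (nat_lit 0x6860608000) (nat_lit 0x38) (.cons (nat_lit 0x6850808000) (nat_lit 0x73) (.cons (nat_lit 0x6080408000) (nat_lit 0x1102) (.cons (nat_lit 0x6070608000) (nat_lit 0x4d) (.cons (nat_lit 0x6060808000) (nat_lit 0xcd3) (.cons (nat_lit 0x5880608000) (nat_lit 8) (.cons (nat_lit 0x5870808000) (nat_lit 0xb) (.cons (nat_lit 0x5860a08000) (nat_lit 0x32) (.nil))))))))))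

noncomputable def nb_4_5_30 : NE := .cons (nat_lit 0x7850604000) (nat_lit 0x21) (.cons (nat_lit 0x7060604000) (nat_lit 0x33) (.cons (nat_lit 0x7050804000) (nat_lit 0x4a) (.cons (nat_lit 0x6870604000) (nat_lit 0x1962) (.cons (nat_lit 0x6860804000) (nat_lit 0x37da) (.cons (nat_lit 0x6860608000) (nat_lit 0x3c) (.cons (nat_lit 0x6850808000) (nat_lit 0x24) (.cons (nat_lit 0x6080604000) (nat_lit 0x13) (.cons (nat_lit 0x6070804000) (nat_lit 0x1ffd) (.cons (nat_lit 0x6070608000) (nat_lit 3) (.cons (nat_lit 0x6060a04000) (nat_lit 6) (.cons (nat_lit 0x6060808000) (nat_lit 0x124f) (.cons (nat_lit 0x5890604000) (nat_lit 0x3704) (.cons (nat_lit 0x5880804000) (nat_lit 0x1b47) (.cons (nat_lit 0x5880608000) (nat_lit 0x18) (.cons (nat_lit 0x5870a04000) (nat_lit 0x36f2) (.cons (nat_lit 0x5870808000) (nat_lit 9) (.cons (nat_lit 0x5860a08000) (nat_lit 0x5b) (.cons (nat_lit 0x586080c000) (nat_lit 0x4a) (.nil)))))))))))))))))))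

noncomputable def nb_4_5_29 : NE := .cons (nat_lit 0x7850800000) (nat_lit 0x42) (.cons (nat_lit 0x7060800000) (nat_lit 0xc8cc496) (.cons (nat_lit 0x7050804000) (nat_lit 0x51) (.cons (nat_lit 0x6870800000) (nat_lit 0xa8000) (.cons (nat_lit 0x6860a00000) (nat_lit 0x2966) (.cons (nat_lit 0x6860804000) (nat_lit 0x1609) (.cons (nat_lit 0x6850808000) (nat_lit 0x1d) (.cons (nat_lit 0x6080800000) (nat_lit 0x616aa2a) (.cons (nat_lit 0x6070a00000) (nat_lit 0x52) (.cons (nat_lit 0x6070804000) (nat_lit 0x3229) (.cons (nat_lit 0x6060a04000) (nat_lit 0x32) (.cons (nat_lit 0x6060808000) (nat_lit 0x10ee) (.cons (nat_lit 0x5890800000) (nat_lit 0x4d) (.cons (nat_lit 0x5880a00000) (nat_lit 0xc6d) (.cons (nat_lit 0x5880804000) (nat_lit 0x14ca) (.cons (nat_lit 0x5870a04000) (nat_lit 0x551) (.cons (nat_lit 0x5870808000) (nat_lit 5) (.cons (nat_lit 0x5860a08000) (nat_lit 0x43) (.cons (nat_lit 0x586080c000) (nat_lit 0) (.nil)))))))))))))))))))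

noncomputable def nb_4_5_28 : NE := .cons (nat_lit 0x7860404000) (nat_lit 0x56) (.cons (nat_lit 0x7070404000) (nat_lit 0x38a5) (.cons (nat_lit 0x7060604000) (nat_lit 0x23) (.cons (nat_lit 0x7060408000) (nat_lit 0x84e) (.cons (nat_lit 0x6880404000) (nat_lit 0x3bae) (.cons (nat_lit 0x6870604000) (nat_lit 0x13f9) (.cons (nat_lit 0x6860804000) (nat_lit 0xc0c) (.cons (nat_lit 0x6860608000) (nat_lit 0x5d) (.cons (nat_lit 0x6090404000) (nat_lit 0x10) (.cons (nat_lit 0x6080604000) (nat_lit 0x1c) (.cons (nat_lit 0x6080408000) (nat_lit 0x2b0b) (.cons (nat_lit 0x6070804000) (nat_lit 0x2257) (.cons (nat_lit 0x6070608000) (nat_lit 0xa) (.cons (nat_lit 0x6060a04000) (nat_lit 0x1a) (.cons (nat_lit 0x6060808000) (nat_lit 0x2b6b) (.cons (nat_lit 0x58a0404000) (nat_lit 0x43) (.cons (nat_lit 0x5890604000) (nat_lit 0x1e77) (.cons (nat_lit 0x5880804000) (nat_lit 0x39ad) (.cons (nat_lit 0x5880608000) (nat_lit 0x2e) (.cons (nat_lit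 0x5870a04000) (nat_lit 0x26fb) (.cons (nat_lit 0x5870808000) (nat_lit 0x12) (.cons (nat_lit 0x5860c04000) (nat_lit 0) (.cons (nat_lit 0x5860a08000) (nat_lit 0x5d) (.nil)))))))))))))))))))))))

noncomputable def nb_4_5_27 : NE := .cons (nat_lit 0x7860600000) (nat_lit 0x385a0184000) (.cons (nat_lit 0x7070600000) (nat_lit 0xa13c041) (.cons (nat_lit 0x7060800000) (nat_lit 0xb57bf2b017006f) (.cons (nat_lit 0x7060604000) (nat_lit 0x20c) (.cons (nat_lit 0x6880600000) (nat_lit 0x3b7db830056) (.cons (nat_lit 0x6870800000) (nat_lit 0x2d5a523803f) (.cons (nat_lit 0x6870604000) (nat_lit 0x8b9b061) (.cons (nat_lit 0x6860a00000) (nat_lit 0xeb5c068) (.cons (nat_lit 0x6860804000) (nat_lit 0x57c9a7e) (.cons (nat_lit 0x6860608000) (nat_lit 0x31f5) (.cons (nat_lit 0x6090600000) (nat_lit 0x7f1eec5) (.cons (nat_lit 0x6080800000) (nat_lit 0xd00adc57e78068) (.cons (nat_lit 0x6080604000) (nat_lit 0x15f8) (.cons (nat_lit 0x6070a00000)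 (nat_lit 0x2e76) (.cons (nat_lit 0x6070804000) (nat_lit 0xf6306f5) (.cons (nat_lit 0x6070608000) (nat_lit 0x2644) (.cons (nat_lit 0x6060c00000) (nat_lit 0x1a42aa1c036) (.cons (nat_lit 0x6060a04000) (nat_lit 0x20b6) (.cons (nat_lit 0x6060808000) (nat_lit 0x94c81db) (.cons (nat_lit 0x58a0600000) (nat_lit 0x7a4) (.cons (nat_lit 0x5890800000) (nat_lit 0x1190) (.cons (nat_lit 0x5890604000) (nat_lit 0x724c749) (.cons (nat_lit 0x5880a00000) (nat_lit 0xe594c76) (.cons (nat_lit 0x5880804000) (nat_lit 0x28888f) (.cons (nat_lit 0x5880608000) (nat_lit 0x2fbb) (.cons (nat_lit 0x5870c00000) (nat_lit 0x3539) (.cons (nat_lit 0x5870a04000) (nat_lit 0xa07ed1d) (.cons (nat_lit 0x5870808000) (nat_lit 0x669) (.cons (nat_lit 0x5860c04000) (nat_lit 0x274c) (.cons (nat_lit 0x5860a08000) (nat_lit 0x32c8) (.cons (nat_lit 0x586080c000) (nat_lit 0x3d65) (.nil)))))))))))))))))))))))))))))))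

noncomputable def nb_4_5_26 : NE := .cons (nat_lit 0x7870204000) (nat_lit 1) (.cons (nat_lit 0x7070404000) (nat_lit 0x880) (.cons (nat_lit 0x6890204000) (nat_lit 0x17) (.cons (nat_lit 0x6880404000) (nat_lit 0x8cb) (.cons (nat_lit 0x6870604000) (nat_lit 0x1b38) (.cons (nat_lit 0x6090404000) (nat_lit 0x4c) (.cons (nat_lit 0x6080604000) (nat_lit 0x64) (.cons (nat_lit 0x6070804000) (nat_lit 0x2151) (.cons (nat_lit 0x58b0204000) (nat_lit 0x1e) (.cons (nat_lit 0x58a0404000) (nat_lit 6) (.cons (nat_lit 0x5890604000) (nat_lit 0x3595) (.cons (nat_lit 0x5880804000) (nat_lit 0x3ea3) (.cons (nat_lit 0x5870a04000) (nat_lit 0x2189) (.nil)))))))))))))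

noncomputable def nb_4_5_25 : NE := .cons (nat_lit 0x7870400000) (nat_lit 0x350001ac000) (.cons (nat_lit 0x7080400000) (nat_lit 0x74053560002f) (.cons (nat_lit 0x7070600000) (nat_lit 0x72f8053) (.cons (nat_lit 0x7070404000) (nat_lit 0x8f81280) (.cons (nat_lit 0x6890400000) (nat_lit 0x2d84009) (.cons (nat_lit 0x6880600000) (nat_lit 0x7987f84041) (.cons (nat_lit 0x6880404000) (nat_lit 0x8a94f48) (.cons (nat_lit 0x6870800000) (nat_lit 0xb3d9d68015) (.cons (nat_lit 0x6870604000) (nat_lit 0xcfab025) (.cons (nat_lit 0x60a0400000) (nat_lit 0x371cbcf0054) (.cons (nat_lit 0x6090600000) (nat_lit 0xd5032f) (.cons (nat_lit 0x6090404000) (nat_lit 0x406) (.cons (nat_lit 0x6080800000) (nat_lit 0x51d1fa6d12003c) (.cons (nat_lit 0x6080604000) (nat_lit 0x249c) (.cons (nat_lit 0x6080408000) (nat_lit 0x78b6d04) (.cons (nat_lit 0x6070a00000) (nat_lit 0x2213) (.cons (nat_lit 0x6070804000) (nat_lit 0x5f3a58e) (.cons (nat_lit 0x6070608000)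 (nat_lit 0x619) (.cons (nat_lit 0x58a0600000) (nat_lit 0x1e79) (.cons (nat_lit 0x58a0404000) (nat_lit 0x29ab) (.cons (nat_lit 0x5890800000) (nat_lit 0xbf3) (.cons (nat_lit 0x5890604000) (nat_lit 0x6e89e2d) (.cons (nat_lit 0x5880a00000) (nat_lit 0x162a5f2) (.cons (nat_lit 0x5880804000) (nat_lit 0x8d76d45) (.cons (nat_lit 0x5880608000) (nat_lit 0x3c2d) (.cons (nat_lit 0x5870c00000) (nat_lit 0x10a9) (.cons (nat_lit 0x5870a04000) (nat_lit 0x9ec6383) (.cons (nat_lit 0x5870808000) (nat_lit 0x1b88) (.nil))))))))))))))))))))))))))))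

noncomputable def nb_4_5_24 : NE := .cons (nat_lit 0x7880200000) (nat_lit 0xa80) (.cons (nat_lit 0x7090200000) (nat_lit 0x3d03) (.cons (nat_lit 0x7080400000) (nat_lit 0x12c032) (.cons (nat_lit 0x68a0200000) (nat_lit 0x1c92) (.cons (nat_lit 0x6890400000) (nat_lit 0x3f78) (.cons (nat_lit 0x6890204000) (nat_lit 0x13) (.cons (nat_lit 0x6880600000) (nat_lit 0x14d852) (.cons (nat_lit 0x6880404000) (nat_lit 0x2551) (.cons (nat_lit 0x60a0400000) (nat_lit 0x13e636) (.cons (nat_lit 0x6090600000) (nat_lit 0x1443) (.cons (nat_lit 0x6090404000) (nat_lit 0x17) (.cons (nat_lit 0x6080800000) (nat_lit 0xeae205d) (.cons (nat_lit 0x6080604000) (nat_lit 0x19) (.cons (nat_lit 0x58b0204000) (nat_lit 0x75) (.cons (nat_lit 0x58a0600000) (nat_lit 9) (.cons (nat_lit 0x58a0404000) (nat_lit 0x54) (.cons (nat_lit 0x5890800000) (nat_lit 0x1b) (.cons (nat_lit 0x5890604000) (nat_lit 0xb71) (.cons (nat_lit 0x5880a00000) (nat_lit 0x3812)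 (.cons (nat_lit 0x5880804000) (nat_lit 0x405) (.nil))))))))))))))))))))

noncomputable def nb_4_5_23 : NE := .cons (nat_lit 0x8040408000) (nat_lit 0x32) (.cons (nat_lit 0x7850408000) (nat_lit 0x60) (.cons (nat_lit 0x7060408000) (nat_lit 0x3cf7) (.cons (nat_lit 0x7040808000) (nat_lit 0x10) (.cons (nat_lit 0x6860608000) (nat_lit 0x42) (.cons (nat_lit 0x6850808000) (nat_lit 0x53) (.cons (nat_lit 0x6080408000) (nat_lit 0x3821) (.cons (nat_lit 0x6070608000) (nat_lit 0x42) (.cons (nat_lit 0x6060808000) (nat_lit 0x2658) (.nil)))))))))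

noncomputable def nb_4_5_22 : NE := .cons (nat_lit 0x8040800000) (nat_lit 0x742c01c) (.cons (nat_lit 0x7850800000) (nat_lit 0x34) (.cons (nat_lit 0x7840804000) (nat_lit 0x33e2) (.cons (nat_lit 0x7060800000) (nat_lit 0x1b76100068020) (.cons (nat_lit 0x7050804000) (nat_lit 0xcc4) (.cons (nat_lit 0x7040808000) (nat_lit 0x3a55) (.cons (nat_lit 0x6870800000) (nat_lit 0x7011c002d) (.cons (nat_lit 0x6860804000) (nat_lit 0x82133d4) (.cons (nat_lit 0x6850808000) (nat_lit 0x395c) (.cons (nat_lit 0x6080800000) (nat_lit 0xf4d80000110035) (.cons (nat_lit 0x6070804000) (nat_lit 0x2d741dd) (.cons (nat_lit 0x6060808000) (nat_lit 0x57e7ea0) (.cons (nat_lit 0x6040810000) (nat_lit 0x301e) (.nil)))))))))))))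

noncomputable def nb_4_5_21 : NE := .cons (nat_lit 0x8050404000) (nat_lit 0x51) (.cons (nat_lit 0x7860404000) (nat_lit 0x15) (.cons (nat_lit 0x7850604000) (nat_lit 0x3f) (.cons (nat_lit 0x7850408000) (nat_lit 0x62) (.cons (nat_lit 0x7070404000) (nat_lit 0x3343) (.cons (nat_lit 0x7060604000) (nat_lit 0x1e) (.cons (nat_lit 0x7060408000) (nat_lit 0xb8f) (.cons (nat_lit 0x7050804000) (nat_lit 0x4f) (.cons (nat_lit 0x6880404000) (nat_lit 0x1564) (.cons (nat_lit 0x6870604000) (nat_lit 0x2e1f) (.cons (nat_lit 0x6860804000) (nat_lit 0x39c4) (.cons (nat_lit 0x6860608000) (nat_lit 0x21) (.cons (nat_lit 0x6850808000) (nat_lit 0xe) (.cons (nat_lit 0x6090404000) (nat_lit 0x14) (.cons (nat_lit 0x6080604000) (nat_lit 0x20) (.cons (nat_lit 0x6080408000) (nat_lit 0x1097) (.cons (nat_lit 0x6070804000) (nat_lit 0x305e) (.cons (nat_lit 0x6070608000) (nat_lit 0x7e) (.cons (nat_lit 0x6060a04000) (nat_lit 0x21) (.cons (nat_lit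 0x6060808000) (nat_lit 0x1e0a) (.nil))))))))))))))))))))

noncomputable def nb_4_5_20 : NE := .cons (nat_lit 0x8050600000) (nat_lit 0x2a) (.cons (nat_lit 0x7860600000) (nat_lit 0xbbb87) (.cons (nat_lit 0x7850800000) (nat_lit 0xe) (.cons (nat_lit 0x7850604000) (nat_lit 0x59) (.cons (nat_lit 0x7070600000) (nat_lit 0x2401) (.cons (nat_lit 0x7060800000) (nat_lit 0x4920dba) (.cons (nat_lit 0x7060604000) (nat_lit 0x4f) (.cons (nat_lit 0x7050804000) (nat_lit 0x7b) (.cons (nat_lit 0x6880600000) (nat_lit 0x13b412) (.cons (nat_lit 0x6870800000) (nat_lit 0x8277a) (.cons (nat_lit 0x6870604000) (nat_lit 0x1217) (.cons (nat_lit 0x6860a00000) (nat_lit 0xed3) (.cons (nat_lit 0x6860804000) (nat_lit 0x1e4) (.cons (nat_lit 0x6860608000) (nat_lit 0x22) (.cons (nat_lit 0x6850808000) (nat_lit 1) (.cons (nat_lit 0x6090600000) (nat_lit 0x2b17) (.cons (nat_lit 0x6080800000) (nat_lit 0x2f8e694) (.cons (nat_lit 0x6080604000) (nat_lit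 0x46) (.cons (nat_lit 0x6070a00000) (nat_lit 0x27) (.cons (nat_lit 0x6070804000) (nat_lit 0x7d9) (.cons (nat_lit 0x6070608000) (nat_lit 0x25) (.cons (nat_lit 0x6060a04000) (nat_lit 0) (.cons (nat_lit 0x6060808000) (nat_lit 0x125c) (.nil)))))))))))))))))))))))

noncomputable def nb_4_5_19 : NE := .cons (nat_lit 0x8060400000) (nat_lit 0xb60000004c0000c600000) (.cons (nat_lit 0x7870400000) (nat_lit 0x63000003a5e00024) (.cons (nat_lit 0x7860600000) (nat_lit 0x3adf7007e340005d) (.cons (nat_lit 0x7860404000) (nat_lit 0x108000) (.cons (nat_lit 0x7080400000) (nat_lit 0x927db80006730000027c8) (.cons (nat_lit 0x7070600000) (nat_lit 0x2bcefa0278e) (.cons (nat_lit 0x7070404000) (nat_lit 0x532f3e4000) (.cons (nat_lit 0x7060800000) (nat_lit 0x2c14994e4a804b1002724) (.cons (nat_lit 0x7060604000) (nat_lit 0x1dd330) (.cons (nat_lit 0x7060408000) (nat_lit 0xd30d8f0000) (.cons (nat_lit 0x6890400000) (nat_lit 0x39570a00624) (.cons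 (nat_lit 0x6880600000) (nat_lit 0x774682c79120244e) (.cons (nat_lit 0x6880404000) (nat_lit 0xa09f8c1e0d) (.cons (nat_lit 0x6870800000) (nat_lit 0x11274d13c1200450) (.cons (nat_lit 0x6870604000) (nat_lit 0x3131858988a) (.cons (nat_lit 0x6860a00000) (nat_lit 0x32ba8c00be0) (.cons (nat_lit 0x6860804000) (nat_lit 0x101274af16d) (.cons (nat_lit 0x6860608000) (nat_lit 0x15fc9a) (.cons (nat_lit 0x60a0400000) (nat_lit 0x407aa0f445e02f9f) (.cons (nat_lit 0x6090600000) (nat_lit 0x1d1651a990f) (.cons (nat_lit 0x6090404000) (nat_lit 0x45443) (.cons (nat_lit 0x6080800000) (nat_lit 0x70926231bb4eea32029fc) (.cons (nat_lit 0x6080604000) (nat_lit 0x15928e) (.cons (nat_lit 0x6080408000) (nat_lit 0x2413b5e74e2) (.cons (nat_lit 0x6070a00000) (nat_lit 0x1c1b87) (.cons (nat_lit 0x6070804000) (nat_lit 0x21b887396eb) (.cons (nat_lit 0x6070608000) (nat_lit 0x16534b) (.cons (nat_lit 0x6060c00000) (nat_lit 0x578524522b203da1) (.cons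 (nat_lit 0x6060a04000) (nat_lit 0x120c43) (.cons (nat_lit 0x6060808000) (nat_lit 0x2ec9078d28) (.nil))))))))))))))))))))))))))))))

noncomputable def nb_4_5_18 : NE := .cons (nat_lit 0x8070200000) (nat_lit 0x3b80) (.cons (nat_lit 0x7880200000) (nat_lit 0x75f) (.cons (nat_lit 0x7870400000) (nat_lit 0x302c) (.cons (nat_lit 0x7870204000) (nat_lit 0x3d) (.cons (nat_lit 0x7090200000) (nat_lit 0x3ae1) (.cons (nat_lit 0x7080400000) (nat_lit 0x3494064) (.cons (nat_lit 0x7070600000) (nat_lit 0x114c) (.cons (nat_lit 0x7070404000) (nat_lit 0x980) (.cons (nat_lit 0x68a0200000) (nat_lit 0x17b0) (.cons (nat_lit 0x6890400000) (nat_lit 0x1ffd) (.cons (nat_lit 0x6890204000) (nat_lit 0x53) (.cons (nat_lit 0x6880600000) (nat_lit 0x18276) (.cons (nat_lit 0x6880404000) (nat_lit 0x668) (.cons (nat_lit 0x6870800000) (nat_lit 0xcad31) (.cons (nat_lit 0x6870604000) (nat_lit 0x1859) (.cons (nat_lit 0x60a0400000) (nat_lit 0x15bcef)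 (.cons (nat_lit 0x6090600000) (nat_lit 0x3cd7) (.cons (nat_lit 0x6090404000) (nat_lit 0x27) (.cons (nat_lit 0x6080800000) (nat_lit 0x7fed7ab) (.cons (nat_lit 0x6080604000) (nat_lit 0x30) (.cons (nat_lit 0x6070a00000) (nat_lit 0x6a) (.cons (nat_lit 0x6070804000) (nat_lit 0x3dac) (.nil))))))))))))))))))))))

noncomputable def nb_4_5_17 : NE := .cons (nat_lit 0x8080000000) (nat_lit 0x94f01f8000) (.cons (nat_lit 0x7890000000) (nat_lit 0x6a) (.cons (nat_lit 0x7880200000) (nat_lit 0xe65c02d) (.cons (nat_lit 0x70a0000000) (nat_lit 0xdb539b2) (.cons (nat_lit 0x7090200000) (nat_lit 0x9d44214) (.cons (nat_lit 0x7080400000) (nat_lit 0x8e616fe0003d04) (.cons (nat_lit 0x68a0200000) (nat_lit 0x82ce54e) (.cons (nat_lit 0x6890400000) (nat_lit 0xa546141) (.cons (nat_lit 0x6880600000) (nat_lit 0x3857c5a19eb) (.cons (nat_lit 0x60c0000000) (nat_lit 0x1f316f9) (.cons (nat_lit 0x60a0400000) (nat_lit 0x265954bf7f8) (.cons (nat_lit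 0x6090600000) (nat_lit 0x8cdce24) (.cons (nat_lit 0x6080800000) (nat_lit 0x56498e14b7b3f2) (.nil)))))))))))))

noncomputable def nb_4_5_16 : NE := .cons (nat_lit 0x8840404000) (nat_lit 0x4c) (.cons (nat_lit 0x8050404000) (nat_lit 0xe) (.cons (nat_lit 0x8040408000) (nat_lit 0x32) (.cons (nat_lit 0x7860404000) (nat_lit 0x65) (.cons (nat_lit 0x7850604000) (nat_lit 0x32) (.cons (nat_lit 0x7850408000) (nat_lit 0x57) (.cons (nat_lit 0x7840804000) (nat_lit 0x77) (.cons (nat_lit 0x7070404000) (nat_lit 0x319e) (.cons (nat_lit 0x7060604000) (nat_lit 0x1a) (.cons (nat_lit 0x7060408000) (nat_lit 0x3b31) (.cons (nat_lit 0x7050804000) (nat_lit 0x26) (.cons (nat_lit 0x7040808000) (nat_lit 0x20) (.cons (nat_lit 0x6880404000) (nat_lit 0x19a) (.cons (nat_lit 0x6870604000) (nat_lit 0x46b) (.cons (nat_lit 0x6860804000) (nat_lit 0x153d) (.cons (nat_lit 0x6860608000) (nat_lit 0x46) (.cons (nat_lit 0x6850808000) (nat_lit 0x30) (.nil)))))))))))))))))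

noncomputable def nb_4_5_15 : NE := .cons (nat_lit 0x8840600000) (nat_lit 0x20) (.cons (nat_lit 0x8050600000) (nat_lit 0x71) (.cons (nat_lit 0x8040800000) (nat_lit 0x2844) (.cons (nat_lit 0x7860600000) (nat_lit 0xf4265) (.cons (nat_lit 0x7850800000) (nat_lit 0x31) (.cons (nat_lit 0x7850604000) (nat_lit 0x38) (.cons (nat_lit 0x7840804000) (nat_lit 0x53) (.cons (nat_lit 0x7070600000) (nat_lit 0x3145) (.cons (nat_lit 0x7060800000) (nat_lit 0x6cf3455) (.cons (nat_lit 0x7060604000) (nat_lit 0x2d) (.cons (nat_lit 0x7050804000) (nat_lit 0x6f) (.cons (nat_lit 0x7040808000) (nat_lit 0x2f) (.cons (nat_lit 0x6880600000) (nat_lit 0x1caa81) (.cons (nat_lit 0x6870800000) (nat_lit 0x48d05) (.cons (nat_lit 0x6870604000) (nat_lit 0x3c83) (.cons (nat_lit 0x6860804000) (nat_lit 0xe53) (.cons (nat_lit 0x6860608000) (nat_lit 0x6f) (.cons (nat_lit 0x6850808000) (nat_lit 0x15) (.nil))))))))))))))))))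

noncomputable def nb_4_5_14 : NE := .cons (nat_lit 0x8850400000) (nat_lit 0x4c4072) (.cons (nat_lit 0x8060400000) (nat_lit 0x17a6c01f70013) (.cons (nat_lit 0x8050600000) (nat_lit 0x1f69) (.cons (nat_lit 0x8050404000) (nat_lit 0x3cc9) (.cons (nat_lit 0x7870400000) (nat_lit 0x22f2d432d77) (.cons (nat_lit 0x7860600000) (nat_lit 0x246479827d) (.cons (nat_lit 0x7860404000) (nat_lit 0x3d49) (.cons (nat_lit 0x7850800000) (nat_lit 0x2c8b) (.cons (nat_lit 0x7850604000) (nat_lit 0x480) (.cons (nat_lit 0x7850408000) (nat_lit 0x36b8) (.cons (nat_lit 0x7080400000) (nat_lit 0xe7c08728929057) (.cons (nat_lit 0x7070600000) (nat_lit 0x6319ad) (.cons (nat_lit 0x7070404000) (nat_lit 0x3f5a16a) (.cons (nat_lit 0x7060800000) (nat_lit 0xd3339c11cec082) (.cons (nat_lit 0x7060604000) (nat_lit 0x1626) (.cons (nat_lit 0x7060408000) (nat_lit 0xd31eb06) (.cons (nat_lit 0x7050804000) (nat_lit 0x3da0) (.cons (nat_lit 0x6890400000) (nat_lit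 0x6e7048d) (.cons (nat_lit 0x6880600000) (nat_lit 0x7e244514d9) (.cons (nat_lit 0x6880404000) (nat_lit 0x39ea447) (.cons (nat_lit 0x6870800000) (nat_lit 0x2a14477bcca) (.cons (nat_lit 0x6870604000) (nat_lit 0xfb33c0d) (.cons (nat_lit 0x6860a00000) (nat_lit 0x295d386) (.cons (nat_lit 0x6860804000) (nat_lit 0x700c12) (.cons (nat_lit 0x6860608000) (nat_lit 0x3f7a) (.cons (nat_lit 0x6850808000) (nat_lit 0x165d) (.nil))))))))))))))))))))))))))

noncomputable def nb_4_5_13 : NE := .cons (nat_lit 0x8860200000) (nat_lit 0xe79403c) (.cons (nat_lit 0x8070200000) (nat_lit 0xf69802a) (.cons (nat_lit 0x8060400000) (nat_lit 0x10dde0d96407e) (.cons (nat_lit 0x7880200000) (nat_lit 0x9015af) (.cons (nat_lit 0x7870400000) (nat_lit 0x1c55287b8) (.cons (nat_lit 0x7870204000) (nat_lit 0x4e9) (.cons (nat_lit 0x7860600000) (nat_lit 0x25d03551533) (.cons (nat_lit 0x7860404000) (nat_lit 0x4c) (.cons (nat_lit 0x7090200000) (nat_lit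 0xd15d40a) (.cons (nat_lit 0x7080400000) (nat_lit 0xeceaab1000ecb7) (.cons (nat_lit 0x7070600000) (nat_lit 0xed6f1e2) (.cons (nat_lit 0x7070404000) (nat_lit 0xd0bc041) (.cons (nat_lit 0x7060800000) (nat_lit 0xaf42fc0d91807) (.cons (nat_lit 0x7060604000) (nat_lit 0x2b89) (.cons (nat_lit 0x68a0200000) (nat_lit 0x7248341) (.cons (nat_lit 0x6890400000) (nat_lit 0x2700d46) (.cons (nat_lit 0x6890204000) (nat_lit 0xe70) (.cons (nat_lit 0x6880600000) (nat_lit 0x294502bb5f0) (.cons (nat_lit 0x6880404000) (nat_lit 0x5395ecf) (.cons (nat_lit 0x6870800000) (nat_lit 0xa90bcfe0de) (.cons (nat_lit 0x6870604000) (nat_lit 0x64350a3) (.cons (nat_lit 0x6860a00000) (nat_lit 0xf2bebf7) (.cons (nat_lit 0x6860804000) (nat_lit 0x51dfbe9) (.nil)))))))))))))))))))))))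

noncomputable def nb_4_5_12 : NE := .cons (nat_lit 0x8870000000) (nat_lit 0x14) (.cons (nat_lit 0x8080000000) (nat_lit 0x1cd04c) (.cons (nat_lit 0x8070200000) (nat_lit 0x67) (.cons (nat_lit 0x7890000000) (nat_lit 0) (.cons (nat_lit 0x7880200000) (nat_lit 0x1a87) (.cons (nat_lit 0x7870400000) (nat_lit 0xe39a6) (.cons (nat_lit 0x70a0000000) (nat_lit 0x3e56) (.cons (nat_lit 0x7090200000) (nat_lit 0x383d) (.cons (nat_lit 0x7080400000) (nat_lit 0xefef0b9) (.cons (nat_lit 0x7070600000) (nat_lit 0x393c) (.cons (nat_lit 0x68a0200000) (nat_lit 0xb54) (.cons (nat_lit 0x6890400000) (nat_lit 0x53f) (.cons (nat_lit 0x6880600000) (nat_lit 0x1f9c50) (.cons (nat_lit 0x6870800000) (nat_lit 0x1b273d) (.nil))))))))))))))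

noncomputable def nb_4_5_11 : NE := .cons (nat_lit 0x9020408000) (nat_lit 3) (.cons (nat_lit 0x8040408000) (nat_lit 0x41) (.cons (nat_lit 0x7850408000) (nat_lit 0x79) (.cons (nat_lit 0x7060408000) (nat_lit 0x3886) (.nil))))

noncomputable def nb_4_5_10 : NE := .cons (nat_lit 0x9040400000) (nat_lit 0xe020053) (.cons (nat_lit 0x8850400000) (nat_lit 0xd95c021) (.cons (nat_lit 0x8840600000) (nat_lit 0x2201) (.cons (nat_lit 0x8840404000) (nat_lit 0x34a7) (.cons (nat_lit 0x8060400000) (nat_lit 0xea99e220658029) (.cons (nat_lit 0x8050600000) (nat_lit 0x1571) (.cons (nat_lit 0x8050404000) (nat_lit 0x10a9) (.cons (nat_lit 0x8040800000) (nat_lit 0xbfd41fc) (.cons (nat_lit 0x8040408000) (nat_lit 0x3a11) (.cons (nat_lit 0x7870400000) (nat_lit 0xfed9299443) (.cons (nat_lit 0x7860600000) (nat_lit 0x3a9217ae1f0) (.cons (nat_lit 0x7860404000) (nat_lit 0xde0) (.cons (nat_lit 0x7850800000) (nat_lit 0x1100) (.cons (nat_lit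 0x7850604000) (nat_lit 0x2b42) (.cons (nat_lit 0x7850408000) (nat_lit 0x2609) (.cons (nat_lit 0x7840804000) (nat_lit 0xc3d) (.cons (nat_lit 0x7080400000) (nat_lit 0x429316267c8c6a) (.cons (nat_lit 0x7070600000) (nat_lit 0xe391143) (.cons (nat_lit 0x7070404000) (nat_lit 0x604ba5a) (.cons (nat_lit 0x7060800000) (nat_lit 0xfcef2e7767d415) (.cons (nat_lit 0x7060604000) (nat_lit 0xa3) (.cons (nat_lit 0x7060408000) (nat_lit 0x87f5666) (.cons (nat_lit 0x7050804000) (nat_lit 0xc34) (.cons (nat_lit 0x7040808000) (nat_lit 0x1a7a) (.nil))))))))))))))))))))))))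

noncomputable def nb_4_5_9 : NE := .cons (nat_lit 0x9050200000) (nat_lit 0x2d) (.cons (nat_lit 0x8860200000) (nat_lit 0xbe9) (.cons (nat_lit 0x8850400000) (nat_lit 0x2b0f) (.cons (nat_lit 0x8070200000) (nat_lit 0x1d39) (.cons (nat_lit 0x8060400000) (nat_lit 0x41c6fa0) (.cons (nat_lit 0x8050600000) (nat_lit 0x72) (.cons (nat_lit 0x8050404000) (nat_lit 0x35) (.cons (nat_lit 0x7880200000) (nat_lit 0x3092) (.cons (nat_lit 0x7870400000) (nat_lit 0xc0ebf) (.cons (nat_lit 0x7870204000) (nat_lit 0x79) (.cons (nat_lit 0x7860600000) (nat_lit 0x5935d) (.cons (nat_lit 0x7860404000) (nat_lit 0x65) (.cons (nat_lit 0x7850800000) (nat_lit 0x64) (.cons (nat_lit 0x7850604000) (nat_lit 0x71) (.cons (nat_lit 0x7090200000) (nat_lit 0x28fe) (.cons (nat_lit 0x7080400000) (nat_lit 0x7683321) (.cons (nat_lit 0x7070600000) (nat_lit 0x31d3) (.cons (nat_lit 0x7070404000) (nat_lit 0x8b3) (.cons (nat_lit 0x7060800000) (nat_lit 0x130d6ef)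 (.cons (nat_lit 0x7060604000) (nat_lit 0) (.cons (nat_lit 0x7050804000) (nat_lit 0x54) (.nil)))))))))))))))))))))

noncomputable def nb_4_5_8 : NE := .cons (nat_lit 0x9060000000) (nat_lit 0x2aa001a0000) (.cons (nat_lit 0x8870000000) (nat_lit 0x30) (.cons (nat_lit 0x8860200000) (nat_lit 0xa324016) (.cons (nat_lit 0x8080000000) (nat_lit 0x38217300072) (.cons (nat_lit 0x8070200000) (nat_lit 0xe5a8028) (.cons (nat_lit 0x8060400000) (nat_lit 0x1c82ff438065) (.cons (nat_lit 0x7890000000) (nat_lit 0x1f8b) (.cons (nat_lit 0x7880200000) (nat_lit 0x6315cc3) (.cons (nat_lit 0x7870400000) (nat_lit 0x2c656dd11) (.cons (nat_lit 0x7860600000) (nat_lit 0x3558e69adaf) (.cons (nat_lit 0x70a0000000) (nat_lit 0x694c053) (.cons (nat_lit 0x7090200000) (nat_lit 0x5be4dd8) (.cons (nat_lit 0x7080400000) (nat_lit 0x52e90050154dca) (.cons (nat_lit 0x7070600000) (nat_lit 0x4da37ce) (.cons (nat_lit 0x7060800000) (nat_lit 0x1ed1d618eb3bd5)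 (.nil)))))))))))))))

noncomputable def nb_4_5_7 : NE := .cons (nat_lit 0x9830400000) (nat_lit 0x14) (.cons (nat_lit 0x9040400000) (nat_lit 0x6dc) (.cons (nat_lit 0x8850400000) (nat_lit 0x268c) (.cons (nat_lit 0x8840600000) (nat_lit 0x51) (.cons (nat_lit 0x8840404000) (nat_lit 0x6f) (.cons (nat_lit 0x8060400000) (nat_lit 0x2b29983) (.cons (nat_lit 0x8050600000) (nat_lit 0x3a) (.cons (nat_lit 0x8050404000) (nat_lit 0x13) (.cons (nat_lit 0x8040408000) (nat_lit 0x1f) (.cons (nat_lit 0x7870400000) (nat_lit 0x9fb5b) (.cons (nat_lit 0x7860600000) (nat_lit 0x11f77a) (.cons (nat_lit 0x7860404000) (nat_lit 0) (.cons (nat_lit 0x7850604000) (nat_lit 0x53) (.cons (nat_lit 0x7850408000) (nat_lit 0x64) (.nil))))))))))))))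

noncomputable def nb_4_5_6 : NE := .cons (nat_lit 0x9840200000) (nat_lit 0x1c) (.cons (nat_lit 0x9050200000) (nat_lit 0x13) (.cons (nat_lit 0x9040400000) (nat_lit 0xb62) (.cons (nat_lit 0x8860200000) (nat_lit 0x1129) (.cons (nat_lit 0x8850400000) (nat_lit 0x2f64) (.cons (nat_lit 0x8840600000) (nat_lit 0x32) (.cons (nat_lit 0x8840404000) (nat_lit 5) (.cons (nat_lit 0x8070200000) (nat_lit 0x3528) (.cons (nat_lit 0x8060400000) (nat_lit 0xaf3afbb) (.cons (nat_lit 0x8050600000) (nat_lit 0x3f) (.cons (nat_lit 0x8050404000) (nat_lit 0x12) (.cons (nat_lit 0x8040800000) (nat_lit 0x21df) (.cons (nat_lit 0x7880200000) (nat_lit 0x33a1) (.cons (nat_lit 0x7870400000) (nat_lit 0x149eb) (.cons (nat_lit 0x7870204000) (nat_lit 0x74) (.cons (nat_lit 0x7860600000) (nat_lit 0x1efcc5) (.cons (nat_lit 0x7860404000) (nat_lit 0x6c) (.cons (nat_lit 0x7850800000) (nat_lit 0x65) (.cons (nat_lit 0x7850604000) (nat_lit 0x46) (.cons (nat_lit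 0x7840804000) (nat_lit 0x53) (.nil))))))))))))))))))))

noncomputable def nb_4_5_5 : NE := .cons (nat_lit 0x9850000000) (nat_lit 0x12) (.cons (nat_lit 0x9060000000) (nat_lit 0x1e7285) (.cons (nat_lit 0x9050200000) (nat_lit 0x21) (.cons (nat_lit 0x8870000000) (nat_lit 0x3c) (.cons (nat_lit 0x8860200000) (nat_lit 0x2911) (.cons (nat_lit 0x8850400000) (nat_lit 0x568) (.cons (nat_lit 0x8080000000) (nat_lit 0x147934) (.cons (nat_lit 0x8070200000) (nat_lit 0x157e) (.cons (nat_lit 0x8060400000) (nat_lit 0xf3644d3) (.cons (nat_lit 0x8050600000) (nat_lit 0x10) (.cons (nat_lit 0x7890000000) (nat_lit 0x42) (.cons (nat_lit 0x7880200000) (nat_lit 0x3191) (.cons (nat_lit 0x7870400000) (nat_lit 0x1bd89d) (.cons (nat_lit 0x7860600000) (nat_lit 0xeb285) (.cons (nat_lit 0x7850800000) (nat_lit 0) (.nil)))))))))))))))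

noncomputable def nb_4_5_4 : NE := .cons (nat_lit 0xa020400000) (nat_lit 0x44) (.cons (nat_lit 0x9830400000) (nat_lit 0x1d) (.cons (nat_lit 0x9040400000) (nat_lit 0x36b9) (.cons (nat_lit 0x9020408000) (nat_lit 0x5f) (.cons (nat_lit 0x8850400000) (nat_lit 0x2b79) (.cons (nat_lit 0x8840404000) (nat_lit 0x47) (.cons (nat_lit 0x8060400000) (nat_lit 0x872aac) (.cons (nat_lit 0x8050404000) (nat_lit 3) (.cons (nat_lit 0x8040408000) (nat_lit 0x5e) (.nil)))))))))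

noncomputable def nb_4_5_3 : NE := .cons (nat_lit 0xa040000000) (nat_lit 0xc060007) (.cons (nat_lit 0x9850000000) (nat_lit 3) (.cons (nat_lit 0x9840200000) (nat_lit 0x1b60) (.cons (nat_lit 0x9060000000) (nat_lit 0x3c293e8802a) (.cons (nat_lit 0x9050200000) (nat_lit 0x2260) (.cons (nat_lit 0x9040400000) (nat_lit 0xdc43f30) (.cons (nat_lit 0x8870000000) (nat_lit 0x1fa0) (.cons (nat_lit 0x8860200000) (nat_lit 0x1cd2290) (.cons (nat_lit 0x8850400000) (nat_lit 0xfc8cf8a) (.cons (nat_lit 0x8840600000) (nat_lit 0xb71) (.cons (nat_lit 0x8080000000) (nat_lit 0x262bf3da8a1) (.cons (nat_lit 0x8070200000) (nat_lit 0xc845b5d) (.cons (nat_lit 0x8060400000) (nat_lit 0xe03d8dcde30ee) (.cons (nat_lit 0x8050600000) (nat_lit 0x215) (.cons (nat_lit 0x8040800000) (nat_lit 0xbdbacaa) (.nil)))))))))))))))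

noncomputable def nb_4_5_2 : NE := .cons (nat_lit 0xa830000000) (nat_lit 0x29) (.cons (nat_lit 0xa040000000) (nat_lit 0x1d2c) (.cons (nat_lit 0x9850000000) (nat_lit 0x4f) (.cons (nat_lit 0x9840200000) (nat_lit 5) (.cons (nat_lit 0x9830400000) (nat_lit 6) (.cons (nat_lit 0x9060000000) (nat_lit 0x154268) (.cons (nat_lit 0x9050200000) (nat_lit 0x18) (.cons (nat_lit 0x9040400000) (nat_lit 0x2915) (.cons (nat_lit 0x8870000000) (nat_lit 0x7a) (.cons (nat_lit 0x8860200000) (nat_lit 0xb38) (.cons (nat_lit 0x8850400000) (nat_lit 0x2b71) (.cons (nat_lit 0x8840600000) (nat_lit 0x7b) (.nil))))))))))))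

noncomputable def nb_4_5_1 : NE := .cons (nat_lit 0xb020000000) (nat_lit 0x4c) (.cons (nat_lit 0xa830000000) (nat_lit 0x7c) (.cons (nat_lit 0xa040000000) (nat_lit 0x38bc) (.cons (nat_lit 0xa020400000) (nat_lit 8) (.cons (nat_lit 0x9850000000) (nat_lit 9) (.cons (nat_lit 0x9840200000) (nat_lit 0x3a) (.cons (nat_lit 0x9830400000) (nat_lit 0x15) (.cons (nat_lit 0x9060000000) (nat_lit 0x16339e) (.cons (nat_lit 0x9050200000) (nat_lit 0x14) (.cons (nat_lit 0x9040400000) (nat_lit 0x1d16) (.nil))))))))))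

noncomputable def nb_4_5_0 : NE := .cons (nat_lit 0xc000000000) (nat_lit 0x7c) (.cons (nat_lit 0xb020000000) (nat_lit 0x12) (.cons (nat_lit 0xa830000000) (nat_lit 0x3a) (.cons (nat_lit 0xa040000000) (nat_lit 0x30da) (.nil))))

/-- blocks of the `N` tables (4, 5) to (4, 6) -/
noncomputable def tNB_4_5 : NTr := (.nd (nat_lit 0x5850800000) nb_4_5_29 (.nd (nat_lit 0x4880404000) nb_4_5_44 (.nd (nat_lit 0x4080408000) nb_4_5_52 (.nd (nat_lit 0x4060808000) nb_4_5_56 (.nd (nat_lit 0x386080c000) nb_4_5_58 (.nd (nat_lit 0x3060c08000) nb_4_5_59 .lf .lf) (.nd (nat_lit 0x4040810000) nb_4_5_57 .lf .lf)) (.nd (nat_lit 0x4060c00000) nb_4_5_54 (.nd (nat_lit 0x4060a04000) nb_4_5_55 .lf .lf) (.nd (nat_lit 0x4070804000) nb_4_5_53 .lf .lf))) (.nd (nat_lit 0x4860804000) nb_4_5_48 (.nd (nat_lit 0x4850808000) nb_4_5_50 (.nd (nat_lit 0x4080800000) nb_4_5_51 .lf .lf) (.nd (nat_lit 0x4860608000) nb_4_5_49 .lf .lf)) (.nd (nat_lit 0x4870604000)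 nb_4_5_46 (.nd (nat_lit 0x4860a00000) nb_4_5_47 .lf .lf) (.nd (nat_lit 0x4870800000) nb_4_5_45 .lf .lf)))) (.nd (nat_lit 0x5070600000) nb_4_5_36 (.nd (nat_lit 0x5060408000) nb_4_5_40 (.nd (nat_lit 0x5040808000) nb_4_5_42 (.nd (nat_lit 0x4880600000) nb_4_5_43 .lf .lf) (.nd (nat_lit 0x5050804000) nb_4_5_41 .lf .lf)) (.nd (nat_lit 0x5060800000) nb_4_5_38 (.nd (nat_lit 0x5060604000) nb_4_5_39 .lf .lf) (.nd (nat_lit 0x5070404000) nb_4_5_37 .lf .lf))) (.nd (nat_lit 0x5840804000) nb_4_5_32 (.nd (nat_lit 0x5090200000) nb_4_5_34 (.nd (nat_lit 0x5080400000) nb_4_5_35 .lf .lf) (.nd (nat_lit 0x50a0000000) nb_4_5_33 .lf .lf)) (.nd (nat_lit 0x5850604000) nb_4_5_30 (.nd (nat_lit 0x5850408000) nb_4_5_31 .lf .lf) .lf)))) (.nd (nat_lit 0x6850400000) nb_4_5_14 (.nd (nat_lit 0x6050404000) nb_4_5_21 (.nd (nat_lit 0x5870400000) nb_4_5_25 (.nd (nat_lit 0x5860600000) nb_4_5_27 (.nd (nat_lit 0x5860404000) nb_4_5_28 .lf .lf) (.nd (nat_lit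 0x5870204000) nb_4_5_26 .lf .lf)) (.nd (nat_lit 0x6040408000) nb_4_5_23 (.nd (nat_lit 0x5880200000) nb_4_5_24 .lf .lf) (.nd (nat_lit 0x6040800000) nb_4_5_22 .lf .lf))) (.nd (nat_lit 0x6080000000) nb_4_5_17 (.nd (nat_lit 0x6060400000) nb_4_5_19 (.nd (nat_lit 0x6050600000) nb_4_5_20 .lf .lf) (.nd (nat_lit 0x6070200000) nb_4_5_18 .lf .lf)) (.nd (nat_lit 0x6840600000) nb_4_5_15 (.nd (nat_lit 0x6840404000) nb_4_5_16 .lf .lf) .lf))) (.nd (nat_lit 0x7840200000) nb_4_5_6 (.nd (nat_lit 0x7040400000) nb_4_5_10 (.nd (nat_lit 0x6870000000) nb_4_5_12 (.nd (nat_lit 0x6860200000) nb_4_5_13 .lf .lf) (.nd (nat_lit 0x7020408000) nb_4_5_11 .lf .lf)) (.nd (nat_lit 0x7060000000) nb_4_5_8 (.nd (nat_lit 0x7050200000) nb_4_5_9 .lf .lf) (.nd (nat_lit 0x7830400000) nb_4_5_7 .lf .lf))) (.nd (nat_lit 0x8830000000) nb_4_5_2 (.nd (nat_lit 0x8020400000) nb_4_5_4 (.nd (nat_lit 0x7850000000) nb_4_5_5 .lf .lf) (.nd (nat_lit 0x8040000000) nb_4_5_3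 .lf .lf)) (.nd (nat_lit 0xa000000000) nb_4_5_0 (.nd (nat_lit 0x9020000000) nb_4_5_1 .lf .lf) .lf)))))

noncomputable def nb_4_6_103 : NE := .cons (nat_lit 0x5060c18000) (nat_lit 0x6f) (.nil)

noncomputable def nb_4_6_102 : NE := .cons (nat_lit 0x6060c10000) (nat_lit 0x56) (.cons (nat_lit 0x5870c10000) (nat_lit 0x5d) (.cons (nat_lit 0x5080c10000) (nat_lit 0x33) (.cons (nat_lit 0x5060c18000) (nat_lit 0x52) (.cons (nat_lit 0x4880c14000) (nat_lit 0x13) (.nil)))))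

noncomputable def nb_4_6_101 : NE := .cons (nat_lit 0x6080810000) (nat_lit 0x3a) (.cons (nat_lit 0x5880a10000) (nat_lit 0x39) (.cons (nat_lit 0x5080c10000) (nat_lit 0x21) (.cons (nat_lit 0x4081010000) (nat_lit 0x47) (.nil))))

noncomputable def nb_4_6_100 : NE := .cons (nat_lit 0x6080c08000) (nat_lit 0x194000) (.cons (nat_lit 0x5880e08000) (nat_lit 0x13) (.cons (nat_lit 0x5880c0c000) (nat_lit 0x4b) (.cons (nat_lit 0x5081008000) (nat_lit 0x7d) (.cons (nat_lit 0x5080e0c000) (nat_lit 0x1d) (.cons (nat_lit 0x5080c10000) (nat_lit 0x51) (.cons (nat_lit 0x4880c14000) (nat_lit 0x37) (.cons (nat_lit 0x4081010000) (nat_lit 0x34) (.nil))))))))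

noncomputable def nb_4_6_99 : NE := .cons (nat_lit 0x6081000000) (nat_lit 0x1680) (.cons (nat_lit 0x5881004000) (nat_lit 0x46) (.cons (nat_lit 0x5081008000) (nat_lit 0x67) (.cons (nat_lit 0x4081010000) (nat_lit 0x1a) (.nil))))

noncomputable def nb_4_6_98 : NE := .cons (nat_lit 0x6860c0c000) (nat_lit 0x58) (.cons (nat_lit 0x6070c0c000) (nat_lit 0x26) (.cons (nat_lit 0x6060c10000) (nat_lit 0xb) (.cons (nat_lit 0x5880c0c000) (nat_lit 0x57) (.cons (nat_lit 0x5870c10000) (nat_lit 0x40) (.cons (nat_lit 0x5090c0c000) (nat_lit 0x51) (.cons (nat_lit 0x5080c10000) (nat_lit 0x1a) (.cons (nat_lit 0x5060c18000) (nat_lit 0x69) (.cons (nat_lit 0x4880c14000) (nat_lit 0x3c) (.nil)))))))))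

noncomputable def nb_4_6_97 : NE := .cons (nat_lit 0x6870a0c000) (nat_lit 0x10) (.cons (nat_lit 0x6080a0c000) (nat_lit 0xc) (.cons (nat_lit 0x6070c0c000) (nat_lit 0x17) (.cons (nat_lit 0x5890a0c000) (nat_lit 0x75) (.cons (nat_lit 0x5880c0c000) (nat_lit 0x49) (.cons (nat_lit 0x5880a10000) (nat_lit 0x43) (.cons (nat_lit 0x5870c10000) (nat_lit 0x77) (.cons (nat_lit 0x5090c0c000) (nat_lit 0x4d) (.cons (nat_lit 0x5080e0c000) (nat_lit 0x37) (.cons (nat_lit 0x5080c10000) (nat_lit 0x5d) (.cons (nat_lit 0x4880c14000) (nat_lit 0x47) (.nil)))))))))))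

noncomputable def nb_4_6_96 : NE := .cons (nat_lit 0x6880a08000) (nat_lit 0x300) (.cons (nat_lit 0x6090a08000) (nat_lit 0x66) (.cons (nat_lit 0x6080c08000) (nat_lit 0x70280) (.cons (nat_lit 0x6080a0c000) (nat_lit 0x1f) (.cons (nat_lit 0x5890c08000) (nat_lit 4) (.cons (nat_lit 0x5890a0c000) (nat_lit 0x6b) (.cons (nat_lit 0x5880e08000) (nat_lit 8) (.cons (nat_lit 0x5880c0c000) (nat_lit 0x24) (.cons (nat_lit 0x5880a10000) (nat_lit 0x1b) (.cons (nat_lit 0x5090c0c000) (nat_lit 0x6c) (.cons (nat_lit 0x5081008000) (nat_lit 0x54) (.cons (nat_lit 0x5080e0c000) (nat_lit 0x69) (.cons (nat_lit 0x5080c10000) (nat_lit 0x70) (.cons (nat_lit 0x4880c14000) (nat_lit 0x10) (.nil))))))))))))))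

noncomputable def nb_4_6_95 : NE := .cons (nat_lit 0x6880c04000) (nat_lit 0x10000) (.cons (nat_lit 0x6090c04000) (nat_lit 0x400) (.cons (nat_lit 0x6080e04000) (nat_lit 0) (.cons (nat_lit 0x6080c08000) (nat_lit 0x77400) (.cons (nat_lit 0x5890e04000) (nat_lit 0xc) (.cons (nat_lit 0x5890c08000) (nat_lit 8) (.cons (nat_lit 0x5881004000) (nat_lit 0x18) (.cons (nat_lit 0x5880e08000) (nat_lit 0x2c) (.cons (nat_lit 0x5880c0c000) (nat_lit 0x33) (.cons (nat_lit 0x5090c0c000) (nat_lit 0x31) (.cons (nat_lit 0x5081008000) (nat_lit 0x1f) (.cons (nat_lit 0x5080e0c000) (nat_lit 7) (.cons (nat_lit 0x5080c10000) (nat_lit 0x5e) (.cons (nat_lit 0x4880c14000) (nat_lit 0x67) (.nil))))))))))))))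

noncomputable def nb_4_6_94 : NE := .cons (nat_lit 0x689060c000) (nat_lit 0x70) (.cons (nat_lit 0x609080c000) (nat_lit 0x1d) (.cons (nat_lit 0x5890a0c000) (nat_lit 0x71) (.cons (nat_lit 0x5090c0c000) (nat_lit 0x42) (.nil))))

noncomputable def nb_4_6_93 : NE := .cons (nat_lit 0x7060810000) (nat_lit 0x46) (.cons (nat_lit 0x6870810000) (nat_lit 0x31) (.cons (nat_lit 0x6080810000) (nat_lit 0x77) (.cons (nat_lit 0x6060c10000) (nat_lit 0x27) (.cons (nat_lit 0x5880a10000) (nat_lit 0xa) (.cons (nat_lit 0x5870c10000) (nat_lit 0) (.cons (nat_lit 0x50a0810000) (nat_lit 0x51) (.cons (nat_lit 0x5080c10000) (nat_lit 0x76) (.nil))))))))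

noncomputable def nb_4_6_92 : NE := .cons (nat_lit 0x7060c08000) (nat_lit 0xcd14027) (.cons (nat_lit 0x6870c08000) (nat_lit 0x6f) (.cons (nat_lit 0x6860c0c000) (nat_lit 0x1507) (.cons (nat_lit 0x6080c08000) (nat_lit 0x7a728000d) (.cons (nat_lit 0x6070c0c000) (nat_lit 0x3c11) (.cons (nat_lit 0x6060c10000) (nat_lit 0x3baf) (.cons (nat_lit 0x5890c08000) (nat_lit 0x4e) (.cons (nat_lit 0x5880c0c000) (nat_lit 0x2bec) (.cons (nat_lit 0x5870c10000) (nat_lit 0x2b3f) (.cons (nat_lit 0x50a0c08000) (nat_lit 0x37a4) (.cons (nat_lit 0x5090c0c000) (nat_lit 0x24a3) (.cons (nat_lit 0x5080c10000) (nat_lit 0x2c76) (.cons (nat_lit 0x5060c18000) (nat_lit 0x3dfe) (.nil)))))))))))))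

noncomputable def nb_4_6_91 : NE := .cons (nat_lit 0x707080c000) (nat_lit 0x19) (.cons (nat_lit 0x688080c000) (nat_lit 0x2e) (.cons (nat_lit 0x6870a0c000) (nat_lit 0x5b) (.cons (nat_lit 0x6870810000) (nat_lit 0x26) (.cons (nat_lit 0x609080c000) (nat_lit 0x1c) (.cons (nat_lit 0x6080a0c000) (nat_lit 0x75) (.cons (nat_lit 0x6080810000) (nat_lit 0x36) (.cons (nat_lit 0x6070c0c000) (nat_lit 0x16) (.cons (nat_lit 0x58a080c000) (nat_lit 0x62) (.cons (nat_lit 0x5890a0c000) (nat_lit 0x7b) (.cons (nat_lit 0x5880c0c000) (nat_lit 0x66) (.cons (nat_lit 0x5880a10000) (nat_lit 0x54) (.cons (nat_lit 0x5870c10000) (nat_lit 0x4f) (.cons (nat_lit 0x50a0810000) (nat_lit 0x21) (.cons (nat_lit 0x5090c0c000) (nat_lit 0x62) (.cons (nat_lit 0x5080e0c000) (nat_lit 0x3e) (.cons (nat_lit 0x5080c10000) (nat_lit 0x24) (.nil)))))))))))))))))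

noncomputable def nb_4_6_90 : NE := .cons (nat_lit 0x7070c04000) (nat_lit 0x3c80) (.cons (nat_lit 0x6880c04000) (nat_lit 0x18dd49) (.cons (nat_lit 0x6870e04000) (nat_lit 0xf) (.cons (nat_lit 0x6870c08000) (nat_lit 0x1d) (.cons (nat_lit 0x6090c04000) (nat_lit 0x2f2a) (.cons (nat_lit 0x6080e04000) (nat_lit 0x1f) (.cons (nat_lit 0x6080c08000) (nat_lit 0xe360b) (.cons (nat_lit 0x6070c0c000) (nat_lit 0xa) (.cons (nat_lit 0x58a0c04000) (nat_lit 0x6c) (.cons (nat_lit 0x5890e04000) (nat_lit 0x3f) (.cons (nat_lit 0x5890c08000) (nat_lit 0x76) (.cons (nat_lit 0x5880e08000) (nat_lit 0x40) (.cons (nat_lit 0x5880c0c000) (nat_lit 0x62) (.cons (nat_lit 0x5870c10000) (nat_lit 0x5e) (.cons (nat_lit 0x50a0e04000) (nat_lit 0x35) (.cons (nat_lit 0x50a0c08000) (nat_lit 0xe) (.cons (nat_lit 0x5090c0c000) (nat_lit 0x18) (.cons (nat_lit 0x5080e0c000) (nat_lit 0x7d) (.cons (nat_lit 0x5080c10000) (nat_lit 0x5a) (.nil)))))))))))))))))))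

noncomputable def nb_4_6_89 : NE := .cons (nat_lit 0x7080808000) (nat_lit 0x2800007c000) (.cons (nat_lit 0x6890808000) (nat_lit 0x600002c) (.cons (nat_lit 0x6880a08000) (nat_lit 0x8c4047) (.cons (nat_lit 0x688080c000) (nat_lit 0x3480) (.cons (nat_lit 0x60a0808000) (nat_lit 0xd740045) (.cons (nat_lit 0x6090a08000) (nat_lit 0x17f4) (.cons (nat_lit 0x609080c000) (nat_lit 0x23f1) (.cons (nat_lit 0x6080c08000) (nat_lit 0x242ea2bc07d) (.cons (nat_lit 0x6080a0c000) (nat_lit 0x3635) (.cons (nat_lit 0x6080810000) (nat_lit 0x2334) (.cons (nat_lit 0x58a0a08000) (nat_lit 0x1a82) (.cons (nat_lit 0x58a080c000) (nat_lit 0x228d) (.cons (nat_lit 0x5890c08000) (nat_lit 0x3d0) (.cons (nat_lit 0x5890a0c000) (nat_lit 0x1d72) (.cons (nat_lit 0x5880e08000) (nat_lit 0x73d) (.cons (nat_lit 0x5880c0c000) (nat_lit 0x36f6) (.cons (nat_lit 0x5880a10000) (nat_lit 0x3a3e) (.cons (nat_lit 0x50a0c08000) (nat_lit 0xe8f) (.cons (nat_lit 0x50a0810000)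 (nat_lit 0xc41) (.cons (nat_lit 0x5090c0c000) (nat_lit 0x394a) (.cons (nat_lit 0x5081008000) (nat_lit 0x770) (.cons (nat_lit 0x5080e0c000) (nat_lit 0x2458) (.cons (nat_lit 0x5080c10000) (nat_lit 0xbf0) (.nil)))))))))))))))))))))))

noncomputable def nb_4_6_88 : NE := .cons (nat_lit 0x7080a04000) (nat_lit 0x1b0000) (.cons (nat_lit 0x6890a04000) (nat_lit 0x2a93) (.cons (nat_lit 0x6880c04000) (nat_lit 0x3822) (.cons (nat_lit 0x6880a08000) (nat_lit 0x2d41) (.cons (nat_lit 0x60a0a04000) (nat_lit 0x123a) (.cons (nat_lit 0x6090c04000) (nat_lit 0xed4) (.cons (nat_lit 0x6090a08000) (nat_lit 7) (.cons (nat_lit 0x6080e04000) (nat_lit 0x71) (.cons (nat_lit 0x6080c08000) (nat_lit 0x33d01) (.cons (nat_lit 0x6080a0c000) (nat_lit 0x25) (.cons (nat_lit 0x58a0c04000) (nat_lit 0x73) (.cons (nat_lit 0x58a0a08000) (nat_lit 0x64) (.cons (nat_lit 0x5890e04000) (nat_lit 0x63) (.cons (nat_lit 0x5890c08000) (nat_lit 0x7b) (.cons (nat_lit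 0x5890a0c000) (nat_lit 0x3e) (.cons (nat_lit 0x5881004000) (nat_lit 0x1f) (.cons (nat_lit 0x5880e08000) (nat_lit 0x1e) (.cons (nat_lit 0x5880c0c000) (nat_lit 0x6e) (.cons (nat_lit 0x5880a10000) (nat_lit 0x1c) (.cons (nat_lit 0x50a0e04000) (nat_lit 0x2d) (.cons (nat_lit 0x50a0c08000) (nat_lit 0x53) (.cons (nat_lit 0x5090c0c000) (nat_lit 0x13) (.cons (nat_lit 0x5081008000) (nat_lit 0x68) (.cons (nat_lit 0x5080e0c000) (nat_lit 3) (.cons (nat_lit 0x5080c10000) (nat_lit 0x47) (.nil)))))))))))))))))))))))))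

noncomputable def nb_4_6_87 : NE := .cons (nat_lit 0x7080c00000) (nat_lit 0x62000500000000) (.cons (nat_lit 0x6890c00000) (nat_lit 0x3e0bc60002d) (.cons (nat_lit 0x6880e00000) (nat_lit 0x7e00079) (.cons (nat_lit 0x6880c04000) (nat_lit 0xbc8137aa00) (.cons (nat_lit 0x60a0c00000) (nat_lit 0x3eb55588031) (.cons (nat_lit 0x6090e00000) (nat_lit 0x21) (.cons (nat_lit 0x6090c04000) (nat_lit 0x3d694a4) (.cons (nat_lit 0x6081000000) (nat_lit 0x85e191f) (.cons (nat_lit 0x6080e04000) (nat_lit 0x57c) (.cons (nat_lit 0x6080c08000) (nat_lit 0xce047926aa) (.cons (nat_lit 0x58a0e00000) (nat_lit 0x3344) (.cons (nat_lit 0x58a0c04000) (nat_lit 0x17c) (.cons (nat_lit 0x5890e04000) (nat_lit 0x19eb) (.cons (nat_lit 0x5890c08000) (nat_lit 0xfac) (.cons (nat_lit 0x5881004000) (nat_lit 0x3c80) (.cons (nat_lit 0x5880e08000) (nat_lit 0x28dc) (.cons (nat_lit 0x5880c0c000) (nat_lit 0x24f1) (.cons (nat_lit 0x50a1000000) (nat_lit 0x2d82)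 (.cons (nat_lit 0x50a0e04000) (nat_lit 0xcc7) (.cons (nat_lit 0x50a0c08000) (nat_lit 0x3208) (.cons (nat_lit 0x5090c0c000) (nat_lit 0x3f72) (.cons (nat_lit 0x5081008000) (nat_lit 0x1298) (.cons (nat_lit 0x5080e0c000) (nat_lit 0x5eb) (.cons (nat_lit 0x5080c10000) (nat_lit 0x19ba) (.nil))))))))))))))))))))))))

noncomputable def nb_4_6_86 : NE := .cons (nat_lit 0x7090804000) (nat_lit 0x94000) (.cons (nat_lit 0x68a0804000) (nat_lit 0x1ae513) (.cons (nat_lit 0x6890a04000) (nat_lit 0x323c) (.cons (nat_lit 0x6890808000) (nat_lit 0x3cc9) (.cons (nat_lit 0x60a0a04000) (nat_lit 0x2d05) (.cons (nat_lit 0x60a0808000) (nat_lit 0x2781) (.cons (nat_lit 0x6090c04000) (nat_lit 0xb2b) (.cons (nat_lit 0x6090a08000) (nat_lit 0x27) (.cons (nat_lit 0x609080c000) (nat_lit 0x2e) (.cons (nat_lit 0x58a0c04000) (nat_lit 0x44) (.cons (nat_lit 0x58a0a08000) (nat_lit 0x67) (.cons (nat_lit 0x58a080c000) (nat_lit 0x13) (.cons (nat_lit 0x5890e04000)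 (nat_lit 0x16) (.cons (nat_lit 0x5890c08000) (nat_lit 0x61) (.cons (nat_lit 0x5890a0c000) (nat_lit 0x37) (.cons (nat_lit 0x50a0e04000) (nat_lit 0x48) (.cons (nat_lit 0x50a0c08000) (nat_lit 0x1e) (.cons (nat_lit 0x50a0810000) (nat_lit 0x67) (.cons (nat_lit 0x5090c0c000) (nat_lit 0x4a) (.nil)))))))))))))))))))

noncomputable def nb_4_6_85 : NE := .cons (nat_lit 0x7090a00000) (nat_lit 0xf4000) (.cons (nat_lit 0x68a0a00000) (nat_lit 0x137d40) (.cons (nat_lit 0x6890c00000) (nat_lit 0x1a6512) (.cons (nat_lit 0x6890a04000) (nat_lit 0x1851) (.cons (nat_lit 0x60a0c00000) (nat_lit 0xbe6d9) (.cons (nat_lit 0x60a0a04000) (nat_lit 0xe63) (.cons (nat_lit 0x6090e00000) (nat_lit 0x5a) (.cons (nat_lit 0x6090c04000) (nat_lit 0x2dc6) (.cons (nat_lit 0x6090a08000) (nat_lit 0x54) (.cons (nat_lit 0x58a0e00000) (nat_lit 0x6d) (.cons (nat_lit 0x58a0c04000) (nat_lit 0x22) (.cons (nat_lit 0x58a0a08000) (nat_lit 0x43) (.cons (nat_lit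 0x5890e04000) (nat_lit 0x49) (.cons (nat_lit 0x5890c08000) (nat_lit 0x61) (.cons (nat_lit 0x5890a0c000) (nat_lit 0x4d) (.cons (nat_lit 0x50a1000000) (nat_lit 0x50) (.cons (nat_lit 0x50a0e04000) (nat_lit 0x6c) (.cons (nat_lit 0x50a0c08000) (nat_lit 0x3b) (.cons (nat_lit 0x5090c0c000) (nat_lit 0x47) (.nil)))))))))))))))))))

noncomputable def nb_4_6_84 : NE := .cons (nat_lit 0x70a0408000) (nat_lit 0x1b00) (.cons (nat_lit 0x68a0608000) (nat_lit 0xa) (.cons (nat_lit 0x60a0808000) (nat_lit 0xf3f) (.cons (nat_lit 0x58a0a08000) (nat_lit 0x59) (.cons (nat_lit 0x50a0c08000) (nat_lit 0x2b) (.nil)))))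

noncomputable def nb_4_6_83 : NE := .cons (nat_lit 0x70a0800000) (nat_lit 0x2c8000d00000000000) (.cons (nat_lit 0x68a0a00000) (nat_lit 0x3cd2e00016) (.cons (nat_lit 0x68a0804000) (nat_lit 0x1cbe94d3100) (.cons (nat_lit 0x60a0c00000) (nat_lit 0x2bc4f60805c) (.cons (nat_lit 0x60a0a04000) (nat_lit 0x1c54) (.cons (nat_lit 0x60a0808000) (nat_lit 0x3d31cb1) (.cons (nat_lit 0x58a0e00000) (nat_lit 0x379a) (.cons (nat_lit 0x58a0c04000) (nat_lit 0x2bbb) (.cons (nat_lit 0x58a0a08000) (nat_lit 0x3d3c) (.cons (nat_lit 0x58a080c000) (nat_lit 0x13d2) (.cons (nat_lit 0x50a1000000) (nat_lit 0x2a3) (.cons (nat_lit 0x50a0e04000) (nat_lit 0xea4) (.cons (nat_lit 0x50a0c08000) (nat_lit 0x668) (.cons (nat_lit 0x50a0810000) (nat_lit 0x1b9a) (.nil))))))))))))))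

noncomputable def nb_4_6_82 : NE := .cons (nat_lit 0x786080c000) (nat_lit 0x64) (.cons (nat_lit 0x707080c000) (nat_lit 0x5e) (.cons (nat_lit 0x7060810000) (nat_lit 0xa) (.cons (nat_lit 0x688080c000) (nat_lit 3) (.cons (nat_lit 0x6870a0c000) (nat_lit 0xb) (.cons (nat_lit 0x6870810000) (nat_lit 0xe) (.cons (nat_lit 0x6860c0c000) (nat_lit 0x2c) (.cons (nat_lit 0x609080c000) (nat_lit 0x58) (.cons (nat_lit 0x6080a0c000) (nat_lit 0x54) (.cons (nat_lit 0x6080810000) (nat_lit 0x24) (.cons (nat_lit 0x6070c0c000) (nat_lit 0x74) (.cons (nat_lit 0x6060c10000) (nat_lit 0x3c) (.cons (nat_lit 0x58a080c000) (nat_lit 0x30) (.cons (nat_lit 0x5890a0c000) (nat_lit 0x64) (.cons (nat_lit 0x5880c0c000) (nat_lit 0x25) (.cons (nat_lit 0x5880a10000) (nat_lit 0x33) (.cons (nat_lit 0x5870c10000) (nat_lit 0x1e) (.nil)))))))))))))))))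

noncomputable def nb_4_6_81 : NE := .cons (nat_lit 0x7860a08000) (nat_lit 0x19) (.cons (nat_lit 0x7070a08000) (nat_lit 0x3b) (.cons (nat_lit 0x7060c08000) (nat_lit 0x2544) (.cons (nat_lit 0x6880a08000) (nat_lit 0x3e0e) (.cons (nat_lit 0x6870c08000) (nat_lit 0x4c) (.cons (nat_lit 0x6870a0c000) (nat_lit 0x1e) (.cons (nat_lit 0x6860c0c000) (nat_lit 0x2d) (.cons (nat_lit 0x6090a08000) (nat_lit 0x7e) (.cons (nat_lit 0x6080c08000) (nat_lit 0x12a11b) (.cons (nat_lit 0x6080a0c000) (nat_lit 0x3c) (.cons (nat_lit 0x6070c0c000) (nat_lit 0x6c) (.cons (nat_lit 0x6060c10000) (nat_lit 0x37) (.cons (nat_lit 0x58a0a08000) (nat_lit 7) (.cons (nat_lit 0x5890c08000) (nat_lit 0x16) (.cons (nat_lit 0x5890a0c000) (nat_lit 0x62) (.cons (nat_lit 0x5880c0c000) (nat_lit 0x52) (.cons (nat_lit 0x5880a10000) (nat_lit 0x6f) (.cons (nat_lit 0x5870c10000) (nat_lit 0x75) (.nil))))))))))))))))))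

noncomputable def nb_4_6_80 : NE := .cons (nat_lit 0x7860c04000) (nat_lit 0x37) (.cons (nat_lit 0x7070c04000) (nat_lit 0x35c3) (.cons (nat_lit 0x7060c08000) (nat_lit 0x33cc) (.cons (nat_lit 0x6880c04000) (nat_lit 0x14e7ca) (.cons (nat_lit 0x6870c08000) (nat_lit 0) (.cons (nat_lit 0x6860c0c000) (nat_lit 0x76) (.cons (nat_lit 0x6090c04000) (nat_lit 0x9de) (.cons (nat_lit 0x6080c08000) (nat_lit 0xcf1e0) (.cons (nat_lit 0x6070c0c000) (nat_lit 0x7e) (.cons (nat_lit 0x6060c10000) (nat_lit 0x25) (.cons (nat_lit 0x58a0c04000) (nat_lit 0) (.cons (nat_lit 0x5890c08000) (nat_lit 0x3d) (.cons (nat_lit 0x5880c0c000) (nat_lit 0x2e) (.cons (nat_lit 0x5870c10000) (nat_lit 0x19) (.nil))))))))))))))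

noncomputable def nb_4_6_79 : NE := .cons (nat_lit 0x7870808000) (nat_lit 0x3e80) (.cons (nat_lit 0x7080808000) (nat_lit 0xa65) (.cons (nat_lit 0x7070a08000) (nat_lit 0x49) (.cons (nat_lit 0x707080c000) (nat_lit 0x7c) (.cons (nat_lit 0x6890808000) (nat_lit 0x3c1a) (.cons (nat_lit 0x6880a08000) (nat_lit 0x287e) (.cons (nat_lit 0x688080c000) (nat_lit 3) (.cons (nat_lit 0x6870c08000) (nat_lit 0x16) (.cons (nat_lit 0x6870a0c000) (nat_lit 0x23) (.cons (nat_lit 0x6870810000) (nat_lit 0x46) (.cons (nat_lit 0x60a0808000) (nat_lit 0x1efc) (.cons (nat_lit 0x6090a08000) (nat_lit 0x79) (.cons (nat_lit 0x609080c000) (nat_lit 0x61) (.cons (nat_lit 0x6080c08000) (nat_lit 0x1a4f69) (.cons (nat_lit 0x6080a0c000) (nat_lit 0x5b) (.cons (nat_lit 0x6080810000) (nat_lit 0x5b) (.cons (nat_lit 0x6070c0c000) (nat_lit 0x77) (.cons (nat_lit 0x58a0a08000) (nat_lit 0x14) (.cons (nat_lit 0x58a080c000) (nat_lit 0x12) (.cons (nat_lit 0x5890c08000)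 (nat_lit 0x14) (.cons (nat_lit 0x5890a0c000) (nat_lit 0x33) (.cons (nat_lit 0x5880e08000) (nat_lit 0x13) (.cons (nat_lit 0x5880c0c000) (nat_lit 0x43) (.cons (nat_lit 0x5880a10000) (nat_lit 0x79) (.cons (nat_lit 0x5870c10000) (nat_lit 0x5c) (.nil)))))))))))))))))))))))))

noncomputable def nb_4_6_78 : NE := .cons (nat_lit 0x7870a04000) (nat_lit 0x9200058) (.cons (nat_lit 0x7080a04000) (nat_lit 0x521800033) (.cons (nat_lit 0x7070c04000) (nat_lit 0x7208053) (.cons (nat_lit 0x7070a08000) (nat_lit 0x2100) (.cons (nat_lit 0x6890a04000) (nat_lit 0x1af417) (.cons (nat_lit 0x6880c04000) (nat_lit 0xf1c2782680) (.cons (nat_lit 0x6880a08000) (nat_lit 0xb67a702) (.cons (nat_lit 0x6870e04000) (nat_lit 0x3e9e) (.cons (nat_lit 0x6870c08000) (nat_lit 0x1a5b) (.cons (nat_lit 0x6870a0c000) (nat_lit 0x2f8d) (.cons (nat_lit 0x60a0a04000) (nat_lit 0xdfed236) (.cons (nat_lit 0x6090c04000) (nat_lit 0x38e7047) (.cons (nat_lit 0x6090a08000)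 (nat_lit 0x3954) (.cons (nat_lit 0x6080e04000) (nat_lit 0x2d42) (.cons (nat_lit 0x6080c08000) (nat_lit 0x8c36240ee7) (.cons (nat_lit 0x6080a0c000) (nat_lit 0x179a) (.cons (nat_lit 0x6070c0c000) (nat_lit 0x1104) (.cons (nat_lit 0x58b0a04000) (nat_lit 0x1369) (.cons (nat_lit 0x58a0c04000) (nat_lit 0x2200) (.cons (nat_lit 0x58a0a08000) (nat_lit 0x984) (.cons (nat_lit 0x5890e04000) (nat_lit 0x6bb) (.cons (nat_lit 0x5890c08000) (nat_lit 0x2f75) (.cons (nat_lit 0x5890a0c000) (nat_lit 0x2686) (.cons (nat_lit 0x5880e08000) (nat_lit 0x20da) (.cons (nat_lit 0x5880c0c000) (nat_lit 0x16a1) (.cons (nat_lit 0x5880a10000) (nat_lit 0x9fc) (.cons (nat_lit 0x5870c10000) (nat_lit 0x162) (.nil)))))))))))))))))))))))))))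

noncomputable def nb_4_6_77 : NE := .cons (nat_lit 0x7870c00000) (nat_lit 0x1d8000) (.cons (nat_lit 0x7080c00000) (nat_lit 0x6e02200) (.cons (nat_lit 0x7070c04000) (nat_lit 0x150d) (.cons (nat_lit 0x6890c00000) (nat_lit 0x1dc500) (.cons (nat_lit 0x6880e00000) (nat_lit 0x1080) (.cons (nat_lit 0x6880c04000) (nat_lit 0xf0272) (.cons (nat_lit 0x6870e04000) (nat_lit 0x37) (.cons (nat_lit 0x6870c08000) (nat_lit 0x75) (.cons (nat_lit 0x60a0c00000) (nat_lit 0x12ae00) (.cons (nat_lit 0x6090e00000) (nat_lit 0) (.cons (nat_lit 0x6090c04000) (nat_lit 0x2790) (.cons (nat_lit 0x6080e04000) (nat_lit 4) (.cons (nat_lit 0x6080c08000) (nat_lit 0x111890) (.cons (nat_lit 0x6070c0c000) (nat_lit 0xc) (.cons (nat_lit 0x58a0e00000) (nat_lit 0xe) (.cons (nat_lit 0x58a0c04000) (nat_lit 0x5a) (.cons (nat_lit 0x5890e04000) (nat_lit 9) (.cons (nat_lit 0x5890c08000) (nat_lit 0x4e) (.cons (nat_lit 0x5880e08000) (nat_lit 0x6d) (.cons (nat_lit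 0x5880c0c000) (nat_lit 8) (.cons (nat_lit 0x5870c10000) (nat_lit 0xd) (.nil)))))))))))))))))))))

noncomputable def nb_4_6_76 : NE := .cons (nat_lit 0x7880608000) (nat_lit 0x2d00) (.cons (nat_lit 0x7090608000) (nat_lit 0x2a) (.cons (nat_lit 0x7080808000) (nat_lit 0x1c98) (.cons (nat_lit 0x68a0608000) (nat_lit 0x7a) (.cons (nat_lit 0x6890808000) (nat_lit 0x1a) (.cons (nat_lit 0x689060c000) (nat_lit 0x15) (.cons (nat_lit 0x6880a08000) (nat_lit 0x3ee8) (.cons (nat_lit 0x688080c000) (nat_lit 0) (.cons (nat_lit 0x60b0608000) (nat_lit 0x39) (.cons (nat_lit 0x60a0808000) (nat_lit 0x2621) (.cons (nat_lit 0x6090a08000) (nat_lit 0x76) (.cons (nat_lit 0x609080c000) (nat_lit 0x29) (.cons (nat_lit 0x6080c08000) (nat_lit 0x5b973) (.cons (nat_lit 0x6080a0c000) (nat_lit 0x49) (.cons (nat_lit 0x58a0a08000) (nat_lit 0x63) (.cons (nat_lit 0x58a080c000) (nat_lit 0xc) (.cons (nat_lit 0x5890c08000) (nat_lit 0x24) (.cons (nat_lit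 0x5890a0c000) (nat_lit 0x37) (.cons (nat_lit 0x5880e08000) (nat_lit 3) (.cons (nat_lit 0x5880c0c000) (nat_lit 0x20) (.nil))))))))))))))))))))

noncomputable def nb_4_6_75 : NE := .cons (nat_lit 0x7880804000) (nat_lit 0x8000110000) (.cons (nat_lit 0x7090804000) (nat_lit 0x35f7f200026) (.cons (nat_lit 0x7080a04000) (nat_lit 0x2aeff000002) (.cons (nat_lit 0x7080808000) (nat_lit 0x36c2f548f80) (.cons (nat_lit 0x68a0804000) (nat_lit 0x14931b4d5df) (.cons (nat_lit 0x6890a04000) (nat_lit 0x8b0ca70) (.cons (nat_lit 0x6890808000) (nat_lit 0x137b7e7) (.cons (nat_lit 0x6880c04000) (nat_lit 0x504fdd5cce) (.cons (nat_lit 0x6880a08000) (nat_lit 0x336e936) (.cons (nat_lit 0x688080c000) (nat_lit 0x2e56) (.cons (nat_lit 0x60b0804000) (nat_lit 0x3de) (.cons (nat_lit 0x60a0a04000) (nat_lit 0x5af058c) (.cons (nat_lit 0x60a0808000) (nat_lit 0xca47c53) (.cons (nat_lit 0x6090c04000) (nat_lit 0x3059a0a) (.cons (nat_lit 0x6090a08000)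 (nat_lit 0x2f9d) (.cons (nat_lit 0x609080c000) (nat_lit 0x3479) (.cons (nat_lit 0x6080e04000) (nat_lit 0x1c0e) (.cons (nat_lit 0x6080c08000) (nat_lit 0x105ed8d92fc) (.cons (nat_lit 0x6080a0c000) (nat_lit 0x3ee1) (.cons (nat_lit 0x6080810000) (nat_lit 0x256d) (.cons (nat_lit 0x58b0a04000) (nat_lit 0x236) (.cons (nat_lit 0x58a0c04000) (nat_lit 0x1f11) (.cons (nat_lit 0x58a0a08000) (nat_lit 0x2c35) (.cons (nat_lit 0x58a080c000) (nat_lit 0x1792) (.cons (nat_lit 0x5890e04000) (nat_lit 0x3183) (.cons (nat_lit 0x5890c08000) (nat_lit 0x52) (.cons (nat_lit 0x5890a0c000) (nat_lit 0x2021) (.cons (nat_lit 0x5881004000) (nat_lit 0x3f3a) (.cons (nat_lit 0x5880e08000) (nat_lit 0x2c95) (.cons (nat_lit 0x5880c0c000) (nat_lit 0x6d) (.cons (nat_lit 0x5880a10000) (nat_lit 0x3813) (.nil)))))))))))))))))))))))))))))))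

noncomputable def nb_4_6_74 : NE := .cons (nat_lit 0x7880a00000) (nat_lit 0xcc000740000000) (.cons (nat_lit 0x7090a00000) (nat_lit 0x3889320000b) (.cons (nat_lit 0x7080c00000) (nat_lit 0x9dcd5b60090000) (.cons (nat_lit 0x7080a04000) (nat_lit 0x3b547200014) (.cons (nat_lit 0x68a0a00000) (nat_lit 0x3ce83a62b6c) (.cons (nat_lit 0x6890c00000) (nat_lit 0x18e861cd72b) (.cons (nat_lit 0x6890a04000) (nat_lit 0xf9a1f20) (.cons (nat_lit 0x6880e00000) (nat_lit 0xa50a22f) (.cons (nat_lit 0x6880c04000) (nat_lit 0xc4e3e5064b) (.cons (nat_lit 0x6880a08000) (nat_lit 0x7a209ca) (.cons (nat_lit 0x60b0a00000) (nat_lit 0x2c10) (.cons (nat_lit 0x60a0c00000) (nat_lit 0x3d66e218f11) (.cons (nat_lit 0x60a0a04000) (nat_lit 0x26c1ba3) (.cons (nat_lit 0x6090e00000) (nat_lit 0x2ce1) (.cons (nat_lit 0x6090c04000) (nat_lit 0x300f687) (.cons (nat_lit 0x6090a08000) (nat_lit 0x2297) (.cons (nat_lit 0x6081000000) (nat_lit 0x22c4045) (.cons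 (nat_lit 0x6080e04000) (nat_lit 0x2634) (.cons (nat_lit 0x6080c08000) (nat_lit 0x258c30410c7) (.cons (nat_lit 0x6080a0c000) (nat_lit 0x24fa) (.cons (nat_lit 0x58b0a04000) (nat_lit 0x38db) (.cons (nat_lit 0x58a0e00000) (nat_lit 0x765) (.cons (nat_lit 0x58a0c04000) (nat_lit 0x251c) (.cons (nat_lit 0x58a0a08000) (nat_lit 0x29ce) (.cons (nat_lit 0x5890e04000) (nat_lit 0x103d) (.cons (nat_lit 0x5890c08000) (nat_lit 0x502) (.cons (nat_lit 0x5890a0c000) (nat_lit 0x3343) (.cons (nat_lit 0x5881004000) (nat_lit 0x3628) (.cons (nat_lit 0x5880e08000) (nat_lit 0x2bca) (.cons (nat_lit 0x5880c0c000) (nat_lit 0x5a1) (.cons (nat_lit 0x5880a10000) (nat_lit 0x1a7d) (.nil)))))))))))))))))))))))))))))))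

noncomputable def nb_4_6_73 : NE := .cons (nat_lit 0x7890604000) (nat_lit 0xd80014c000) (.cons (nat_lit 0x70a0604000) (nat_lit 0xb20001d) (.cons (nat_lit 0x7090804000) (nat_lit 0x34716400016) (.cons (nat_lit 0x7090608000) (nat_lit 0x2c00) (.cons (nat_lit 0x68b0604000) (nat_lit 0x5b47683) (.cons (nat_lit 0x68a0804000) (nat_lit 0x5c27980) (.cons (nat_lit 0x68a0608000) (nat_lit 0x10c8) (.cons (nat_lit 0x6890a04000) (nat_lit 0x9801f13) (.cons (nat_lit 0x6890808000) (nat_lit 0x1b81) (.cons (nat_lit 0x689060c000) (nat_lit 0x1095) (.cons (nat_lit 0x60b0804000) (nat_lit 0x11e2) (.cons (nat_lit 0x60b0608000) (nat_lit 0x36e6) (.cons (nat_lit 0x60a0a04000) (nat_lit 0x36265c5) (.cons (nat_lit 0x60a0808000) (nat_lit 0xd359ca5) (.cons (nat_lit 0x6090c04000) (nat_lit 0xbb78a7e) (.cons (nat_lit 0x6090a08000) (nat_lit 0x2b12) (.cons (nat_lit 0x609080c000) (nat_lit 0x10ce) (.cons (nat_lit 0x58b0a04000) (nat_lit 0x220b) (.cons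 (nat_lit 0x58a0c04000) (nat_lit 0x1980) (.cons (nat_lit 0x58a0a08000) (nat_lit 0x327d) (.cons (nat_lit 0x58a080c000) (nat_lit 0x177e) (.cons (nat_lit 0x5890e04000) (nat_lit 0xe31) (.cons (nat_lit 0x5890c08000) (nat_lit 0x2785) (.cons (nat_lit 0x5890a0c000) (nat_lit 0x1508) (.nil))))))))))))))))))))))))

noncomputable def nb_4_6_72 : NE := .cons (nat_lit 0x7890800000) (nat_lit 0xea00000) (.cons (nat_lit 0x70a0800000) (nat_lit 0x7429900) (.cons (nat_lit 0x7090a00000) (nat_lit 0xce256) (.cons (nat_lit 0x7090804000) (nat_lit 0x1893c4) (.cons (nat_lit 0x68b0800000) (nat_lit 0x2288) (.cons (nat_lit 0x68a0a00000) (nat_lit 0x389d2) (.cons (nat_lit 0x68a0804000) (nat_lit 0x476fd) (.cons (nat_lit 0x6890c00000) (nat_lit 0x1f858) (.cons (nat_lit 0x6890a04000) (nat_lit 0xb72) (.cons (nat_lit 0x6890808000) (nat_lit 0x6bf) (.cons (nat_lit 0x60b0a00000) (nat_lit 0x2f) (.cons (nat_lit 0x60b0804000) (nat_lit 0x77) (.cons (nat_lit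 0x60a0c00000) (nat_lit 0x1193b5) (.cons (nat_lit 0x60a0a04000) (nat_lit 0x14d) (.cons (nat_lit 0x60a0808000) (nat_lit 0x1fc6) (.cons (nat_lit 0x6090e00000) (nat_lit 0x6f) (.cons (nat_lit 0x6090c04000) (nat_lit 0x294a) (.cons (nat_lit 0x6090a08000) (nat_lit 0x2f) (.cons (nat_lit 0x609080c000) (nat_lit 0x52) (.cons (nat_lit 0x58b0a04000) (nat_lit 0x14) (.cons (nat_lit 0x58a0e00000) (nat_lit 0x63) (.cons (nat_lit 0x58a0c04000) (nat_lit 0x25) (.cons (nat_lit 0x58a0a08000) (nat_lit 0xb) (.cons (nat_lit 0x58a080c000) (nat_lit 0x26) (.cons (nat_lit 0x5890e04000) (nat_lit 0x60) (.cons (nat_lit 0x5890c08000) (nat_lit 0x7c) (.cons (nat_lit 0x5890a0c000) (nat_lit 0x2b) (.nil)))))))))))))))))))))))))))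

noncomputable def nb_4_6_71 : NE := .cons (nat_lit 0x78a0404000) (nat_lit 0x2300) (.cons (nat_lit 0x70b0404000) (nat_lit 0x380) (.cons (nat_lit 0x70a0604000) (nat_lit 0x3880) (.cons (nat_lit 0x70a0408000) (nat_lit 0xc78) (.cons (nat_lit 0x68b0604000) (nat_lit 0xb05) (.cons (nat_lit 0x68a0804000) (nat_lit 0x345b) (.cons (nat_lit 0x68a0608000) (nat_lit 0x10) (.cons (nat_lit 0x60b0804000) (nat_lit 0x20) (.cons (nat_lit 0x60b0608000) (nat_lit 0) (.cons (nat_lit 0x60a0a04000) (nat_lit 0x39e4) (.cons (nat_lit 0x60a0808000) (nat_lit 0x37ab) (.cons (nat_lit 0x58b0a04000) (nat_lit 0x35) (.cons (nat_lit 0x58a0c04000) (nat_lit 0x1b) (.cons (nat_lit 0x58a0a08000) (nat_lit 0x7e) (.nil))))))))))))))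

noncomputable def nb_4_6_70 : NE := .cons (nat_lit 0x78a0600000) (nat_lit 0x3800000) (.cons (nat_lit 0x70b0600000) (nat_lit 0x575) (.cons (nat_lit 0x70a0800000) (nat_lit 0x28e8e6300) (.cons (nat_lit 0x70a0604000) (nat_lit 0x3319) (.cons (nat_lit 0x68b0800000) (nat_lit 0x366d) (.cons (nat_lit 0x68b0604000) (nat_lit 0x1ca2) (.cons (nat_lit 0x68a0a00000) (nat_lit 0x112f39) (.cons (nat_lit 0x68a0804000) (nat_lit 0x3274) (.cons (nat_lit 0x68a0608000) (nat_lit 0x34) (.cons (nat_lit 0x60b0a00000) (nat_lit 0x6d) (.cons (nat_lit 0x60b0804000) (nat_lit 0x3b) (.cons (nat_lit 0x60b0608000) (nat_lit 0x13) (.cons (nat_lit 0x60a0c00000) (nat_lit 0x10abc) (.cons (nat_lit 0x60a0a04000) (nat_lit 0x3c) (.cons (nat_lit 0x60a0808000) (nat_lit 0x3e77) (.cons (nat_lit 0x58b0a04000) (nat_lit 0x1e) (.cons (nat_lit 0x58a0e00000) (nat_lit 0x2c) (.cons (nat_lit 0x58a0c04000) (nat_lit 0x24) (.cons (nat_lit 0x58a0a08000) (nat_lit 0x6b)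 (.cons (nat_lit 0x58a080c000) (nat_lit 0x5e) (.nil))))))))))))))))))))

noncomputable def nb_4_6_69 : NE := .cons (nat_lit 0x78b0204000) (nat_lit 0x13) (.cons (nat_lit 0x70b0404000) (nat_lit 0x5b) (.cons (nat_lit 0x68b0604000) (nat_lit 0x2aa0) (.cons (nat_lit 0x60b0804000) (nat_lit 0x1d) (.cons (nat_lit 0x58b0a04000) (nat_lit 0x66) (.nil)))))

noncomputable def nb_4_6_68 : NE := .cons (nat_lit 0x8040810000) (nat_lit 0x20) (.cons (nat_lit 0x7060810000) (nat_lit 0x4c) (.cons (nat_lit 0x6870810000) (nat_lit 0x4f) (.cons (nat_lit 0x6080810000) (nat_lit 0x21) (.nil))))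

noncomputable def nb_4_6_67 : NE := .cons (nat_lit 0x8060808000) (nat_lit 0x5abc01b) (.cons (nat_lit 0x7870808000) (nat_lit 0xd88007a) (.cons (nat_lit 0x7860a08000) (nat_lit 0x1713) (.cons (nat_lit 0x786080c000) (nat_lit 0x3108) (.cons (nat_lit 0x7080808000) (nat_lit 0x1b172bf24d7) (.cons (nat_lit 0x7070a08000) (nat_lit 0x2d05) (.cons (nat_lit 0x707080c000) (nat_lit 0x228b) (.cons (nat_lit 0x7060c08000) (nat_lit 0x346ad7e) (.cons (nat_lit 0x7060810000) (nat_lit 0x32f9) (.cons (nat_lit 0x6890808000) (nat_lit 0xf95bc48) (.cons (nat_lit 0x6880a08000) (nat_lit 0xdab5654) (.cons (nat_lit 0x688080c000) (nat_lit 0x245d) (.cons (nat_lit 0x6870c08000) (nat_lit 0x30be) (.cons (nat_lit 0x6870a0c000) (nat_lit 0xe9a) (.cons (nat_lit 0x6870810000) (nat_lit 0x3570) (.cons (nat_lit 0x6860c0c000) (nat_lit 0x288a) (.cons (nat_lit 0x60a0808000) (nat_lit 0xc353af9) (.cons (nat_lit 0x6090a08000) (nat_lit 0x124) (.cons (nat_lit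 0x609080c000) (nat_lit 0x1ad5) (.cons (nat_lit 0x6080c08000) (nat_lit 0x15fe6c71568) (.cons (nat_lit 0x6080a0c000) (nat_lit 0x227e) (.cons (nat_lit 0x6080810000) (nat_lit 0x1f8e) (.cons (nat_lit 0x6070c0c000) (nat_lit 0x1b09) (.cons (nat_lit 0x6060c10000) (nat_lit 0x29d9) (.nil))))))))))))))))))))))))

noncomputable def nb_4_6_66 : NE := .cons (nat_lit 0x8060a04000) (nat_lit 0x75) (.cons (nat_lit 0x7870a04000) (nat_lit 0x340d) (.cons (nat_lit 0x7860c04000) (nat_lit 0x7b) (.cons (nat_lit 0x7860a08000) (nat_lit 0x2b) (.cons (nat_lit 0x7080a04000) (nat_lit 0x3c7f1) (.cons (nat_lit 0x7070c04000) (nat_lit 0x368) (.cons (nat_lit 0x7070a08000) (nat_lit 0x3c) (.cons (nat_lit 0x7060c08000) (nat_lit 0x2c63) (.cons (nat_lit 0x6890a04000) (nat_lit 0x18fe) (.cons (nat_lit 0x6880c04000) (nat_lit 0x115e06) (.cons (nat_lit 0x6880a08000) (nat_lit 0xfc2) (.cons (nat_lit 0x6870c08000) (nat_lit 0x5a) (.cons (nat_lit 0x6870a0c000)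 (nat_lit 0x7d) (.cons (nat_lit 0x6860c0c000) (nat_lit 0x37) (.cons (nat_lit 0x60a0a04000) (nat_lit 0x3c1f) (.cons (nat_lit 0x6090c04000) (nat_lit 0x1d4f) (.cons (nat_lit 0x6090a08000) (nat_lit 0x69) (.cons (nat_lit 0x6080c08000) (nat_lit 0x11f03c) (.cons (nat_lit 0x6080a0c000) (nat_lit 0x6a) (.cons (nat_lit 0x6070c0c000) (nat_lit 0x46) (.cons (nat_lit 0x6060c10000) (nat_lit 0x39) (.nil)))))))))))))))))))))

noncomputable def nb_4_6_65 : NE := .cons (nat_lit 0x8060c00000) (nat_lit 0x10f5d0027c800019) (.cons (nat_lit 0x7870c00000) (nat_lit 0x88240034b600076) (.cons (nat_lit 0x7860c04000) (nat_lit 0xb1b44) (.cons (nat_lit 0x7080c00000) (nat_lit 0x815f700f5d18c6360005c) (.cons (nat_lit 0x7070c04000) (nat_lit 0x1273425828b) (.cons (nat_lit 0x7060c08000) (nat_lit 0x20ca4b10958) (.cons (nat_lit 0x6890c00000) (nat_lit 0x78dfcb4786600ae1) (.cons (nat_lit 0x6880c04000) (nat_lit 0x33335cfab3d760eb) (.cons (nat_lit 0x6870c08000)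 (nat_lit 0x18886f) (.cons (nat_lit 0x6860c0c000) (nat_lit 0x1c2a68) (.cons (nat_lit 0x60a0c00000) (nat_lit 0x1806cf47bf603aa0) (.cons (nat_lit 0x6090c04000) (nat_lit 0x30686791428) (.cons (nat_lit 0x6080c08000) (nat_lit 0x549400a1d5759001) (.cons (nat_lit 0x6070c0c000) (nat_lit 0xf38e8) (.cons (nat_lit 0x6060c10000) (nat_lit 0xe20c7) (.nil)))))))))))))))

noncomputable def nb_4_6_64 : NE := .cons (nat_lit 0x8070608000) (nat_lit 0x2e) (.cons (nat_lit 0x7880608000) (nat_lit 0x359d) (.cons (nat_lit 0x7870808000) (nat_lit 0x96e) (.cons (nat_lit 0x7090608000) (nat_lit 0x60) (.cons (nat_lit 0x7080808000) (nat_lit 0x2a6d4) (.cons (nat_lit 0x7070a08000) (nat_lit 0x65) (.cons (nat_lit 0x707080c000) (nat_lit 0x68) (.cons (nat_lit 0x68a0608000) (nat_lit 0x7c) (.cons (nat_lit 0x6890808000) (nat_lit 0x1801) (.cons (nat_lit 0x689060c000) (nat_lit 0x3e) (.cons (nat_lit 0x6880a08000) (nat_lit 0x904) (.cons (nat_lit 0x688080c000)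 (nat_lit 0x1b) (.cons (nat_lit 0x6870c08000) (nat_lit 0x3f) (.cons (nat_lit 0x6870a0c000) (nat_lit 0x2e) (.cons (nat_lit 0x60b0608000) (nat_lit 0x16) (.cons (nat_lit 0x60a0808000) (nat_lit 0xf3f) (.cons (nat_lit 0x6090a08000) (nat_lit 0x59) (.cons (nat_lit 0x609080c000) (nat_lit 0x4b) (.cons (nat_lit 0x6080c08000) (nat_lit 0xbce51) (.cons (nat_lit 0x6080a0c000) (nat_lit 0) (.cons (nat_lit 0x6070c0c000) (nat_lit 0x67) (.nil)))))))))))))))))))))

noncomputable def nb_4_6_63 : NE := .cons (nat_lit 0x8070804000) (nat_lit 0x3b000160000) (.cons (nat_lit 0x7880804000) (nat_lit 0x36d4120007b) (.cons (nat_lit 0x7870a04000) (nat_lit 0xf9de00) (.cons (nat_lit 0x7870808000) (nat_lit 0xc2f0006) (.cons (nat_lit 0x7090804000) (nat_lit 0x38bb0b19e80) (.cons (nat_lit 0x7080a04000) (nat_lit 0x335d698f280) (.cons (nat_lit 0x7080808000) (nat_lit 0x37c3560f5c2) (.cons (nat_lit 0x7070c04000) (nat_lit 0xebca980) (.cons (nat_lit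 0x7070a08000) (nat_lit 0x2dbe) (.cons (nat_lit 0x707080c000) (nat_lit 0x256b) (.cons (nat_lit 0x68a0804000) (nat_lit 0x13c4159431d) (.cons (nat_lit 0x6890a04000) (nat_lit 0x4d28ac1) (.cons (nat_lit 0x6890808000) (nat_lit 0xc8a99f1) (.cons (nat_lit 0x6880c04000) (nat_lit 0x20b2f73771f) (.cons (nat_lit 0x6880a08000) (nat_lit 0xd615035) (.cons (nat_lit 0x688080c000) (nat_lit 0x3097) (.cons (nat_lit 0x6870e04000) (nat_lit 0x5b9) (.cons (nat_lit 0x6870c08000) (nat_lit 0x11da) (.cons (nat_lit 0x6870a0c000) (nat_lit 0xf5f) (.cons (nat_lit 0x6870810000) (nat_lit 0x3914) (.cons (nat_lit 0x60b0804000) (nat_lit 0x3803) (.cons (nat_lit 0x60a0a04000) (nat_lit 0xaf45763) (.cons (nat_lit 0x60a0808000) (nat_lit 0x2fa02cf) (.cons (nat_lit 0x6090c04000) (nat_lit 0x8a15b38) (.cons (nat_lit 0x6090a08000) (nat_lit 0x23cb) (.cons (nat_lit 0x609080c000) (nat_lit 0x11b9) (.cons (nat_lit 0x6080e04000) (nat_lit 0x16aa) (.cons (nat_lit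 0x6080c08000) (nat_lit 0xcf95669928) (.cons (nat_lit 0x6080a0c000) (nat_lit 0x34e2) (.cons (nat_lit 0x6080810000) (nat_lit 0x2dc2) (.cons (nat_lit 0x6070c0c000) (nat_lit 0x358b) (.nil)))))))))))))))))))))))))))))))

noncomputable def nb_4_6_62 : NE := .cons (nat_lit 0x8070a00000) (nat_lit 0x2580) (.cons (nat_lit 0x7880a00000) (nat_lit 0x1540880) (.cons (nat_lit 0x7870c00000) (nat_lit 0x18ed00) (.cons (nat_lit 0x7870a04000) (nat_lit 0x28b1) (.cons (nat_lit 0x7090a00000) (nat_lit 0xfc177) (.cons (nat_lit 0x7080c00000) (nat_lit 0x6297c00) (.cons (nat_lit 0x7080a04000) (nat_lit 0x138f41) (.cons (nat_lit 0x7070c04000) (nat_lit 0x26cb) (.cons (nat_lit 0x7070a08000) (nat_lit 0x12) (.cons (nat_lit 0x68a0a00000) (nat_lit 0x4d2f2) (.cons (nat_lit 0x6890c00000) (nat_lit 0x3c03a) (.cons (nat_lit 0x6890a04000) (nat_lit 0x3274) (.cons (nat_lit 0x6880e00000) (nat_lit 0x2417) (.cons (nat_lit 0x6880c04000) (nat_lit 0x1c4bb1)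 (.cons (nat_lit 0x6880a08000) (nat_lit 0xc0) (.cons (nat_lit 0x6870e04000) (nat_lit 0x1a) (.cons (nat_lit 0x6870c08000) (nat_lit 0x66) (.cons (nat_lit 0x6870a0c000) (nat_lit 0x2f) (.cons (nat_lit 0x60b0a00000) (nat_lit 0x18) (.cons (nat_lit 0x60a0c00000) (nat_lit 0xa3841) (.cons (nat_lit 0x60a0a04000) (nat_lit 0x2f91) (.cons (nat_lit 0x6090e00000) (nat_lit 0xe) (.cons (nat_lit 0x6090c04000) (nat_lit 0xfbf) (.cons (nat_lit 0x6090a08000) (nat_lit 0x35) (.cons (nat_lit 0x6080e04000) (nat_lit 0x5a) (.cons (nat_lit 0x6080c08000) (nat_lit 0x179bd2) (.cons (nat_lit 0x6080a0c000) (nat_lit 3) (.cons (nat_lit 0x6070c0c000) (nat_lit 0x18) (.nil))))))))))))))))))))))))))))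

noncomputable def nb_4_6_61 : NE := .cons (nat_lit 0x8080408000) (nat_lit 0x49a803d) (.cons (nat_lit 0x7890408000) (nat_lit 0x10) (.cons (nat_lit 0x7880608000) (nat_lit 0x37a805d) (.cons (nat_lit 0x70a0408000) (nat_lit 0x13294bf) (.cons (nat_lit 0x7090608000) (nat_lit 0x901) (.cons (nat_lit 0x7080808000) (nat_lit 0x49888ed23) (.cons (nat_lit 0x68a0608000) (nat_lit 0xd73) (.cons (nat_lit 0x6890808000) (nat_lit 0x1e3715) (.cons (nat_lit 0x6880a08000) (nat_lit 0xca7284c) (.cons (nat_lit 0x60c0408000) (nat_lit 0x1cc) (.cons (nat_lit 0x60b0608000) (nat_lit 0x3bf4) (.cons (nat_lit 0x60a0808000) (nat_lit 0x18b541e) (.cons (nat_lit 0x6090a08000) (nat_lit 0x392) (.cons (nat_lit 0x6080c08000) (nat_lit 0x3f864e4421) (.nil))))))))))))))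

noncomputable def nb_4_6_60 : NE := .cons (nat_lit 0x8080604000) (nat_lit 0x3280) (.cons (nat_lit 0x7890604000) (nat_lit 0x8001a) (.cons (nat_lit 0x7880804000) (nat_lit 0x6dcaf) (.cons (nat_lit 0x7880608000) (nat_lit 0x3a78) (.cons (nat_lit 0x70a0604000) (nat_lit 0x3565) (.cons (nat_lit 0x7090804000) (nat_lit 0x1e8f28) (.cons (nat_lit 0x7090608000) (nat_lit 0x33) (.cons (nat_lit 0x7080a04000) (nat_lit 0x86eba) (.cons (nat_lit 0x7080808000) (nat_lit 0x2e56c) (.cons (nat_lit 0x68b0604000) (nat_lit 0xe3b) (.cons (nat_lit 0x68a0804000) (nat_lit 0x15de8c) (.cons (nat_lit 0x68a0608000) (nat_lit 0x44) (.cons (nat_lit 0x6890a04000) (nat_lit 0x2671) (.cons (nat_lit 0x6890808000) (nat_lit 0x3457) (.cons (nat_lit 0x689060c000) (nat_lit 0x18) (.cons (nat_lit 0x6880c04000) (nat_lit 0x1f7900) (.cons (nat_lit 0x6880a08000) (nat_lit 0x17bb) (.cons (nat_lit 0x688080c000) (nat_lit 0x5f) (.cons (nat_lit 0x60b0804000) (nat_lit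 0x20) (.cons (nat_lit 0x60b0608000) (nat_lit 0x74) (.cons (nat_lit 0x60a0a04000) (nat_lit 0xa6) (.cons (nat_lit 0x60a0808000) (nat_lit 0x3f54) (.cons (nat_lit 0x6090c04000) (nat_lit 0xeae) (.cons (nat_lit 0x6090a08000) (nat_lit 0xb) (.cons (nat_lit 0x609080c000) (nat_lit 0x75) (.cons (nat_lit 0x6080e04000) (nat_lit 0x28) (.cons (nat_lit 0x6080c08000) (nat_lit 0x10aa74) (.cons (nat_lit 0x6080a0c000) (nat_lit 0x12) (.nil))))))))))))))))))))))))))))

noncomputable def nb_4_6_59 : NE := .cons (nat_lit 0x8080800000) (nat_lit 0xf803c0a007800000024e0000001800000000000000) (.cons (nat_lit 0x7890800000) (nat_lit 0x2c92005c00000037e30000078) (.cons (nat_lit 0x7880a00000) (nat_lit 0x92f868030024060000dcf0000073) (.cons (nat_lit 0x7880804000) (nat_lit 0xd2ac5004c006010148000) (.cons (nat_lit 0x70a0800000) (nat_lit 0x49f96610166ee7142038068007a1000007d) (.cons (nat_lit 0x7090a00000) (nat_lit 0x15ff4a8e492804e030bd) (.cons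 (nat_lit 0x7090804000) (nat_lit 0xd085bf4ca71d00880196e) (.cons (nat_lit 0x7080c00000) (nat_lit 0x64c6c7d0150cb7b00265b000005d) (.cons (nat_lit 0x7080a04000) (nat_lit 0x5ee15d85eb2380b801ce4) (.cons (nat_lit 0x7080808000) (nat_lit 0x4db05a9ee155ce65100) (.cons (nat_lit 0x68b0800000) (nat_lit 0x12254006562e) (.cons (nat_lit 0x68a0a00000) (nat_lit 0xc9c310105a5f7500d6570) (.cons (nat_lit 0x68a0804000) (nat_lit 0x1c578238835ed49f2cbc) (.cons (nat_lit 0x6890c00000) (nat_lit 0xf6194c70b7489f01a6831) (.cons (nat_lit 0x6890a04000) (nat_lit 0x8ed6b3971cfc00) (.cons (nat_lit 0x6890808000) (nat_lit 0x127017f7af64b) (.cons (nat_lit 0x6880e00000) (nat_lit 0xef66cc60142d47) (.cons (nat_lit 0x6880c04000) (nat_lit 0xd9c355572739da2d9934b) (.cons (nat_lit 0x6880a08000) (nat_lit 0x31ee91bec6d515) (.cons (nat_lit 0x688080c000) (nat_lit 0x127b4) (.cons (nat_lit 0x60c0800000) (nat_lit 0xa9e689b007c55f) (.cons (nat_lit 0x60b0a00000)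 (nat_lit 0x4c5a9) (.cons (nat_lit 0x60b0804000) (nat_lit 0x6ce22d3) (.cons (nat_lit 0x60a0c00000) (nat_lit 0x6530f590c2497100478f9) (.cons (nat_lit 0x60a0a04000) (nat_lit 0xbe7c52ce8c72a9) (.cons (nat_lit 0x60a0808000) (nat_lit 0xc98a2170a38912) (.cons (nat_lit 0x6090e00000) (nat_lit 0xca064) (.cons (nat_lit 0x6090c04000) (nat_lit 0x51b9ec9c8210b5) (.cons (nat_lit 0x6090a08000) (nat_lit 0x2a093e) (.cons (nat_lit 0x609080c000) (nat_lit 0x85429d8) (.cons (nat_lit 0x6081000000) (nat_lit 0x1651c160403371) (.cons (nat_lit 0x6080e04000) (nat_lit 0x2682c47) (.cons (nat_lit 0x6080c08000) (nat_lit 0x84ab3975aa3aeca60abc4) (.cons (nat_lit 0x6080a0c000) (nat_lit 0xbaf1363) (.cons (nat_lit 0x6080810000) (nat_lit 0xfd4b2c6) (.nil)))))))))))))))))))))))))))))))))))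

noncomputable def nb_4_6_58 : NE := .cons (nat_lit 0x8090404000) (nat_lit 0x1400) (.cons (nat_lit 0x78a0404000) (nat_lit 0x112e) (.cons (nat_lit 0x7890604000) (nat_lit 0x43e81) (.cons (nat_lit 0x7890408000) (nat_lit 0x23) (.cons (nat_lit 0x70b0404000) (nat_lit 0x3e32) (.cons (nat_lit 0x70a0604000) (nat_lit 0xed1) (.cons (nat_lit 0x70a0408000) (nat_lit 0x3331) (.cons (nat_lit 0x7090804000) (nat_lit 0xd634c) (.cons (nat_lit 0x7090608000) (nat_lit 2) (.cons (nat_lit 0x68c0404000) (nat_lit 0x7e) (.cons (nat_lit 0x68b0604000) (nat_lit 0x3f5) (.cons (nat_lit 0x68a0804000) (nat_lit 0x16d045) (.cons (nat_lit 0x68a0608000) (nat_lit 0x36) (.cons (nat_lit 0x6890a04000) (nat_lit 0xf6e) (.cons (nat_lit 0x6890808000) (nat_lit 0x1476) (.cons (nat_lit 0x60c0408000) (nat_lit 0x79) (.cons (nat_lit 0x60b0804000) (nat_lit 1) (.cons (nat_lit 0x60b0608000) (nat_lit 0xd) (.cons (nat_lit 0x60a0a04000) (nat_lit 0x1e1a) (.cons (nat_lit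 0x60a0808000) (nat_lit 0x3d3d) (.cons (nat_lit 0x6090c04000) (nat_lit 0x2c6a) (.cons (nat_lit 0x6090a08000) (nat_lit 0x56) (.nil))))))))))))))))))))))

noncomputable def nb_4_6_57 : NE := .cons (nat_lit 0x8090600000) (nat_lit 0xd6000240000000) (.cons (nat_lit 0x78a0600000) (nat_lit 0x1ace000198000) (.cons (nat_lit 0x7890800000) (nat_lit 0x1f01800050000) (.cons (nat_lit 0x7890604000) (nat_lit 0x2a80171780) (.cons (nat_lit 0x70b0600000) (nat_lit 0x60f400d) (.cons (nat_lit 0x70a0800000) (nat_lit 0x1d185a1b4d8015c000) (.cons (nat_lit 0x70a0604000) (nat_lit 0x1668011) (.cons (nat_lit 0x7090a00000) (nat_lit 0x34b1372402a) (.cons (nat_lit 0x7090804000) (nat_lit 0x3c1c962405f) (.cons (nat_lit 0x7090608000) (nat_lit 0x2dec) (.cons (nat_lit 0x68c0600000) (nat_lit 0xe882d6b) (.cons (nat_lit 0x68b0800000) (nat_lit 0x7cb2323) (.cons (nat_lit 0x68b0604000) (nat_lit 0x5f2df07) (.cons (nat_lit 0x68a0a00000) (nat_lit 0x26d1fdcec9e)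 (.cons (nat_lit 0x68a0804000) (nat_lit 0x2808905ebe) (.cons (nat_lit 0x68a0608000) (nat_lit 0x1ce5) (.cons (nat_lit 0x6890c00000) (nat_lit 0x1790ad0eefe) (.cons (nat_lit 0x6890a04000) (nat_lit 0xb7f8860) (.cons (nat_lit 0x6890808000) (nat_lit 0xa60160c) (.cons (nat_lit 0x689060c000) (nat_lit 0x1e1) (.cons (nat_lit 0x60c0800000) (nat_lit 0xf23820) (.cons (nat_lit 0x60b0a00000) (nat_lit 0x3462) (.cons (nat_lit 0x60b0804000) (nat_lit 0x71c) (.cons (nat_lit 0x60b0608000) (nat_lit 0xd01) (.cons (nat_lit 0x60a0c00000) (nat_lit 0x2a7ef5897d8) (.cons (nat_lit 0x60a0a04000) (nat_lit 0x2baabd) (.cons (nat_lit 0x60a0808000) (nat_lit 0x55bc627) (.cons (nat_lit 0x6090e00000) (nat_lit 0x1de6) (.cons (nat_lit 0x6090c04000) (nat_lit 0xbed7215) (.cons (nat_lit 0x6090a08000) (nat_lit 0x1f0d) (.cons (nat_lit 0x609080c000) (nat_lit 0x3b59) (.nil)))))))))))))))))))))))))))))))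

noncomputable def nb_4_6_56 : NE := .cons (nat_lit 0x80a0400000) (nat_lit 0x134000016af00015c0000000000) (.cons (nat_lit 0x78b0400000) (nat_lit 0x43000006c7c0004f) (.cons (nat_lit 0x78a0600000) (nat_lit 0x2b6a38a000006d4000008) (.cons (nat_lit 0x78a0404000) (nat_lit 0x6f8f804000) (.cons (nat_lit 0x70c0400000) (nat_lit 0x285897484aa0000e) (.cons (nat_lit 0x70b0600000) (nat_lit 0x25bc7d85118) (.cons (nat_lit 0x70b0404000) (nat_lit 0x3a776613293) (.cons (nat_lit 0x70a0800000) (nat_lit 0x1dcff0835039a2a25aa1c40007b) (.cons (nat_lit 0x70a0604000) (nat_lit 0x13ee3b2231b) (.cons (nat_lit 0x70a0408000) (nat_lit 0x3e9de2869da) (.cons (nat_lit 0x68c0600000) (nat_lit 0x30f4014bc0a) (.cons (nat_lit 0x68c0404000) (nat_lit 0x5d30b) (.cons (nat_lit 0x68b0800000) (nat_lit 0x3f4461e8ff7) (.cons (nat_lit 0x68b0604000) (nat_lit 0x516efe4476) (.cons (nat_lit 0x68a0a00000) (nat_lit 0x462639c9d26968e6) (.cons (nat_lit 0x68a0804000)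 (nat_lit 0x4b0002a7585a5b05) (.cons (nat_lit 0x68a0608000) (nat_lit 0xd0eb1) (.cons (nat_lit 0x60c0800000) (nat_lit 0x29724787e23) (.cons (nat_lit 0x60c0408000) (nat_lit 0x1d7a46) (.cons (nat_lit 0x60b0a00000) (nat_lit 0x1deaed) (.cons (nat_lit 0x60b0804000) (nat_lit 0x1b58d2) (.cons (nat_lit 0x60b0608000) (nat_lit 0x13cb82) (.cons (nat_lit 0x60a0c00000) (nat_lit 0x3fa757ed4b17287) (.cons (nat_lit 0x60a0a04000) (nat_lit 0x1eafb0c5a5f) (.cons (nat_lit 0x60a0808000) (nat_lit 0x34e10ecb47e) (.nil)))))))))))))))))))))))))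

noncomputable def nb_4_6_55 : NE := .cons (nat_lit 0x80c0000000) (nat_lit 0xb660164000) (.cons (nat_lit 0x78c0200000) (nat_lit 0x13bc07b) (.cons (nat_lit 0x70c0400000) (nat_lit 0x3d08016) (.cons (nat_lit 0x68c0600000) (nat_lit 0xe125203) (.cons (nat_lit 0x60c0800000) (nat_lit 0xc1b60a) (.nil)))))

noncomputable def nb_4_6_54 : NE := .cons (nat_lit 0x8850808000) (nat_lit 0x1f) (.cons (nat_lit 0x8060808000) (nat_lit 0xc42) (.cons (nat_lit 0x7870808000) (nat_lit 0x2a8a) (.cons (nat_lit 0x7860a08000) (nat_lit 7) (.cons (nat_lit 0x786080c000) (nat_lit 0x17) (.cons (nat_lit 0x7080808000) (nat_lit 0x76442) (.cons (nat_lit 0x7070a08000) (nat_lit 0x49) (.cons (nat_lit 0x707080c000) (nat_lit 0x6f) (.cons (nat_lit 0x7060810000) (nat_lit 0x6b) (.cons (nat_lit 0x6890808000) (nat_lit 0x426) (.cons (nat_lit 0x6880a08000) (nat_lit 0x2a3d) (.cons (nat_lit 0x688080c000) (nat_lit 0) (.cons (nat_lit 0x6870a0c000) (nat_lit 0x6d)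 (.cons (nat_lit 0x6870810000) (nat_lit 0x11) (.nil))))))))))))))

noncomputable def nb_4_6_53 : NE := .cons (nat_lit 0x8860608000) (nat_lit 0x25) (.cons (nat_lit 0x8070608000) (nat_lit 0x5d) (.cons (nat_lit 0x8060808000) (nat_lit 0x25fe) (.cons (nat_lit 0x7880608000) (nat_lit 0xcf6) (.cons (nat_lit 0x7870808000) (nat_lit 0x221a) (.cons (nat_lit 0x7860a08000) (nat_lit 0x45) (.cons (nat_lit 0x786080c000) (nat_lit 0x42) (.cons (nat_lit 0x7090608000) (nat_lit 7) (.cons (nat_lit 0x7080808000) (nat_lit 0xc8511) (.cons (nat_lit 0x7070a08000) (nat_lit 0x4b) (.cons (nat_lit 0x707080c000) (nat_lit 0x1f) (.cons (nat_lit 0x7060c08000) (nat_lit 0xc3a) (.cons (nat_lit 0x68a0608000) (nat_lit 0x52) (.cons (nat_lit 0x6890808000) (nat_lit 0x1981) (.cons (nat_lit 0x689060c000) (nat_lit 0x48) (.cons (nat_lit 0x6880a08000) (nat_lit 0x33a5) (.cons (nat_lit 0x688080c000) (nat_lit 0x74) (.cons (nat_lit 0x6870c08000) (nat_lit 0x16)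 (.cons (nat_lit 0x6870a0c000) (nat_lit 3) (.cons (nat_lit 0x6860c0c000) (nat_lit 0x16) (.nil))))))))))))))))))))

noncomputable def nb_4_6_52 : NE := .cons (nat_lit 0x8860804000) (nat_lit 0x68ac01a) (.cons (nat_lit 0x8070804000) (nat_lit 0xad6be68044) (.cons (nat_lit 0x8060a04000) (nat_lit 0x3c42) (.cons (nat_lit 0x8060808000) (nat_lit 0xd876703) (.cons (nat_lit 0x7880804000) (nat_lit 0xf45d07233) (.cons (nat_lit 0x7870a04000) (nat_lit 0xb9b93a2) (.cons (nat_lit 0x7870808000) (nat_lit 0xfc9c25b) (.cons (nat_lit 0x7860c04000) (nat_lit 0x1d8) (.cons (nat_lit 0x7860a08000) (nat_lit 0x1f08) (.cons (nat_lit 0x786080c000) (nat_lit 0x3a1) (.cons (nat_lit 0x7090804000) (nat_lit 0x35c13f11ba8) (.cons (nat_lit 0x7080a04000) (nat_lit 0x20434ac96c6) (.cons (nat_lit 0x7080808000) (nat_lit 0x2dac571330f) (.cons (nat_lit 0x7070c04000) (nat_lit 0x2366593) (.cons (nat_lit 0x7070a08000) (nat_lit 0x328c) (.cons (nat_lit 0x707080c000)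 (nat_lit 0x1520) (.cons (nat_lit 0x7060c08000) (nat_lit 0xa30545e) (.cons (nat_lit 0x7060810000) (nat_lit 0xd9e) (.cons (nat_lit 0x68a0804000) (nat_lit 0x1cfca441da5) (.cons (nat_lit 0x6890a04000) (nat_lit 0x484a38e) (.cons (nat_lit 0x6890808000) (nat_lit 0x952d930) (.cons (nat_lit 0x6880c04000) (nat_lit 0x322ad441074) (.cons (nat_lit 0x6880a08000) (nat_lit 0x94c8ad2) (.cons (nat_lit 0x688080c000) (nat_lit 0x3756) (.cons (nat_lit 0x6870c08000) (nat_lit 0x8a1) (.cons (nat_lit 0x6870a0c000) (nat_lit 0x1a14) (.cons (nat_lit 0x6870810000) (nat_lit 0x4d3) (.cons (nat_lit 0x6860c0c000) (nat_lit 0x33ec) (.nil))))))))))))))))))))))))))))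

noncomputable def nb_4_6_51 : NE := .cons (nat_lit 0x8860a00000) (nat_lit 0xe628022) (.cons (nat_lit 0x8070a00000) (nat_lit 0x9380050) (.cons (nat_lit 0x8060c00000) (nat_lit 0x198784a007c) (.cons (nat_lit 0x8060a04000) (nat_lit 0x2995) (.cons (nat_lit 0x7880a00000) (nat_lit 0xf249a87df2807c) (.cons (nat_lit 0x7870c00000) (nat_lit 0x1513134c000) (.cons (nat_lit 0x7870a04000) (nat_lit 0xcfbd335) (.cons (nat_lit 0x7860c04000) (nat_lit 0x1319) (.cons (nat_lit 0x7860a08000) (nat_lit 0x1c1a) (.cons (nat_lit 0x7090a00000) (nat_lit 0x14a81cce3ed) (.cons (nat_lit 0x7080c00000) (nat_lit 0x2b0bd2cb44c065) (.cons (nat_lit 0x7080a04000) (nat_lit 0x4a35704ecc) (.cons (nat_lit 0x7070c04000) (nat_lit 0x882f3c7) (.cons (nat_lit 0x7070a08000) (nat_lit 0x2e97) (.cons (nat_lit 0x7060c08000) (nat_lit 0x9fe7de0) (.cons (nat_lit 0x68a0a00000) (nat_lit 0x29a827c4f52) (.cons (nat_lit 0x6890c00000) (nat_lit 0x3055937587d) (.cons (nat_lit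 0x6890a04000) (nat_lit 0xc8d50d3) (.cons (nat_lit 0x6880c04000) (nat_lit 0xede8772785) (.cons (nat_lit 0x6880a08000) (nat_lit 0x9f7baef) (.cons (nat_lit 0x6870c08000) (nat_lit 0x110e) (.cons (nat_lit 0x6870a0c000) (nat_lit 0x3afd) (.cons (nat_lit 0x6860c0c000) (nat_lit 0x15a2) (.nil)))))))))))))))))))))))

noncomputable def nb_4_6_50 : NE := .cons (nat_lit 0x8870604000) (nat_lit 0x5144019) (.cons (nat_lit 0x8080604000) (nat_lit 0xa2bc008) (.cons (nat_lit 0x8070804000) (nat_lit 0x189f19f8009) (.cons (nat_lit 0x8070608000) (nat_lit 0xb0d) (.cons (nat_lit 0x7890604000) (nat_lit 0x13d7311046f) (.cons (nat_lit 0x7880804000) (nat_lit 0x1155e307653) (.cons (nat_lit 0x7880608000) (nat_lit 0x31a7c9) (.cons (nat_lit 0x7870a04000) (nat_lit 0xd407ba0) (.cons (nat_lit 0x7870808000) (nat_lit 0x7de8bec) (.cons (nat_lit 0x70a0604000) (nat_lit 0x521a8ec) (.cons (nat_lit 0x7090804000) (nat_lit 0x254fb982648) (.cons (nat_lit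 0x7090608000) (nat_lit 0x198d) (.cons (nat_lit 0x7080a04000) (nat_lit 0x792ef1e4b4) (.cons (nat_lit 0x7080808000) (nat_lit 0x182723b6f71) (.cons (nat_lit 0x7070c04000) (nat_lit 0xa7e4549) (.cons (nat_lit 0x7070a08000) (nat_lit 0x309a) (.cons (nat_lit 0x707080c000) (nat_lit 0x32ac) (.cons (nat_lit 0x68b0604000) (nat_lit 0x4877947) (.cons (nat_lit 0x68a0804000) (nat_lit 0x9e037c1191) (.cons (nat_lit 0x68a0608000) (nat_lit 0x64f) (.cons (nat_lit 0x6890a04000) (nat_lit 0x200f3b5) (.cons (nat_lit 0x6890808000) (nat_lit 0xf31fab1) (.cons (nat_lit 0x689060c000) (nat_lit 0x3e35) (.cons (nat_lit 0x6880c04000) (nat_lit 0x24786d0f817) (.cons (nat_lit 0x6880a08000) (nat_lit 0x3261f5a) (.cons (nat_lit 0x688080c000) (nat_lit 0x2e2e) (.cons (nat_lit 0x6870e04000) (nat_lit 0x1b96) (.cons (nat_lit 0x6870c08000) (nat_lit 0x146c) (.cons (nat_lit 0x6870a0c000) (nat_lit 0x1b82) (.nil)))))))))))))))))))))))))))))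

noncomputable def nb_4_6_49 : NE := .cons (nat_lit 0x8870800000) (nat_lit 0x4e00e80ec00000f000000) (.cons (nat_lit 0x8080800000) (nat_lit 0x849e5503d9540070001ac0170000020) (.cons (nat_lit 0x8070a00000) (nat_lit 0xd809c00061) (.cons (nat_lit 0x8070804000) (nat_lit 0x20a4623746a01300) (.cons (nat_lit 0x7890800000) (nat_lit 0x1802d3e01a4f80e800000) (.cons (nat_lit 0x7880a00000) (nat_lit 0x69b9c52819e3002800014) (.cons (nat_lit 0x7880804000) (nat_lit 0x2848652b23cf5d30) (.cons (nat_lit 0x7870c00000) (nat_lit 0x501c04300e60004c) (.cons (nat_lit 0x7870a04000) (nat_lit 0x3a8f160077a) (.cons (nat_lit 0x7870808000) (nat_lit 0x2ce5e85467) (.cons (nat_lit 0x70a0800000) (nat_lit 0x2be120032f9fcff0c7ca00041) (.cons (nat_lit 0x7090a00000) (nat_lit 0x7007c2a77358cd7) (.cons (nat_lit 0x7090804000) (nat_lit 0x179310d65047305a) (.cons (nat_lit 0x7080c00000) (nat_lit 0x89da9be01e553c6600059) (.cons (nat_lit 0x7080a04000) (nat_lit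 0x60c5496cc1ef49f3) (.cons (nat_lit 0x7080808000) (nat_lit 0x2bb1e70172f4f1b8) (.cons (nat_lit 0x7070c04000) (nat_lit 0x288dd87b0a) (.cons (nat_lit 0x7070a08000) (nat_lit 0xa521b) (.cons (nat_lit 0x707080c000) (nat_lit 0x9226) (.cons (nat_lit 0x68b0800000) (nat_lit 0x2900257c005) (.cons (nat_lit 0x68a0a00000) (nat_lit 0x897212410ea005a) (.cons (nat_lit 0x68a0804000) (nat_lit 0x51f7d6878278f3e2) (.cons (nat_lit 0x6890c00000) (nat_lit 0x2b052bc3d4ae406a) (.cons (nat_lit 0x6890a04000) (nat_lit 0x71482d147b) (.cons (nat_lit 0x6890808000) (nat_lit 0x2b3f1d9a17e) (.cons (nat_lit 0x6880e00000) (nat_lit 0x3ef1a66c067) (.cons (nat_lit 0x6880c04000) (nat_lit 0x205223f739b841c7) (.cons (nat_lit 0x6880a08000) (nat_lit 0x121534edb44) (.cons (nat_lit 0x688080c000) (nat_lit 0xba7ac) (.cons (nat_lit 0x6870e04000) (nat_lit 0x1c4f01) (.cons (nat_lit 0x6870c08000) (nat_lit 0x8cea4) (.cons (nat_lit 0x6870a0c000) (nat_lit 0x176f43)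 (.cons (nat_lit 0x6870810000) (nat_lit 0xea2ea) (.nil)))))))))))))))))))))))))))))))))

noncomputable def nb_4_6_48 : NE := .cons (nat_lit 0x8880404000) (nat_lit 0x110301d0000) (.cons (nat_lit 0x8090404000) (nat_lit 0x55c4021) (.cons (nat_lit 0x8080604000) (nat_lit 0xad4079) (.cons (nat_lit 0x8080408000) (nat_lit 0xe504e70) (.cons (nat_lit 0x78a0404000) (nat_lit 0xc30e01a) (.cons (nat_lit 0x7890604000) (nat_lit 0x208daa14f99) (.cons (nat_lit 0x7890408000) (nat_lit 0x2bd7) (.cons (nat_lit 0x7880804000) (nat_lit 0xe916f5244f) (.cons (nat_lit 0x7880608000) (nat_lit 0xf7aab6e) (.cons (nat_lit 0x70b0404000) (nat_lit 0x8f5814b) (.cons (nat_lit 0x70a0604000) (nat_lit 0x8d9bbdc) (.cons (nat_lit 0x70a0408000) (nat_lit 0x8bb03b9) (.cons (nat_lit 0x7090804000) (nat_lit 0x411e29c4b5) (.cons (nat_lit 0x7090608000) (nat_lit 0x389e) (.cons (nat_lit 0x7080a04000) (nat_lit 0x51c1f527e2) (.cons (nat_lit 0x7080808000) (nat_lit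 0x565f75ed07) (.cons (nat_lit 0x68c0404000) (nat_lit 0x32df) (.cons (nat_lit 0x68b0604000) (nat_lit 0x2b7b01c) (.cons (nat_lit 0x68a0804000) (nat_lit 0x4f7d310a43) (.cons (nat_lit 0x68a0608000) (nat_lit 0x1115) (.cons (nat_lit 0x6890a04000) (nat_lit 0x36e4ef3) (.cons (nat_lit 0x6890808000) (nat_lit 0xd8bda1b) (.cons (nat_lit 0x6880c04000) (nat_lit 0x19959ed4e72) (.cons (nat_lit 0x6880a08000) (nat_lit 0x43f3b51) (.nil))))))))))))))))))))))))

noncomputable def nb_4_6_47 : NE := .cons (nat_lit 0x8880600000) (nat_lit 0xb20020042000008800000) (.cons (nat_lit 0x8090600000) (nat_lit 0xd7951be001c029000002e) (.cons (nat_lit 0x8080800000) (nat_lit 0x2c8636154176002a0001b00550000034) (.cons (nat_lit 0x8080604000) (nat_lit 0x2c2fc800580) (.cons (nat_lit 0x78a0600000) (nat_lit 0x2aba4601f59d00ec00039) (.cons (nat_lit 0x7890800000) (nat_lit 0x600bbe0ef59d000e00037) (.cons (nat_lit 0x7890604000) (nat_lit 0x4bac4b3eae5fa261)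 (.cons (nat_lit 0x7880a00000) (nat_lit 0x76363a98432880bc00059) (.cons (nat_lit 0x7880804000) (nat_lit 0x642a5f3c8a360a64) (.cons (nat_lit 0x7880608000) (nat_lit 0x2c65de749ec) (.cons (nat_lit 0x70b0600000) (nat_lit 0x3800d872db0) (.cons (nat_lit 0x70a0800000) (nat_lit 0x14ec33f390b1151f663bbe00035) (.cons (nat_lit 0x70a0604000) (nat_lit 0x238626e876b) (.cons (nat_lit 0x7090a00000) (nat_lit 0x11255e53be4ca8a7) (.cons (nat_lit 0x7090804000) (nat_lit 0x169a500ca5831342) (.cons (nat_lit 0x7090608000) (nat_lit 0x686db) (.cons (nat_lit 0x7080c00000) (nat_lit 0xa9d79301a25b096c0000c) (.cons (nat_lit 0x7080a04000) (nat_lit 0x52007c86c1c49148) (.cons (nat_lit 0x7080808000) (nat_lit 0x7ce097d216fb6efc) (.cons (nat_lit 0x68c0600000) (nat_lit 0x3f698b021ec) (.cons (nat_lit 0x68b0800000) (nat_lit 0x32f711240c5) (.cons (nat_lit 0x68b0604000) (nat_lit 0x12ae12bcd4c) (.cons (nat_lit 0x68a0a00000) (nat_lit 0x5152b56f3c0b3dfc)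 (.cons (nat_lit 0x68a0804000) (nat_lit 0x4651117394b529a4) (.cons (nat_lit 0x68a0608000) (nat_lit 0x4014e) (.cons (nat_lit 0x6890c00000) (nat_lit 0x1ca71c5f240a5f37) (.cons (nat_lit 0x6890a04000) (nat_lit 0x19d52a2255d) (.cons (nat_lit 0x6890808000) (nat_lit 0x20d95ba12d0) (.cons (nat_lit 0x689060c000) (nat_lit 0xc5d6) (.cons (nat_lit 0x6880e00000) (nat_lit 0x12e79cd17a) (.cons (nat_lit 0x6880c04000) (nat_lit 0x5e4bd532bb3f7a56) (.cons (nat_lit 0x6880a08000) (nat_lit 0x93fc7bd785) (.cons (nat_lit 0x688080c000) (nat_lit 0xcde86) (.nil)))))))))))))))))))))))))))))))))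

noncomputable def nb_4_6_46 : NE := .cons (nat_lit 0x8890204000) (nat_lit 0x4e) (.cons (nat_lit 0x80a0204000) (nat_lit 0x30) (.cons (nat_lit 0x8090404000) (nat_lit 0x977) (.cons (nat_lit 0x78b0204000) (nat_lit 0x71) (.cons (nat_lit 0x78a0404000) (nat_lit 0x2d88) (.cons (nat_lit 0x7890604000) (nat_lit 0x896d3) (.cons (nat_lit 0x70b0404000) (nat_lit 0x22f4) (.cons (nat_lit 0x70a0604000) (nat_lit 0x21ee) (.cons (nat_lit 0x7090804000) (nat_lit 0x1305ba) (.cons (nat_lit 0x68d0204000) (nat_lit 0x76) (.cons (nat_lit 0x68c0404000) (nat_lit 0x33) (.cons (nat_lit 0x68b0604000) (nat_lit 0x38f6) (.cons (nat_lit 0x68a0804000) (nat_lit 0x1783c6) (.cons (nat_lit 0x6890a04000) (nat_lit 0x762) (.nil))))))))))))))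

noncomputable def nb_4_6_45 : NE := .cons (nat_lit 0x8890400000) (nat_lit 0x14000240000000) (.cons (nat_lit 0x80a0400000) (nat_lit 0x198001900333400077) (.cons (nat_lit 0x8090600000) (nat_lit 0x1e59a727800059) (.cons (nat_lit 0x8090404000) (nat_lit 0xbc27100) (.cons (nat_lit 0x78b0400000) (nat_lit 0x23f0a1a8052) (.cons (nat_lit 0x78a0600000) (nat_lit 0x6beb9bae530036) (.cons (nat_lit 0x78a0404000) (nat_lit 0x9d6821b) (.cons (nat_lit 0x7890800000) (nat_lit 0x947d16c7714027) (.cons (nat_lit 0x7890604000) (nat_lit 0x3db403e6a05) (.cons (nat_lit 0x7890408000) (nat_lit 0x2b8a) (.cons (nat_lit 0x70c0400000) (nat_lit 0x29b8990c06e) (.cons (nat_lit 0x70b0600000) (nat_lit 0x218c527) (.cons (nat_lit 0x70b0404000) (nat_lit 0x6626a6) (.cons (nat_lit 0x70a0800000) (nat_lit 0x3f7e27b4bbaab3c017) (.cons (nat_lit 0x70a0604000) (nat_lit 0x85da8eb) (.cons (nat_lit 0x70a0408000) (nat_lit 0x9579822) (.cons (nat_lit 0x7090a00000)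 (nat_lit 0xb4c7088d59) (.cons (nat_lit 0x7090804000) (nat_lit 0x251610e15df) (.cons (nat_lit 0x7090608000) (nat_lit 0x14b2) (.cons (nat_lit 0x68c0600000) (nat_lit 0x2c006da) (.cons (nat_lit 0x68c0404000) (nat_lit 0x2133) (.cons (nat_lit 0x68b0800000) (nat_lit 0x1723297) (.cons (nat_lit 0x68b0604000) (nat_lit 0xdd94bba) (.cons (nat_lit 0x68a0a00000) (nat_lit 0x316dda861be) (.cons (nat_lit 0x68a0804000) (nat_lit 0x10221c4f61e) (.cons (nat_lit 0x68a0608000) (nat_lit 0x21c1) (.cons (nat_lit 0x6890c00000) (nat_lit 0x113d6cc8f48) (.cons (nat_lit 0x6890a04000) (nat_lit 0x9562d39) (.cons (nat_lit 0x6890808000) (nat_lit 0x87bc983) (.nil)))))))))))))))))))))))))))))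

noncomputable def nb_4_6_44 : NE := .cons (nat_lit 0x88a0200000) (nat_lit 0x2f0000ec000) (.cons (nat_lit 0x80b0200000) (nat_lit 0x7000064) (.cons (nat_lit 0x80a0400000) (nat_lit 0x1480d01402fc400030) (.cons (nat_lit 0x80a0204000) (nat_lit 0x3380) (.cons (nat_lit 0x78c0200000) (nat_lit 0x2e3c00e) (.cons (nat_lit 0x78b0400000) (nat_lit 0x32003d34026) (.cons (nat_lit 0x78b0204000) (nat_lit 0x31f4) (.cons (nat_lit 0x78a0600000) (nat_lit 0x975a2004a5402d) (.cons (nat_lit 0x78a0404000) (nat_lit 0x9e0e980) (.cons (nat_lit 0x70d0200000) (nat_lit 0x3bd9) (.cons (nat_lit 0x70c0400000) (nat_lit 0xff957bc04f) (.cons (nat_lit 0x70b0600000) (nat_lit 0x422eaa3) (.cons (nat_lit 0x70b0404000) (nat_lit 0x4705eec) (.cons (nat_lit 0x70a0800000) (nat_lit 0x2f432de3dd803d8032) (.cons (nat_lit 0x70a0604000) (nat_lit 0xd5165ba) (.cons (nat_lit 0x68d0204000) (nat_lit 0x37eb) (.cons (nat_lit 0x68c0600000) (nat_lit 0xe6f2867) (.cons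 (nat_lit 0x68c0404000) (nat_lit 0xa96) (.cons (nat_lit 0x68b0800000) (nat_lit 0xe24c892) (.cons (nat_lit 0x68b0604000) (nat_lit 0x5312cb5) (.cons (nat_lit 0x68a0a00000) (nat_lit 0x33eabf74598) (.cons (nat_lit 0x68a0804000) (nat_lit 0x128045e03e1) (.nil))))))))))))))))))))))

noncomputable def nb_4_6_43 : NE := .cons (nat_lit 0x9040808000) (nat_lit 0x14) (.cons (nat_lit 0x8850808000) (nat_lit 0x62) (.cons (nat_lit 0x8060808000) (nat_lit 0x33e0) (.cons (nat_lit 0x8040810000) (nat_lit 0x1d) (.cons (nat_lit 0x7870808000) (nat_lit 0x3131) (.cons (nat_lit 0x786080c000) (nat_lit 0x68) (.cons (nat_lit 0x7080808000) (nat_lit 0x551ea) (.cons (nat_lit 0x707080c000) (nat_lit 0x10) (.cons (nat_lit 0x7060810000) (nat_lit 0x57) (.nil)))))))))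

noncomputable def nb_4_6_42 : NE := .cons (nat_lit 0x9050804000) (nat_lit 0x2d) (.cons (nat_lit 0x8860804000) (nat_lit 0x1e03) (.cons (nat_lit 0x8850808000) (nat_lit 0x2f) (.cons (nat_lit 0x8070804000) (nat_lit 0x1b06a1) (.cons (nat_lit 0x8060a04000) (nat_lit 0x74) (.cons (nat_lit 0x8060808000) (nat_lit 0x2b1) (.cons (nat_lit 0x7880804000) (nat_lit 0x1a7342) (.cons (nat_lit 0x7870a04000) (nat_lit 0x3a7e) (.cons (nat_lit 0x7870808000) (nat_lit 0x36b2) (.cons (nat_lit 0x7860a08000) (nat_lit 0x6c) (.cons (nat_lit 0x786080c000) (nat_lit 0x17) (.cons (nat_lit 0x7090804000) (nat_lit 0x1bb64f) (.cons (nat_lit 0x7080a04000) (nat_lit 0x97f61) (.cons (nat_lit 0x7080808000) (nat_lit 0x1de543) (.cons (nat_lit 0x7070a08000) (nat_lit 0x7a) (.cons (nat_lit 0x707080c000) (nat_lit 0x61) (.cons (nat_lit 0x7060810000) (nat_lit 0x6b) (.nil)))))))))))))))))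

noncomputable def nb_4_6_41 : NE := .cons (nat_lit 0x9060408000) (nat_lit 0x954c00c) (.cons (nat_lit 0x8870408000) (nat_lit 0x1b) (.cons (nat_lit 0x8860608000) (nat_lit 0x21f7) (.cons (nat_lit 0x8080408000) (nat_lit 0x71ce56b) (.cons (nat_lit 0x8070608000) (nat_lit 0x1fd6) (.cons (nat_lit 0x8060808000) (nat_lit 0x2112958) (.cons (nat_lit 0x7890408000) (nat_lit 0x2533) (.cons (nat_lit 0x7880608000) (nat_lit 0x6067e2f) (.cons (nat_lit 0x7870808000) (nat_lit 0x20ad76f) (.cons (nat_lit 0x7860a08000) (nat_lit 0x1c30) (.cons (nat_lit 0x70a0408000) (nat_lit 0x97b4036) (.cons (nat_lit 0x7090608000) (nat_lit 0x61c) (.cons (nat_lit 0x7080808000) (nat_lit 0x3700e71d4c0) (.cons (nat_lit 0x7070a08000) (nat_lit 0x1db5) (.cons (nat_lit 0x7060c08000) (nat_lit 0xa499564) (.nil)))))))))))))))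

noncomputable def nb_4_6_40 : NE := .cons (nat_lit 0x9060604000) (nat_lit 0x6a) (.cons (nat_lit 0x8870604000) (nat_lit 0x30da) (.cons (nat_lit 0x8860804000) (nat_lit 0xb38) (.cons (nat_lit 0x8860608000) (nat_lit 0x77) (.cons (nat_lit 0x8080604000) (nat_lit 0x3a92) (.cons (nat_lit 0x8070804000) (nat_lit 0x15ff0b) (.cons (nat_lit 0x8070608000) (nat_lit 0x5f) (.cons (nat_lit 0x8060a04000) (nat_lit 0x37) (.cons (nat_lit 0x8060808000) (nat_lit 0x3741) (.cons (nat_lit 0x7890604000) (nat_lit 0x17df2f) (.cons (nat_lit 0x7880804000) (nat_lit 0x164f6f) (.cons (nat_lit 0x7880608000) (nat_lit 0x902) (.cons (nat_lit 0x7870a04000) (nat_lit 0x2c74) (.cons (nat_lit 0x7870808000) (nat_lit 0x3c96) (.cons (nat_lit 0x7860c04000) (nat_lit 0x26) (.cons (nat_lit 0x7860a08000) (nat_lit 0x1c) (.cons (nat_lit 0x786080c000) (nat_lit 0xd) (.cons (nat_lit 0x70a0604000) (nat_lit 0x56) (.cons (nat_lit 0x7090804000) (nat_lit 0x1e392b) (.cons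 (nat_lit 0x7090608000) (nat_lit 0x40) (.cons (nat_lit 0x7080a04000) (nat_lit 0x74d23) (.cons (nat_lit 0x7080808000) (nat_lit 0xb09e3) (.cons (nat_lit 0x7070c04000) (nat_lit 0x6c7) (.cons (nat_lit 0x7070a08000) (nat_lit 0x6f) (.cons (nat_lit 0x707080c000) (nat_lit 0x14) (.cons (nat_lit 0x7060c08000) (nat_lit 0x3814) (.nil))))))))))))))))))))))))))

noncomputable def nb_4_6_39 : NE := .cons (nat_lit 0x9060800000) (nat_lit 0xb40262000c80610001aa2000005b) (.cons (nat_lit 0x8870800000) (nat_lit 0x19f400600760001ebf0000018) (.cons (nat_lit 0x8860a00000) (nat_lit 0xae0379800037ac) (.cons (nat_lit 0x8860804000) (nat_lit 0x9a3130e0044043) (.cons (nat_lit 0x8080800000) (nat_lit 0x35aeeea87263a73e0169d0003952001003c0003a44) (.cons (nat_lit 0x8070a00000) (nat_lit 0x8c007d100020e0) (.cons (nat_lit 0x8070804000) (nat_lit 0x4c24d1064679d007406b) (.cons (nat_lit 0x8060c00000) (nat_lit 0x51112fe8200b7e000067a) (.cons (nat_lit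 0x8060a04000) (nat_lit 0xacd9fd1) (.cons (nat_lit 0x8060808000) (nat_lit 0x2a0e7a80b557ed) (.cons (nat_lit 0x7890800000) (nat_lit 0x86001113e0062796010e70000983) (.cons (nat_lit 0x7880a00000) (nat_lit 0x505b9364f644c77a02e210001345) (.cons (nat_lit 0x7880804000) (nat_lit 0x3d8b1339ede7db1cb4f7d) (.cons (nat_lit 0x7870c00000) (nat_lit 0xfc51b003002658000122b) (.cons (nat_lit 0x7870a04000) (nat_lit 0xcf6d26b7126b92) (.cons (nat_lit 0x7870808000) (nat_lit 0x33515d4352ee72) (.cons (nat_lit 0x7860c04000) (nat_lit 0x38a7306) (.cons (nat_lit 0x7860a08000) (nat_lit 0xc1d603d) (.cons (nat_lit 0x786080c000) (nat_lit 0x3634cee) (.cons (nat_lit 0x70a0800000) (nat_lit 0xa77844b800091200c1fc100557380001b82) (.cons (nat_lit 0x7090a00000) (nat_lit 0x320238b0899397df807fb) (.cons (nat_lit 0x7090804000) (nat_lit 0x7fbdb5634e0564a6791b2) (.cons (nat_lit 0x7080c00000) (nat_lit 0xf3d5f9092020d815224f000006b2) (.cons (nat_lit 0x7080a04000)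 (nat_lit 0x44ba255f816355f94631) (.cons (nat_lit 0x7080808000) (nat_lit 0xd203838db73c5ca8021a4) (.cons (nat_lit 0x7070c04000) (nat_lit 0xa90761e72ef539) (.cons (nat_lit 0x7070a08000) (nat_lit 0x593117e) (.cons (nat_lit 0x707080c000) (nat_lit 0x5a5878c) (.cons (nat_lit 0x7060c08000) (nat_lit 0x2b863c6aee7458) (.cons (nat_lit 0x7060810000) (nat_lit 0x6873db) (.nil))))))))))))))))))))))))))))))

noncomputable def nb_4_6_38 : NE := .cons (nat_lit 0x9070404000) (nat_lit 0xfc0002c) (.cons (nat_lit 0x8880404000) (nat_lit 0x2696e40006d) (.cons (nat_lit 0x8870604000) (nat_lit 0xf137480) (.cons (nat_lit 0x8870408000) (nat_lit 0x7a) (.cons (nat_lit 0x8090404000) (nat_lit 0x9a3d700) (.cons (nat_lit 0x8080604000) (nat_lit 0x27e1100) (.cons (nat_lit 0x8080408000) (nat_lit 0xabdb0ed) (.cons (nat_lit 0x8070804000) (nat_lit 0x1b7e7cc5380) (.cons (nat_lit 0x8070608000) (nat_lit 0x24f9) (.cons (nat_lit 0x78a0404000) (nat_lit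 0x2fef7e7) (.cons (nat_lit 0x7890604000) (nat_lit 0x1884af4fdc6) (.cons (nat_lit 0x7890408000) (nat_lit 0x22fc) (.cons (nat_lit 0x7880804000) (nat_lit 0x39771f24385) (.cons (nat_lit 0x7880608000) (nat_lit 0x7d09971) (.cons (nat_lit 0x7870a04000) (nat_lit 0x3509adb) (.cons (nat_lit 0x7870808000) (nat_lit 0x2e4608e) (.cons (nat_lit 0x70b0404000) (nat_lit 0x3faf70f) (.cons (nat_lit 0x70a0604000) (nat_lit 0x84fc740) (.cons (nat_lit 0x70a0408000) (nat_lit 0xcbc3ed1) (.cons (nat_lit 0x7090804000) (nat_lit 0x1454ba91894) (.cons (nat_lit 0x7090608000) (nat_lit 0x47a) (.cons (nat_lit 0x7080a04000) (nat_lit 0x2d52bf29597) (.cons (nat_lit 0x7080808000) (nat_lit 0x1ee1fac089c) (.cons (nat_lit 0x7070c04000) (nat_lit 0x3e10bd9) (.cons (nat_lit 0x7070a08000) (nat_lit 0x135f) (.nil)))))))))))))))))))))))))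

noncomputable def nb_4_6_37 : NE := .cons (nat_lit 0x9070600000) (nat_lit 0x1ae400b0000) (.cons (nat_lit 0x8880600000) (nat_lit 0x7cab5e700b0031) (.cons (nat_lit 0x8870800000) (nat_lit 0xae99f84004c071) (.cons (nat_lit 0x8870604000) (nat_lit 0x586f51a) (.cons (nat_lit 0x8090600000) (nat_lit 0x437b978e030013) (.cons (nat_lit 0x8080800000) (nat_lit 0xe4a0220416802517c0074) (.cons (nat_lit 0x8080604000) (nat_lit 0x7ce9b82) (.cons (nat_lit 0x8070a00000) (nat_lit 0x41cc073) (.cons (nat_lit 0x8070804000) (nat_lit 0x1206a966b82) (.cons (nat_lit 0x8070608000) (nat_lit 0xbaa) (.cons (nat_lit 0x78a0600000) (nat_lit 0xf5f11ec457000f) (.cons (nat_lit 0x7890800000) (nat_lit 0xb73ca47ce80009) (.cons (nat_lit 0x7890604000) (nat_lit 0x202354a330e) (.cons (nat_lit 0x7880a00000) (nat_lit 0xb512015cd34079) (.cons (nat_lit 0x7880804000) (nat_lit 0x3ea874b4c5d) (.cons (nat_lit 0x7880608000) (nat_lit 0x7a7125b) (.cons (nat_lit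 0x7870c00000) (nat_lit 0x28a5a780045) (.cons (nat_lit 0x7870a04000) (nat_lit 0x2364c9) (.cons (nat_lit 0x7870808000) (nat_lit 0xc7f93e6) (.cons (nat_lit 0x70b0600000) (nat_lit 0x48f2ddc) (.cons (nat_lit 0x70a0800000) (nat_lit 0x147826675b4475c00b) (.cons (nat_lit 0x70a0604000) (nat_lit 0x737f90b) (.cons (nat_lit 0x7090a00000) (nat_lit 0x286a9b5be8c) (.cons (nat_lit 0x7090804000) (nat_lit 0x3531da695f9) (.cons (nat_lit 0x7090608000) (nat_lit 0x21f6) (.cons (nat_lit 0x7080c00000) (nat_lit 0xa9262ac5f0003c) (.cons (nat_lit 0x7080a04000) (nat_lit 0x1891d581ac3) (.cons (nat_lit 0x7080808000) (nat_lit 0x3df2f70b6d6) (.cons (nat_lit 0x7070c04000) (nat_lit 0xd53a094) (.cons (nat_lit 0x7070a08000) (nat_lit 0xd2a) (.cons (nat_lit 0x707080c000) (nat_lit 0x395c) (.nil)))))))))))))))))))))))))))))))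

noncomputable def nb_4_6_36 : NE := .cons (nat_lit 0x9080400000) (nat_lit 0xa20003300fc0680002780000003b0000000) (.cons (nat_lit 0x8890400000) (nat_lit 0x8e0004d006c0030001b00000000d) (.cons (nat_lit 0x8880600000) (nat_lit 0x850ccdf140003d009004d000001a) (.cons (nat_lit 0x8880404000) (nat_lit 0x6c790c86e000480002f00) (.cons (nat_lit 0x80a0400000) (nat_lit 0xb8190bfbfc1eac01c40453e00010002803a) (.cons (nat_lit 0x8090600000) (nat_lit 0x2166f33ece9280a800018005c04b) (.cons (nat_lit 0x8090404000) (nat_lit 0x7d8f5b09c00047) (.cons (nat_lit 0x8080800000) (nat_lit 0x575a7729dd37dfcb7fc9d001006bee0000d0058042) (.cons (nat_lit 0x8080604000) (nat_lit 0xb8775ab8a0006e) (.cons (nat_lit 0x8080408000) (nat_lit 0x5859af5c3615bd) (.cons (nat_lit 0x78b0400000) (nat_lit 0xab51d6f7842e2001f4077) (.cons (nat_lit 0x78a0600000) (nat_lit 0x6d203c234c3bd0fa7359c00f004c) (.cons (nat_lit 0x78a0404000) (nat_lit 0x759e1a91ab214d) (.cons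 (nat_lit 0x7890800000) (nat_lit 0xb4d4f6a605a46669346560098036) (.cons (nat_lit 0x7890604000) (nat_lit 0x2ca058d7d1ae75ada68ad) (.cons (nat_lit 0x7890408000) (nat_lit 0xdf31c02) (.cons (nat_lit 0x7880a00000) (nat_lit 0xd17aa3540d7c5fdfd2f3000c4061) (.cons (nat_lit 0x7880804000) (nat_lit 0xe413a1561cc3f2c82fa69) (.cons (nat_lit 0x7880608000) (nat_lit 0x34ac8117f1363b) (.cons (nat_lit 0x70c0400000) (nat_lit 0xa9d7a56a0749ed00c4045) (.cons (nat_lit 0x70b0600000) (nat_lit 0x46d70d4601dc16) (.cons (nat_lit 0x70b0404000) (nat_lit 0xe24d2002686e88) (.cons (nat_lit 0x70a0800000) (nat_lit 0xe72578f650f3404ae81610021eed0078000) (.cons (nat_lit 0x70a0604000) (nat_lit 0xdb4e16e5176253) (.cons (nat_lit 0x70a0408000) (nat_lit 0xb6471c21b63277) (.cons (nat_lit 0x7090a00000) (nat_lit 0x2e892d7e3f842d352b154) (.cons (nat_lit 0x7090804000) (nat_lit 0x884b13d2cf617df0ee6ed) (.cons (nat_lit 0x7090608000) (nat_lit 0x9583c77) (.cons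 (nat_lit 0x7080c00000) (nat_lit 0xb08320dca461adf2d89a501c403f) (.cons (nat_lit 0x7080a04000) (nat_lit 0xe3813d0b1a534ac65e180) (.cons (nat_lit 0x7080808000) (nat_lit 0xce9439698b62904316225) (.nil)))))))))))))))))))))))))))))))

noncomputable def nb_4_6_35 : NE := .cons (nat_lit 0x9090200000) (nat_lit 0x23b7015c000) (.cons (nat_lit 0x88a0200000) (nat_lit 0x2cec0164028) (.cons (nat_lit 0x8890400000) (nat_lit 0xa99c06b000005e) (.cons (nat_lit 0x8890204000) (nat_lit 0x3235) (.cons (nat_lit 0x80b0200000) (nat_lit 0x8f64063) (.cons (nat_lit 0x80a0400000) (nat_lit 0x3ae638b001d225c012) (.cons (nat_lit 0x80a0204000) (nat_lit 0x10dd) (.cons (nat_lit 0x8090600000) (nat_lit 0xdc9d6a38cf0060) (.cons (nat_lit 0x8090404000) (nat_lit 0xba543ba) (.cons (nat_lit 0x78c0200000) (nat_lit 0xa6d4068) (.cons (nat_lit 0x78b0400000) (nat_lit 0x1965f5e402d) (.cons (nat_lit 0x78b0204000) (nat_lit 0x2293) (.cons (nat_lit 0x78a0600000)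 (nat_lit 0x1119b88e7a0030) (.cons (nat_lit 0x78a0404000) (nat_lit 0x3b020f6) (.cons (nat_lit 0x7890800000) (nat_lit 0xec6510e7768031) (.cons (nat_lit 0x7890604000) (nat_lit 0x4f2325d0e8) (.cons (nat_lit 0x70d0200000) (nat_lit 0x2b5c) (.cons (nat_lit 0x70c0400000) (nat_lit 0x31e6cb74049) (.cons (nat_lit 0x70b0600000) (nat_lit 0xe116531) (.cons (nat_lit 0x70b0404000) (nat_lit 0xe29aa2d) (.cons (nat_lit 0x70a0800000) (nat_lit 0x7b19addcebed1c058) (.cons (nat_lit 0x70a0604000) (nat_lit 0xb86606f) (.cons (nat_lit 0x7090a00000) (nat_lit 0x1558678c0c1) (.cons (nat_lit 0x7090804000) (nat_lit 0x241265f3c84) (.nil))))))))))))))))))))))))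

noncomputable def nb_4_6_34 : NE := .cons (nat_lit 0x90a0000000) (nat_lit 0x202b011c000) (.cons (nat_lit 0x88b0000000) (nat_lit 0x26) (.cons (nat_lit 0x88a0200000) (nat_lit 0x5b1358012) (.cons (nat_lit 0x80c0000000) (nat_lit 0x34c9c569d28) (.cons (nat_lit 0x80b0200000) (nat_lit 0x997d7) (.cons (nat_lit 0x80a0400000) (nat_lit 0x749dccb14000fc30) (.cons (nat_lit 0x78c0200000) (nat_lit 0x577a537) (.cons (nat_lit 0x78b0400000) (nat_lit 0x3fb3fb22c) (.cons (nat_lit 0x78a0600000) (nat_lit 0x389c0354bc1599) (.cons (nat_lit 0x70e0000000) (nat_lit 0x39e4) (.cons (nat_lit 0x70d0200000) (nat_lit 0x251b) (.cons (nat_lit 0x70c0400000) (nat_lit 0x2a169ab4706) (.cons (nat_lit 0x70b0600000) (nat_lit 0x18c1c34) (.cons (nat_lit 0x70a0800000) (nat_lit 0x3d00c2ec9cb1460e22) (.nil))))))))))))))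

noncomputable def nb_4_6_33 : NE := .cons (nat_lit 0x9840804000) (nat_lit 0x17) (.cons (nat_lit 0x9050804000) (nat_lit 0x56) (.cons (nat_lit 0x9040808000) (nat_lit 0x67) (.cons (nat_lit 0x8860804000) (nat_lit 0x36fe) (.cons (nat_lit 0x8850808000) (nat_lit 0x64) (.cons (nat_lit 0x8070804000) (nat_lit 0x19e78d) (.cons (nat_lit 0x8060808000) (nat_lit 0x3dc7) (.cons (nat_lit 0x8040810000) (nat_lit 0x2f) (.cons (nat_lit 0x7880804000) (nat_lit 0x110f21) (.cons (nat_lit 0x7870808000) (nat_lit 0x3cd8) (.cons (nat_lit 0x786080c000) (nat_lit 0x53) (.nil)))))))))))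

noncomputable def nb_4_6_32 : NE := .cons (nat_lit 0x9850408000) (nat_lit 0x44) (.cons (nat_lit 0x9060408000) (nat_lit 0x163d) (.cons (nat_lit 0x8870408000) (nat_lit 0x24) (.cons (nat_lit 0x8860608000) (nat_lit 5) (.cons (nat_lit 0x8850808000) (nat_lit 0x58) (.cons (nat_lit 0x8080408000) (nat_lit 0x29bd) (.cons (nat_lit 0x8070608000) (nat_lit 0x59) (.cons (nat_lit 0x8060808000) (nat_lit 0x1837) (.cons (nat_lit 0x7890408000) (nat_lit 0x22) (.cons (nat_lit 0x7880608000) (nat_lit 0x3755) (.cons (nat_lit 0x7870808000) (nat_lit 0x1b14) (.cons (nat_lit 0x7860a08000) (nat_lit 0x61) (.nil))))))))))))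

noncomputable def nb_4_6_31 : NE := .cons (nat_lit 0x9850604000) (nat_lit 0x5d) (.cons (nat_lit 0x9060604000) (nat_lit 0x5a) (.cons (nat_lit 0x9050804000) (nat_lit 0x67) (.cons (nat_lit 0x8870604000) (nat_lit 0x4b5) (.cons (nat_lit 0x8860804000) (nat_lit 0x3444) (.cons (nat_lit 0x8860608000) (nat_lit 0x6a) (.cons (nat_lit 0x8850808000) (nat_lit 0x5a) (.cons (nat_lit 0x8080604000) (nat_lit 0x25d0) (.cons (nat_lit 0x8070804000) (nat_lit 0x136b81) (.cons (nat_lit 0x8070608000) (nat_lit 0x31) (.cons (nat_lit 0x8060a04000) (nat_lit 0x5c) (.cons (nat_lit 0x8060808000) (nat_lit 0x26b2) (.cons (nat_lit 0x7890604000) (nat_lit 0xfd323) (.cons (nat_lit 0x7880804000) (nat_lit 0xaa0fa) (.cons (nat_lit 0x7880608000) (nat_lit 0x1793) (.cons (nat_lit 0x7870a04000) (nat_lit 0x22fd) (.cons (nat_lit 0x7870808000) (nat_lit 0x2cd0) (.cons (nat_lit 0x7860a08000) (nat_lit 4) (.cons (nat_lit 0x786080c000) (nat_lit 0x67) (.nil)))))))))))))))))))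

noncomputable def nb_4_6_30 : NE := .cons (nat_lit 0x9850800000) (nat_lit 0x1e) (.cons (nat_lit 0x9060800000) (nat_lit 0x9f1a98d) (.cons (nat_lit 0x9050804000) (nat_lit 0x44) (.cons (nat_lit 0x8870800000) (nat_lit 0x275c3af) (.cons (nat_lit 0x8860a00000) (nat_lit 0x384f) (.cons (nat_lit 0x8860804000) (nat_lit 0x25a7) (.cons (nat_lit 0x8850808000) (nat_lit 0x3d) (.cons (nat_lit 0x8080800000) (nat_lit 0x12a13404000) (.cons (nat_lit 0x8070a00000) (nat_lit 0x1bd1) (.cons (nat_lit 0x8070804000) (nat_lit 0xd5a79) (.cons (nat_lit 0x8060a04000) (nat_lit 0x4b) (.cons (nat_lit 0x8060808000) (nat_lit 0x1602) (.cons (nat_lit 0x7890800000) (nat_lit 0xba634da) (.cons (nat_lit 0x7880a00000) (nat_lit 0x1fa798b) (.cons (nat_lit 0x7880804000) (nat_lit 0x102249) (.cons (nat_lit 0x7870a04000) (nat_lit 0x350a) (.cons (nat_lit 0x7870808000) (nat_lit 0x28f) (.cons (nat_lit 0x7860a08000) (nat_lit 0x64) (.cons (nat_lit 0x786080c000)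 (nat_lit 0) (.nil)))))))))))))))))))

noncomputable def nb_4_6_29 : NE := .cons (nat_lit 0x9860404000) (nat_lit 0x22) (.cons (nat_lit 0x9070404000) (nat_lit 0x181e) (.cons (nat_lit 0x9060604000) (nat_lit 0x2b) (.cons (nat_lit 0x9060408000) (nat_lit 0x355b) (.cons (nat_lit 0x8880404000) (nat_lit 0x4076d) (.cons (nat_lit 0x8870604000) (nat_lit 0x20e8) (.cons (nat_lit 0x8870408000) (nat_lit 0x17) (.cons (nat_lit 0x8860804000) (nat_lit 0xdef) (.cons (nat_lit 0x8860608000) (nat_lit 0x4c) (.cons (nat_lit 0x8090404000) (nat_lit 0x39ee) (.cons (nat_lit 0x8080604000) (nat_lit 0x10c3) (.cons (nat_lit 0x8080408000) (nat_lit 0x1630) (.cons (nat_lit 0x8070804000) (nat_lit 0xecb82) (.cons (nat_lit 0x8070608000) (nat_lit 7) (.cons (nat_lit 0x8060a04000) (nat_lit 0x5e) (.cons (nat_lit 0x8060808000) (nat_lit 0x3e55) (.cons (nat_lit 0x78a0404000) (nat_lit 0x186e) (.cons (nat_lit 0x7890604000) (nat_lit 0x77c05) (.cons (nat_lit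 0x7890408000) (nat_lit 0x2c) (.cons (nat_lit 0x7880804000) (nat_lit 0x103ece) (.cons (nat_lit 0x7880608000) (nat_lit 0x2966) (.cons (nat_lit 0x7870a04000) (nat_lit 0xa1b) (.cons (nat_lit 0x7870808000) (nat_lit 0xf49) (.cons (nat_lit 0x7860c04000) (nat_lit 0) (.cons (nat_lit 0x7860a08000) (nat_lit 0x46) (.nil)))))))))))))))))))))))))

noncomputable def nb_4_6_28 : NE := .cons (nat_lit 0x9860600000) (nat_lit 0x742c2004a0400039) (.cons (nat_lit 0x9070600000) (nat_lit 0x28558030fc0006b) (.cons (nat_lit 0x9060800000) (nat_lit 0xfb2af4570b0040200258b) (.cons (nat_lit 0x9060604000) (nat_lit 0x1e94a6) (.cons (nat_lit 0x8880600000) (nat_lit 0xb9df57e1bcc01cee01a9e) (.cons (nat_lit 0x8870800000) (nat_lit 0xbb3c64d54740292600d7d) (.cons (nat_lit 0x8870604000) (nat_lit 0x8056377c51) (.cons (nat_lit 0x8860a00000) (nat_lit 0x27001801778) (.cons (nat_lit 0x8860804000) (nat_lit 0x680b7f75a8) (.cons (nat_lit 0x8860608000)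 (nat_lit 0x18588a) (.cons (nat_lit 0x8090600000) (nat_lit 0xb7c5c7a65a714aba013ac) (.cons (nat_lit 0x8080800000) (nat_lit 0x18559f979fd020a900098841a2a00b50) (.cons (nat_lit 0x8080604000) (nat_lit 0x392e60eb0cf) (.cons (nat_lit 0x8070a00000) (nat_lit 0x1212c200fad) (.cons (nat_lit 0x8070804000) (nat_lit 0x72437f7f2f0fbcc1) (.cons (nat_lit 0x8070608000) (nat_lit 0xb587a) (.cons (nat_lit 0x8060c00000) (nat_lit 0x40b895c20b801c5a) (.cons (nat_lit 0x8060a04000) (nat_lit 0x4deae) (.cons (nat_lit 0x8060808000) (nat_lit 0xe73bf51799) (.cons (nat_lit 0x78a0600000) (nat_lit 0x644fe93037df668601ba4) (.cons (nat_lit 0x7890800000) (nat_lit 0x3be2644dc1fca4420249b) (.cons (nat_lit 0x7890604000) (nat_lit 0x67cd64a004cad219) (.cons (nat_lit 0x7880a00000) (nat_lit 0x694a735d93fb8f32006c7) (.cons (nat_lit 0x7880804000) (nat_lit 0x5104e4e1aecee9a1) (.cons (nat_lit 0x7880608000) (nat_lit 0x17c944f8bf0) (.cons (nat_lit 0x7870c00000)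 (nat_lit 0x7289a57228603d6f) (.cons (nat_lit 0x7870a04000) (nat_lit 0x2c872915262) (.cons (nat_lit 0x7870808000) (nat_lit 0x96eb4d9a33) (.cons (nat_lit 0x7860c04000) (nat_lit 0x15c3de) (.cons (nat_lit 0x7860a08000) (nat_lit 0xf27ad) (.cons (nat_lit 0x786080c000) (nat_lit 0x802f0) (.nil)))))))))))))))))))))))))))))))

noncomputable def nb_4_6_27 : NE := .cons (nat_lit 0x9870204000) (nat_lit 0x6c) (.cons (nat_lit 0x9070404000) (nat_lit 0x1c80) (.cons (nat_lit 0x8890204000) (nat_lit 0x27) (.cons (nat_lit 0x8880404000) (nat_lit 0xd7d80) (.cons (nat_lit 0x8870604000) (nat_lit 0x2740) (.cons (nat_lit 0x80a0204000) (nat_lit 0x1c) (.cons (nat_lit 0x8090404000) (nat_lit 0x15c1) (.cons (nat_lit 0x8080604000) (nat_lit 0x2241) (.cons (nat_lit 0x8070804000) (nat_lit 0x68808) (.cons (nat_lit 0x78b0204000) (nat_lit 0x16) (.cons (nat_lit 0x78a0404000) (nat_lit 0x29f0) (.cons (nat_lit 0x7890604000) (nat_lit 0xe3818) (.cons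 (nat_lit 0x7880804000) (nat_lit 0x105d3e) (.cons (nat_lit 0x7870a04000) (nat_lit 0xab6) (.nil))))))))))))))

noncomputable def nb_4_6_26 : NE := .cons (nat_lit 0x9870400000) (nat_lit 0x16000000b4c000e200000) (.cons (nat_lit 0x9080400000) (nat_lit 0x2b6e0063dbf00000792800013) (.cons (nat_lit 0x9070600000) (nat_lit 0x254c54052d60002d) (.cons (nat_lit 0x9070404000) (nat_lit 0x28a0d380000) (.cons (nat_lit 0x8890400000) (nat_lit 0xd5ce90064bd6800001016) (.cons (nat_lit 0x8880600000) (nat_lit 0xa5ac2526b1c05470013fc) (.cons (nat_lit 0x8880404000) (nat_lit 0x78d645692ef98000) (.cons (nat_lit 0x8870800000) (nat_lit 0x8740fa223340209c03a56) (.cons (nat_lit 0x8870604000) (nat_lit 0x563fa62b6b) (.cons (nat_lit 0x8870408000) (nat_lit 0x19c000) (.cons (nat_lit 0x80a0400000) (nat_lit 0x6de6f4f91400bbbe6638400791) (.cons (nat_lit 0x8090600000) (nat_lit 0x1312a96225259a2403303) (.cons (nat_lit 0x8090404000) (nat_lit 0x28e1545b67)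 (.cons (nat_lit 0x8080800000) (nat_lit 0x19216b0c3bac0a308037bf70d74004a0) (.cons (nat_lit 0x8080604000) (nat_lit 0x1d95ca806aa) (.cons (nat_lit 0x8080408000) (nat_lit 0x1dadcc5e5ca) (.cons (nat_lit 0x8070a00000) (nat_lit 0x39b0ea02ed0) (.cons (nat_lit 0x8070804000) (nat_lit 0x145395c4b4553a6a) (.cons (nat_lit 0x8070608000) (nat_lit 0x1d9a5c) (.cons (nat_lit 0x78b0400000) (nat_lit 0x121e881de7a01980) (.cons (nat_lit 0x78a0600000) (nat_lit 0x4623c498a00fda5e026e5) (.cons (nat_lit 0x78a0404000) (nat_lit 0x14b3943227b) (.cons (nat_lit 0x7890800000) (nat_lit 0x65918c7f289671200b56) (.cons (nat_lit 0x7890604000) (nat_lit 0x6634ff8468436b3a) (.cons (nat_lit 0x7890408000) (nat_lit 0x104760) (.cons (nat_lit 0x7880a00000) (nat_lit 0x25c0c0f0744ee84203454) (.cons (nat_lit 0x7880804000) (nat_lit 0x73aa7668cd82e182) (.cons (nat_lit 0x7880608000) (nat_lit 0x2aece606970) (.cons (nat_lit 0x7870c00000) (nat_lit 0x2e0454c6df60269c)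 (.cons (nat_lit 0x7870a04000) (nat_lit 0xd0862c570f) (.cons (nat_lit 0x7870808000) (nat_lit 0xb2dbe21b4f) (.nil)))))))))))))))))))))))))))))))

noncomputable def nb_4_6_25 : NE := .cons (nat_lit 0x9880200000) (nat_lit 0x1c0501d8000) (.cons (nat_lit 0x9090200000) (nat_lit 0x2852d16c003) (.cons (nat_lit 0x9080400000) (nat_lit 0x3b9c7a640006acc069) (.cons (nat_lit 0x88a0200000) (nat_lit 0x36d2267acf7) (.cons (nat_lit 0x8890400000) (nat_lit 0x54e28c60001424) (.cons (nat_lit 0x8890204000) (nat_lit 0x1e91) (.cons (nat_lit 0x8880600000) (nat_lit 0x25d1c57e2a0f08) (.cons (nat_lit 0x8880404000) (nat_lit 0x17f489a4000) (.cons (nat_lit 0x80b0200000) (nat_lit 0xf9e8d11) (.cons (nat_lit 0x80a0400000) (nat_lit 0xf1a4a81eb4bb029d2) (.cons (nat_lit 0x80a0204000) (nat_lit 0x1499) (.cons (nat_lit 0x8090600000) (nat_lit 0x878f459501bba2) (.cons (nat_lit 0x8090404000) (nat_lit 0x6c8b53c) (.cons (nat_lit 0x8080800000) (nat_lit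 0x389c5354c0480a831f97b) (.cons (nat_lit 0x8080604000) (nat_lit 0x665ee36) (.cons (nat_lit 0x78c0200000) (nat_lit 0x5e95120) (.cons (nat_lit 0x78b0400000) (nat_lit 0x19d6c86359a) (.cons (nat_lit 0x78b0204000) (nat_lit 0x1641) (.cons (nat_lit 0x78a0600000) (nat_lit 0x6cfc34f465d49) (.cons (nat_lit 0x78a0404000) (nat_lit 0xf3cfa54) (.cons (nat_lit 0x7890800000) (nat_lit 0x2307ce2d6668e) (.cons (nat_lit 0x7890604000) (nat_lit 0x190bbdfa78e) (.cons (nat_lit 0x7880a00000) (nat_lit 0xc544b8c978524e) (.cons (nat_lit 0x7880804000) (nat_lit 0xd77f8f2f3d) (.nil))))))))))))))))))))))))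

noncomputable def nb_4_6_24 : NE := .cons (nat_lit 0x9890000000) (nat_lit 0x1c00) (.cons (nat_lit 0x90a0000000) (nat_lit 0x183858) (.cons (nat_lit 0x9090200000) (nat_lit 0x106574) (.cons (nat_lit 0x88b0000000) (nat_lit 0) (.cons (nat_lit 0x88a0200000) (nat_lit 0x176a27) (.cons (nat_lit 0x8890400000) (nat_lit 0xc908062) (.cons (nat_lit 0x80c0000000) (nat_lit 0x177e7a) (.cons (nat_lit 0x80b0200000) (nat_lit 0x1da6) (.cons (nat_lit 0x80a0400000) (nat_lit 0x250fc726b) (.cons (nat_lit 0x8090600000) (nat_lit 0x9b59c40) (.cons (nat_lit 0x78c0200000) (nat_lit 0x3bca) (.cons (nat_lit 0x78b0400000) (nat_lit 0x19c86a) (.cons (nat_lit 0x78a0600000) (nat_lit 0x46d7a2e) (.cons (nat_lit 0x7890800000) (nat_lit 0x7a95149) (.nil))))))))))))))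

noncomputable def nb_4_6_23 : NE := .cons (nat_lit 0xa040408000) (nat_lit 0x3e) (.cons (nat_lit 0x9850408000) (nat_lit 0x6f) (.cons (nat_lit 0x9060408000) (nat_lit 0x4fb) (.cons (nat_lit 0x9040808000) (nat_lit 0x3c) (.cons (nat_lit 0x8870408000) (nat_lit 0x32) (.cons (nat_lit 0x8860608000) (nat_lit 0x4e) (.cons (nat_lit 0x8850808000) (nat_lit 0x48) (.cons (nat_lit 0x8080408000) (nat_lit 0x3b99) (.cons (nat_lit 0x8070608000) (nat_lit 0x75) (.cons (nat_lit 0x8060808000) (nat_lit 0x3ddd) (.nil))))))))))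

noncomputable def nb_4_6_22 : NE := .cons (nat_lit 0xa040800000) (nat_lit 0x2998070) (.cons (nat_lit 0x9850800000) (nat_lit 0x2e) (.cons (nat_lit 0x9840804000) (nat_lit 0x36b7) (.cons (nat_lit 0x9060800000) (nat_lit 0x16306d00d0005) (.cons (nat_lit 0x9050804000) (nat_lit 0x2fe7) (.cons (nat_lit 0x9040808000) (nat_lit 0x315b) (.cons (nat_lit 0x8870800000) (nat_lit 0x90f92012c07a) (.cons (nat_lit 0x8860804000) (nat_lit 0xfb8a2c5) (.cons (nat_lit 0x8850808000) (nat_lit 0x32ad) (.cons (nat_lit 0x8080800000) (nat_lit 0x2679a2300b40347ca4026) (.cons (nat_lit 0x8070804000) (nat_lit 0x3575c1aafc7) (.cons (nat_lit 0x8060808000) (nat_lit 0x1f1bb00) (.cons (nat_lit 0x8040810000) (nat_lit 0x1c52) (.nil)))))))))))))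

noncomputable def nb_4_6_21 : NE := .cons (nat_lit 0xa050404000) (nat_lit 0x20) (.cons (nat_lit 0x9860404000) (nat_lit 0x50) (.cons (nat_lit 0x9850604000) (nat_lit 4) (.cons (nat_lit 0x9850408000) (nat_lit 0x29) (.cons (nat_lit 0x9070404000) (nat_lit 0xbc1) (.cons (nat_lit 0x9060604000) (nat_lit 0xb) (.cons (nat_lit 0x9060408000) (nat_lit 0x1c48) (.cons (nat_lit 0x9050804000) (nat_lit 0x78) (.cons (nat_lit 0x8880404000) (nat_lit 0xeee97) (.cons (nat_lit 0x8870604000) (nat_lit 0x1fc) (.cons (nat_lit 0x8870408000) (nat_lit 0x12) (.cons (nat_lit 0x8860804000) (nat_lit 0x32af) (.cons (nat_lit 0x8860608000) (nat_lit 0x43) (.cons (nat_lit 0x8850808000) (nat_lit 0x33) (.cons (nat_lit 0x8090404000) (nat_lit 0x4d7) (.cons (nat_lit 0x8080604000) (nat_lit 0x17d4) (.cons (nat_lit 0x8080408000) (nat_lit 0x396f) (.cons (nat_lit 0x8070804000) (nat_lit 0x1d1d6c) (.cons (nat_lit 0x8070608000) (nat_lit 0x17) (.cons (nat_lit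 0x8060a04000) (nat_lit 0x4e) (.cons (nat_lit 0x8060808000) (nat_lit 0x39e6) (.nil)))))))))))))))))))))

noncomputable def nb_4_6_20 : NE := .cons (nat_lit 0xa050600000) (nat_lit 0x45) (.cons (nat_lit 0x9860600000) (nat_lit 0x167133) (.cons (nat_lit 0x9850800000) (nat_lit 0x3e) (.cons (nat_lit 0x9850604000) (nat_lit 0x55) (.cons (nat_lit 0x9070600000) (nat_lit 0xae025) (.cons (nat_lit 0x9060800000) (nat_lit 0x666223) (.cons (nat_lit 0x9060604000) (nat_lit 0x60) (.cons (nat_lit 0x9050804000) (nat_lit 0x54) (.cons (nat_lit 0x8880600000) (nat_lit 0x93a969d) (.cons (nat_lit 0x8870800000) (nat_lit 0xe4c0324) (.cons (nat_lit 0x8870604000) (nat_lit 0x327) (.cons (nat_lit 0x8860a00000) (nat_lit 0x29a0) (.cons (nat_lit 0x8860804000) (nat_lit 0x1f4) (.cons (nat_lit 0x8860608000) (nat_lit 0x3a) (.cons (nat_lit 0x8850808000) (nat_lit 6) (.cons (nat_lit 0x8090600000) (nat_lit 0x3a810a) (.cons (nat_lit 0x8080800000) (nat_lit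 0x1bccf88a9f4) (.cons (nat_lit 0x8080604000) (nat_lit 0x5c7) (.cons (nat_lit 0x8070a00000) (nat_lit 0x89a) (.cons (nat_lit 0x8070804000) (nat_lit 0x9ced4) (.cons (nat_lit 0x8070608000) (nat_lit 0x71) (.cons (nat_lit 0x8060a04000) (nat_lit 0) (.cons (nat_lit 0x8060808000) (nat_lit 0x12cc) (.nil)))))))))))))))))))))))

noncomputable def nb_4_6_19 : NE := .cons (nat_lit 0xa060400000) (nat_lit 0xb20005f00d1d9700015180000060) (.cons (nat_lit 0x9870400000) (nat_lit 0x5c0004f00b14f7000162b0000004) (.cons (nat_lit 0x9860600000) (nat_lit 0x313a48400323cf0000fe3) (.cons (nat_lit 0x9860404000) (nat_lit 0x5a00065) (.cons (nat_lit 0x9080400000) (nat_lit 0xf1831c80146f12520001201beb5b00028c6) (.cons (nat_lit 0x9070600000) (nat_lit 0xab8a77401298870003da8) (.cons (nat_lit 0x9070404000) (nat_lit 0xba1be972800037) (.cons (nat_lit 0x9060800000) (nat_lit 0x2f88e8bfa3814f00bf88d0050a9e) (.cons (nat_lit 0x9060604000) (nat_lit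 0x34cdd54) (.cons (nat_lit 0x9060408000) (nat_lit 0x927633aa200044) (.cons (nat_lit 0x8890400000) (nat_lit 0xef6147201dd0c26e0003300654f1) (.cons (nat_lit 0x8880600000) (nat_lit 0x867476b30e6797005ee8f00738a9) (.cons (nat_lit 0x8880404000) (nat_lit 0xc13a3fd843cbdefa0005a) (.cons (nat_lit 0x8870800000) (nat_lit 0x2555ac58b0b28015fb0a000dbf0) (.cons (nat_lit 0x8870604000) (nat_lit 0x23e685a1bc57a0) (.cons (nat_lit 0x8870408000) (nat_lit 0xda0003a) (.cons (nat_lit 0x8860a00000) (nat_lit 0x635e83700a99a2) (.cons (nat_lit 0x8860804000) (nat_lit 0xb00530739ce8e3) (.cons (nat_lit 0x8860608000) (nat_lit 0x3b79826) (.cons (nat_lit 0x80a0400000) (nat_lit 0xb9a6d120ff9da9014f65ffb94772005dc1f) (.cons (nat_lit 0x8090600000) (nat_lit 0x793b1fe0cc162262a3eb1019a598) (.cons (nat_lit 0x8090404000) (nat_lit 0xe96f3cd2649043) (.cons (nat_lit 0x8080800000) (nat_lit 0xf8b378cb3f745d519ea05007115d2736fdb001a1eb) (.cons (nat_lit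 0x8080604000) (nat_lit 0x2f473900c18daa) (.cons (nat_lit 0x8080408000) (nat_lit 0xf03d00d29d975a) (.cons (nat_lit 0x8070a00000) (nat_lit 0xbf8b56f01cbd43) (.cons (nat_lit 0x8070804000) (nat_lit 0x8dac97bba78565bf98ddc) (.cons (nat_lit 0x8070608000) (nat_lit 0x259c99f) (.cons (nat_lit 0x8060c00000) (nat_lit 0xb640cc15d5671f00239e7) (.cons (nat_lit 0x8060a04000) (nat_lit 0x9dee99e) (.cons (nat_lit 0x8060808000) (nat_lit 0x6715bef17587c4) (.nil)))))))))))))))))))))))))))))))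

noncomputable def nb_4_6_18 : NE := .cons (nat_lit 0xa070200000) (nat_lit 0x2afc041) (.cons (nat_lit 0x9880200000) (nat_lit 0x30924748014) (.cons (nat_lit 0x9870400000) (nat_lit 0xd0e1c31c043) (.cons (nat_lit 0x9870204000) (nat_lit 0x1d80) (.cons (nat_lit 0x9090200000) (nat_lit 0x4bbbfb3e29) (.cons (nat_lit 0x9080400000) (nat_lit 0x211b06f00334be737b) (.cons (nat_lit 0x9070600000) (nat_lit 0x375f2fd44d1) (.cons (nat_lit 0x9070404000) (nat_lit 0x377801c) (.cons (nat_lit 0x88a0200000) (nat_lit 0x48e09d72dc) (.cons (nat_lit 0x8890400000) (nat_lit 0xf21f37001afd6b) (.cons (nat_lit 0x8890204000) (nat_lit 0x1ebb) (.cons (nat_lit 0x8880600000) (nat_lit 0x28591aba11ab32) (.cons (nat_lit 0x8880404000) (nat_lit 0x3c680458011) (.cons (nat_lit 0x8870800000) (nat_lit 0xf0f7b0b6604b70) (.cons (nat_lit 0x8870604000) (nat_lit 0xf03bb20) (.cons (nat_lit 0x80b0200000) (nat_lit 0x951d37) (.cons (nat_lit 0x80a0400000) (nat_lit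 0x191b5bd0adac6511fd) (.cons (nat_lit 0x80a0204000) (nat_lit 0x2ded) (.cons (nat_lit 0x8090600000) (nat_lit 0xd275f500245d30) (.cons (nat_lit 0x8090404000) (nat_lit 0x719c019) (.cons (nat_lit 0x8080800000) (nat_lit 0xa64ce0790c307b36d28cc) (.cons (nat_lit 0x8080604000) (nat_lit 0x1922754) (.cons (nat_lit 0x8070a00000) (nat_lit 0xfaff97d) (.cons (nat_lit 0x8070804000) (nat_lit 0x385c377a19c) (.nil))))))))))))))))))))))))

noncomputable def nb_4_6_17 : NE := .cons (nat_lit 0xa080000000) (nat_lit 0x52cb9c012a40003b) (.cons (nat_lit 0x9890000000) (nat_lit 0xb440007a) (.cons (nat_lit 0x9880200000) (nat_lit 0x76a5100210e00030) (.cons (nat_lit 0x90a0000000) (nat_lit 0x2c9abad9a8800205) (.cons (nat_lit 0x9090200000) (nat_lit 0x4f733ed3124039f8) (.cons (nat_lit 0x9080400000) (nat_lit 0x7becd301888000339392e0150f) (.cons (nat_lit 0x88b0000000) (nat_lit 0x1723e6) (.cons (nat_lit 0x88a0200000) (nat_lit 0x7e91878359ad8fe2)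 (.cons (nat_lit 0x8890400000) (nat_lit 0xe6b561ce80c00064433bf) (.cons (nat_lit 0x8880600000) (nat_lit 0x412b6442d758623b9a759) (.cons (nat_lit 0x80c0000000) (nat_lit 0x2985868deb20029a) (.cons (nat_lit 0x80b0200000) (nat_lit 0x9139d88282) (.cons (nat_lit 0x80a0400000) (nat_lit 0x1877805784e3425b1bd76fd0f2a) (.cons (nat_lit 0x8090600000) (nat_lit 0xa0200194c0798967a1b96) (.cons (nat_lit 0x8080800000) (nat_lit 0x49039df50091ef036cfec9889abfaf7) (.nil)))))))))))))))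

noncomputable def nb_4_6_16 : NE := .cons (nat_lit 0xa840404000) (nat_lit 0x37) (.cons (nat_lit 0xa050404000) (nat_lit 0x72) (.cons (nat_lit 0xa040408000) (nat_lit 0x4d) (.cons (nat_lit 0x9860404000) (nat_lit 0x55) (.cons (nat_lit 0x9850604000) (nat_lit 0x65) (.cons (nat_lit 0x9850408000) (nat_lit 7) (.cons (nat_lit 0x9840804000) (nat_lit 0x26) (.cons (nat_lit 0x9070404000) (nat_lit 0x2ae7) (.cons (nat_lit 0x9060604000) (nat_lit 0x22) (.cons (nat_lit 0x9060408000) (nat_lit 0x28f9) (.cons (nat_lit 0x9050804000) (nat_lit 0x51) (.cons (nat_lit 0x9040808000) (nat_lit 0x20) (.cons (nat_lit 0x8880404000) (nat_lit 0x694a5) (.cons (nat_lit 0x8870604000) (nat_lit 0x13e2) (.cons (nat_lit 0x8870408000) (nat_lit 0x5f) (.cons (nat_lit 0x8860804000) (nat_lit 0x34b1) (.cons (nat_lit 0x8860608000) (nat_lit 0x6f) (.cons (nat_lit 0x8850808000) (nat_lit 0x49) (.nil))))))))))))))))))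

noncomputable def nb_4_6_15 : NE := .cons (nat_lit 0xa840600000) (nat_lit 0x69) (.cons (nat_lit 0xa050600000) (nat_lit 0x4c) (.cons (nat_lit 0xa040800000) (nat_lit 0x3a5b) (.cons (nat_lit 0x9860600000) (nat_lit 0xcfc30) (.cons (nat_lit 0x9850800000) (nat_lit 0xf) (.cons (nat_lit 0x9850604000) (nat_lit 0x34) (.cons (nat_lit 0x9840804000) (nat_lit 0x23) (.cons (nat_lit 0x9070600000) (nat_lit 0x7b455) (.cons (nat_lit 0x9060800000) (nat_lit 0x671a83e) (.cons (nat_lit 0x9060604000) (nat_lit 0x6a) (.cons (nat_lit 0x9050804000) (nat_lit 6) (.cons (nat_lit 0x9040808000) (nat_lit 0x47) (.cons (nat_lit 0x8880600000) (nat_lit 0xbb4396c) (.cons (nat_lit 0x8870800000) (nat_lit 0x29f3a95) (.cons (nat_lit 0x8870604000) (nat_lit 0x3253) (.cons (nat_lit 0x8860804000) (nat_lit 0x3709) (.cons (nat_lit 0x8860608000) (nat_lit 0x1b) (.cons (nat_lit 0x8850808000) (nat_lit 0x4a) (.nil))))))))))))))))))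

noncomputable def nb_4_6_14 : NE := .cons (nat_lit 0xa850400000) (nat_lit 0x54cc04e) (.cons (nat_lit 0xa060400000) (nat_lit 0x637e3bdb8008) (.cons (nat_lit 0xa050600000) (nat_lit 0x39bc) (.cons (nat_lit 0xa050404000) (nat_lit 0x2e18) (.cons (nat_lit 0x9870400000) (nat_lit 0x19f71a42a2005d) (.cons (nat_lit 0x9860600000) (nat_lit 0x18bbd283c30) (.cons (nat_lit 0x9860404000) (nat_lit 0xfc5) (.cons (nat_lit 0x9850800000) (nat_lit 0x1bf8) (.cons (nat_lit 0x9850604000) (nat_lit 0x11e8) (.cons (nat_lit 0x9850408000) (nat_lit 0x3b0e) (.cons (nat_lit 0x9080400000) (nat_lit 0x2e7252f0f1873a3a53) (.cons (nat_lit 0x9070600000) (nat_lit 0x196f1d614f8) (.cons (nat_lit 0x9070404000) (nat_lit 0x34fba7) (.cons (nat_lit 0x9060800000) (nat_lit 0xb53695cd163c6c) (.cons (nat_lit 0x9060604000) (nat_lit 0x25be) (.cons (nat_lit 0x9060408000) (nat_lit 0xaeea20c) (.cons (nat_lit 0x9050804000) (nat_lit 0xa04) (.cons (nat_lit 0x8890400000)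 (nat_lit 0x32bc68fe00fae3) (.cons (nat_lit 0x8880600000) (nat_lit 0x9c001df2ced797) (.cons (nat_lit 0x8880404000) (nat_lit 0x28e9293191d) (.cons (nat_lit 0x8870800000) (nat_lit 0x75e20bebb240e1) (.cons (nat_lit 0x8870604000) (nat_lit 0x7ec8fcc) (.cons (nat_lit 0x8870408000) (nat_lit 0x787) (.cons (nat_lit 0x8860a00000) (nat_lit 0x933c74b) (.cons (nat_lit 0x8860804000) (nat_lit 0x58fdfe8) (.cons (nat_lit 0x8860608000) (nat_lit 0x210d) (.cons (nat_lit 0x8850808000) (nat_lit 0x1542) (.nil)))))))))))))))))))))))))))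

noncomputable def nb_4_6_13 : NE := .cons (nat_lit 0xa860200000) (nat_lit 0xf0e005a) (.cons (nat_lit 0xa070200000) (nat_lit 0x8e84011) (.cons (nat_lit 0xa060400000) (nat_lit 0x449b529f404a) (.cons (nat_lit 0x9880200000) (nat_lit 0x3b7844fc07c) (.cons (nat_lit 0x9870400000) (nat_lit 0x5df276a0038) (.cons (nat_lit 0x9870204000) (nat_lit 0xc90) (.cons (nat_lit 0x9860600000) (nat_lit 0x3abe2317be0) (.cons (nat_lit 0x9860404000) (nat_lit 0x75) (.cons (nat_lit 0x9090200000) (nat_lit 0x349ab8bc769) (.cons (nat_lit 0x9080400000) (nat_lit 0x27c06bcc04aac2f4e3) (.cons (nat_lit 0x9070600000) (nat_lit 0x2b2d8df41bd) (.cons (nat_lit 0x9070404000) (nat_lit 0xea6c035) (.cons (nat_lit 0x9060800000) (nat_lit 0xc2d8f4b7cbd1ec) (.cons (nat_lit 0x9060604000) (nat_lit 0xffc) (.cons (nat_lit 0x88a0200000) (nat_lit 0x2efb7168d9e) (.cons (nat_lit 0x8890400000) (nat_lit 0x507767e0149117) (.cons (nat_lit 0x8890204000) (nat_lit 0x152f)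 (.cons (nat_lit 0x8880600000) (nat_lit 0xb64471dc76d0df) (.cons (nat_lit 0x8880404000) (nat_lit 0x74216d8046) (.cons (nat_lit 0x8870800000) (nat_lit 0x7f25e2e9b55251) (.cons (nat_lit 0x8870604000) (nat_lit 0x8694d60) (.cons (nat_lit 0x8860a00000) (nat_lit 0x3af177d) (.cons (nat_lit 0x8860804000) (nat_lit 0x3c40a9c) (.nil)))))))))))))))))))))))

noncomputable def nb_4_6_12 : NE := .cons (nat_lit 0xa870000000) (nat_lit 0xb80) (.cons (nat_lit 0xa080000000) (nat_lit 0xc4409) (.cons (nat_lit 0xa070200000) (nat_lit 0x2f0) (.cons (nat_lit 0x9890000000) (nat_lit 0x1c3f) (.cons (nat_lit 0x9880200000) (nat_lit 0x6561e) (.cons (nat_lit 0x9870400000) (nat_lit 0x2dc6a1a) (.cons (nat_lit 0x90a0000000) (nat_lit 0x193580) (.cons (nat_lit 0x9090200000) (nat_lit 0x31247) (.cons (nat_lit 0x9080400000) (nat_lit 0x5261915f9) (.cons (nat_lit 0x9070600000) (nat_lit 0x1ddc60) (.cons (nat_lit 0x88b0000000) (nat_lit 0x51) (.cons (nat_lit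 0x88a0200000) (nat_lit 0x5ee3f) (.cons (nat_lit 0x8890400000) (nat_lit 0x6ebcc55) (.cons (nat_lit 0x8880600000) (nat_lit 0xf20242f) (.cons (nat_lit 0x8870800000) (nat_lit 0xf7535fa) (.nil)))))))))))))))

noncomputable def nb_4_6_11 : NE := .cons (nat_lit 0xb020408000) (nat_lit 0x3f) (.cons (nat_lit 0xa040408000) (nat_lit 0x26) (.cons (nat_lit 0x9850408000) (nat_lit 0x6b) (.cons (nat_lit 0x9060408000) (nat_lit 0x2eac) (.nil))))

noncomputable def nb_4_6_10 : NE := .cons (nat_lit 0xb040400000) (nat_lit 0x4774074) (.cons (nat_lit 0xa850400000) (nat_lit 0xadac01f) (.cons (nat_lit 0xa840600000) (nat_lit 0x1660) (.cons (nat_lit 0xa840404000) (nat_lit 0x2945) (.cons (nat_lit 0xa060400000) (nat_lit 0x13c2209e1c0061) (.cons (nat_lit 0xa050600000) (nat_lit 0x2191) (.cons (nat_lit 0xa050404000) (nat_lit 0x21f6) (.cons (nat_lit 0xa040800000) (nat_lit 0x9ba6a12) (.cons (nat_lit 0xa040408000) (nat_lit 0x37b7) (.cons (nat_lit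 0x9870400000) (nat_lit 0x6c708b1808c069) (.cons (nat_lit 0x9860600000) (nat_lit 0x23d811bdf2f) (.cons (nat_lit 0x9860404000) (nat_lit 0xe13) (.cons (nat_lit 0x9850800000) (nat_lit 0xdc3) (.cons (nat_lit 0x9850604000) (nat_lit 0x60b) (.cons (nat_lit 0x9850408000) (nat_lit 0x1bfb) (.cons (nat_lit 0x9840804000) (nat_lit 0xc97) (.cons (nat_lit 0x9080400000) (nat_lit 0x820e1a4a506875841) (.cons (nat_lit 0x9070600000) (nat_lit 0x2c2e068ae13) (.cons (nat_lit 0x9070404000) (nat_lit 0x9572f70) (.cons (nat_lit 0x9060800000) (nat_lit 0x8dd3d96889af76) (.cons (nat_lit 0x9060604000) (nat_lit 0x3abd) (.cons (nat_lit 0x9060408000) (nat_lit 0x64c96d0) (.cons (nat_lit 0x9050804000) (nat_lit 0x10df) (.cons (nat_lit 0x9040808000) (nat_lit 0x4a1) (.nil))))))))))))))))))))))))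

noncomputable def nb_4_6_9 : NE := .cons (nat_lit 0xb050200000) (nat_lit 0x4d) (.cons (nat_lit 0xa860200000) (nat_lit 0x61d) (.cons (nat_lit 0xa850400000) (nat_lit 0x3485) (.cons (nat_lit 0xa070200000) (nat_lit 0x20d4) (.cons (nat_lit 0xa060400000) (nat_lit 0xdbc6652) (.cons (nat_lit 0xa050600000) (nat_lit 0x69) (.cons (nat_lit 0xa050404000) (nat_lit 0x23) (.cons (nat_lit 0x9880200000) (nat_lit 0x16377e) (.cons (nat_lit 0x9870400000) (nat_lit 0x659eb0a) (.cons (nat_lit 0x9870204000) (nat_lit 0x35) (.cons (nat_lit 0x9860600000) (nat_lit 0xcd96) (.cons (nat_lit 0x9860404000) (nat_lit 2) (.cons (nat_lit 0x9850800000) (nat_lit 0x57) (.cons (nat_lit 0x9850604000) (nat_lit 0x18) (.cons (nat_lit 0x9090200000) (nat_lit 0x1d71c2) (.cons (nat_lit 0x9080400000) (nat_lit 0x35aedbf15) (.cons (nat_lit 0x9070600000) (nat_lit 0x7b8fa) (.cons (nat_lit 0x9070404000) (nat_lit 0xc3c) (.cons (nat_lit 0x9060800000) (nat_lit 0x6ce32d8)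 (.cons (nat_lit 0x9060604000) (nat_lit 0) (.cons (nat_lit 0x9050804000) (nat_lit 0x39) (.nil)))))))))))))))))))))

noncomputable def nb_4_6_8 : NE := .cons (nat_lit 0xb060000000) (nat_lit 0x102a48011d400070) (.cons (nat_lit 0xa870000000) (nat_lit 0x67ac00046) (.cons (nat_lit 0xa860200000) (nat_lit 0x3d66f0009f2) (.cons (nat_lit 0xa080000000) (nat_lit 0x40dcd072d3c00bef) (.cons (nat_lit 0xa070200000) (nat_lit 0x2f0e3803ea9) (.cons (nat_lit 0xa060400000) (nat_lit 0x18c0372e279291c00c9a) (.cons (nat_lit 0x9890000000) (nat_lit 0x364b4603ddc) (.cons (nat_lit 0x9880200000) (nat_lit 0x2e23b69fe74022ea) (.cons (nat_lit 0x9870400000) (nat_lit 0x8c009dbb7d1f7403159) (.cons (nat_lit 0x9860600000) (nat_lit 0x2780a605564cd192) (.cons (nat_lit 0x90a0000000) (nat_lit 0x37303b002dc55d26) (.cons (nat_lit 0x9090200000) (nat_lit 0x344afae087e0f68b) (.cons (nat_lit 0x9080400000) (nat_lit 0x1b4b6beeb2b803201740d362437) (.cons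 (nat_lit 0x9070600000) (nat_lit 0x4f1faa388ed56be3) (.cons (nat_lit 0x9060800000) (nat_lit 0x7b76542d3e91fc8b8a950) (.nil)))))))))))))))

noncomputable def nb_4_6_7 : NE := .cons (nat_lit 0xb830400000) (nat_lit 0x4c) (.cons (nat_lit 0xb040400000) (nat_lit 0x15b8) (.cons (nat_lit 0xa850400000) (nat_lit 0x34a6) (.cons (nat_lit 0xa840600000) (nat_lit 0x1c) (.cons (nat_lit 0xa840404000) (nat_lit 0x24) (.cons (nat_lit 0xa060400000) (nat_lit 0x6da922d) (.cons (nat_lit 0xa050600000) (nat_lit 0x7b) (.cons (nat_lit 0xa050404000) (nat_lit 0x2d) (.cons (nat_lit 0xa040408000) (nat_lit 0x76) (.cons (nat_lit 0x9870400000) (nat_lit 0x9c1efd6) (.cons (nat_lit 0x9860600000) (nat_lit 0x1cb78a) (.cons (nat_lit 0x9860404000) (nat_lit 0) (.cons (nat_lit 0x9850604000) (nat_lit 0x3e) (.cons (nat_lit 0x9850408000) (nat_lit 1) (.nil))))))))))))))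

noncomputable def nb_4_6_6 : NE := .cons (nat_lit 0xb840200000) (nat_lit 0x57) (.cons (nat_lit 0xb050200000) (nat_lit 0x3e) (.cons (nat_lit 0xb040400000) (nat_lit 0x1842) (.cons (nat_lit 0xa860200000) (nat_lit 0x356e) (.cons (nat_lit 0xa850400000) (nat_lit 0x253e) (.cons (nat_lit 0xa840600000) (nat_lit 0x60) (.cons (nat_lit 0xa840404000) (nat_lit 3) (.cons (nat_lit 0xa070200000) (nat_lit 0x2378) (.cons (nat_lit 0xa060400000) (nat_lit 0x4ba407a) (.cons (nat_lit 0xa050600000) (nat_lit 0x49) (.cons (nat_lit 0xa050404000) (nat_lit 0x76) (.cons (nat_lit 0xa040800000) (nat_lit 0xd2f) (.cons (nat_lit 0x9880200000) (nat_lit 0x158364) (.cons (nat_lit 0x9870400000) (nat_lit 0xee3d96c) (.cons (nat_lit 0x9870204000) (nat_lit 0x76) (.cons (nat_lit 0x9860600000) (nat_lit 0x10f107) (.cons (nat_lit 0x9860404000) (nat_lit 0x4b) (.cons (nat_lit 0x9850800000) (nat_lit 0x37) (.cons (nat_lit 0x9850604000) (nat_lit 0x5b) (.cons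 (nat_lit 0x9840804000) (nat_lit 0x76) (.nil))))))))))))))))))))

noncomputable def nb_4_6_5 : NE := .cons (nat_lit 0xb850000000) (nat_lit 0x68) (.cons (nat_lit 0xb060000000) (nat_lit 0x7a1d0) (.cons (nat_lit 0xb050200000) (nat_lit 0x50) (.cons (nat_lit 0xa870000000) (nat_lit 0x2f8e) (.cons (nat_lit 0xa860200000) (nat_lit 0x3986) (.cons (nat_lit 0xa850400000) (nat_lit 0x17af) (.cons (nat_lit 0xa080000000) (nat_lit 0xa9872) (.cons (nat_lit 0xa070200000) (nat_lit 0x37d2) (.cons (nat_lit 0xa060400000) (nat_lit 0xe5e8a26) (.cons (nat_lit 0xa050600000) (nat_lit 0x6d) (.cons (nat_lit 0x9890000000) (nat_lit 0x2336) (.cons (nat_lit 0x9880200000) (nat_lit 0x9171c) (.cons (nat_lit 0x9870400000) (nat_lit 0xaed0f65) (.cons (nat_lit 0x9860600000) (nat_lit 0x8399b) (.cons (nat_lit 0x9850800000) (nat_lit 0) (.nil)))))))))))))))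

noncomputable def nb_4_6_4 : NE := .cons (nat_lit 0xc020400000) (nat_lit 0x12) (.cons (nat_lit 0xb830400000) (nat_lit 0x29) (.cons (nat_lit 0xb040400000) (nat_lit 0x30dc) (.cons (nat_lit 0xb020408000) (nat_lit 0x75) (.cons (nat_lit 0xa850400000) (nat_lit 0x193) (.cons (nat_lit 0xa840404000) (nat_lit 0x1f) (.cons (nat_lit 0xa060400000) (nat_lit 0xe75572f) (.cons (nat_lit 0xa050404000) (nat_lit 7) (.cons (nat_lit 0xa040408000) (nat_lit 0x7e) (.nil)))))))))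

noncomputable def nb_4_6_3 : NE := .cons (nat_lit 0xc040000000) (nat_lit 0x7d8800f) (.cons (nat_lit 0xb850000000) (nat_lit 0x22) (.cons (nat_lit 0xb840200000) (nat_lit 0x3186) (.cons (nat_lit 0xb060000000) (nat_lit 0x2e82731407a) (.cons (nat_lit 0xb050200000) (nat_lit 0x221c) (.cons (nat_lit 0xb040400000) (nat_lit 0x56667ee) (.cons (nat_lit 0xa870000000) (nat_lit 0x7920010) (.cons (nat_lit 0xa860200000) (nat_lit 0xf2c2345) (.cons (nat_lit 0xa850400000) (nat_lit 0x8e21d7d) (.cons (nat_lit 0xa840600000) (nat_lit 0x1dbf) (.cons (nat_lit 0xa080000000) (nat_lit 0xf23c29fef7) (.cons (nat_lit 0xa070200000) (nat_lit 0xe3406d9) (.cons (nat_lit 0xa060400000) (nat_lit 0x86038a99a211ad) (.cons (nat_lit 0xa050600000) (nat_lit 0x42d) (.cons (nat_lit 0xa040800000) (nat_lit 0x59eb34b) (.nil)))))))))))))))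

noncomputable def nb_4_6_2 : NE := .cons (nat_lit 0xc830000000) (nat_lit 0x4e) (.cons (nat_lit 0xc040000000) (nat_lit 0x34c2) (.cons (nat_lit 0xb850000000) (nat_lit 0x41) (.cons (nat_lit 0xb840200000) (nat_lit 0x62) (.cons (nat_lit 0xb830400000) (nat_lit 0x39) (.cons (nat_lit 0xb060000000) (nat_lit 0x47384) (.cons (nat_lit 0xb050200000) (nat_lit 0x1b) (.cons (nat_lit 0xb040400000) (nat_lit 0x202b) (.cons (nat_lit 0xa870000000) (nat_lit 0x3eba) (.cons (nat_lit 0xa860200000) (nat_lit 0x297c) (.cons (nat_lit 0xa850400000) (nat_lit 0x322f) (.cons (nat_lit 0xa840600000) (nat_lit 3) (.nil))))))))))))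

noncomputable def nb_4_6_1 : NE := .cons (nat_lit 0xd020000000) (nat_lit 0x5b) (.cons (nat_lit 0xc830000000) (nat_lit 0x12) (.cons (nat_lit 0xc040000000) (nat_lit 0x2159) (.cons (nat_lit 0xc020400000) (nat_lit 0x75) (.cons (nat_lit 0xb850000000) (nat_lit 0x67) (.cons (nat_lit 0xb840200000) (nat_lit 0x12) (.cons (nat_lit 0xb830400000) (nat_lit 1) (.cons (nat_lit 0xb060000000) (nat_lit 0x1e46bf) (.cons (nat_lit 0xb050200000) (nat_lit 0x56) (.cons (nat_lit 0xb040400000) (nat_lit 0x39e9) (.nil))))))))))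

noncomputable def nb_4_6_0 : NE := .cons (nat_lit 0xe000000000) (nat_lit 0x2d) (.cons (nat_lit 0xd020000000) (nat_lit 0x19) (.cons (nat_lit 0xc830000000) (nat_lit 0x15) (.cons (nat_lit 0xc040000000) (nat_lit 0x1e41) (.nil))))

/-- blocks of the `N` tables (4, 6) to (4, 7) -/
noncomputable def tNB_4_6 : NTr := (.nd (nat_lit 0x6860a00000) nb_4_6_51 (.nd (nat_lit 0x5870c00000) nb_4_6_77 (.nd (nat_lit 0x5070c04000) nb_4_6_90 (.nd (nat_lit 0x4870a0c000) nb_4_6_97 (.nd (nat_lit 0x4080c08000) nb_4_6_100 (.nd (nat_lit 0x4060c10000) nb_4_6_102 (.nd (nat_lit 0x3060c18000) nb_4_6_103 .lf .lf) (.nd (nat_lit 0x4080810000) nb_4_6_101 .lf .lf)) (.nd (nat_lit 0x4860c0c000) nb_4_6_98 (.nd (nat_lit 0x4081000000) nb_4_6_99 .lf .lf) .lf)) (.nd (nat_lit 0x5060810000) nb_4_6_93 (.nd (nat_lit 0x4880c04000) nb_4_6_95 (.nd (nat_lit 0x4880a08000) nb_4_6_96 .lf .lf) (.nd (nat_lit 0x489060c000) nb_4_6_94 .lf .lf)) (.nd (nat_lit 0x507080c000)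 nb_4_6_91 (.nd (nat_lit 0x5060c08000) nb_4_6_92 .lf .lf) .lf))) (.nd (nat_lit 0x50a0800000) nb_4_6_83 (.nd (nat_lit 0x5090804000) nb_4_6_86 (.nd (nat_lit 0x5080a04000) nb_4_6_88 (.nd (nat_lit 0x5080808000) nb_4_6_89 .lf .lf) (.nd (nat_lit 0x5080c00000) nb_4_6_87 .lf .lf)) (.nd (nat_lit 0x50a0408000) nb_4_6_84 (.nd (nat_lit 0x5090a00000) nb_4_6_85 .lf .lf) .lf)) (.nd (nat_lit 0x5860c04000) nb_4_6_80 (.nd (nat_lit 0x5860a08000) nb_4_6_81 (.nd (nat_lit 0x586080c000) nb_4_6_82 .lf .lf) .lf) (.nd (nat_lit 0x5870a04000) nb_4_6_78 (.nd (nat_lit 0x5870808000) nb_4_6_79 .lf .lf) .lf)))) (.nd (nat_lit 0x6070608000) nb_4_6_64 (.nd (nat_lit 0x58a0600000) nb_4_6_70 (.nd (nat_lit 0x5890604000) nb_4_6_73 (.nd (nat_lit 0x5880804000) nb_4_6_75 (.nd (nat_lit 0x5880608000) nb_4_6_76 .lf .lf) (.nd (nat_lit 0x5880a00000) nb_4_6_74 .lf .lf)) (.nd (nat_lit 0x58a0404000) nb_4_6_71 (.nd (nat_lit 0x5890800000) nb_4_6_72 .lf .lf) .lf))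 (.nd (nat_lit 0x6060808000) nb_4_6_67 (.nd (nat_lit 0x6040810000) nb_4_6_68 (.nd (nat_lit 0x58b0204000) nb_4_6_69 .lf .lf) .lf) (.nd (nat_lit 0x6060c00000) nb_4_6_65 (.nd (nat_lit 0x6060a04000) nb_4_6_66 .lf .lf) .lf))) (.nd (nat_lit 0x6090600000) nb_4_6_57 (.nd (nat_lit 0x6080604000) nb_4_6_60 (.nd (nat_lit 0x6070a00000) nb_4_6_62 (.nd (nat_lit 0x6070804000) nb_4_6_63 .lf .lf) (.nd (nat_lit 0x6080408000) nb_4_6_61 .lf .lf)) (.nd (nat_lit 0x6090404000) nb_4_6_58 (.nd (nat_lit 0x6080800000) nb_4_6_59 .lf .lf) .lf)) (.nd (nat_lit 0x6850808000) nb_4_6_54 (.nd (nat_lit 0x60c0000000) nb_4_6_55 (.nd (nat_lit 0x60a0400000) nb_4_6_56 .lf .lf) .lf) (.nd (nat_lit 0x6860804000) nb_4_6_52 (.nd (nat_lit 0x6860608000) nb_4_6_53 .lf .lf) .lf))))) (.nd (nat_lit 0x7880200000) nb_4_6_25 (.nd (nat_lit 0x7070404000) nb_4_6_38 (.nd (nat_lit 0x68a0200000) nb_4_6_44 (.nd (nat_lit 0x6880600000) nb_4_6_47 (.nd (nat_lit 0x6870800000)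 nb_4_6_49 (.nd (nat_lit 0x6870604000) nb_4_6_50 .lf .lf) (.nd (nat_lit 0x6880404000) nb_4_6_48 .lf .lf)) (.nd (nat_lit 0x6890400000) nb_4_6_45 (.nd (nat_lit 0x6890204000) nb_4_6_46 .lf .lf) .lf)) (.nd (nat_lit 0x7060408000) nb_4_6_41 (.nd (nat_lit 0x7050804000) nb_4_6_42 (.nd (nat_lit 0x7040808000) nb_4_6_43 .lf .lf) .lf) (.nd (nat_lit 0x7060800000) nb_4_6_39 (.nd (nat_lit 0x7060604000) nb_4_6_40 .lf .lf) .lf))) (.nd (nat_lit 0x7850604000) nb_4_6_31 (.nd (nat_lit 0x70a0000000) nb_4_6_34 (.nd (nat_lit 0x7080400000) nb_4_6_36 (.nd (nat_lit 0x7070600000) nb_4_6_37 .lf .lf) (.nd (nat_lit 0x7090200000) nb_4_6_35 .lf .lf)) (.nd (nat_lit 0x7850408000) nb_4_6_32 (.nd (nat_lit 0x7840804000) nb_4_6_33 .lf .lf) .lf)) (.nd (nat_lit 0x7860600000) nb_4_6_28 (.nd (nat_lit 0x7860404000) nb_4_6_29 (.nd (nat_lit 0x7850800000) nb_4_6_30 .lf .lf) .lf) (.nd (nat_lit 0x7870400000) nb_4_6_26 (.nd (nat_lit 0x7870204000) nb_4_6_27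 .lf .lf) .lf)))) (.nd (nat_lit 0x8870000000) nb_4_6_12 (.nd (nat_lit 0x8070200000) nb_4_6_18 (.nd (nat_lit 0x8050404000) nb_4_6_21 (.nd (nat_lit 0x8040408000) nb_4_6_23 (.nd (nat_lit 0x7890000000) nb_4_6_24 .lf .lf) (.nd (nat_lit 0x8040800000) nb_4_6_22 .lf .lf)) (.nd (nat_lit 0x8060400000) nb_4_6_19 (.nd (nat_lit 0x8050600000) nb_4_6_20 .lf .lf) .lf)) (.nd (nat_lit 0x8840600000) nb_4_6_15 (.nd (nat_lit 0x8840404000) nb_4_6_16 (.nd (nat_lit 0x8080000000) nb_4_6_17 .lf .lf) .lf) (.nd (nat_lit 0x8860200000) nb_4_6_13 (.nd (nat_lit 0x8850400000) nb_4_6_14 .lf .lf) .lf))) (.nd (nat_lit 0x9850000000) nb_4_6_5 (.nd (nat_lit 0x9060000000) nb_4_6_8 (.nd (nat_lit 0x9040400000) nb_4_6_10 (.nd (nat_lit 0x9020408000) nb_4_6_11 .lf .lf) (.nd (nat_lit 0x9050200000) nb_4_6_9 .lf .lf)) (.nd (nat_lit 0x9840200000) nb_4_6_6 (.nd (nat_lit 0x9830400000) nb_4_6_7 .lf .lf) .lf)) (.nd (nat_lit 0xa830000000) nb_4_6_2 (.nd (nat_lit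 0xa040000000) nb_4_6_3 (.nd (nat_lit 0xa020400000) nb_4_6_4 .lf .lf) .lf) (.nd (nat_lit 0xc000000000) nb_4_6_0 (.nd (nat_lit 0xb020000000) nb_4_6_1 .lf .lf) .lf))))))

noncomputable def nb_5_0_0 : NE := .cons (nat_lit 0x2800000000) (nat_lit 0x4c) (.nil)

/-- blocks of the `N` tables (5, 0) to (5, 1) -/
noncomputable def tNB_5_0 : NTr := (.nd (nat_lit 0) nb_5_0_0 .lf .lf)

noncomputable def nb_5_1_0 : NE := .cons (nat_lit 0x5000000000) (nat_lit 0x55) (.cons (nat_lit 0x4020000000) (nat_lit 0x50) (.cons (nat_lit 0x3040000000) (nat_lit 0x63) (.nil)))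

/-- blocks of the `N` tables (5, 1) to (5, 2) -/
noncomputable def tNB_5_1 : NTr := (.nd (nat_lit 0x2800000000) nb_5_1_0 .lf .lf)

noncomputable def nb_5_2_2 : NE := .cons (nat_lit 0x5840000000) (nat_lit 0x51) (.cons (nat_lit 0x5050000000) (nat_lit 8) (.cons (nat_lit 0x5040200000) (nat_lit 0x23) (.cons (nat_lit 0x4860000000) (nat_lit 0x1e) (.cons (nat_lit 0x4840400000) (nat_lit 0x6f) (.cons (nat_lit 0x4060200000) (nat_lit 0x46) (.cons (nat_lit 0x4050400000) (nat_lit 0xe) (.cons (nat_lit 0x3840800000) (nat_lit 0x73) (.cons (nat_lit 0x3060600000) (nat_lit 0x31) (.nil)))))))))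

noncomputable def nb_5_2_1 : NE := .cons (nat_lit 0x6820000000) (nat_lit 0x33) (.cons (nat_lit 0x6030000000) (nat_lit 0x24) (.cons (nat_lit 0x5840000000) (nat_lit 0x7d) (.cons (nat_lit 0x5820400000) (nat_lit 0x45) (.cons (nat_lit 0x5050000000) (nat_lit 0x74) (.cons (nat_lit 0x5040200000) (nat_lit 0xc) (.cons (nat_lit 0x4860000000) (nat_lit 0x61) (.cons (nat_lit 0x4840400000) (nat_lit 0x2b) (.cons (nat_lit 0x4060200000) (nat_lit 0x7e) (.cons (nat_lit 0x4050400000) (nat_lit 0x71) (.nil))))))))))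

noncomputable def nb_5_2_0 : NE := .cons (nat_lit 0x7800000000) (nat_lit 0x5c) (.cons (nat_lit 0x6820000000) (nat_lit 0x32) (.cons (nat_lit 0x6030000000) (nat_lit 0x1d) (.cons (nat_lit 0x5840000000) (nat_lit 2) (.cons (nat_lit 0x5050000000) (nat_lit 0x75) (.nil)))))

/-- blocks of the `N` tables (5, 2) to (5, 3) -/
noncomputable def tNB_5_2 : NTr := (.nd (nat_lit 0x4020000000) nb_5_2_1 (.nd (nat_lit 0x3040000000) nb_5_2_2 .lf .lf) (.nd (nat_lit 0x5000000000) nb_5_2_0 .lf .lf))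

noncomputable def nb_5_3_12 : NE := .cons (nat_lit 0x5860600000) (nat_lit 0x3100) (.cons (nat_lit 0x5060800000) (nat_lit 0x3400) (.cons (nat_lit 0x5060604000) (nat_lit 0x60) (.cons (nat_lit 0x4860a00000) (nat_lit 0x18) (.cons (nat_lit 0x4860804000) (nat_lit 0x3c) (.cons (nat_lit 0x4860608000) (nat_lit 0x32) (.cons (nat_lit 0x4060c00000) (nat_lit 0x10) (.cons (nat_lit 0x4060a04000) (nat_lit 0x70) (.cons (nat_lit 0x4060808000) (nat_lit 0x65) (.cons (nat_lit 0x386080c000) (nat_lit 0xd) (.cons (nat_lit 0x3060c08000) (nat_lit 0x5d) (.nil)))))))))))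

noncomputable def nb_5_3_11 : NE := .cons (nat_lit 0x6040800000) (nat_lit 0x3080) (.cons (nat_lit 0x5850800000) (nat_lit 0x21) (.cons (nat_lit 0x5840804000) (nat_lit 4) (.cons (nat_lit 0x5060800000) (nat_lit 0xc0000) (.cons (nat_lit 0x5050804000) (nat_lit 0x6c) (.cons (nat_lit 0x5040808000) (nat_lit 0x56) (.cons (nat_lit 0x4870800000) (nat_lit 0x10) (.cons (nat_lit 0x4860804000) (nat_lit 0x11) (.cons (nat_lit 0x4850808000) (nat_lit 0x15) (.cons (nat_lit 0x4070804000) (nat_lit 0x13) (.cons (nat_lit 0x4060808000) (nat_lit 0x50) (.cons (nat_lit 0x4040810000) (nat_lit 0x3e) (.cons (nat_lit 0x386080c000) (nat_lit 0x53) (.nil)))))))))))))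

noncomputable def nb_5_3_10 : NE := .cons (nat_lit 0x6850400000) (nat_lit 0x2580) (.cons (nat_lit 0x6060400000) (nat_lit 0x8c580) (.cons (nat_lit 0x6050600000) (nat_lit 0x28) (.cons (nat_lit 0x6050404000) (nat_lit 7) (.cons (nat_lit 0x5870400000) (nat_lit 0x295d) (.cons (nat_lit 0x5860600000) (nat_lit 0x1129) (.cons (nat_lit 0x5860404000) (nat_lit 0x62) (.cons (nat_lit 0x5850800000) (nat_lit 0x44) (.cons (nat_lit 0x5850604000) (nat_lit 0x14) (.cons (nat_lit 0x5850408000) (nat_lit 0x79) (.cons (nat_lit 0x5080400000) (nat_lit 0x18bf) (.cons (nat_lit 0x5070600000) (nat_lit 0) (.cons (nat_lit 0x5070404000) (nat_lit 0x41) (.cons (nat_lit 0x5060800000) (nat_lit 0x12208b) (.cons (nat_lit 0x5060604000) (nat_lit 0x3d) (.cons (nat_lit 0x5060408000) (nat_lit 0x7d) (.cons (nat_lit 0x5050804000) (nat_lit 0x3c) (.cons (nat_lit 0x4880600000) (nat_lit 0x75) (.cons (nat_lit 0x4880404000) (nat_lit 0) (.cons (nat_lit 0x4870800000)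 (nat_lit 0x7d) (.cons (nat_lit 0x4870604000) (nat_lit 0x69) (.cons (nat_lit 0x4860a00000) (nat_lit 0x12) (.cons (nat_lit 0x4860804000) (nat_lit 0) (.cons (nat_lit 0x4860608000) (nat_lit 0x1a) (.cons (nat_lit 0x4850808000) (nat_lit 0x4e) (.cons (nat_lit 0x4080800000) (nat_lit 0x31) (.cons (nat_lit 0x4080408000) (nat_lit 0x45) (.cons (nat_lit 0x4070804000) (nat_lit 4) (.cons (nat_lit 0x4060a04000) (nat_lit 0x20) (.cons (nat_lit 0x4060808000) (nat_lit 0x21) (.nil))))))))))))))))))))))))))))))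

noncomputable def nb_5_3_9 : NE := .cons (nat_lit 0x6860200000) (nat_lit 0x1b00) (.cons (nat_lit 0x6070200000) (nat_lit 0x63) (.cons (nat_lit 0x6060400000) (nat_lit 0x1500) (.cons (nat_lit 0x5880200000) (nat_lit 9) (.cons (nat_lit 0x5870400000) (nat_lit 0xc) (.cons (nat_lit 0x5870204000) (nat_lit 0x65) (.cons (nat_lit 0x5860600000) (nat_lit 0xc00) (.cons (nat_lit 0x5860404000) (nat_lit 0x79) (.cons (nat_lit 0x5080400000) (nat_lit 0x2eb3) (.cons (nat_lit 0x5070600000) (nat_lit 0x56) (.cons (nat_lit 0x5070404000) (nat_lit 0x68) (.cons (nat_lit 0x5060800000) (nat_lit 0x136915) (.cons (nat_lit 0x5060604000) (nat_lit 0x40) (.cons (nat_lit 0x4880600000) (nat_lit 0x3a) (.cons (nat_lit 0x4880404000) (nat_lit 0x65) (.cons (nat_lit 0x4870800000) (nat_lit 0x25) (.cons (nat_lit 0x4870604000) (nat_lit 0x3d) (.cons (nat_lit 0x4860a00000) (nat_lit 0x19) (.cons (nat_lit 0x4860804000) (nat_lit 6) (.cons (nat_lit 0x4080800000)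 (nat_lit 0x6c) (.cons (nat_lit 0x4070804000) (nat_lit 0x6f) (.cons (nat_lit 0x4060c00000) (nat_lit 0x33) (.cons (nat_lit 0x4060a04000) (nat_lit 0x20) (.nil)))))))))))))))))))))))

noncomputable def nb_5_3_8 : NE := .cons (nat_lit 0x7040400000) (nat_lit 0x2100) (.cons (nat_lit 0x6850400000) (nat_lit 0xa4e) (.cons (nat_lit 0x6840600000) (nat_lit 0x2d) (.cons (nat_lit 0x6840404000) (nat_lit 0x2b) (.cons (nat_lit 0x6060400000) (nat_lit 0xfc4d1) (.cons (nat_lit 0x6050600000) (nat_lit 0x2d) (.cons (nat_lit 0x6050404000) (nat_lit 0x10) (.cons (nat_lit 0x6040800000) (nat_lit 0x2c6c) (.cons (nat_lit 0x6040408000) (nat_lit 0x38) (.cons (nat_lit 0x5870400000) (nat_lit 0x19eb) (.cons (nat_lit 0x5860600000) (nat_lit 0x251) (.cons (nat_lit 0x5860404000) (nat_lit 0x60) (.cons (nat_lit 0x5850800000) (nat_lit 0xc) (.cons (nat_lit 0x5850604000) (nat_lit 0x3b) (.cons (nat_lit 0x5850408000) (nat_lit 0x21) (.cons (nat_lit 0x5840804000)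 (nat_lit 0x3d) (.cons (nat_lit 0x5080400000) (nat_lit 0x19f2) (.cons (nat_lit 0x5070600000) (nat_lit 7) (.cons (nat_lit 0x5070404000) (nat_lit 0x62) (.cons (nat_lit 0x5060800000) (nat_lit 0x1db4b3) (.cons (nat_lit 0x5060604000) (nat_lit 0x6d) (.cons (nat_lit 0x5060408000) (nat_lit 0x3c) (.cons (nat_lit 0x5050804000) (nat_lit 0x43) (.cons (nat_lit 0x5040808000) (nat_lit 0x4b) (.cons (nat_lit 0x4880600000) (nat_lit 0x42) (.cons (nat_lit 0x4880404000) (nat_lit 0x38) (.cons (nat_lit 0x4870800000) (nat_lit 0x24) (.cons (nat_lit 0x4870604000) (nat_lit 0x1e) (.cons (nat_lit 0x4860804000) (nat_lit 0x3c) (.cons (nat_lit 0x4860608000) (nat_lit 0x6f) (.cons (nat_lit 0x4850808000) (nat_lit 0x49) (.nil)))))))))))))))))))))))))))))))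

noncomputable def nb_5_3_7 : NE := .cons (nat_lit 0x7060000000) (nat_lit 0x400) (.cons (nat_lit 0x6870000000) (nat_lit 0x53) (.cons (nat_lit 0x6860200000) (nat_lit 0x3596) (.cons (nat_lit 0x6080000000) (nat_lit 0x2b28) (.cons (nat_lit 0x6070200000) (nat_lit 0x19) (.cons (nat_lit 0x6060400000) (nat_lit 0x2139) (.cons (nat_lit 0x5880200000) (nat_lit 2) (.cons (nat_lit 0x5870400000) (nat_lit 0x4c3) (.cons (nat_lit 0x5860600000) (nat_lit 0x1bee) (.cons (nat_lit 0x5090200000) (nat_lit 0x37) (.cons (nat_lit 0x5080400000) (nat_lit 0x2c1f) (.cons (nat_lit 0x5070600000) (nat_lit 0x10) (.cons (nat_lit 0x5060800000) (nat_lit 0x1d49a2) (.cons (nat_lit 0x4880600000) (nat_lit 0x2b) (.cons (nat_lit 0x4870800000) (nat_lit 0x40) (.cons (nat_lit 0x4860a00000) (nat_lit 0x5c) (.nil))))))))))))))))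

noncomputable def nb_5_3_6 : NE := .cons (nat_lit 0x7840200000) (nat_lit 0x3c) (.cons (nat_lit 0x7050200000) (nat_lit 0x72) (.cons (nat_lit 0x7040400000) (nat_lit 0xffd) (.cons (nat_lit 0x6860200000) (nat_lit 0x370b) (.cons (nat_lit 0x6850400000) (nat_lit 0x59c) (.cons (nat_lit 0x6840600000) (nat_lit 0x1f) (.cons (nat_lit 0x6840404000) (nat_lit 0x52) (.cons (nat_lit 0x6070200000) (nat_lit 0x6e) (.cons (nat_lit 0x6060400000) (nat_lit 0xeba3e) (.cons (nat_lit 0x6050600000) (nat_lit 0x2e) (.cons (nat_lit 0x6050404000) (nat_lit 0x20) (.cons (nat_lit 0x6040800000) (nat_lit 0xd7d) (.cons (nat_lit 0x5880200000) (nat_lit 0x77) (.cons (nat_lit 0x5870400000) (nat_lit 0x54) (.cons (nat_lit 0x5870204000) (nat_lit 1) (.cons (nat_lit 0x5860600000) (nat_lit 0x85a) (.cons (nat_lit 0x5860404000) (nat_lit 0x55) (.cons (nat_lit 0x5850800000) (nat_lit 0x1d) (.cons (nat_lit 0x5850604000) (nat_lit 2) (.cons (nat_lit 0x5840804000)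 (nat_lit 0x19) (.cons (nat_lit 0x5090200000) (nat_lit 0x43) (.cons (nat_lit 0x5080400000) (nat_lit 0x1171) (.cons (nat_lit 0x5070600000) (nat_lit 0x16) (.cons (nat_lit 0x5070404000) (nat_lit 0x5d) (.cons (nat_lit 0x5060800000) (nat_lit 0x15128b) (.cons (nat_lit 0x5060604000) (nat_lit 0x77) (.cons (nat_lit 0x5050804000) (nat_lit 0x59) (.nil)))))))))))))))))))))))))))

noncomputable def nb_5_3_5 : NE := .cons (nat_lit 0x7850000000) (nat_lit 0x2e) (.cons (nat_lit 0x7060000000) (nat_lit 0x1ff3) (.cons (nat_lit 0x7050200000) (nat_lit 0x7a) (.cons (nat_lit 0x6870000000) (nat_lit 0x1d) (.cons (nat_lit 0x6860200000) (nat_lit 0xf79) (.cons (nat_lit 0x6850400000) (nat_lit 0x22ac) (.cons (nat_lit 0x6080000000) (nat_lit 0xa55) (.cons (nat_lit 0x6070200000) (nat_lit 0x20) (.cons (nat_lit 0x6060400000) (nat_lit 0xacc8a) (.cons (nat_lit 0x6050600000) (nat_lit 0x51) (.cons (nat_lit 0x5880200000) (nat_lit 0x4b) (.cons (nat_lit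 0x5870400000) (nat_lit 0xf45) (.cons (nat_lit 0x5860600000) (nat_lit 0x21d3) (.cons (nat_lit 0x5850800000) (nat_lit 0x6c) (.cons (nat_lit 0x50a0000000) (nat_lit 0x6e) (.cons (nat_lit 0x5090200000) (nat_lit 0) (.cons (nat_lit 0x5080400000) (nat_lit 0x36f8) (.cons (nat_lit 0x5070600000) (nat_lit 0) (.cons (nat_lit 0x5060800000) (nat_lit 0x707e6) (.nil)))))))))))))))))))

noncomputable def nb_5_3_4 : NE := .cons (nat_lit 0x8020400000) (nat_lit 0x6f) (.cons (nat_lit 0x7830400000) (nat_lit 0x19) (.cons (nat_lit 0x7040400000) (nat_lit 0x3a28) (.cons (nat_lit 0x7020408000) (nat_lit 0x52) (.cons (nat_lit 0x6850400000) (nat_lit 0x37e7) (.cons (nat_lit 0x6840404000) (nat_lit 0x7e) (.cons (nat_lit 0x6060400000) (nat_lit 0x104b0d) (.cons (nat_lit 0x6050404000) (nat_lit 0x33) (.cons (nat_lit 0x6040408000) (nat_lit 0x2e) (.cons (nat_lit 0x5870400000) (nat_lit 0x14ec) (.cons (nat_lit 0x5860404000) (nat_lit 0x54) (.cons (nat_lit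 0x5850408000) (nat_lit 2) (.nil))))))))))))

noncomputable def nb_5_3_3 : NE := .cons (nat_lit 0x8040000000) (nat_lit 0x1680) (.cons (nat_lit 0x7850000000) (nat_lit 0x29) (.cons (nat_lit 0x7840200000) (nat_lit 0x1b) (.cons (nat_lit 0x7060000000) (nat_lit 0xc1) (.cons (nat_lit 0x7050200000) (nat_lit 0x17) (.cons (nat_lit 0x7040400000) (nat_lit 0xe81) (.cons (nat_lit 0x6870000000) (nat_lit 1) (.cons (nat_lit 0x6860200000) (nat_lit 0x3e30) (.cons (nat_lit 0x6850400000) (nat_lit 0x23cc) (.cons (nat_lit 0x6840600000) (nat_lit 0x4c) (.cons (nat_lit 0x6080000000) (nat_lit 0x241e) (.cons (nat_lit 0x6070200000) (nat_lit 0x5f) (.cons (nat_lit 0x6060400000) (nat_lit 0x126ffd) (.cons (nat_lit 0x6050600000) (nat_lit 0x2e) (.cons (nat_lit 0x6040800000) (nat_lit 0x3699) (.cons (nat_lit 0x5880200000) (nat_lit 9) (.cons (nat_lit 0x5870400000) (nat_lit 0x2b14) (.cons (nat_lit 0x5860600000) (nat_lit 0x4a0) (.cons (nat_lit 0x5850800000)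 (nat_lit 0x2f) (.nil)))))))))))))))))))

noncomputable def nb_5_3_2 : NE := .cons (nat_lit 0x8830000000) (nat_lit 0x15) (.cons (nat_lit 0x8040000000) (nat_lit 0x19dc) (.cons (nat_lit 0x7850000000) (nat_lit 0x78) (.cons (nat_lit 0x7840200000) (nat_lit 0x79) (.cons (nat_lit 0x7830400000) (nat_lit 0x41) (.cons (nat_lit 0x7060000000) (nat_lit 0x2f8d) (.cons (nat_lit 0x7050200000) (nat_lit 0x4f) (.cons (nat_lit 0x7040400000) (nat_lit 0x2131) (.cons (nat_lit 0x6870000000) (nat_lit 0x47) (.cons (nat_lit 0x6860200000) (nat_lit 0x1e3d) (.cons (nat_lit 0x6850400000) (nat_lit 0x3f68) (.cons (nat_lit 0x6840600000) (nat_lit 0x7b) (.cons (nat_lit 0x6080000000) (nat_lit 0x147e) (.cons (nat_lit 0x6070200000) (nat_lit 0xd) (.cons (nat_lit 0x6060400000) (nat_lit 0x1b11bd) (.cons (nat_lit 0x6050600000) (nat_lit 0x14) (.nil))))))))))))))))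

noncomputable def nb_5_3_1 : NE := .cons (nat_lit 0x9020000000) (nat_lit 0x70) (.cons (nat_lit 0x8830000000) (nat_lit 0x54) (.cons (nat_lit 0x8040000000) (nat_lit 0x229d) (.cons (nat_lit 0x8020400000) (nat_lit 2) (.cons (nat_lit 0x7850000000) (nat_lit 0x42) (.cons (nat_lit 0x7840200000) (nat_lit 1) (.cons (nat_lit 0x7830400000) (nat_lit 0x10) (.cons (nat_lit 0x7060000000) (nat_lit 0x2b9b) (.cons (nat_lit 0x7050200000) (nat_lit 0x12) (.cons (nat_lit 0x7040400000) (nat_lit 0x3613) (.cons (nat_lit 0x6870000000) (nat_lit 0x17) (.cons (nat_lit 0x6860200000) (nat_lit 0x3c95) (.cons (nat_lit 0x6850400000) (nat_lit 0x94c) (.nil)))))))))))))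

noncomputable def nb_5_3_0 : NE := .cons (nat_lit 0xa000000000) (nat_lit 0x5f) (.cons (nat_lit 0x9020000000) (nat_lit 0x62) (.cons (nat_lit 0x8830000000) (nat_lit 0x70) (.cons (nat_lit 0x8040000000) (nat_lit 0x103a) (.cons (nat_lit 0x7850000000) (nat_lit 0x10) (.nil)))))

/-- blocks of the `N` tables (5, 3) to (5, 4) -/
noncomputable def tNB_5_3 : NTr := (.nd (nat_lit 0x5040200000) nb_5_3_6 (.nd (nat_lit 0x4060200000) nb_5_3_9 (.nd (nat_lit 0x3840800000) nb_5_3_11 (.nd (nat_lit 0x3060600000) nb_5_3_12 .lf .lf) (.nd (nat_lit 0x4050400000) nb_5_3_10 .lf .lf)) (.nd (nat_lit 0x4860000000) nb_5_3_7 (.nd (nat_lit 0x4840400000) nb_5_3_8 .lf .lf) .lf)) (.nd (nat_lit 0x6030000000) nb_5_3_2 (.nd (nat_lit 0x5820400000) nb_5_3_4 (.nd (nat_lit 0x5050000000) nb_5_3_5 .lf .lf) (.nd (nat_lit 0x5840000000) nb_5_3_3 .lf .lf)) (.nd (nat_lit 0x7800000000) nb_5_3_0 (.nd (nat_lit 0x6820000000) nb_5_3_1 .lf .lf) .lf)))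

noncomputable def nb_5_4_59 : NE := .cons (nat_lit 0x5860c08000) (nat_lit 0xe00000) (.cons (nat_lit 0x5060c0c000) (nat_lit 0x110000) (.cons (nat_lit 0x5060c08080) (nat_lit 0x3600) (.cons (nat_lit 0x4860c10000) (nat_lit 0x23df) (.cons (nat_lit 0x4860c0c080) (nat_lit 0x70) (.cons (nat_lit 0x4860c08100) (nat_lit 0x56) (.cons (nat_lit 0x4060c14000) (nat_lit 0xf) (.cons (nat_lit 0x4060c10080) (nat_lit 0x52) (.cons (nat_lit 0x4060c0c100) (nat_lit 2) (.cons (nat_lit 0x3860c10100) (nat_lit 0x12) (.cons (nat_lit 0x3060c18080) (nat_lit 0x4b) (.nil)))))))))))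

noncomputable def nb_5_4_58 : NE := .cons (nat_lit 0x606080c000) (nat_lit 0x2600000) (.cons (nat_lit 0x587080c000) (nat_lit 0x3466400) (.cons (nat_lit 0x5860a0c000) (nat_lit 0x128780) (.cons (nat_lit 0x5860810000) (nat_lit 0x1c5300) (.cons (nat_lit 0x586080c080) (nat_lit 0x1f01) (.cons (nat_lit 0x5070a0c000) (nat_lit 0x56a46) (.cons (nat_lit 0x5070810000) (nat_lit 0x8bc00) (.cons (nat_lit 0x507080c080) (nat_lit 0x99f) (.cons (nat_lit 0x5060c0c000) (nat_lit 0x13ae80) (.cons (nat_lit 0x5060a10000) (nat_lit 0xc1e) (.cons (nat_lit 0x5060a0c080) (nat_lit 0x39) (.cons (nat_lit 0x5060810080) (nat_lit 0x174d) (.cons (nat_lit 0x506080c100) (nat_lit 4) (.cons (nat_lit 0x4870c0c000) (nat_lit 0x7a) (.cons (nat_lit 0x4870a10000) (nat_lit 0x21) (.cons (nat_lit 0x4870a0c080) (nat_lit 0x2964) (.cons (nat_lit 0x4870810080) (nat_lit 0x19) (.cons (nat_lit 0x487080c100) (nat_lit 0x16) (.cons (nat_lit 0x4860c10000) (nat_lit 0x3223)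 (.cons (nat_lit 0x4860c0c080) (nat_lit 0x41) (.cons (nat_lit 0x4860a10080) (nat_lit 0x5c) (.cons (nat_lit 0x4860a0c100) (nat_lit 0x75) (.cons (nat_lit 0x4860810100) (nat_lit 0x6d) (.cons (nat_lit 0x4070c10000) (nat_lit 8) (.cons (nat_lit 0x4070c0c080) (nat_lit 0x60) (.cons (nat_lit 0x4070a10080) (nat_lit 0x50) (.cons (nat_lit 0x4070810100) (nat_lit 0x43) (.cons (nat_lit 0x4060c10080) (nat_lit 0x2a) (.cons (nat_lit 0x4060c0c100) (nat_lit 0x20) (.cons (nat_lit 0x4060810180) (nat_lit 0x21) (.cons (nat_lit 0x3870a0c180) (nat_lit 0x5c) (.cons (nat_lit 0x3860c10100) (nat_lit 0x7c) (.nil))))))))))))))))))))))))))))))))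

noncomputable def nb_5_4_57 : NE := .cons (nat_lit 0x6840810000) (nat_lit 0x2983) (.cons (nat_lit 0x6050810000) (nat_lit 0x110f) (.cons (nat_lit 0x6040810080) (nat_lit 0x51) (.cons (nat_lit 0x5860810000) (nat_lit 0x127d3a) (.cons (nat_lit 0x5840810100) (nat_lit 0x18) (.cons (nat_lit 0x5070810000) (nat_lit 0x1e6a19) (.cons (nat_lit 0x5060810080) (nat_lit 0x18fe) (.cons (nat_lit 0x5050810100) (nat_lit 0x4c) (.cons (nat_lit 0x4880810000) (nat_lit 0x22ca) (.cons (nat_lit 0x4870810080) (nat_lit 0x5a) (.cons (nat_lit 0x4860810100) (nat_lit 0x6c) (.cons (nat_lit 0x4840810200) (nat_lit 0x72) (.cons (nat_lit 0x4080810080) (nat_lit 0x5c) (.cons (nat_lit 0x4070810100) (nat_lit 0x30) (.cons (nat_lit 0x4060810180) (nat_lit 0x42) (.nil)))))))))))))))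

noncomputable def nb_5_4_56 : NE := .cons (nat_lit 0x6860808000) (nat_lit 0x162ff60000000) (.cons (nat_lit 0x6070808000) (nat_lit 0xe9571c48680) (.cons (nat_lit 0x6060a08000) (nat_lit 0x5aab26c00) (.cons (nat_lit 0x606080c000) (nat_lit 0xffb800) (.cons (nat_lit 0x6060808080) (nat_lit 0x27122) (.cons (nat_lit 0x5880808000) (nat_lit 0x63c2b1cabdee) (.cons (nat_lit 0x5870a08000) (nat_lit 0x8d968fa) (.cons (nat_lit 0x587080c000) (nat_lit 0x6fb399d) (.cons (nat_lit 0x5870808080) (nat_lit 0x19352d) (.cons (nat_lit 0x5860c08000) (nat_lit 0xc35679b) (.cons (nat_lit 0x5860a0c000) (nat_lit 0x177354) (.cons (nat_lit 0x5860a08080) (nat_lit 0x2803) (.cons (nat_lit 0x5860810000) (nat_lit 0xde34a) (.cons (nat_lit 0x586080c080) (nat_lit 0x983) (.cons (nat_lit 0x5860808100) (nat_lit 0x3c6e) (.cons (nat_lit 0x5080a08000) (nat_lit 0x399e6175c) (.cons (nat_lit 0x508080c000) (nat_lit 0x12f657) (.cons (nat_lit 0x5080808080) (nat_lit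 0x1ca1) (.cons (nat_lit 0x5070c08000) (nat_lit 0x340be) (.cons (nat_lit 0x5070a0c000) (nat_lit 0x1e580d) (.cons (nat_lit 0x5070a08080) (nat_lit 0x18d) (.cons (nat_lit 0x5070810000) (nat_lit 0xf636e) (.cons (nat_lit 0x507080c080) (nat_lit 0x26cc) (.cons (nat_lit 0x5070808100) (nat_lit 0x4e) (.cons (nat_lit 0x5060c0c000) (nat_lit 0x10b671) (.cons (nat_lit 0x5060c08080) (nat_lit 0x2c4c) (.cons (nat_lit 0x5060a10000) (nat_lit 0x2d9) (.cons (nat_lit 0x5060a0c080) (nat_lit 0x24) (.cons (nat_lit 0x5060a08100) (nat_lit 0x54) (.cons (nat_lit 0x5060810080) (nat_lit 0x2964) (.cons (nat_lit 0x506080c100) (nat_lit 0x16) (.cons (nat_lit 0x4880c08000) (nat_lit 0x9cb33) (.cons (nat_lit 0x4880a0c000) (nat_lit 0x10b) (.cons (nat_lit 0x4880a08080) (nat_lit 0x385e) (.cons (nat_lit 0x4880810000) (nat_lit 0xde3) (.cons (nat_lit 0x488080c080) (nat_lit 0x17) (.cons (nat_lit 0x4880808100) (nat_lit 0x1e) (.cons (nat_lit 0x4870c0c000)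 (nat_lit 0x77) (.cons (nat_lit 0x4870c08080) (nat_lit 0x43) (.cons (nat_lit 0x4870a10000) (nat_lit 0x3a) (.cons (nat_lit 0x4870a0c080) (nat_lit 0x2784) (.cons (nat_lit 0x4870810080) (nat_lit 0x4f) (.cons (nat_lit 0x487080c100) (nat_lit 0x77) (.cons (nat_lit 0x4860c10000) (nat_lit 0x237b) (.cons (nat_lit 0x4860c0c080) (nat_lit 2) (.cons (nat_lit 0x4860c08100) (nat_lit 0xc) (.cons (nat_lit 0x4860a10080) (nat_lit 0) (.cons (nat_lit 0x4860a0c100) (nat_lit 0x12) (.cons (nat_lit 0x4860810100) (nat_lit 0x49) (.cons (nat_lit 0x4080c0c000) (nat_lit 0x6e) (.cons (nat_lit 0x4080c08080) (nat_lit 0x1b) (.cons (nat_lit 0x4080a10000) (nat_lit 0x16) (.cons (nat_lit 0x4080a08100) (nat_lit 0x20) (.cons (nat_lit 0x4080810080) (nat_lit 0x4c) (.cons (nat_lit 0x4070c10000) (nat_lit 0x16) (.cons (nat_lit 0x4070c0c080) (nat_lit 0x68) (.cons (nat_lit 0x4070a10080) (nat_lit 0x7d) (.cons (nat_lit 0x4070810100) (nat_lit 0x3c) (.cons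 (nat_lit 0x4060c10080) (nat_lit 0x55) (.cons (nat_lit 0x4060c0c100) (nat_lit 0x79) (.nil))))))))))))))))))))))))))))))))))))))))))))))))))))))))))))

noncomputable def nb_5_4_55 : NE := .cons (nat_lit 0x6860a04000) (nat_lit 0xd200000) (.cons (nat_lit 0x6070a04000) (nat_lit 0x3904000) (.cons (nat_lit 0x6060c04000) (nat_lit 0xb4000) (.cons (nat_lit 0x6060a08000) (nat_lit 0x26a910000) (.cons (nat_lit 0x6060a04080) (nat_lit 0x44) (.cons (nat_lit 0x5880a04000) (nat_lit 0x710060000) (.cons (nat_lit 0x5870c04000) (nat_lit 0x3e03100) (.cons (nat_lit 0x5870a08000) (nat_lit 0xef26900) (.cons (nat_lit 0x5870a04080) (nat_lit 0xb4e00) (.cons (nat_lit 0x5860c08000) (nat_lit 0xf845e00) (.cons (nat_lit 0x5860a0c000) (nat_lit 0x5d600) (.cons (nat_lit 0x5860a08080) (nat_lit 0xced) (.cons (nat_lit 0x5080c04000) (nat_lit 0x2be1f80) (.cons (nat_lit 0x5080a08000) (nat_lit 0x50813cf80) (.cons (nat_lit 0x5080a04080) (nat_lit 0x60)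 (.cons (nat_lit 0x5070c08000) (nat_lit 0xf37b3) (.cons (nat_lit 0x5070c04080) (nat_lit 0x3d) (.cons (nat_lit 0x5070a0c000) (nat_lit 0x12d1fb) (.cons (nat_lit 0x5070a08080) (nat_lit 0x27d8) (.cons (nat_lit 0x5060c0c000) (nat_lit 0x13e180) (.cons (nat_lit 0x5060c08080) (nat_lit 0x920) (.cons (nat_lit 0x5060a10000) (nat_lit 0x3d6c) (.cons (nat_lit 0x5060a0c080) (nat_lit 0xa) (.cons (nat_lit 0x4880c08000) (nat_lit 0x1ab58d) (.cons (nat_lit 0x4880c04080) (nat_lit 0x70) (.cons (nat_lit 0x4880a0c000) (nat_lit 0x14cf) (.cons (nat_lit 0x4880a08080) (nat_lit 0x184c) (.cons (nat_lit 0x4870c0c000) (nat_lit 0x26) (.cons (nat_lit 0x4870c08080) (nat_lit 0x1b) (.cons (nat_lit 0x4870a10000) (nat_lit 0x36) (.cons (nat_lit 0x4870a0c080) (nat_lit 0xfbe) (.cons (nat_lit 0x4860c10000) (nat_lit 0x29f3) (.cons (nat_lit 0x4860c0c080) (nat_lit 0x64) (.cons (nat_lit 0x4860a10080) (nat_lit 0x1e) (.cons (nat_lit 0x4080c0c000) (nat_lit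 0) (.cons (nat_lit 0x4080c08080) (nat_lit 0x28) (.cons (nat_lit 0x4080a10000) (nat_lit 0x6e) (.cons (nat_lit 0x4070c10000) (nat_lit 0x19) (.cons (nat_lit 0x4070c0c080) (nat_lit 0x67) (.cons (nat_lit 0x4070a10080) (nat_lit 0xa) (.cons (nat_lit 0x4060c14000) (nat_lit 0x43) (.cons (nat_lit 0x4060c10080) (nat_lit 0x4a) (.nil))))))))))))))))))))))))))))))))))))))))))

noncomputable def nb_5_4_54 : NE := .cons (nat_lit 0x6860c00000) (nat_lit 0x1458000) (.cons (nat_lit 0x6070c00000) (nat_lit 0x185e80) (.cons (nat_lit 0x6060c04000) (nat_lit 0x95c00) (.cons (nat_lit 0x5880c00000) (nat_lit 0x85a8f00) (.cons (nat_lit 0x5870c04000) (nat_lit 0x403b1f) (.cons (nat_lit 0x5860c08000) (nat_lit 0x63b3b8d) (.cons (nat_lit 0x5080c04000) (nat_lit 0x4569d89) (.cons (nat_lit 0x5070c08000) (nat_lit 0x5c0f6) (.cons (nat_lit 0x5060c0c000) (nat_lit 0x10715f) (.cons (nat_lit 0x4880c08000) (nat_lit 0x14107b) (.cons (nat_lit 0x4870c0c000)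 (nat_lit 0x19) (.cons (nat_lit 0x4860c10000) (nat_lit 0x3a23) (.cons (nat_lit 0x4080c0c000) (nat_lit 0x76) (.cons (nat_lit 0x4070c10000) (nat_lit 0x59) (.cons (nat_lit 0x4060c14000) (nat_lit 0x10) (.nil)))))))))))))))

noncomputable def nb_5_4_53 : NE := .cons (nat_lit 0x6870804000) (nat_lit 0x1d0b000000000) (.cons (nat_lit 0x6080804000) (nat_lit 0x1558f0ee40000) (.cons (nat_lit 0x6070a04000) (nat_lit 0x3a1f880) (.cons (nat_lit 0x6070808000) (nat_lit 0x1984ecb9180) (.cons (nat_lit 0x6070804080) (nat_lit 0x2da6) (.cons (nat_lit 0x5880a04000) (nat_lit 0x408f56a00) (.cons (nat_lit 0x5880808000) (nat_lit 0x699c4bdef722) (.cons (nat_lit 0x5880804080) (nat_lit 0x16fa) (.cons (nat_lit 0x5870c04000) (nat_lit 0x496c46f) (.cons (nat_lit 0x5870a08000) (nat_lit 0xe3dfa94) (.cons (nat_lit 0x5870a04080) (nat_lit 0x17dd11) (.cons (nat_lit 0x587080c000) (nat_lit 0xc71da24) (.cons (nat_lit 0x5870808080) (nat_lit 0x5a998) (.cons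 (nat_lit 0x5080c04000) (nat_lit 0xe69d2de) (.cons (nat_lit 0x5080a08000) (nat_lit 0x50d33e698) (.cons (nat_lit 0x5080a04080) (nat_lit 0x7d) (.cons (nat_lit 0x508080c000) (nat_lit 0x151ea2) (.cons (nat_lit 0x5080808080) (nat_lit 0x1520) (.cons (nat_lit 0x5070e04000) (nat_lit 0x1f) (.cons (nat_lit 0x5070c08000) (nat_lit 0x1a4a72) (.cons (nat_lit 0x5070c04080) (nat_lit 0x69) (.cons (nat_lit 0x5070a0c000) (nat_lit 0x89833) (.cons (nat_lit 0x5070a08080) (nat_lit 0x5e9) (.cons (nat_lit 0x5070810000) (nat_lit 0x158fef) (.cons (nat_lit 0x507080c080) (nat_lit 0x1075) (.cons (nat_lit 0x4880e04000) (nat_lit 0x1f) (.cons (nat_lit 0x4880c08000) (nat_lit 0xe641) (.cons (nat_lit 0x4880c04080) (nat_lit 0x48) (.cons (nat_lit 0x4880a0c000) (nat_lit 0x1a2a) (.cons (nat_lit 0x4880a08080) (nat_lit 0x1037) (.cons (nat_lit 0x4880810000) (nat_lit 0x3034) (.cons (nat_lit 0x488080c080) (nat_lit 0x4d) (.cons (nat_lit 0x4870e04080) (nat_lit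 0x54) (.cons (nat_lit 0x4870c0c000) (nat_lit 0x51) (.cons (nat_lit 0x4870c08080) (nat_lit 0x14) (.cons (nat_lit 0x4870a10000) (nat_lit 0x43) (.cons (nat_lit 0x4870a0c080) (nat_lit 0x237) (.cons (nat_lit 0x4870810080) (nat_lit 0x25) (.cons (nat_lit 0x4080e08000) (nat_lit 0x3e) (.cons (nat_lit 0x4080c0c000) (nat_lit 0x41) (.cons (nat_lit 0x4080c08080) (nat_lit 0x30) (.cons (nat_lit 0x4080a10000) (nat_lit 0x75) (.cons (nat_lit 0x4080810080) (nat_lit 0xb) (.cons (nat_lit 0x4070c10000) (nat_lit 0x31) (.cons (nat_lit 0x4070c0c080) (nat_lit 0x48) (.cons (nat_lit 0x4070a10080) (nat_lit 0x18) (.nil))))))))))))))))))))))))))))))))))))))))))))))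

noncomputable def nb_5_4_52 : NE := .cons (nat_lit 0x6880408000) (nat_lit 0x16a00000) (.cons (nat_lit 0x6080608000) (nat_lit 0x509d6a380) (.cons (nat_lit 0x6080408080) (nat_lit 0xef2) (.cons (nat_lit 0x5880808000) (nat_lit 0x16ded483a34) (.cons (nat_lit 0x5880608080) (nat_lit 0x26ed) (.cons (nat_lit 0x5880408100) (nat_lit 0x3b) (.cons (nat_lit 0x5080a08000) (nat_lit 0x365bbd5a9) (.cons (nat_lit 0x5080808080) (nat_lit 0x20bc) (.cons (nat_lit 0x5080608100) (nat_lit 0x68) (.cons (nat_lit 0x4880c08000) (nat_lit 0x1cf78) (.cons (nat_lit 0x4880a08080) (nat_lit 0x16e3) (.cons (nat_lit 0x4880808100) (nat_lit 0x25) (.cons (nat_lit 0x4080e08000) (nat_lit 8) (.cons (nat_lit 0x4080c08080) (nat_lit 0xe) (.cons (nat_lit 0x4080a08100) (nat_lit 0x3d) (.nil)))))))))))))))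

noncomputable def nb_5_4_51 : NE := .cons (nat_lit 0x6880800000) (nat_lit 0x1c04800000000) (.cons (nat_lit 0x6080a00000) (nat_lit 0x113002100) (.cons (nat_lit 0x6080804000) (nat_lit 0x1bfb001158000) (.cons (nat_lit 0x5880c00000) (nat_lit 0x8d3515b) (.cons (nat_lit 0x5880a04000) (nat_lit 0x1dd4f6) (.cons (nat_lit 0x5880808000) (nat_lit 0x1500751e9a938) (.cons (nat_lit 0x5080e00000) (nat_lit 0x14) (.cons (nat_lit 0x5080c04000) (nat_lit 0x430a568) (.cons (nat_lit 0x5080a08000) (nat_lit 0x1d762c494) (.cons (nat_lit 0x508080c000) (nat_lit 0xdfb97) (.cons (nat_lit 0x4881000000) (nat_lit 0x71) (.cons (nat_lit 0x4880e04000) (nat_lit 0x4f) (.cons (nat_lit 0x4880c08000) (nat_lit 0x65809) (.cons (nat_lit 0x4880a0c000) (nat_lit 0xca0) (.cons (nat_lit 0x4880810000) (nat_lit 0x31f2) (.cons (nat_lit 0x4080e08000) (nat_lit 0x3a) (.cons (nat_lit 0x4080c0c000) (nat_lit 0x1e) (.cons (nat_lit 0x4080a10000) (nat_lit 0x78) (.nil))))))))))))))))))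

noncomputable def nb_5_4_50 : NE := .cons (nat_lit 0x7050808000) (nat_lit 0x6694000) (.cons (nat_lit 0x6860808000) (nat_lit 0x17406f901b800) (.cons (nat_lit 0x6850a08000) (nat_lit 0x49) (.cons (nat_lit 0x685080c000) (nat_lit 0x10d8) (.cons (nat_lit 0x6850808080) (nat_lit 0x24a9) (.cons (nat_lit 0x6070808000) (nat_lit 0x1bf5816800486) (.cons (nat_lit 0x6060a08000) (nat_lit 0x5e160326d) (.cons (nat_lit 0x606080c000) (nat_lit 0x19a3c08) (.cons (nat_lit 0x6060808080) (nat_lit 0x121b04) (.cons (nat_lit 0x6050a08080) (nat_lit 0x78) (.cons (nat_lit 0x6050810000) (nat_lit 0x13fa) (.cons (nat_lit 0x6050808100) (nat_lit 0xd) (.cons (nat_lit 0x5880808000) (nat_lit 0x16c3258ceaca6) (.cons (nat_lit 0x5870a08000) (nat_lit 0xd1ae3b8) (.cons (nat_lit 0x587080c000) (nat_lit 0xf1a5caf) (.cons (nat_lit 0x5870808080) (nat_lit 0xf2171) (.cons (nat_lit 0x5860a0c000) (nat_lit 0xf9d78) (.cons (nat_lit 0x5860a08080) (nat_lit 0x5e2)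 (.cons (nat_lit 0x5860810000) (nat_lit 0x163590) (.cons (nat_lit 0x586080c080) (nat_lit 0x319c) (.cons (nat_lit 0x5860808100) (nat_lit 0x2741) (.cons (nat_lit 0x5850a0c080) (nat_lit 0xd) (.cons (nat_lit 0x5090808000) (nat_lit 0xb43b8d) (.cons (nat_lit 0x5080a08000) (nat_lit 0x6f6ee43c4) (.cons (nat_lit 0x508080c000) (nat_lit 0x129d7c) (.cons (nat_lit 0x5080808080) (nat_lit 0x421) (.cons (nat_lit 0x5070a0c000) (nat_lit 0xa96a0) (.cons (nat_lit 0x5070a08080) (nat_lit 0x483) (.cons (nat_lit 0x5070810000) (nat_lit 0x83d04) (.cons (nat_lit 0x507080c080) (nat_lit 0x27d9) (.cons (nat_lit 0x5070808100) (nat_lit 0) (.cons (nat_lit 0x5060a10000) (nat_lit 0x391f) (.cons (nat_lit 0x5060a0c080) (nat_lit 0x1e) (.cons (nat_lit 0x5060a08100) (nat_lit 0x21) (.cons (nat_lit 0x5060810080) (nat_lit 0x1aec) (.cons (nat_lit 0x506080c100) (nat_lit 0x59) (.cons (nat_lit 0x5050810100) (nat_lit 0x71) (.cons (nat_lit 0x4890a08000) (nat_lit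 0xc) (.cons (nat_lit 0x489080c000) (nat_lit 6) (.cons (nat_lit 0x4890808080) (nat_lit 0x1b) (.cons (nat_lit 0x4880a0c000) (nat_lit 0x89) (.cons (nat_lit 0x4880a08080) (nat_lit 0x250f) (.cons (nat_lit 0x4880810000) (nat_lit 0x3548) (.cons (nat_lit 0x488080c080) (nat_lit 0x72) (.cons (nat_lit 0x4880808100) (nat_lit 0x54) (.cons (nat_lit 0x4870a10000) (nat_lit 3) (.cons (nat_lit 0x4870a0c080) (nat_lit 0x2445) (.cons (nat_lit 0x4870810080) (nat_lit 5) (.cons (nat_lit 0x487080c100) (nat_lit 0x7b) (.cons (nat_lit 0x4860a10080) (nat_lit 0x28) (.cons (nat_lit 0x4860a0c100) (nat_lit 0x56) (.cons (nat_lit 0x4860810100) (nat_lit 0x68) (.nil))))))))))))))))))))))))))))))))))))))))))))))))))))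

noncomputable def nb_5_4_49 : NE := .cons (nat_lit 0x7060608000) (nat_lit 0xa8e8000) (.cons (nat_lit 0x6870608000) (nat_lit 0x13b4aaa) (.cons (nat_lit 0x6860808000) (nat_lit 0xdd4c2d804100) (.cons (nat_lit 0x686060c000) (nat_lit 0x35) (.cons (nat_lit 0x6860608080) (nat_lit 0x3c90) (.cons (nat_lit 0x6080608000) (nat_lit 0x10f7e9a3) (.cons (nat_lit 0x6070808000) (nat_lit 0x1697d15c0ca84) (.cons (nat_lit 0x607060c000) (nat_lit 0x3c) (.cons (nat_lit 0x6070608080) (nat_lit 0x23) (.cons (nat_lit 0x6060a08000) (nat_lit 0x59c07318f) (.cons (nat_lit 0x606080c000) (nat_lit 0x578670b) (.cons (nat_lit 0x6060808080) (nat_lit 0x181256) (.cons (nat_lit 0x5890608000) (nat_lit 0xde050) (.cons (nat_lit 0x5880808000) (nat_lit 0xffc1241dc4ad) (.cons (nat_lit 0x588060c000) (nat_lit 0x7a) (.cons (nat_lit 0x5880608080) (nat_lit 0x2b1c) (.cons (nat_lit 0x5870a08000) (nat_lit 0xe455916) (.cons (nat_lit 0x587080c000) (nat_lit 0x649551c)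 (.cons (nat_lit 0x5870808080) (nat_lit 0x1408b7) (.cons (nat_lit 0x587060c080) (nat_lit 0x41) (.cons (nat_lit 0x5860c08000) (nat_lit 0x812bc9) (.cons (nat_lit 0x5860a0c000) (nat_lit 0x1346b4) (.cons (nat_lit 0x5860a08080) (nat_lit 0x383b) (.cons (nat_lit 0x586080c080) (nat_lit 0x1818) (.cons (nat_lit 0x5860808100) (nat_lit 0x1943) (.cons (nat_lit 0x5090808000) (nat_lit 0x1e3c842) (.cons (nat_lit 0x509060c000) (nat_lit 0x3c) (.cons (nat_lit 0x5090608080) (nat_lit 0xe) (.cons (nat_lit 0x5080a08000) (nat_lit 0x6b4a845e5) (.cons (nat_lit 0x508080c000) (nat_lit 0x48240) (.cons (nat_lit 0x5080808080) (nat_lit 0xf97) (.cons (nat_lit 0x5080608100) (nat_lit 0x5b) (.cons (nat_lit 0x5070c08000) (nat_lit 0xf3bd1) (.cons (nat_lit 0x5070a0c000) (nat_lit 0x1f2f2f) (.cons (nat_lit 0x5070a08080) (nat_lit 0x3620) (.cons (nat_lit 0x507080c080) (nat_lit 0x2229) (.cons (nat_lit 0x5070808100) (nat_lit 0x7e) (.cons (nat_lit 0x5060c0c000)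 (nat_lit 0x1a08f) (.cons (nat_lit 0x5060c08080) (nat_lit 0x3ce4) (.cons (nat_lit 0x5060a0c080) (nat_lit 0x7c) (.cons (nat_lit 0x5060a08100) (nat_lit 0x25) (.cons (nat_lit 0x506080c100) (nat_lit 0x3d) (.cons (nat_lit 0x4890a08000) (nat_lit 0x60) (.cons (nat_lit 0x489080c000) (nat_lit 0x72) (.cons (nat_lit 0x4890808080) (nat_lit 0x32) (.cons (nat_lit 0x489060c080) (nat_lit 0x13) (.cons (nat_lit 0x4880c08000) (nat_lit 0x14d783) (.cons (nat_lit 0x4880a0c000) (nat_lit 0x196f) (.cons (nat_lit 0x4880a08080) (nat_lit 0xe30) (.cons (nat_lit 0x488080c080) (nat_lit 0x39) (.cons (nat_lit 0x4880808100) (nat_lit 0x4a) (.cons (nat_lit 0x4870c0c000) (nat_lit 0x33) (.cons (nat_lit 0x4870c08080) (nat_lit 0x6e) (.cons (nat_lit 0x4870a0c080) (nat_lit 0x978) (.cons (nat_lit 0x487080c100) (nat_lit 0x1b) (.cons (nat_lit 0x4860c0c080) (nat_lit 0x25) (.cons (nat_lit 0x4860c08100) (nat_lit 5) (.cons (nat_lit 0x4860a0c100) (nat_lit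 0x11) (.nil))))))))))))))))))))))))))))))))))))))))))))))))))))))))))

noncomputable def nb_5_4_48 : NE := .cons (nat_lit 0x7060804000) (nat_lit 0x2846fa00000) (.cons (nat_lit 0x6870804000) (nat_lit 0x75c28f48ff00) (.cons (nat_lit 0x6860a04000) (nat_lit 0xc452400) (.cons (nat_lit 0x6860808000) (nat_lit 0x1ef974e386980) (.cons (nat_lit 0x6860804080) (nat_lit 0x4a) (.cons (nat_lit 0x6080804000) (nat_lit 0x19de6a8935356) (.cons (nat_lit 0x6070a04000) (nat_lit 0x2c9220f94) (.cons (nat_lit 0x6070808000) (nat_lit 0x18334097c5611) (.cons (nat_lit 0x6070804080) (nat_lit 0x12a4) (.cons (nat_lit 0x6060c04000) (nat_lit 0x1e1f48) (.cons (nat_lit 0x6060a08000) (nat_lit 0x4c7e62cb2) (.cons (nat_lit 0x6060a04080) (nat_lit 0x37) (.cons (nat_lit 0x606080c000) (nat_lit 0xeeca53c) (.cons (nat_lit 0x6060808080) (nat_lit 0x2ec30) (.cons (nat_lit 0x5890804000) (nat_lit 0x4d60d4c04) (.cons (nat_lit 0x5880a04000) (nat_lit 0x11ac0353c)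 (.cons (nat_lit 0x5880808000) (nat_lit 0x19b54a73e5c40) (.cons (nat_lit 0x5880804080) (nat_lit 0x3f2d) (.cons (nat_lit 0x5870c04000) (nat_lit 0x2ae4c00) (.cons (nat_lit 0x5870a08000) (nat_lit 0x28043f8) (.cons (nat_lit 0x5870a04080) (nat_lit 0xec4ca) (.cons (nat_lit 0x587080c000) (nat_lit 0x2eb98f2) (.cons (nat_lit 0x5870808080) (nat_lit 0x1eec4b) (.cons (nat_lit 0x5860c08000) (nat_lit 0x5e1f834) (.cons (nat_lit 0x5860a0c000) (nat_lit 0xbe776) (.cons (nat_lit 0x5860a08080) (nat_lit 0x3223) (.cons (nat_lit 0x5860810000) (nat_lit 0x162676) (.cons (nat_lit 0x586080c080) (nat_lit 0x3a6) (.cons (nat_lit 0x5090a04000) (nat_lit 0x17f178) (.cons (nat_lit 0x5090808000) (nat_lit 0xd495198) (.cons (nat_lit 0x5090804080) (nat_lit 0x42) (.cons (nat_lit 0x5080c04000) (nat_lit 0x29b1fec) (.cons (nat_lit 0x5080a08000) (nat_lit 0x4b5dd91d4) (.cons (nat_lit 0x5080a04080) (nat_lit 0x3e) (.cons (nat_lit 0x508080c000) (nat_lit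 0x4b25d) (.cons (nat_lit 0x5080808080) (nat_lit 0x25aa) (.cons (nat_lit 0x5070c08000) (nat_lit 0xe595a) (.cons (nat_lit 0x5070c04080) (nat_lit 0x59) (.cons (nat_lit 0x5070a0c000) (nat_lit 0x103b2b) (.cons (nat_lit 0x5070a08080) (nat_lit 0x1aea) (.cons (nat_lit 0x5070810000) (nat_lit 0x1ea1c2) (.cons (nat_lit 0x507080c080) (nat_lit 0x9b) (.cons (nat_lit 0x5060c0c000) (nat_lit 0x1cc7a3) (.cons (nat_lit 0x5060c08080) (nat_lit 0x3b7d) (.cons (nat_lit 0x5060a10000) (nat_lit 0x4ab) (.cons (nat_lit 0x5060a0c080) (nat_lit 0x45) (.cons (nat_lit 0x5060810080) (nat_lit 0x36f9) (.cons (nat_lit 0x4890c04000) (nat_lit 0x40) (.cons (nat_lit 0x4890a08000) (nat_lit 0x6e) (.cons (nat_lit 0x4890a04080) (nat_lit 6) (.cons (nat_lit 0x489080c000) (nat_lit 0x5a) (.cons (nat_lit 0x4890808080) (nat_lit 0x3e) (.cons (nat_lit 0x4880c08000) (nat_lit 0x171bc) (.cons (nat_lit 0x4880c04080) (nat_lit 0x7b) (.cons (nat_lit 0x4880a0c000) (nat_lit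 0x3a82) (.cons (nat_lit 0x4880a08080) (nat_lit 0x2cc0) (.cons (nat_lit 0x4880810000) (nat_lit 0x62c) (.cons (nat_lit 0x488080c080) (nat_lit 0xc) (.cons (nat_lit 0x4870c0c000) (nat_lit 0x1c) (.cons (nat_lit 0x4870c08080) (nat_lit 0x3a) (.cons (nat_lit 0x4870a10000) (nat_lit 6) (.cons (nat_lit 0x4870a0c080) (nat_lit 0x134) (.cons (nat_lit 0x4870810080) (nat_lit 0x64) (.cons (nat_lit 0x4860c10000) (nat_lit 0x29d8) (.cons (nat_lit 0x4860c0c080) (nat_lit 0x23) (.cons (nat_lit 0x4860a10080) (nat_lit 0x62) (.nil))))))))))))))))))))))))))))))))))))))))))))))))))))))))))))))))))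

noncomputable def nb_5_4_47 : NE := .cons (nat_lit 0x7060a00000) (nat_lit 0xea00000) (.cons (nat_lit 0x6870a00000) (nat_lit 0x1e2b00) (.cons (nat_lit 0x6860c00000) (nat_lit 0x59100) (.cons (nat_lit 0x6860a04000) (nat_lit 0x682c500) (.cons (nat_lit 0x6080a00000) (nat_lit 0x580714000) (.cons (nat_lit 0x6070c00000) (nat_lit 0x608fb) (.cons (nat_lit 0x6070a04000) (nat_lit 0x6ef5b977c) (.cons (nat_lit 0x6060c04000) (nat_lit 0xcdb8d) (.cons (nat_lit 0x6060a08000) (nat_lit 0x3fe1753f2) (.cons (nat_lit 0x5890a00000) (nat_lit 0x39c4) (.cons (nat_lit 0x5880c00000) (nat_lit 0x20963c2) (.cons (nat_lit 0x5880a04000) (nat_lit 0x73ce4cfef) (.cons (nat_lit 0x5870c04000) (nat_lit 0xde77298) (.cons (nat_lit 0x5870a08000) (nat_lit 0x53d4600) (.cons (nat_lit 0x5860c08000) (nat_lit 0x2b5e9c7) (.cons (nat_lit 0x5860a0c000) (nat_lit 0x11599e) (.cons (nat_lit 0x5090c00000) (nat_lit 0x2b2e) (.cons (nat_lit 0x5090a04000) (nat_lit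 0x1dc628) (.cons (nat_lit 0x5080c04000) (nat_lit 0x52410e9) (.cons (nat_lit 0x5080a08000) (nat_lit 0x57fe3600) (.cons (nat_lit 0x5070c08000) (nat_lit 0xa75c6) (.cons (nat_lit 0x5070a0c000) (nat_lit 0x21f2c) (.cons (nat_lit 0x5060c0c000) (nat_lit 0xb4232) (.cons (nat_lit 0x5060a10000) (nat_lit 0x37df) (.cons (nat_lit 0x4890c04000) (nat_lit 0x4f) (.cons (nat_lit 0x4890a08000) (nat_lit 0x62) (.cons (nat_lit 0x4880c08000) (nat_lit 0x1c7da1) (.cons (nat_lit 0x4880a0c000) (nat_lit 0x1af2) (.cons (nat_lit 0x4870c0c000) (nat_lit 0x3c) (.cons (nat_lit 0x4870a10000) (nat_lit 0x4c) (.cons (nat_lit 0x4860c10000) (nat_lit 0x37d8) (.nil)))))))))))))))))))))))))))))))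

noncomputable def nb_5_4_46 : NE := .cons (nat_lit 0x7070604000) (nat_lit 0xb1400000) (.cons (nat_lit 0x6880604000) (nat_lit 0x2dd55800) (.cons (nat_lit 0x6870804000) (nat_lit 0x1d15fd22aa780) (.cons (nat_lit 0x6870608000) (nat_lit 0x6814a96) (.cons (nat_lit 0x6870604080) (nat_lit 0x399f) (.cons (nat_lit 0x6090604000) (nat_lit 0x3c632a0) (.cons (nat_lit 0x6080804000) (nat_lit 0x450201920a07) (.cons (nat_lit 0x6080608000) (nat_lit 0x519616a31) (.cons (nat_lit 0x6080604080) (nat_lit 0x7b) (.cons (nat_lit 0x6070a04000) (nat_lit 0x5c0ad8540) (.cons (nat_lit 0x6070808000) (nat_lit 0x111ec640e69f1) (.cons (nat_lit 0x6070804080) (nat_lit 0x2e10) (.cons (nat_lit 0x607060c000) (nat_lit 0x22) (.cons (nat_lit 0x6070608080) (nat_lit 0x29) (.cons (nat_lit 0x5890804000) (nat_lit 0x45ca93217) (.cons (nat_lit 0x5890608000) (nat_lit 0x1e8140) (.cons (nat_lit 0x5890604080) (nat_lit 0x3a58) (.cons (nat_lit 0x5880a04000) (nat_lit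 0x24054c054) (.cons (nat_lit 0x5880808000) (nat_lit 0xf8d8e49763d) (.cons (nat_lit 0x5880804080) (nat_lit 0xe86) (.cons (nat_lit 0x588060c000) (nat_lit 0x59) (.cons (nat_lit 0x5880608080) (nat_lit 0x3c23) (.cons (nat_lit 0x5870c04000) (nat_lit 0xd914369) (.cons (nat_lit 0x5870a08000) (nat_lit 0x7504c5b) (.cons (nat_lit 0x5870a04080) (nat_lit 0xf37f8) (.cons (nat_lit 0x587080c000) (nat_lit 0xc09ebe7) (.cons (nat_lit 0x5870808080) (nat_lit 0xf6a9) (.cons (nat_lit 0x587060c080) (nat_lit 0x4f) (.cons (nat_lit 0x5090a04000) (nat_lit 0x104a49) (.cons (nat_lit 0x5090808000) (nat_lit 0xdc1b983) (.cons (nat_lit 0x5090804080) (nat_lit 8) (.cons (nat_lit 0x509060c000) (nat_lit 0x3d) (.cons (nat_lit 0x5090608080) (nat_lit 0xa) (.cons (nat_lit 0x5080c04000) (nat_lit 0x873c813) (.cons (nat_lit 0x5080a08000) (nat_lit 0x7453bb643) (.cons (nat_lit 0x5080a04080) (nat_lit 0x6d) (.cons (nat_lit 0x508080c000) (nat_lit 0x192fa4)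 (.cons (nat_lit 0x5080808080) (nat_lit 0x33a5) (.cons (nat_lit 0x5070e04000) (nat_lit 0x71) (.cons (nat_lit 0x5070c08000) (nat_lit 0x12ac5e) (.cons (nat_lit 0x5070c04080) (nat_lit 0x37) (.cons (nat_lit 0x5070a0c000) (nat_lit 0x69771) (.cons (nat_lit 0x5070a08080) (nat_lit 0x243f) (.cons (nat_lit 0x507080c080) (nat_lit 0x3d9b) (.cons (nat_lit 0x4890c04000) (nat_lit 0x1e) (.cons (nat_lit 0x4890a08000) (nat_lit 0x33) (.cons (nat_lit 0x4890a04080) (nat_lit 0) (.cons (nat_lit 0x489080c000) (nat_lit 0x65) (.cons (nat_lit 0x4890808080) (nat_lit 0x64) (.cons (nat_lit 0x489060c080) (nat_lit 0x22) (.cons (nat_lit 0x4880e04000) (nat_lit 0x58) (.cons (nat_lit 0x4880c08000) (nat_lit 0x16a1c0) (.cons (nat_lit 0x4880c04080) (nat_lit 0x3d) (.cons (nat_lit 0x4880a0c000) (nat_lit 0x1331) (.cons (nat_lit 0x4880a08080) (nat_lit 0x3b1f) (.cons (nat_lit 0x488080c080) (nat_lit 0x72) (.cons (nat_lit 0x4870e04080) (nat_lit 0x25) (.cons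 (nat_lit 0x4870c0c000) (nat_lit 0x52) (.cons (nat_lit 0x4870c08080) (nat_lit 0x5d) (.cons (nat_lit 0x4870a0c080) (nat_lit 0x344c) (.nil))))))))))))))))))))))))))))))))))))))))))))))))))))))))))))

noncomputable def nb_5_4_45 : NE := .cons (nat_lit 0x7070800000) (nat_lit 0x8000000000) (.cons (nat_lit 0x6880800000) (nat_lit 0x38014282c000) (.cons (nat_lit 0x6870a00000) (nat_lit 0x10ef00) (.cons (nat_lit 0x6870804000) (nat_lit 0x19d0800811a80) (.cons (nat_lit 0x6090800000) (nat_lit 0x5f5fe0000) (.cons (nat_lit 0x6080a00000) (nat_lit 0x64e898000) (.cons (nat_lit 0x6080804000) (nat_lit 0x2d67b335e785) (.cons (nat_lit 0x6070c00000) (nat_lit 0xa2917) (.cons (nat_lit 0x6070a04000) (nat_lit 0x4986ac895) (.cons (nat_lit 0x6070808000) (nat_lit 0x36312e7c816) (.cons (nat_lit 0x5890a00000) (nat_lit 0x1600) (.cons (nat_lit 0x5890804000) (nat_lit 0x629d06ff8) (.cons (nat_lit 0x5880c00000) (nat_lit 0x452515d) (.cons (nat_lit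 0x5880a04000) (nat_lit 0x25184d1d6) (.cons (nat_lit 0x5880808000) (nat_lit 0x16cfb767f28ec) (.cons (nat_lit 0x5870c04000) (nat_lit 0xe68a2ee) (.cons (nat_lit 0x5870a08000) (nat_lit 0x41f84b5) (.cons (nat_lit 0x587080c000) (nat_lit 0xf7359c5) (.cons (nat_lit 0x5090c00000) (nat_lit 0xd) (.cons (nat_lit 0x5090a04000) (nat_lit 0x1dee08) (.cons (nat_lit 0x5090808000) (nat_lit 0x99e96c4) (.cons (nat_lit 0x5080e00000) (nat_lit 0x36) (.cons (nat_lit 0x5080c04000) (nat_lit 0x494eadc) (.cons (nat_lit 0x5080a08000) (nat_lit 0x20ef56725) (.cons (nat_lit 0x508080c000) (nat_lit 0x95629) (.cons (nat_lit 0x5070e04000) (nat_lit 0x73) (.cons (nat_lit 0x5070c08000) (nat_lit 0xc4a15) (.cons (nat_lit 0x5070a0c000) (nat_lit 0x1895a7) (.cons (nat_lit 0x5070810000) (nat_lit 0x17113c) (.cons (nat_lit 0x4890c04000) (nat_lit 0x36) (.cons (nat_lit 0x4890a08000) (nat_lit 0x79) (.cons (nat_lit 0x489080c000) (nat_lit 0x5e) (.cons (nat_lit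 0x4880e04000) (nat_lit 0x44) (.cons (nat_lit 0x4880c08000) (nat_lit 0xeac3f) (.cons (nat_lit 0x4880a0c000) (nat_lit 0xdea) (.cons (nat_lit 0x4880810000) (nat_lit 0x1a22) (.cons (nat_lit 0x4870c0c000) (nat_lit 0x16) (.cons (nat_lit 0x4870a10000) (nat_lit 0x51) (.nil))))))))))))))))))))))))))))))))))))))

noncomputable def nb_5_4_44 : NE := .cons (nat_lit 0x7080404000) (nat_lit 0x200000) (.cons (nat_lit 0x6890404000) (nat_lit 0x867bb80) (.cons (nat_lit 0x6880604000) (nat_lit 0x50015da80) (.cons (nat_lit 0x6880408000) (nat_lit 0x162ee5180) (.cons (nat_lit 0x6880404080) (nat_lit 0xe) (.cons (nat_lit 0x6090604000) (nat_lit 0x9d0bf11) (.cons (nat_lit 0x6090408000) (nat_lit 0x5c0ab) (.cons (nat_lit 0x6090404080) (nat_lit 2) (.cons (nat_lit 0x6080804000) (nat_lit 0x7921d39ac) (.cons (nat_lit 0x6080608000) (nat_lit 0x3a7eb789e) (.cons (nat_lit 0x6080604080) (nat_lit 0x4b) (.cons (nat_lit 0x6080408080) (nat_lit 0x25e8)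 (.cons (nat_lit 0x5890804000) (nat_lit 0x1922633d5) (.cons (nat_lit 0x5890608000) (nat_lit 0x22ae7) (.cons (nat_lit 0x5890604080) (nat_lit 0x3565) (.cons (nat_lit 0x5890408080) (nat_lit 0x5e) (.cons (nat_lit 0x5880a04000) (nat_lit 0x354bc7df8) (.cons (nat_lit 0x5880808000) (nat_lit 0x13db009ef0b93) (.cons (nat_lit 0x5880804080) (nat_lit 0x3315) (.cons (nat_lit 0x5880608080) (nat_lit 0x8e4) (.cons (nat_lit 0x5090a04000) (nat_lit 0xd1fbb) (.cons (nat_lit 0x5090808000) (nat_lit 0xc34b53a) (.cons (nat_lit 0x5090804080) (nat_lit 0x73) (.cons (nat_lit 0x5090608080) (nat_lit 0x66) (.cons (nat_lit 0x5080c04000) (nat_lit 0x11e7d80) (.cons (nat_lit 0x5080a08000) (nat_lit 0x518bdda34) (.cons (nat_lit 0x5080a04080) (nat_lit 0x3a) (.cons (nat_lit 0x5080808080) (nat_lit 0x27ca) (.cons (nat_lit 0x4890c04000) (nat_lit 0x72) (.cons (nat_lit 0x4890a08000) (nat_lit 0x7d) (.cons (nat_lit 0x4890a04080) (nat_lit 0x52) (.cons (nat_lit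 0x4890808080) (nat_lit 0x52) (.cons (nat_lit 0x4880e04000) (nat_lit 0x1b) (.cons (nat_lit 0x4880c08000) (nat_lit 0x2bd74) (.cons (nat_lit 0x4880c04080) (nat_lit 0x68) (.cons (nat_lit 0x4880a08080) (nat_lit 0x18f) (.nil))))))))))))))))))))))))))))))))))))

noncomputable def nb_5_4_43 : NE := .cons (nat_lit 0x7080600000) (nat_lit 0x1800000000) (.cons (nat_lit 0x6890600000) (nat_lit 0x3c0880) (.cons (nat_lit 0x6880800000) (nat_lit 0x18bb3a2784000) (.cons (nat_lit 0x6880604000) (nat_lit 0x6b78600) (.cons (nat_lit 0x6090800000) (nat_lit 0x54601a980) (.cons (nat_lit 0x6090604000) (nat_lit 0xf85183a) (.cons (nat_lit 0x6080a00000) (nat_lit 0x5342b0880) (.cons (nat_lit 0x6080804000) (nat_lit 0x1f2a12552111c) (.cons (nat_lit 0x6080608000) (nat_lit 0xc5a14a4) (.cons (nat_lit 0x5890a00000) (nat_lit 0x3e96) (.cons (nat_lit 0x5890804000) (nat_lit 0x6f107c7f4) (.cons (nat_lit 0x5890608000) (nat_lit 0xb4f93) (.cons (nat_lit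 0x5880c00000) (nat_lit 0x95eb7aa) (.cons (nat_lit 0x5880a04000) (nat_lit 0x71ca06198) (.cons (nat_lit 0x5880808000) (nat_lit 0x16bb273587a94) (.cons (nat_lit 0x588060c000) (nat_lit 0xe) (.cons (nat_lit 0x5090c00000) (nat_lit 0xc3e) (.cons (nat_lit 0x5090a04000) (nat_lit 0x1d81c6) (.cons (nat_lit 0x5090808000) (nat_lit 0xf1832ab) (.cons (nat_lit 0x509060c000) (nat_lit 0x66) (.cons (nat_lit 0x5080e00000) (nat_lit 0xd) (.cons (nat_lit 0x5080c04000) (nat_lit 0x1ecc836) (.cons (nat_lit 0x5080a08000) (nat_lit 0x12b412c5) (.cons (nat_lit 0x508080c000) (nat_lit 0x148631) (.cons (nat_lit 0x4890c04000) (nat_lit 0x48) (.cons (nat_lit 0x4890a08000) (nat_lit 0x1e) (.cons (nat_lit 0x489080c000) (nat_lit 0x42) (.cons (nat_lit 0x4881000000) (nat_lit 0x33) (.cons (nat_lit 0x4880e04000) (nat_lit 0x30) (.cons (nat_lit 0x4880c08000) (nat_lit 0x13cee5) (.cons (nat_lit 0x4880a0c000) (nat_lit 0x2718) (.nil)))))))))))))))))))))))))))))))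

noncomputable def nb_5_4_42 : NE := .cons (nat_lit 0x7840808000) (nat_lit 0xfa604) (.cons (nat_lit 0x7050808000) (nat_lit 0x12bdd0) (.cons (nat_lit 0x704080c000) (nat_lit 0x59) (.cons (nat_lit 0x7040808080) (nat_lit 0x7a) (.cons (nat_lit 0x6860808000) (nat_lit 0x22f080bb708e) (.cons (nat_lit 0x685080c000) (nat_lit 0x2560) (.cons (nat_lit 0x6850808080) (nat_lit 0x3874) (.cons (nat_lit 0x6840810000) (nat_lit 0x5ca) (.cons (nat_lit 0x6840808100) (nat_lit 0x3a) (.cons (nat_lit 0x6070808000) (nat_lit 0x96290cb69ddd) (.cons (nat_lit 0x606080c000) (nat_lit 0xb13d9fc) (.cons (nat_lit 0x6060808080) (nat_lit 0xb3157) (.cons (nat_lit 0x6050810000) (nat_lit 0x1c93) (.cons (nat_lit 0x6050808100) (nat_lit 0xb) (.cons (nat_lit 0x6040810080) (nat_lit 0x77) (.cons (nat_lit 0x5880808000) (nat_lit 0x1caa45ed7dba5) (.cons (nat_lit 0x587080c000) (nat_lit 0x1d8ed1e) (.cons (nat_lit 0x5870808080) (nat_lit 0x86c4) (.cons (nat_lit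 0x5860810000) (nat_lit 0x99745) (.cons (nat_lit 0x586080c080) (nat_lit 0x1359) (.cons (nat_lit 0x5860808100) (nat_lit 0x35ac) (.cons (nat_lit 0x5840810100) (nat_lit 0x41) (.cons (nat_lit 0x5090808000) (nat_lit 0x720bdc4) (.cons (nat_lit 0x508080c000) (nat_lit 0xd18d6) (.cons (nat_lit 0x5080808080) (nat_lit 0x1f8) (.cons (nat_lit 0x5070810000) (nat_lit 0x11c27a) (.cons (nat_lit 0x507080c080) (nat_lit 0x74a) (.cons (nat_lit 0x5070808100) (nat_lit 3) (.cons (nat_lit 0x5060810080) (nat_lit 0x1f86) (.cons (nat_lit 0x506080c100) (nat_lit 0x6a) (.cons (nat_lit 0x5050810100) (nat_lit 0x7c) (.nil)))))))))))))))))))))))))))))))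

noncomputable def nb_5_4_41 : NE := .cons (nat_lit 0x7850804000) (nat_lit 0xc2180) (.cons (nat_lit 0x7060804000) (nat_lit 0x1dc0428e873) (.cons (nat_lit 0x7050a04000) (nat_lit 0x3e) (.cons (nat_lit 0x7050808000) (nat_lit 0x79b922e) (.cons (nat_lit 0x7050804080) (nat_lit 0x20) (.cons (nat_lit 0x6870804000) (nat_lit 0x131837ba2a82d) (.cons (nat_lit 0x6860a04000) (nat_lit 0x6a8a93e) (.cons (nat_lit 0x6860808000) (nat_lit 0x13a08acdce412) (.cons (nat_lit 0x6860804080) (nat_lit 0x63) (.cons (nat_lit 0x6850a08000) (nat_lit 0x34) (.cons (nat_lit 0x6850a04080) (nat_lit 0x6f) (.cons (nat_lit 0x685080c000) (nat_lit 0x296) (.cons (nat_lit 0x6850808080) (nat_lit 0x3893) (.cons (nat_lit 0x6080804000) (nat_lit 0x1ebaf546ee8bf) (.cons (nat_lit 0x6070a04000) (nat_lit 0x4229ddf38) (.cons (nat_lit 0x6070808000) (nat_lit 0x1975f48c46ed3) (.cons (nat_lit 0x6070804080) (nat_lit 0x3bf4) (.cons (nat_lit 0x6060a08000) (nat_lit 0x4c1b0266e)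 (.cons (nat_lit 0x6060a04080) (nat_lit 0x13) (.cons (nat_lit 0x606080c000) (nat_lit 0x607a60c) (.cons (nat_lit 0x6060808080) (nat_lit 0x1049e7) (.cons (nat_lit 0x6050a08080) (nat_lit 0x2a) (.cons (nat_lit 0x6050810000) (nat_lit 0x3262) (.cons (nat_lit 0x5890804000) (nat_lit 0x7c9061266) (.cons (nat_lit 0x5880a04000) (nat_lit 0x2b04f8206) (.cons (nat_lit 0x5880808000) (nat_lit 0x16d134a64ab71) (.cons (nat_lit 0x5880804080) (nat_lit 0x1784) (.cons (nat_lit 0x5870a08000) (nat_lit 0x1bf05af) (.cons (nat_lit 0x5870a04080) (nat_lit 0x1900ef) (.cons (nat_lit 0x587080c000) (nat_lit 0x66943a1) (.cons (nat_lit 0x5870808080) (nat_lit 0x1ec234) (.cons (nat_lit 0x5860a0c000) (nat_lit 0x6226b) (.cons (nat_lit 0x5860a08080) (nat_lit 0x2bc6) (.cons (nat_lit 0x5860810000) (nat_lit 0x45718) (.cons (nat_lit 0x586080c080) (nat_lit 0x22ca) (.cons (nat_lit 0x5850a0c080) (nat_lit 0x15) (.cons (nat_lit 0x50a0804000) (nat_lit 0x124b)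 (.cons (nat_lit 0x5090a04000) (nat_lit 0xd3f1e) (.cons (nat_lit 0x5090808000) (nat_lit 0xa673065) (.cons (nat_lit 0x5090804080) (nat_lit 0x19) (.cons (nat_lit 0x5080a08000) (nat_lit 0x44cf79dbc) (.cons (nat_lit 0x5080a04080) (nat_lit 0x5d) (.cons (nat_lit 0x508080c000) (nat_lit 0x117aca) (.cons (nat_lit 0x5080808080) (nat_lit 0x1740) (.cons (nat_lit 0x5070a0c000) (nat_lit 0x1e62fa) (.cons (nat_lit 0x5070a08080) (nat_lit 0x377e) (.cons (nat_lit 0x5070810000) (nat_lit 0xd5577) (.cons (nat_lit 0x507080c080) (nat_lit 0x1b01) (.cons (nat_lit 0x5060a10000) (nat_lit 0x30b0) (.cons (nat_lit 0x5060a0c080) (nat_lit 0x2e) (.cons (nat_lit 0x5060810080) (nat_lit 0x3d97) (.nil)))))))))))))))))))))))))))))))))))))))))))))))))))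

noncomputable def nb_5_4_40 : NE := .cons (nat_lit 0x7860408000) (nat_lit 0x5607580) (.cons (nat_lit 0x7070408000) (nat_lit 0xca598) (.cons (nat_lit 0x7060608000) (nat_lit 0xbc3a225) (.cons (nat_lit 0x7060408080) (nat_lit 0x390a) (.cons (nat_lit 0x6880408000) (nat_lit 0x2e16c66d4) (.cons (nat_lit 0x6870608000) (nat_lit 0xc66cba6) (.cons (nat_lit 0x6860808000) (nat_lit 0xca74f1fd107a) (.cons (nat_lit 0x6860608080) (nat_lit 0x37e1) (.cons (nat_lit 0x6860408100) (nat_lit 0x49) (.cons (nat_lit 0x6090408000) (nat_lit 0x15d627) (.cons (nat_lit 0x6080608000) (nat_lit 0x2bb5d9295) (.cons (nat_lit 0x6080408080) (nat_lit 0x3de4) (.cons (nat_lit 0x6070808000) (nat_lit 0x5cec39814e34) (.cons (nat_lit 0x6070608080) (nat_lit 0x3d) (.cons (nat_lit 0x6070408100) (nat_lit 0x22) (.cons (nat_lit 0x6060a08000) (nat_lit 0x45bdc0a36) (.cons (nat_lit 0x6060808080) (nat_lit 0xfbd50) (.cons (nat_lit 0x58a0408000) (nat_lit 0x370)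 (.cons (nat_lit 0x5890608000) (nat_lit 0x6b58f) (.cons (nat_lit 0x5890408080) (nat_lit 0x25) (.cons (nat_lit 0x5880808000) (nat_lit 0xbdfa5e2c85bb) (.cons (nat_lit 0x5880608080) (nat_lit 0x1901) (.cons (nat_lit 0x5880408100) (nat_lit 0x2d) (.cons (nat_lit 0x5870a08000) (nat_lit 0x75c61a0) (.cons (nat_lit 0x5870808080) (nat_lit 0x46e53) (.cons (nat_lit 0x5860c08000) (nat_lit 0x183365d) (.cons (nat_lit 0x5860a08080) (nat_lit 0x23e) (.cons (nat_lit 0x5860808100) (nat_lit 0x3e4b) (.cons (nat_lit 0x50a0608000) (nat_lit 4) (.cons (nat_lit 0x50a0408080) (nat_lit 0x2c) (.cons (nat_lit 0x5090808000) (nat_lit 0x58d4d14) (.cons (nat_lit 0x5090608080) (nat_lit 0xc) (.cons (nat_lit 0x5080a08000) (nat_lit 0xb11dfef5) (.cons (nat_lit 0x5080808080) (nat_lit 0xc3e) (.cons (nat_lit 0x5080608100) (nat_lit 0x38) (.cons (nat_lit 0x5070c08000) (nat_lit 0x1d2800) (.cons (nat_lit 0x5070a08080) (nat_lit 0x1d61) (.cons (nat_lit 0x5070808100)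 (nat_lit 0x6c) (.cons (nat_lit 0x5060c08080) (nat_lit 0x25f7) (.cons (nat_lit 0x5060a08100) (nat_lit 0x76) (.nil))))))))))))))))))))))))))))))))))))))))

noncomputable def nb_5_4_39 : NE := .cons (nat_lit 0x7860604000) (nat_lit 0x3a00000) (.cons (nat_lit 0x7070604000) (nat_lit 0x152928000) (.cons (nat_lit 0x7060804000) (nat_lit 0x8fa1544000) (.cons (nat_lit 0x7060608000) (nat_lit 0xfa78380) (.cons (nat_lit 0x6880604000) (nat_lit 0x13fdf5980) (.cons (nat_lit 0x6870804000) (nat_lit 0x1ce7f086ff080) (.cons (nat_lit 0x6870608000) (nat_lit 0xda92aab) (.cons (nat_lit 0x6870604080) (nat_lit 0x33eb) (.cons (nat_lit 0x6860a04000) (nat_lit 0x44d4600) (.cons (nat_lit 0x6860808000) (nat_lit 0x10f64bbf6700) (.cons (nat_lit 0x6860804080) (nat_lit 0x25) (.cons (nat_lit 0x686060c000) (nat_lit 0x73) (.cons (nat_lit 0x6860608080) (nat_lit 0x3db5) (.cons (nat_lit 0x6090604000) (nat_lit 0x41cd38b) (.cons (nat_lit 0x6080804000)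 (nat_lit 0xb7d6545fa688) (.cons (nat_lit 0x6080608000) (nat_lit 0x1fe539582) (.cons (nat_lit 0x6080604080) (nat_lit 0) (.cons (nat_lit 0x6070a04000) (nat_lit 0x443a2e75e) (.cons (nat_lit 0x6070808000) (nat_lit 0x9969f264ee3b) (.cons (nat_lit 0x6070804080) (nat_lit 0x2363) (.cons (nat_lit 0x607060c000) (nat_lit 8) (.cons (nat_lit 0x6070608080) (nat_lit 0x17) (.cons (nat_lit 0x6060c04000) (nat_lit 0x7f538) (.cons (nat_lit 0x6060a08000) (nat_lit 0x2abb5c25) (.cons (nat_lit 0x6060a04080) (nat_lit 0x58) (.cons (nat_lit 0x606080c000) (nat_lit 0x8f9b612) (.cons (nat_lit 0x6060808080) (nat_lit 0x7dd4d) (.cons (nat_lit 0x58a0604000) (nat_lit 0x60213) (.cons (nat_lit 0x5890804000) (nat_lit 0x11f431471) (.cons (nat_lit 0x5890608000) (nat_lit 0x11e722) (.cons (nat_lit 0x5890604080) (nat_lit 0x3ab7) (.cons (nat_lit 0x5880a04000) (nat_lit 0x7e5f2c602) (.cons (nat_lit 0x5880808000) (nat_lit 0x18a510e4605d2) (.cons (nat_lit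 0x5880804080) (nat_lit 0xac7) (.cons (nat_lit 0x588060c000) (nat_lit 0x46) (.cons (nat_lit 0x5880608080) (nat_lit 0xdbb) (.cons (nat_lit 0x5870c04000) (nat_lit 0x77235b6) (.cons (nat_lit 0x5870a08000) (nat_lit 0xf9f284e) (.cons (nat_lit 0x5870a04080) (nat_lit 0x7b828) (.cons (nat_lit 0x587080c000) (nat_lit 0xbe1f6d3) (.cons (nat_lit 0x5870808080) (nat_lit 0x1256e) (.cons (nat_lit 0x587060c080) (nat_lit 0x34) (.cons (nat_lit 0x5860c08000) (nat_lit 0x57d055d) (.cons (nat_lit 0x5860a0c000) (nat_lit 0x12c734) (.cons (nat_lit 0x5860a08080) (nat_lit 0x1838) (.cons (nat_lit 0x586080c080) (nat_lit 0xce) (.cons (nat_lit 0x50a0804000) (nat_lit 0x173b) (.cons (nat_lit 0x50a0608000) (nat_lit 0x20) (.cons (nat_lit 0x5090a04000) (nat_lit 0x1e4307) (.cons (nat_lit 0x5090808000) (nat_lit 0xbd9c5c) (.cons (nat_lit 0x5090804080) (nat_lit 0x51) (.cons (nat_lit 0x509060c000) (nat_lit 0x3e) (.cons (nat_lit 0x5090608080) (nat_lit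 0x6c) (.cons (nat_lit 0x5080c04000) (nat_lit 0x34e229d) (.cons (nat_lit 0x5080a08000) (nat_lit 0x6cbf79fb2) (.cons (nat_lit 0x5080a04080) (nat_lit 0x17) (.cons (nat_lit 0x508080c000) (nat_lit 0x6eb63) (.cons (nat_lit 0x5080808080) (nat_lit 0x1d0c) (.cons (nat_lit 0x5070c08000) (nat_lit 0x8d407) (.cons (nat_lit 0x5070c04080) (nat_lit 0x58) (.cons (nat_lit 0x5070a0c000) (nat_lit 0x7818b) (.cons (nat_lit 0x5070a08080) (nat_lit 0x3306) (.cons (nat_lit 0x507080c080) (nat_lit 0x1f43) (.cons (nat_lit 0x5060c0c000) (nat_lit 0x178646) (.cons (nat_lit 0x5060c08080) (nat_lit 0x2c48) (.cons (nat_lit 0x5060a0c080) (nat_lit 0x5b) (.nil))))))))))))))))))))))))))))))))))))))))))))))))))))))))))))))))))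

noncomputable def nb_5_4_38 : NE := .cons (nat_lit 0x7860800000) (nat_lit 0x9f1f40800000fd800016c0000000000) (.cons (nat_lit 0x7070800000) (nat_lit 0x3a59e28bd62b4035a50000056fc00060) (.cons (nat_lit 0x7060a00000) (nat_lit 0xc19ae3200000337200074) (.cons (nat_lit 0x7060804000) (nat_lit 0x2bca1a7163efce30e97f58480fbd8000) (.cons (nat_lit 0x6880800000) (nat_lit 0x55665c015be024e5f5b339768e4500d20002f) (.cons (nat_lit 0x6870a00000) (nat_lit 0x5e4ac93fe3400071) (.cons (nat_lit 0x6870804000) (nat_lit 0x607ebb81fb3ad2c6e942bee0d4d6a4d030056) (.cons (nat_lit 0x6860c00000) (nat_lit 0x4b34b56c57abcf0e0c070) (.cons (nat_lit 0x6860a04000) (nat_lit 0xf97159e11737de3c34025) (.cons (nat_lit 0x6860808000) (nat_lit 0x728f142d51c99def0f7d3bde380f88bf44015) (.cons (nat_lit 0x6090800000) (nat_lit 0x19d2acc9a5468030004eea03215) (.cons (nat_lit 0x6080a00000) (nat_lit 0x163f2693615b017b401bd0033bd) (.cons (nat_lit 0x6080804000)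 (nat_lit 0x50494988604cf923b87c2b16a7fd1877b562d) (.cons (nat_lit 0x6070c00000) (nat_lit 0x1e7947ee27ec4d07) (.cons (nat_lit 0x6070a04000) (nat_lit 0x109d426a0a7c36926a633959027) (.cons (nat_lit 0x6070808000) (nat_lit 0x622ae4125b2d8dc67607dbe355b014f0976d5) (.cons (nat_lit 0x6060c04000) (nat_lit 0x30762b2fdaba7968) (.cons (nat_lit 0x6060a08000) (nat_lit 0xa5b9b1d483e7a02e5e4f32a44c) (.cons (nat_lit 0x606080c000) (nat_lit 0xedaee21d2324e7222db7e) (.cons (nat_lit 0x58a0800000) (nat_lit 0x7cfcdf3861c60f9e) (.cons (nat_lit 0x5890a00000) (nat_lit 0x1f640800d29) (.cons (nat_lit 0x5890804000) (nat_lit 0x49da74c493554933caeb37114f) (.cons (nat_lit 0x5880c00000) (nat_lit 0x8cd39f1218243b9ef2ae) (.cons (nat_lit 0x5880a04000) (nat_lit 0x13935e93923733327d4739f50ed) (.cons (nat_lit 0x5880808000) (nat_lit 0x17adcd808697c2ccf1c9f90d29c0aed66c018) (.cons (nat_lit 0x5870c04000) (nat_lit 0xa06b0f7b32c781dbc2824) (.cons (nat_lit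 0x5870a08000) (nat_lit 0x73c369eabeeca4c6ffc9b) (.cons (nat_lit 0x587080c000) (nat_lit 0xdfef669ce485dcb25612a) (.cons (nat_lit 0x5860c08000) (nat_lit 0xaebe666f1a0b536ac845c) (.cons (nat_lit 0x5860a0c000) (nat_lit 0x23b1ccf1e7885a8f) (.cons (nat_lit 0x5860810000) (nat_lit 0x1d074fb7ca456287) (.cons (nat_lit 0x50a0a00000) (nat_lit 0x1ea971cf5e603a3b) (.cons (nat_lit 0x50a0804000) (nat_lit 0x3b4b603770c) (.cons (nat_lit 0x5090c00000) (nat_lit 0x53a0c4366) (.cons (nat_lit 0x5090a04000) (nat_lit 0x1bce690e44950931) (.cons (nat_lit 0x5090808000) (nat_lit 0xf9e84f9501966ecf983b4) (.cons (nat_lit 0x5080c04000) (nat_lit 0xd33e72ec2fb7fc759968c) (.cons (nat_lit 0x5080a08000) (nat_lit 0x1028681cc3058474c12f3351685) (.cons (nat_lit 0x508080c000) (nat_lit 0x685e9a17965aad9a) (.cons (nat_lit 0x5070c08000) (nat_lit 0x6bec5ec9f4bee478) (.cons (nat_lit 0x5070a0c000) (nat_lit 0x74764a528676f72e) (.cons (nat_lit 0x5070810000)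 (nat_lit 0x838f59206d685dc) (.cons (nat_lit 0x5060c0c000) (nat_lit 0x553bfba1c57e4d37) (.cons (nat_lit 0x5060a10000) (nat_lit 0x342674e361f) (.nil))))))))))))))))))))))))))))))))))))))))))))

noncomputable def nb_5_4_37 : NE := .cons (nat_lit 0x7870404000) (nat_lit 0x678c000) (.cons (nat_lit 0x7080404000) (nat_lit 0xc165871) (.cons (nat_lit 0x7070604000) (nat_lit 0x71b01ab31) (.cons (nat_lit 0x7070408000) (nat_lit 0x3132) (.cons (nat_lit 0x7070404080) (nat_lit 0x73) (.cons (nat_lit 0x6890404000) (nat_lit 0x921ce6) (.cons (nat_lit 0x6880604000) (nat_lit 0x6157ea8a) (.cons (nat_lit 0x6880408000) (nat_lit 0x777b9e2b5) (.cons (nat_lit 0x6880404080) (nat_lit 0x5a) (.cons (nat_lit 0x6870804000) (nat_lit 0x15671feafeeec) (.cons (nat_lit 0x6870608000) (nat_lit 0xeee0cae) (.cons (nat_lit 0x6870604080) (nat_lit 0x2364) (.cons (nat_lit 0x60a0404000) (nat_lit 0x76075) (.cons (nat_lit 0x6090604000) (nat_lit 0xf2ef504)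 (.cons (nat_lit 0x6090408000) (nat_lit 0x9a133) (.cons (nat_lit 0x6090404080) (nat_lit 0x28) (.cons (nat_lit 0x6080804000) (nat_lit 0x167c9ecc569b9) (.cons (nat_lit 0x6080608000) (nat_lit 0xdf2171ec) (.cons (nat_lit 0x6080604080) (nat_lit 0x20) (.cons (nat_lit 0x6080408080) (nat_lit 0x8c9) (.cons (nat_lit 0x6070a04000) (nat_lit 0x1dc80cd38) (.cons (nat_lit 0x6070808000) (nat_lit 0x14ce62c345d06) (.cons (nat_lit 0x6070804080) (nat_lit 0x1f30) (.cons (nat_lit 0x6070608080) (nat_lit 0x5b) (.cons (nat_lit 0x58a0604000) (nat_lit 0x13de3b) (.cons (nat_lit 0x58a0408000) (nat_lit 0x3d8a) (.cons (nat_lit 0x5890804000) (nat_lit 0x1a0ca8d6f) (.cons (nat_lit 0x5890608000) (nat_lit 0xe07e9) (.cons (nat_lit 0x5890604080) (nat_lit 0x1d52) (.cons (nat_lit 0x5890408080) (nat_lit 0x3c) (.cons (nat_lit 0x5880a04000) (nat_lit 0x4c5568f41) (.cons (nat_lit 0x5880808000) (nat_lit 0x14517c87bed00) (.cons (nat_lit 0x5880804080) (nat_lit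 0x2203) (.cons (nat_lit 0x5880608080) (nat_lit 0x225d) (.cons (nat_lit 0x5870c04000) (nat_lit 0x392f2e6) (.cons (nat_lit 0x5870a08000) (nat_lit 0x7f9d090) (.cons (nat_lit 0x5870a04080) (nat_lit 0x1ec3a2) (.cons (nat_lit 0x5870808080) (nat_lit 0x17e63c) (.cons (nat_lit 0x50a0804000) (nat_lit 0x1554) (.cons (nat_lit 0x50a0608000) (nat_lit 0x3f) (.cons (nat_lit 0x50a0408080) (nat_lit 0x56) (.cons (nat_lit 0x5090a04000) (nat_lit 0x163107) (.cons (nat_lit 0x5090808000) (nat_lit 0xbe7f417) (.cons (nat_lit 0x5090804080) (nat_lit 4) (.cons (nat_lit 0x5090608080) (nat_lit 0x3e) (.cons (nat_lit 0x5080c04000) (nat_lit 0x4f03f20) (.cons (nat_lit 0x5080a08000) (nat_lit 0x6e005e40a) (.cons (nat_lit 0x5080a04080) (nat_lit 0x3d) (.cons (nat_lit 0x5080808080) (nat_lit 0x2ada) (.cons (nat_lit 0x5070e04000) (nat_lit 0x3f) (.cons (nat_lit 0x5070c08000) (nat_lit 0x157d4) (.cons (nat_lit 0x5070c04080) (nat_lit 0x35) (.cons (nat_lit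 0x5070a08080) (nat_lit 0x39ca) (.nil)))))))))))))))))))))))))))))))))))))))))))))))))))))

noncomputable def nb_5_4_36 : NE := .cons (nat_lit 0x7870600000) (nat_lit 0xa47c000) (.cons (nat_lit 0x7080600000) (nat_lit 0x2501c2bf5b) (.cons (nat_lit 0x7070800000) (nat_lit 0x3cb5bf5aeae) (.cons (nat_lit 0x7070604000) (nat_lit 0x26db1ccd) (.cons (nat_lit 0x6890600000) (nat_lit 0xc7a1d93) (.cons (nat_lit 0x6880800000) (nat_lit 0x1bfdb955ac296) (.cons (nat_lit 0x6880604000) (nat_lit 0x2380c45ce) (.cons (nat_lit 0x6870a00000) (nat_lit 0xfd3c1) (.cons (nat_lit 0x6870804000) (nat_lit 0x12eddcdb29460) (.cons (nat_lit 0x6870608000) (nat_lit 0x3e61e7a) (.cons (nat_lit 0x60a0600000) (nat_lit 0x4c58624) (.cons (nat_lit 0x6090800000) (nat_lit 0x502854dd1) (.cons (nat_lit 0x6090604000) (nat_lit 0xc4282d8) (.cons (nat_lit 0x6080a00000) (nat_lit 0x5000ba3d6) (.cons (nat_lit 0x6080804000) (nat_lit 0xc9a8c87ab5c3) (.cons (nat_lit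 0x6080608000) (nat_lit 0x41b1067b) (.cons (nat_lit 0x6070c00000) (nat_lit 0xc18c) (.cons (nat_lit 0x6070a04000) (nat_lit 0x5dd71d83) (.cons (nat_lit 0x6070808000) (nat_lit 0x18ee14017215a) (.cons (nat_lit 0x607060c000) (nat_lit 0x1b) (.cons (nat_lit 0x58a0800000) (nat_lit 0x176c52) (.cons (nat_lit 0x58a0604000) (nat_lit 0x18230a) (.cons (nat_lit 0x5890a00000) (nat_lit 0x1e9f) (.cons (nat_lit 0x5890804000) (nat_lit 0x3a795c7b7) (.cons (nat_lit 0x5890608000) (nat_lit 0x26fee) (.cons (nat_lit 0x5880c00000) (nat_lit 0xa0c2347) (.cons (nat_lit 0x5880a04000) (nat_lit 0x1448a8c17) (.cons (nat_lit 0x5880808000) (nat_lit 0x17c2c700c766f) (.cons (nat_lit 0x588060c000) (nat_lit 0x3a) (.cons (nat_lit 0x5870c04000) (nat_lit 0xe0ed854) (.cons (nat_lit 0x5870a08000) (nat_lit 0x3819bcc) (.cons (nat_lit 0x587080c000) (nat_lit 0xb29e407) (.cons (nat_lit 0x50a0a00000) (nat_lit 0x1f7c7a) (.cons (nat_lit 0x50a0804000) (nat_lit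 0x78a) (.cons (nat_lit 0x50a0608000) (nat_lit 3) (.cons (nat_lit 0x5090c00000) (nat_lit 0x3347) (.cons (nat_lit 0x5090a04000) (nat_lit 0x1c1484) (.cons (nat_lit 0x5090808000) (nat_lit 0x71961e1) (.cons (nat_lit 0x509060c000) (nat_lit 0x17) (.cons (nat_lit 0x5080e00000) (nat_lit 3) (.cons (nat_lit 0x5080c04000) (nat_lit 0x8920a77) (.cons (nat_lit 0x5080a08000) (nat_lit 0x35cfb9ce5) (.cons (nat_lit 0x508080c000) (nat_lit 0xa1c9f) (.cons (nat_lit 0x5070e04000) (nat_lit 0x6f) (.cons (nat_lit 0x5070c08000) (nat_lit 0xba770) (.cons (nat_lit 0x5070a0c000) (nat_lit 0x5ddf4) (.nil))))))))))))))))))))))))))))))))))))))))))))))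

noncomputable def nb_5_4_35 : NE := .cons (nat_lit 0x7880400000) (nat_lit 0xd4507d401000000000000) (.cons (nat_lit 0x7090400000) (nat_lit 0x3916d9e4fcbb6405c) (.cons (nat_lit 0x7080600000) (nat_lit 0x5f79943522ab21f094004) (.cons (nat_lit 0x7080404000) (nat_lit 0x67010be6e82404) (.cons (nat_lit 0x68a0400000) (nat_lit 0x9a1059efec068) (.cons (nat_lit 0x6890600000) (nat_lit 0xa55a27491c8008) (.cons (nat_lit 0x6890404000) (nat_lit 0x7f7fb55fd9eab3) (.cons (nat_lit 0x6880800000) (nat_lit 0x3c6ed5c5ca326de895cfa400e) (.cons (nat_lit 0x6880604000) (nat_lit 0x15d539c79732192589) (.cons (nat_lit 0x6880408000) (nat_lit 0x37c5b57c5055c5e512) (.cons (nat_lit 0x60a0600000) (nat_lit 0x1210026dbf8000) (.cons (nat_lit 0x60a0404000) (nat_lit 0xcb6b6af5a6) (.cons (nat_lit 0x6090800000) (nat_lit 0x1e077bd9fe21835329) (.cons (nat_lit 0x6090604000) (nat_lit 0x9c203975657635) (.cons (nat_lit 0x6090408000) (nat_lit 0x29f010b4a5)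 (.cons (nat_lit 0x6080a00000) (nat_lit 0x2500d75652fc51ed9c) (.cons (nat_lit 0x6080804000) (nat_lit 0x343282d7b4c3d77777e308991) (.cons (nat_lit 0x6080608000) (nat_lit 0x1dcf8b595d16ccab25) (.cons (nat_lit 0x58a0800000) (nat_lit 0x2a277446ae9) (.cons (nat_lit 0x58a0604000) (nat_lit 0x1f206d0df8d) (.cons (nat_lit 0x58a0408000) (nat_lit 0x7b4d806) (.cons (nat_lit 0x5890a00000) (nat_lit 0xdca7f39) (.cons (nat_lit 0x5890804000) (nat_lit 0x6eaa2a5b5c89e5c60) (.cons (nat_lit 0x5890608000) (nat_lit 0x340a7d73d70) (.cons (nat_lit 0x5880c00000) (nat_lit 0xb766e54f01dc93) (.cons (nat_lit 0x5880a04000) (nat_lit 0x388a3a93680574caa9) (.cons (nat_lit 0x5880808000) (nat_lit 0x10c80db171f44fe238e673352) (.cons (nat_lit 0x50a0a00000) (nat_lit 0xe768e5812f) (.cons (nat_lit 0x50a0804000) (nat_lit 0x348f99) (.cons (nat_lit 0x50a0608000) (nat_lit 0x2d4d) (.cons (nat_lit 0x5090c00000) (nat_lit 0x14b37f0) (.cons (nat_lit 0x5090a04000)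 (nat_lit 0x10d8a11ba8) (.cons (nat_lit 0x5090808000) (nat_lit 0xfda7358b2c2f46) (.cons (nat_lit 0x5080e00000) (nat_lit 0x29df) (.cons (nat_lit 0x5080c04000) (nat_lit 0x85b4c2d694ae71) (.cons (nat_lit 0x5080a08000) (nat_lit 0x13572e36d022dd1e89) (.nil))))))))))))))))))))))))))))))))))))

noncomputable def nb_5_4_34 : NE := .cons (nat_lit 0x7890200000) (nat_lit 0x1080) (.cons (nat_lit 0x70a0200000) (nat_lit 0x134335) (.cons (nat_lit 0x7090400000) (nat_lit 0x85cbb) (.cons (nat_lit 0x7090204000) (nat_lit 0x7e) (.cons (nat_lit 0x68a0400000) (nat_lit 0xe90b165) (.cons (nat_lit 0x68a0204000) (nat_lit 0x7d) (.cons (nat_lit 0x6890600000) (nat_lit 0x1e46f4) (.cons (nat_lit 0x6890404000) (nat_lit 0xbec36) (.cons (nat_lit 0x60a0600000) (nat_lit 0xcc89514) (.cons (nat_lit 0x60a0404000) (nat_lit 0xa851a) (.cons (nat_lit 0x6090800000) (nat_lit 0x178dcb260) (.cons (nat_lit 0x6090604000) (nat_lit 0x302473b) (.cons (nat_lit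 0x58a0800000) (nat_lit 0x14ee80) (.cons (nat_lit 0x58a0604000) (nat_lit 0x10339a) (.cons (nat_lit 0x5890a00000) (nat_lit 0x695) (.cons (nat_lit 0x5890804000) (nat_lit 0x40a5d7c90) (.cons (nat_lit 0x50a0a00000) (nat_lit 0xe547) (.cons (nat_lit 0x50a0804000) (nat_lit 0x29cb) (.cons (nat_lit 0x5090c00000) (nat_lit 0x20c7) (.cons (nat_lit 0x5090a04000) (nat_lit 0x1ea06) (.nil))))))))))))))))))))

noncomputable def nb_5_4_33 : NE := .cons (nat_lit 0x78a0000000) (nat_lit 0x1a80) (.cons (nat_lit 0x70a0200000) (nat_lit 0x34d0) (.cons (nat_lit 0x68a0400000) (nat_lit 0x1e99f8) (.cons (nat_lit 0x60a0600000) (nat_lit 0x46c16e0) (.cons (nat_lit 0x58a0800000) (nat_lit 0x7dd63) (.cons (nat_lit 0x50a0a00000) (nat_lit 0x16ba67) (.nil))))))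

noncomputable def nb_5_4_32 : NE := .cons (nat_lit 0x8040804000) (nat_lit 0xe3e) (.cons (nat_lit 0x7850804000) (nat_lit 0x82013) (.cons (nat_lit 0x7840808000) (nat_lit 0x17d006) (.cons (nat_lit 0x7060804000) (nat_lit 0x3270788fbd9) (.cons (nat_lit 0x7050808000) (nat_lit 0xdb325cf) (.cons (nat_lit 0x7050804080) (nat_lit 0x50) (.cons (nat_lit 0x704080c000) (nat_lit 0x35) (.cons (nat_lit 0x7040808080) (nat_lit 0x76) (.cons (nat_lit 0x6870804000) (nat_lit 0x10d29f0ff4f02) (.cons (nat_lit 0x6860808000) (nat_lit 0x5c689c821110) (.cons (nat_lit 0x6860804080) (nat_lit 6) (.cons (nat_lit 0x685080c000) (nat_lit 0x3afa) (.cons (nat_lit 0x6850808080) (nat_lit 0x3e1d) (.cons (nat_lit 0x6840810000) (nat_lit 0x285f) (.cons (nat_lit 0x6080804000) (nat_lit 0xfe9bc34a2767) (.cons (nat_lit 0x6070808000) (nat_lit 0xff7f942836f6) (.cons (nat_lit 0x6070804080) (nat_lit 0x2c09) (.cons (nat_lit 0x606080c000) (nat_lit 0xd9a08ce)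 (.cons (nat_lit 0x6060808080) (nat_lit 0x13f3d) (.cons (nat_lit 0x6050810000) (nat_lit 0x2a81) (.cons (nat_lit 0x6040810080) (nat_lit 0x6f) (.cons (nat_lit 0x5890804000) (nat_lit 0x54c2f1d31) (.cons (nat_lit 0x5880808000) (nat_lit 0x10461fb583c03) (.cons (nat_lit 0x5880804080) (nat_lit 0x8d3) (.cons (nat_lit 0x587080c000) (nat_lit 0x645556c) (.cons (nat_lit 0x5870808080) (nat_lit 0x1aadc3) (.cons (nat_lit 0x5860810000) (nat_lit 0x28e41) (.cons (nat_lit 0x586080c080) (nat_lit 0x3bbb) (.nil))))))))))))))))))))))))))))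

noncomputable def nb_5_4_31 : NE := .cons (nat_lit 0x8050408000) (nat_lit 0x117800) (.cons (nat_lit 0x7860408000) (nat_lit 0x137ea3d) (.cons (nat_lit 0x7850608000) (nat_lit 0x33a1) (.cons (nat_lit 0x7850408080) (nat_lit 0x26) (.cons (nat_lit 0x7070408000) (nat_lit 0x13b396) (.cons (nat_lit 0x7060608000) (nat_lit 0xf6b610d) (.cons (nat_lit 0x7060408080) (nat_lit 0x1b3d) (.cons (nat_lit 0x7050808000) (nat_lit 0x98932cd) (.cons (nat_lit 0x7050608080) (nat_lit 0x5c) (.cons (nat_lit 0x7050408100) (nat_lit 0x55) (.cons (nat_lit 0x6880408000) (nat_lit 0x4d2d37c2d) (.cons (nat_lit 0x6870608000) (nat_lit 0xc30a398) (.cons (nat_lit 0x6860808000) (nat_lit 0x6aeb7933b594) (.cons (nat_lit 0x6860608080) (nat_lit 0x1fa) (.cons (nat_lit 0x6860408100) (nat_lit 0x66) (.cons (nat_lit 0x6850a08000) (nat_lit 0x66) (.cons (nat_lit 0x6850808080) (nat_lit 0x1e17) (.cons (nat_lit 0x6090408000) (nat_lit 0x8fd14) (.cons (nat_lit 0x6080608000)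 (nat_lit 0x17541e068) (.cons (nat_lit 0x6080408080) (nat_lit 0xc33) (.cons (nat_lit 0x6070808000) (nat_lit 0xe3315d262a1a) (.cons (nat_lit 0x6070608080) (nat_lit 0x24) (.cons (nat_lit 0x6070408100) (nat_lit 0x1b) (.cons (nat_lit 0x6060a08000) (nat_lit 0x3f6be67b7) (.cons (nat_lit 0x6060808080) (nat_lit 0x14ce61) (.cons (nat_lit 0x6050a08080) (nat_lit 0x57) (.cons (nat_lit 0x6050808100) (nat_lit 0x56) (.cons (nat_lit 0x58a0408000) (nat_lit 0x2f83) (.cons (nat_lit 0x5890608000) (nat_lit 0x32dce) (.cons (nat_lit 0x5890408080) (nat_lit 0x12) (.cons (nat_lit 0x5880808000) (nat_lit 0x44cab455fda2) (.cons (nat_lit 0x5880608080) (nat_lit 0x19b9) (.cons (nat_lit 0x5880408100) (nat_lit 0x24) (.cons (nat_lit 0x5870a08000) (nat_lit 0x52aeaf9) (.cons (nat_lit 0x5870808080) (nat_lit 0x148e2d) (.cons (nat_lit 0x5860a08080) (nat_lit 0x46c) (.cons (nat_lit 0x5860808100) (nat_lit 0x2c5a) (.nil)))))))))))))))))))))))))))))))))))))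

noncomputable def nb_5_4_30 : NE := .cons (nat_lit 0x8050604000) (nat_lit 0x5cc) (.cons (nat_lit 0x7860604000) (nat_lit 0x68741da) (.cons (nat_lit 0x7850804000) (nat_lit 0xc5960) (.cons (nat_lit 0x7850608000) (nat_lit 0x2162) (.cons (nat_lit 0x7850604080) (nat_lit 0x66) (.cons (nat_lit 0x7070604000) (nat_lit 0x5b2081180) (.cons (nat_lit 0x7060804000) (nat_lit 0x3deb860f03a) (.cons (nat_lit 0x7060608000) (nat_lit 0x160b5e9) (.cons (nat_lit 0x7050a04000) (nat_lit 0x27) (.cons (nat_lit 0x7050808000) (nat_lit 0xf3f8c0b) (.cons (nat_lit 0x7050804080) (nat_lit 0x60) (.cons (nat_lit 0x7050608080) (nat_lit 5) (.cons (nat_lit 0x6880604000) (nat_lit 0x7d76ec826) (.cons (nat_lit 0x6870804000) (nat_lit 0x6ae454d00760) (.cons (nat_lit 0x6870608000) (nat_lit 0x6d9369b) (.cons (nat_lit 0x6870604080) (nat_lit 0x26c4) (.cons (nat_lit 0x6860a04000) (nat_lit 0x246bf04) (.cons (nat_lit 0x6860808000) (nat_lit 0x180858642071)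 (.cons (nat_lit 0x6860804080) (nat_lit 0x32) (.cons (nat_lit 0x686060c000) (nat_lit 0) (.cons (nat_lit 0x6860608080) (nat_lit 0x261b) (.cons (nat_lit 0x6850a08000) (nat_lit 0x55) (.cons (nat_lit 0x6850a04080) (nat_lit 0x5d) (.cons (nat_lit 0x685080c000) (nat_lit 0x24a) (.cons (nat_lit 0x6850808080) (nat_lit 0x2e3b) (.cons (nat_lit 0x6090604000) (nat_lit 0xc8845d8) (.cons (nat_lit 0x6080804000) (nat_lit 0x14b8df707ad32) (.cons (nat_lit 0x6080608000) (nat_lit 0x13e6e8452) (.cons (nat_lit 0x6080604080) (nat_lit 0x1b) (.cons (nat_lit 0x6070a04000) (nat_lit 0x6b3b15422) (.cons (nat_lit 0x6070808000) (nat_lit 0x1a37ae3c0ef3c) (.cons (nat_lit 0x6070804080) (nat_lit 0x17f3) (.cons (nat_lit 0x607060c000) (nat_lit 0x18) (.cons (nat_lit 0x6070608080) (nat_lit 0x7e) (.cons (nat_lit 0x6060a08000) (nat_lit 0x10bd6fb26) (.cons (nat_lit 0x6060a04080) (nat_lit 0x54) (.cons (nat_lit 0x606080c000) (nat_lit 0x62c2d53) (.cons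 (nat_lit 0x6060808080) (nat_lit 0x19eefe) (.cons (nat_lit 0x6050a08080) (nat_lit 0xd) (.cons (nat_lit 0x58a0604000) (nat_lit 0xfbc58) (.cons (nat_lit 0x5890804000) (nat_lit 0x6609f8547) (.cons (nat_lit 0x5890608000) (nat_lit 0x3d58f) (.cons (nat_lit 0x5890604080) (nat_lit 0x2444) (.cons (nat_lit 0x5880a04000) (nat_lit 0x23080f0b7) (.cons (nat_lit 0x5880808000) (nat_lit 0x5c8f66ceccbe) (.cons (nat_lit 0x5880804080) (nat_lit 0x1b41) (.cons (nat_lit 0x588060c000) (nat_lit 0x12) (.cons (nat_lit 0x5880608080) (nat_lit 0x271a) (.cons (nat_lit 0x5870a08000) (nat_lit 0x78b2407) (.cons (nat_lit 0x5870a04080) (nat_lit 0x3db45) (.cons (nat_lit 0x587080c000) (nat_lit 0x9070bce) (.cons (nat_lit 0x5870808080) (nat_lit 0xe8601) (.cons (nat_lit 0x587060c080) (nat_lit 0x7b) (.cons (nat_lit 0x5860a0c000) (nat_lit 0x33a4a) (.cons (nat_lit 0x5860a08080) (nat_lit 0x1065) (.cons (nat_lit 0x586080c080) (nat_lit 0x1385) (.cons (nat_lit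 0x5850a0c080) (nat_lit 0x49) (.nil)))))))))))))))))))))))))))))))))))))))))))))))))))))))))

noncomputable def nb_5_4_29 : NE := .cons (nat_lit 0x8050800000) (nat_lit 0x28000) (.cons (nat_lit 0x7860800000) (nat_lit 0x2fc50000c80) (.cons (nat_lit 0x7850804000) (nat_lit 0x65dd) (.cons (nat_lit 0x7070800000) (nat_lit 0x1b8a2b8000) (.cons (nat_lit 0x7060a00000) (nat_lit 0xcd14000) (.cons (nat_lit 0x7060804000) (nat_lit 0x23ba5a3d347) (.cons (nat_lit 0x7050a04000) (nat_lit 0x1f) (.cons (nat_lit 0x7050808000) (nat_lit 0x1a2181) (.cons (nat_lit 0x6880800000) (nat_lit 0x1402a36d8f00) (.cons (nat_lit 0x6870a00000) (nat_lit 0x88300) (.cons (nat_lit 0x6870804000) (nat_lit 0x1f00b28e7f244) (.cons (nat_lit 0x6860a04000) (nat_lit 0x612a315) (.cons (nat_lit 0x6860808000) (nat_lit 0xa6e23a1256ce) (.cons (nat_lit 0x6850a08000) (nat_lit 0x7c) (.cons (nat_lit 0x685080c000) (nat_lit 0x1f64) (.cons (nat_lit 0x6090800000) (nat_lit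 0x57da6c000) (.cons (nat_lit 0x6080a00000) (nat_lit 0x5c45f4000) (.cons (nat_lit 0x6080804000) (nat_lit 0x32f36eed59d2) (.cons (nat_lit 0x6070a04000) (nat_lit 0x587f10723) (.cons (nat_lit 0x6070808000) (nat_lit 0x100622f790bc1) (.cons (nat_lit 0x6060a08000) (nat_lit 0x683809dc9) (.cons (nat_lit 0x606080c000) (nat_lit 0x102b20c) (.cons (nat_lit 0x6050810000) (nat_lit 0x157) (.cons (nat_lit 0x58a0800000) (nat_lit 0xaa92d) (.cons (nat_lit 0x5890a00000) (nat_lit 0x3a80) (.cons (nat_lit 0x5890804000) (nat_lit 0x31a346269) (.cons (nat_lit 0x5880a04000) (nat_lit 0x30be674df) (.cons (nat_lit 0x5880808000) (nat_lit 0x1420b12c633cb) (.cons (nat_lit 0x5870a08000) (nat_lit 0x6ec153a) (.cons (nat_lit 0x587080c000) (nat_lit 0xea58b21) (.cons (nat_lit 0x5860a0c000) (nat_lit 0x12bd20) (.cons (nat_lit 0x5860810000) (nat_lit 0xe6bc9) (.nil))))))))))))))))))))))))))))))))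

noncomputable def nb_5_4_28 : NE := .cons (nat_lit 0x8060404000) (nat_lit 0x1100) (.cons (nat_lit 0x7870404000) (nat_lit 0xccc055) (.cons (nat_lit 0x7860604000) (nat_lit 0xc6003c) (.cons (nat_lit 0x7860408000) (nat_lit 0xad080) (.cons (nat_lit 0x7080404000) (nat_lit 0x77160c1) (.cons (nat_lit 0x7070604000) (nat_lit 0x4a15cfeea) (.cons (nat_lit 0x7070408000) (nat_lit 0x5b3) (.cons (nat_lit 0x7070404080) (nat_lit 0x42) (.cons (nat_lit 0x7060804000) (nat_lit 0xe431f04845) (.cons (nat_lit 0x7060608000) (nat_lit 0xcb19200) (.cons (nat_lit 0x7060408080) (nat_lit 0x2000) (.cons (nat_lit 0x6890404000) (nat_lit 0x99ee2fb) (.cons (nat_lit 0x6880604000) (nat_lit 0x1bd73371b) (.cons (nat_lit 0x6880408000) (nat_lit 0x6dd906719) (.cons (nat_lit 0x6880404080) (nat_lit 0x22) (.cons (nat_lit 0x6870804000) (nat_lit 0x3b88e167e43f) (.cons (nat_lit 0x6870608000) (nat_lit 0x608803e) (.cons (nat_lit 0x6870604080) (nat_lit 0x1d38)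 (.cons (nat_lit 0x6860a04000) (nat_lit 0xccbaa00) (.cons (nat_lit 0x6860808000) (nat_lit 0x1de70a606c6a3) (.cons (nat_lit 0x6860804080) (nat_lit 0x2a) (.cons (nat_lit 0x6860608080) (nat_lit 0x3b18) (.cons (nat_lit 0x60a0404000) (nat_lit 0x91e53) (.cons (nat_lit 0x6090604000) (nat_lit 0xcda1452) (.cons (nat_lit 0x6090408000) (nat_lit 0x625c5) (.cons (nat_lit 0x6090404080) (nat_lit 0x34) (.cons (nat_lit 0x6080804000) (nat_lit 0x1ea3950f78503) (.cons (nat_lit 0x6080608000) (nat_lit 0x6167c9c14) (.cons (nat_lit 0x6080604080) (nat_lit 0xc) (.cons (nat_lit 0x6080408080) (nat_lit 0xa2) (.cons (nat_lit 0x6070a04000) (nat_lit 0x38a96658e) (.cons (nat_lit 0x6070808000) (nat_lit 0x136d94b236263) (.cons (nat_lit 0x6070804080) (nat_lit 0x1912) (.cons (nat_lit 0x6070608080) (nat_lit 0x1f) (.cons (nat_lit 0x6060c04000) (nat_lit 0x12e4f5) (.cons (nat_lit 0x6060a08000) (nat_lit 0x412fdd308) (.cons (nat_lit 0x6060a04080) (nat_lit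 0x4f) (.cons (nat_lit 0x6060808080) (nat_lit 0x51efe) (.cons (nat_lit 0x58b0404000) (nat_lit 1) (.cons (nat_lit 0x58a0604000) (nat_lit 0xe7b5a) (.cons (nat_lit 0x58a0408000) (nat_lit 0x2175) (.cons (nat_lit 0x5890804000) (nat_lit 0x6be02f27c) (.cons (nat_lit 0x5890608000) (nat_lit 0x986f8) (.cons (nat_lit 0x5890604080) (nat_lit 0x19d3) (.cons (nat_lit 0x5890408080) (nat_lit 0x1f) (.cons (nat_lit 0x5880a04000) (nat_lit 0x7e861c40e) (.cons (nat_lit 0x5880808000) (nat_lit 0x18293fbb25134) (.cons (nat_lit 0x5880804080) (nat_lit 0) (.cons (nat_lit 0x5880608080) (nat_lit 0x1dd) (.cons (nat_lit 0x5870c04000) (nat_lit 0x6b36852) (.cons (nat_lit 0x5870a08000) (nat_lit 0x6f8fcd) (.cons (nat_lit 0x5870a04080) (nat_lit 0x41c47) (.cons (nat_lit 0x5870808080) (nat_lit 0xf02c3) (.cons (nat_lit 0x5860c08000) (nat_lit 0xf95735e) (.cons (nat_lit 0x5860a08080) (nat_lit 0x3e17) (.nil)))))))))))))))))))))))))))))))))))))))))))))))))))))))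

noncomputable def nb_5_4_27 : NE := .cons (nat_lit 0x8060600000) (nat_lit 0x2b3c00c006e0000000) (.cons (nat_lit 0x7870600000) (nat_lit 0xdc059) (.cons (nat_lit 0x7860800000) (nat_lit 0x5b6c037e77c01800d8000) (.cons (nat_lit 0x7860604000) (nat_lit 0x54a804b01a4042) (.cons (nat_lit 0x7080600000) (nat_lit 0xa324a890144053c00803e) (.cons (nat_lit 0x7070800000) (nat_lit 0xa59ade5009405f46cc039) (.cons (nat_lit 0x7070604000) (nat_lit 0x3a426555d1b00d405d) (.cons (nat_lit 0x7060a00000) (nat_lit 0xef80763d40043) (.cons (nat_lit 0x7060804000) (nat_lit 0x3a2cb4bd5e38240144079) (.cons (nat_lit 0x7060608000) (nat_lit 0x3cdd1a130c0009) (.cons (nat_lit 0x6890600000) (nat_lit 0x1b80740114016) (.cons (nat_lit 0x6880800000) (nat_lit 0x162b61f5d3d160857701ec00a) (.cons (nat_lit 0x6880604000) (nat_lit 0x337a104c841c828008) (.cons (nat_lit 0x6870a00000) (nat_lit 0xac9f6c4073) (.cons (nat_lit 0x6870804000) (nat_lit 0x3bad20b3931a052339e6e003a)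 (.cons (nat_lit 0x6870608000) (nat_lit 0xc459d6b233d12a) (.cons (nat_lit 0x6860c00000) (nat_lit 0x8c2e5ee39b8039) (.cons (nat_lit 0x6860a04000) (nat_lit 0xa469e8ac640078) (.cons (nat_lit 0x6860808000) (nat_lit 0x29adb21b24182de352d79c03b) (.cons (nat_lit 0x686060c000) (nat_lit 0x209f) (.cons (nat_lit 0x60a0600000) (nat_lit 0xb20335ad09ade2) (.cons (nat_lit 0x6090800000) (nat_lit 0x26bd2099ccc029783e) (.cons (nat_lit 0x6090604000) (nat_lit 0xcd09cc64b3d58a) (.cons (nat_lit 0x6080a00000) (nat_lit 0x1816bc183a6fd687c1) (.cons (nat_lit 0x6080804000) (nat_lit 0x3ed0f12b5d69fc39c1a61460d) (.cons (nat_lit 0x6080608000) (nat_lit 0xb7c0e686a3a53aab6) (.cons (nat_lit 0x6070c00000) (nat_lit 0xe5271ee658) (.cons (nat_lit 0x6070a04000) (nat_lit 0x1ea28e59b22b5f3983) (.cons (nat_lit 0x6070808000) (nat_lit 0x25a5828d107625bb27b5b1c8b) (.cons (nat_lit 0x607060c000) (nat_lit 0x150c) (.cons (nat_lit 0x6060c04000) (nat_lit 0x14e95c66567)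 (.cons (nat_lit 0x6060a08000) (nat_lit 0x2453ae3046830f9ce) (.cons (nat_lit 0x606080c000) (nat_lit 0x993b1e3f272c35) (.cons (nat_lit 0x58a0800000) (nat_lit 0x13d029cdee6) (.cons (nat_lit 0x58a0604000) (nat_lit 0x244c1925cbd) (.cons (nat_lit 0x5890a00000) (nat_lit 0x270f442) (.cons (nat_lit 0x5890804000) (nat_lit 0xbce36f4cccbe1adb9) (.cons (nat_lit 0x5890608000) (nat_lit 0x20a753729c7) (.cons (nat_lit 0x5880c00000) (nat_lit 0xe465de734330be) (.cons (nat_lit 0x5880a04000) (nat_lit 0xba99dc446e496c322) (.cons (nat_lit 0x5880808000) (nat_lit 0xa5ceb48b0e0d7d9ea91c11ca) (.cons (nat_lit 0x588060c000) (nat_lit 0x3631) (.cons (nat_lit 0x5870c04000) (nat_lit 0xcdcaab90678b8a) (.cons (nat_lit 0x5870a08000) (nat_lit 0x8df393c3d5f9c2) (.cons (nat_lit 0x587080c000) (nat_lit 0x9d2b70c6f5d638) (.cons (nat_lit 0x5860c08000) (nat_lit 0xdfdd78008d064d) (.cons (nat_lit 0x5860a0c000) (nat_lit 0x54d6322993) (.nil)))))))))))))))))))))))))))))))))))))))))))))))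

noncomputable def nb_5_4_26 : NE := .cons (nat_lit 0x8070204000) (nat_lit 0x2e) (.cons (nat_lit 0x7880204000) (nat_lit 5) (.cons (nat_lit 0x7870404000) (nat_lit 0x2e98010) (.cons (nat_lit 0x7090204000) (nat_lit 0x33) (.cons (nat_lit 0x7080404000) (nat_lit 0x172c9ed) (.cons (nat_lit 0x7070604000) (nat_lit 0x1b8edfe54) (.cons (nat_lit 0x7070404080) (nat_lit 0x33) (.cons (nat_lit 0x68a0204000) (nat_lit 0x1d) (.cons (nat_lit 0x6890404000) (nat_lit 0x3226154) (.cons (nat_lit 0x6880604000) (nat_lit 0x7b5bccbc4) (.cons (nat_lit 0x6880404080) (nat_lit 0x10) (.cons (nat_lit 0x6870804000) (nat_lit 0x10858da400eca) (.cons (nat_lit 0x6870604080) (nat_lit 0x22c) (.cons (nat_lit 0x60a0404000) (nat_lit 0xd29ee) (.cons (nat_lit 0x6090604000) (nat_lit 0x1b886e) (.cons (nat_lit 0x6090404080) (nat_lit 0x70) (.cons (nat_lit 0x6080804000) (nat_lit 0x157817113b402) (.cons (nat_lit 0x6080604080) (nat_lit 0x67) (.cons (nat_lit 0x6070a04000)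 (nat_lit 0x4683e4cc9) (.cons (nat_lit 0x6070804080) (nat_lit 0x1945) (.cons (nat_lit 0x58b0404000) (nat_lit 0) (.cons (nat_lit 0x58b0204080) (nat_lit 0x24) (.cons (nat_lit 0x58a0604000) (nat_lit 0x166eba) (.cons (nat_lit 0x5890804000) (nat_lit 0x506d818c3) (.cons (nat_lit 0x5890604080) (nat_lit 0x2a13) (.cons (nat_lit 0x5880a04000) (nat_lit 0x73ab455c4) (.cons (nat_lit 0x5880804080) (nat_lit 0x19d) (.cons (nat_lit 0x5870c04000) (nat_lit 0x1a414e5) (.cons (nat_lit 0x5870a04080) (nat_lit 0x2c1b9) (.nil)))))))))))))))))))))))))))))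

noncomputable def nb_5_4_25 : NE := .cons (nat_lit 0x8070400000) (nat_lit 0x350000500000000000) (.cons (nat_lit 0x7880400000) (nat_lit 0x5842678f2e19800060000) (.cons (nat_lit 0x7870600000) (nat_lit 0xd3df340b800076) (.cons (nat_lit 0x7870404000) (nat_lit 0xcbc6ca51600032) (.cons (nat_lit 0x7090400000) (nat_lit 0x38ca7b837567ebb80d) (.cons (nat_lit 0x7080600000) (nat_lit 0x14f4bc03e4fbe986ef4a4) (.cons (nat_lit 0x7080404000) (nat_lit 0xcd9323d3812d3b) (.cons (nat_lit 0x7070800000) (nat_lit 0x9a67b07ef972af7687bf5) (.cons (nat_lit 0x7070604000) (nat_lit 0x19182f1656e0415f55) (.cons (nat_lit 0x7070408000) (nat_lit 0xf1780ca) (.cons (nat_lit 0x68a0400000) (nat_lit 0xb5f62bdd1f3e1) (.cons (nat_lit 0x6890600000) (nat_lit 0x12437a29c2709a) (.cons (nat_lit 0x6890404000) (nat_lit 0x349d1450ceaa38) (.cons (nat_lit 0x6880800000) (nat_lit 0x134fb77878417cc6cd04e6a8b) (.cons (nat_lit 0x6880604000) (nat_lit 0x219597f71c0cbbb244)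 (.cons (nat_lit 0x6880408000) (nat_lit 0x371f27e18c6e2322ca) (.cons (nat_lit 0x6870a00000) (nat_lit 0xb04371cc1e) (.cons (nat_lit 0x6870804000) (nat_lit 0xa92a5cf73691466968e5e84c) (.cons (nat_lit 0x6870608000) (nat_lit 0xb46be6168acde) (.cons (nat_lit 0x60b0400000) (nat_lit 0x8cafb35) (.cons (nat_lit 0x60a0600000) (nat_lit 0x2c14a6a07cd73) (.cons (nat_lit 0x60a0404000) (nat_lit 0x443a4212cc) (.cons (nat_lit 0x6090800000) (nat_lit 0x8823838e5fb7780eb) (.cons (nat_lit 0x6090604000) (nat_lit 0xb321178d08db35) (.cons (nat_lit 0x6090408000) (nat_lit 0xc1d0c9e8d2) (.cons (nat_lit 0x6080a00000) (nat_lit 0x177f6d2c531c898a4) (.cons (nat_lit 0x6080804000) (nat_lit 0x840224d5211a4b05169273df) (.cons (nat_lit 0x6080608000) (nat_lit 0x14316445f37a43d6bb) (.cons (nat_lit 0x6070c00000) (nat_lit 0x8530e6511d) (.cons (nat_lit 0x6070a04000) (nat_lit 0x2acf8d7e8cf414bbd7) (.cons (nat_lit 0x6070808000) (nat_lit 0x30455a20c669ed3661180e1ba)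 (.cons (nat_lit 0x58b0404000) (nat_lit 0x24) (.cons (nat_lit 0x58a0800000) (nat_lit 0x39c625ca780) (.cons (nat_lit 0x58a0604000) (nat_lit 0x3943a70e56f) (.cons (nat_lit 0x58a0408000) (nat_lit 0xab0a0f) (.cons (nat_lit 0x5890a00000) (nat_lit 0x2efc000) (.cons (nat_lit 0x5890804000) (nat_lit 0x691baa8172f2c743b) (.cons (nat_lit 0x5890608000) (nat_lit 0x2e1ff61897b) (.cons (nat_lit 0x5880c00000) (nat_lit 0xb99e8126de0989) (.cons (nat_lit 0x5880a04000) (nat_lit 0x12df3aff935aa0b330) (.cons (nat_lit 0x5880808000) (nat_lit 0x1c039153aaaf0573e8f306e29) (.cons (nat_lit 0x5870c04000) (nat_lit 0x188417ef9d5d69) (.cons (nat_lit 0x5870a08000) (nat_lit 0x4db368f71bf0cf) (.nil)))))))))))))))))))))))))))))))))))))))))))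

noncomputable def nb_5_4_24 : NE := .cons (nat_lit 0x8080200000) (nat_lit 0x84000) (.cons (nat_lit 0x7890200000) (nat_lit 0x2e27) (.cons (nat_lit 0x7880400000) (nat_lit 0x11d78400380) (.cons (nat_lit 0x7880204000) (nat_lit 4) (.cons (nat_lit 0x70a0200000) (nat_lit 0x1b55a5) (.cons (nat_lit 0x7090400000) (nat_lit 0x6a1fa49e6) (.cons (nat_lit 0x7090204000) (nat_lit 0x65) (.cons (nat_lit 0x7080600000) (nat_lit 0x18e8b230f0e) (.cons (nat_lit 0x7080404000) (nat_lit 0xa735d2) (.cons (nat_lit 0x68b0200000) (nat_lit 0x14) (.cons (nat_lit 0x68a0400000) (nat_lit 0x6c47b22) (.cons (nat_lit 0x68a0204000) (nat_lit 0x21) (.cons (nat_lit 0x6890600000) (nat_lit 0x10a16c3) (.cons (nat_lit 0x6890404000) (nat_lit 0xc81d243) (.cons (nat_lit 0x6880800000) (nat_lit 0x22c538adc557) (.cons (nat_lit 0x6880604000) (nat_lit 0x245762391) (.cons (nat_lit 0x60b0400000) (nat_lit 0x2f99) (.cons (nat_lit 0x60a0600000) (nat_lit 0x9d6ddf0)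 (.cons (nat_lit 0x60a0404000) (nat_lit 0x1a08b3) (.cons (nat_lit 0x6090800000) (nat_lit 0x4ac15daf7) (.cons (nat_lit 0x6090604000) (nat_lit 0xc5e5012) (.cons (nat_lit 0x6080a00000) (nat_lit 0x2f72a8935) (.cons (nat_lit 0x6080804000) (nat_lit 0xfbe0edf86ba) (.cons (nat_lit 0x58b0404000) (nat_lit 0xd) (.cons (nat_lit 0x58a0800000) (nat_lit 0x13c3d5) (.cons (nat_lit 0x58a0604000) (nat_lit 0x2725e) (.cons (nat_lit 0x5890a00000) (nat_lit 0x3580) (.cons (nat_lit 0x5890804000) (nat_lit 0x296863dbd) (.cons (nat_lit 0x5880c00000) (nat_lit 0x32d0239) (.cons (nat_lit 0x5880a04000) (nat_lit 0x8aa60bca) (.nil))))))))))))))))))))))))))))))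

noncomputable def nb_5_4_23 : NE := .cons (nat_lit 0x8840408000) (nat_lit 0xab7) (.cons (nat_lit 0x8050408000) (nat_lit 0x1a7230) (.cons (nat_lit 0x8040608000) (nat_lit 0x5c) (.cons (nat_lit 0x8040408080) (nat_lit 0x2c) (.cons (nat_lit 0x7860408000) (nat_lit 0xdd6f113) (.cons (nat_lit 0x7850608000) (nat_lit 0x1c31) (.cons (nat_lit 0x7850408080) (nat_lit 0x43) (.cons (nat_lit 0x7840808000) (nat_lit 0x144558) (.cons (nat_lit 0x7840408100) (nat_lit 0x46) (.cons (nat_lit 0x7070408000) (nat_lit 0x194f30) (.cons (nat_lit 0x7060608000) (nat_lit 0x334a8b4) (.cons (nat_lit 0x7060408080) (nat_lit 0x3dc0) (.cons (nat_lit 0x7050808000) (nat_lit 0x3b44984) (.cons (nat_lit 0x7050608080) (nat_lit 0xe) (.cons (nat_lit 0x7050408100) (nat_lit 0x6b) (.cons (nat_lit 0x7040808080) (nat_lit 0x6a) (.cons (nat_lit 0x6880408000) (nat_lit 0x15fcd7ae7) (.cons (nat_lit 0x6870608000) (nat_lit 0x7d78505) (.cons (nat_lit 0x6860808000)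 (nat_lit 0x1c4ea229b10ee) (.cons (nat_lit 0x6860608080) (nat_lit 0x3732) (.cons (nat_lit 0x6860408100) (nat_lit 0x70) (.cons (nat_lit 0x6850808080) (nat_lit 0x74e) (.cons (nat_lit 0x6840808100) (nat_lit 0x1f) (.cons (nat_lit 0x6090408000) (nat_lit 0xb0868) (.cons (nat_lit 0x6080608000) (nat_lit 0xd164c9ae) (.cons (nat_lit 0x6080408080) (nat_lit 0x28dc) (.cons (nat_lit 0x6070808000) (nat_lit 0x147ec86bf57d2) (.cons (nat_lit 0x6070608080) (nat_lit 0x33) (.cons (nat_lit 0x6070408100) (nat_lit 0xe) (.cons (nat_lit 0x6060808080) (nat_lit 0xd99ea) (.cons (nat_lit 0x6050808100) (nat_lit 0x31) (.nil)))))))))))))))))))))))))))))))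

noncomputable def nb_5_4_22 : NE := .cons (nat_lit 0x8840800000) (nat_lit 0x386b003801d) (.cons (nat_lit 0x8050800000) (nat_lit 0x8f800b0049) (.cons (nat_lit 0x8040804000) (nat_lit 0x4a42dd4) (.cons (nat_lit 0x7860800000) (nat_lit 0x44d0ef00118016e6e8010) (.cons (nat_lit 0x7850804000) (nat_lit 0x1461867e28b) (.cons (nat_lit 0x7840808000) (nat_lit 0x1830437961c) (.cons (nat_lit 0x7070800000) (nat_lit 0xa22284232a3303006401a) (.cons (nat_lit 0x7060804000) (nat_lit 0x48b2ed8a72eb15c1f48a4) (.cons (nat_lit 0x7050808000) (nat_lit 0x9da2443a19f66a) (.cons (nat_lit 0x704080c000) (nat_lit 0x1690) (.cons (nat_lit 0x6880800000) (nat_lit 0x1679005406ecc7798365d8041) (.cons (nat_lit 0x6870804000) (nat_lit 0x23c78b2d344096d86076bb974) (.cons (nat_lit 0x6860808000) (nat_lit 0x4fcf3a0a787b27adb8d5aed8) (.cons (nat_lit 0x685080c000) (nat_lit 0x7b7def3) (.cons (nat_lit 0x6840810000) (nat_lit 0x938085c) (.cons (nat_lit 0x6090800000)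 (nat_lit 0x13aeac37eeb013807e) (.cons (nat_lit 0x6080804000) (nat_lit 0x1b46edf489847fa7620aa0917) (.cons (nat_lit 0x6070808000) (nat_lit 0x341dc77e99f92bc90ff7aa9a5) (.cons (nat_lit 0x606080c000) (nat_lit 0x2e145831194b30) (.cons (nat_lit 0x6050810000) (nat_lit 0xbc8df83) (.nil))))))))))))))))))))

noncomputable def nb_5_4_21 : NE := .cons (nat_lit 0x8850404000) (nat_lit 0x38b) (.cons (nat_lit 0x8060404000) (nat_lit 0x27277) (.cons (nat_lit 0x8050604000) (nat_lit 0x1c96) (.cons (nat_lit 0x8050408000) (nat_lit 0x477fe) (.cons (nat_lit 0x7870404000) (nat_lit 0x4ddbb4e) (.cons (nat_lit 0x7860604000) (nat_lit 0x43697d) (.cons (nat_lit 0x7860408000) (nat_lit 0xcbfa8c7) (.cons (nat_lit 0x7850804000) (nat_lit 0x1d28e5) (.cons (nat_lit 0x7850608000) (nat_lit 0x443) (.cons (nat_lit 0x7850604080) (nat_lit 0x67) (.cons (nat_lit 0x7850408080) (nat_lit 0xa) (.cons (nat_lit 0x7080404000) (nat_lit 0x48b8859) (.cons (nat_lit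 0x7070604000) (nat_lit 0x35238948a) (.cons (nat_lit 0x7070408000) (nat_lit 0xa1f21) (.cons (nat_lit 0x7070404080) (nat_lit 0x36) (.cons (nat_lit 0x7060804000) (nat_lit 0x37681404378) (.cons (nat_lit 0x7060608000) (nat_lit 0x9ce62f0) (.cons (nat_lit 0x7060408080) (nat_lit 0x6bf) (.cons (nat_lit 0x7050a04000) (nat_lit 0x78) (.cons (nat_lit 0x7050808000) (nat_lit 0x2af6229) (.cons (nat_lit 0x7050804080) (nat_lit 0x5b) (.cons (nat_lit 0x7050608080) (nat_lit 0x19) (.cons (nat_lit 0x6890404000) (nat_lit 0x563d1b9) (.cons (nat_lit 0x6880604000) (nat_lit 0x56252b844) (.cons (nat_lit 0x6880408000) (nat_lit 0x660929cc5) (.cons (nat_lit 0x6880404080) (nat_lit 0x12) (.cons (nat_lit 0x6870804000) (nat_lit 0xf52b45d9aa0a) (.cons (nat_lit 0x6870608000) (nat_lit 0x8647dd8) (.cons (nat_lit 0x6870604080) (nat_lit 0x9ad) (.cons (nat_lit 0x6860a04000) (nat_lit 0xc8b9b58) (.cons (nat_lit 0x6860808000) (nat_lit 0x1f7200f565bb4)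 (.cons (nat_lit 0x6860804080) (nat_lit 0x52) (.cons (nat_lit 0x6860608080) (nat_lit 0x3dfd) (.cons (nat_lit 0x6850a08000) (nat_lit 0x3f) (.cons (nat_lit 0x6850a04080) (nat_lit 0x43) (.cons (nat_lit 0x6850808080) (nat_lit 0x188c) (.cons (nat_lit 0x60a0404000) (nat_lit 0x1f425b) (.cons (nat_lit 0x6090604000) (nat_lit 0x2981d06) (.cons (nat_lit 0x6090408000) (nat_lit 0x125c22) (.cons (nat_lit 0x6090404080) (nat_lit 0x48) (.cons (nat_lit 0x6080804000) (nat_lit 0xf44408051d87) (.cons (nat_lit 0x6080608000) (nat_lit 0x755ee3697) (.cons (nat_lit 0x6080604080) (nat_lit 0x37) (.cons (nat_lit 0x6080408080) (nat_lit 0x271d) (.cons (nat_lit 0x6070a04000) (nat_lit 0x330122636) (.cons (nat_lit 0x6070808000) (nat_lit 0x1f7d17d7b67e4) (.cons (nat_lit 0x6070804080) (nat_lit 0x1e2f) (.cons (nat_lit 0x6070608080) (nat_lit 0x1d) (.cons (nat_lit 0x6060a08000) (nat_lit 0x4157885de) (.cons (nat_lit 0x6060a04080) (nat_lit 0x1a) (.cons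 (nat_lit 0x6060808080) (nat_lit 0xefd8a) (.cons (nat_lit 0x6050a08080) (nat_lit 0x72) (.nil))))))))))))))))))))))))))))))))))))))))))))))))))))

noncomputable def nb_5_4_20 : NE := .cons (nat_lit 0x8850600000) (nat_lit 0x1580) (.cons (nat_lit 0x8060600000) (nat_lit 0x6bcdf1700) (.cons (nat_lit 0x8050800000) (nat_lit 0x54400) (.cons (nat_lit 0x8050604000) (nat_lit 0xf24) (.cons (nat_lit 0x7870600000) (nat_lit 0x1d77f39) (.cons (nat_lit 0x7860800000) (nat_lit 0x363a0fba580) (.cons (nat_lit 0x7860604000) (nat_lit 0x2e015ce) (.cons (nat_lit 0x7850804000) (nat_lit 0x126bbf) (.cons (nat_lit 0x7850608000) (nat_lit 0x2b94) (.cons (nat_lit 0x7080600000) (nat_lit 0x38abfb9bcc5) (.cons (nat_lit 0x7070800000) (nat_lit 0x2f1b78684d7) (.cons (nat_lit 0x7070604000) (nat_lit 0x1176921a8) (.cons (nat_lit 0x7060a00000) (nat_lit 0xb9e19f0) (.cons (nat_lit 0x7060804000) (nat_lit 0x19f7098a5) (.cons (nat_lit 0x7060608000) (nat_lit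 0x8c0e06c) (.cons (nat_lit 0x7050a04000) (nat_lit 0x68) (.cons (nat_lit 0x7050808000) (nat_lit 0xc3eb143) (.cons (nat_lit 0x6890600000) (nat_lit 0xee5ce6b) (.cons (nat_lit 0x6880800000) (nat_lit 0x3a41ec32ac35) (.cons (nat_lit 0x6880604000) (nat_lit 0x506c04466) (.cons (nat_lit 0x6870a00000) (nat_lit 0x2592c) (.cons (nat_lit 0x6870804000) (nat_lit 0x180331aae47fd) (.cons (nat_lit 0x6870608000) (nat_lit 0x3ea7baa) (.cons (nat_lit 0x6860a04000) (nat_lit 0x2fbf837) (.cons (nat_lit 0x6860808000) (nat_lit 0x656d8a1d99e2) (.cons (nat_lit 0x686060c000) (nat_lit 0x3a) (.cons (nat_lit 0x6850a08000) (nat_lit 0xf) (.cons (nat_lit 0x685080c000) (nat_lit 0x30df) (.cons (nat_lit 0x60a0600000) (nat_lit 0x94ddc00) (.cons (nat_lit 0x6090800000) (nat_lit 0x224394300) (.cons (nat_lit 0x6090604000) (nat_lit 0x3526822) (.cons (nat_lit 0x6080a00000) (nat_lit 0x131454680) (.cons (nat_lit 0x6080804000) (nat_lit 0xf82491a656ad) (.cons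 (nat_lit 0x6080608000) (nat_lit 0x787b0143f) (.cons (nat_lit 0x6070a04000) (nat_lit 0x24de8bd0d) (.cons (nat_lit 0x6070808000) (nat_lit 0xb04ac4a5e2d0) (.cons (nat_lit 0x607060c000) (nat_lit 0) (.cons (nat_lit 0x6060a08000) (nat_lit 0x6d5427bce) (.cons (nat_lit 0x606080c000) (nat_lit 0xd3d75f4) (.nil)))))))))))))))))))))))))))))))))))))))

noncomputable def nb_5_4_19 : NE := .cons (nat_lit 0x8860400000) (nat_lit 0x17ef67fa0000024540002200000) (.cons (nat_lit 0x8070400000) (nat_lit 0x13406742368b600000168800031) (.cons (nat_lit 0x8060600000) (nat_lit 0x1a0bae58004745ec00099400048) (.cons (nat_lit 0x8060404000) (nat_lit 0x5b00a4bd95880000) (.cons (nat_lit 0x7880400000) (nat_lit 0x15c1c2637110fb72150146fc0d60005e) (.cons (nat_lit 0x7870600000) (nat_lit 0x52b3f5b369b8085133ec) (.cons (nat_lit 0x7870404000) (nat_lit 0x8778ea70f08b00e40a4d2) (.cons (nat_lit 0x7860800000) (nat_lit 0x1179a18b524ed39e2da18c7005200070)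 (.cons (nat_lit 0x7860604000) (nat_lit 0xf081472cb31b00beb1f47) (.cons (nat_lit 0x7860408000) (nat_lit 0x96000191cd6e3ae5d0026) (.cons (nat_lit 0x7090400000) (nat_lit 0xadfc10d65e91af0fa8cbacb998) (.cons (nat_lit 0x7080600000) (nat_lit 0x10f1662862e9da46e488d0f9cf78cc47) (.cons (nat_lit 0x7080404000) (nat_lit 0x7c20f94ea1a070413fc8a) (.cons (nat_lit 0x7070800000) (nat_lit 0x1e8bda5ca15264aec3a233d2a3666c3a) (.cons (nat_lit 0x7070604000) (nat_lit 0x1ae97ebd1f1e7f72bb5f6be577a) (.cons (nat_lit 0x7070408000) (nat_lit 0x250001e0f3507d79) (.cons (nat_lit 0x7060a00000) (nat_lit 0xaa2c4c0fb42ddca8d5c02) (.cons (nat_lit 0x7060804000) (nat_lit 0x278f2e7e4bb506acdbe4f91200bcf1f) (.cons (nat_lit 0x7060608000) (nat_lit 0xcec384f7b233e13b005e) (.cons (nat_lit 0x68a0400000) (nat_lit 0x8d30f7b7a175d268f2045) (.cons (nat_lit 0x6890600000) (nat_lit 0x32f4d53260b24eb81ec8) (.cons (nat_lit 0x6890404000) (nat_lit 0x6fe3101b2798ed70b5921)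 (.cons (nat_lit 0x6880800000) (nat_lit 0x40e9e3bcd397040708ae4c701505fcb79c7d0) (.cons (nat_lit 0x6880604000) (nat_lit 0x18267ed6f32d11fe4998ca842d7) (.cons (nat_lit 0x6880408000) (nat_lit 0x193ea226cc4332f203b33a5cb3f) (.cons (nat_lit 0x6870a00000) (nat_lit 0x360c4589fe2b3052) (.cons (nat_lit 0x6870804000) (nat_lit 0x4d70dcf1554387cdcdea60ca11cda3ca24029) (.cons (nat_lit 0x6870608000) (nat_lit 0x91192f1279d78405a7c5e) (.cons (nat_lit 0x6860c00000) (nat_lit 0x5ed5205d140e219f1ce2c) (.cons (nat_lit 0x6860a04000) (nat_lit 0xd5e3b38540b746364059) (.cons (nat_lit 0x6860808000) (nat_lit 0x1299331d38c4a2d9cad8dcd0b58372a50c4b2) (.cons (nat_lit 0x60b0400000) (nat_lit 0x3d4a740c15b) (.cons (nat_lit 0x60a0600000) (nat_lit 0x42e36e63d14ce8bbc3a91) (.cons (nat_lit 0x60a0404000) (nat_lit 0x2a29c48045fbbb0c) (.cons (nat_lit 0x6090800000) (nat_lit 0x79589233f0cd571064ece530a) (.cons (nat_lit 0x6090604000) (nat_lit 0x4fa55bae0f8e5ec4d2a4e)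 (.cons (nat_lit 0x6090408000) (nat_lit 0x208a52572d0374ab) (.cons (nat_lit 0x6080a00000) (nat_lit 0x146de54ccd91b3f40c55042ee68) (.cons (nat_lit 0x6080804000) (nat_lit 0x6ba013058632fbd5f6a1635d5436114314285) (.cons (nat_lit 0x6080608000) (nat_lit 0x181af120d89c9ebb63fda87a146) (.cons (nat_lit 0x6070c00000) (nat_lit 0x701f12689b56e3d2) (.cons (nat_lit 0x6070a04000) (nat_lit 0x18f24f3a84bd1b958e57774e142) (.cons (nat_lit 0x6070808000) (nat_lit 0x34ee5160bc02af2820e5751a76a9db480a50c) (.cons (nat_lit 0x6060c04000) (nat_lit 0x389391436bdb264f) (.cons (nat_lit 0x6060a08000) (nat_lit 0x13c90657c79f2eaf525dd27b40e) (.nil)))))))))))))))))))))))))))))))))))))))))))))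

noncomputable def nb_5_4_18 : NE := .cons (nat_lit 0x8870200000) (nat_lit 0x1a80) (.cons (nat_lit 0x8080200000) (nat_lit 0x182180) (.cons (nat_lit 0x8070400000) (nat_lit 0xc800e80) (.cons (nat_lit 0x8070204000) (nat_lit 0x65) (.cons (nat_lit 0x7890200000) (nat_lit 0xc5d) (.cons (nat_lit 0x7880400000) (nat_lit 0x22b31602e80) (.cons (nat_lit 0x7880204000) (nat_lit 0x75) (.cons (nat_lit 0x7870600000) (nat_lit 0x134801e) (.cons (nat_lit 0x7870404000) (nat_lit 0x2ce402d) (.cons (nat_lit 0x70a0200000) (nat_lit 0x142c2b) (.cons (nat_lit 0x7090400000) (nat_lit 0x4905623f3) (.cons (nat_lit 0x7090204000) (nat_lit 6) (.cons (nat_lit 0x7080600000) (nat_lit 0x1f99ee29edb) (.cons (nat_lit 0x7080404000) (nat_lit 0xe293a7a) (.cons (nat_lit 0x7070800000) (nat_lit 0x36d5bf6df85) (.cons (nat_lit 0x7070604000) (nat_lit 0x5a18ca0cc) (.cons (nat_lit 0x68b0200000) (nat_lit 0x28) (.cons (nat_lit 0x68a0400000) (nat_lit 0xec9a6f8)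 (.cons (nat_lit 0x68a0204000) (nat_lit 0x29) (.cons (nat_lit 0x6890600000) (nat_lit 0x2f325b5) (.cons (nat_lit 0x6890404000) (nat_lit 0xc5c05d6) (.cons (nat_lit 0x6880800000) (nat_lit 0x81f156f0d2f4) (.cons (nat_lit 0x6880604000) (nat_lit 0x7905a5372) (.cons (nat_lit 0x6870a00000) (nat_lit 0x62f8a) (.cons (nat_lit 0x6870804000) (nat_lit 0x1cc15750c094f) (.cons (nat_lit 0x60c0200000) (nat_lit 0x4b) (.cons (nat_lit 0x60b0400000) (nat_lit 0x287d) (.cons (nat_lit 0x60a0600000) (nat_lit 0xb18ba44) (.cons (nat_lit 0x60a0404000) (nat_lit 0xc9656) (.cons (nat_lit 0x6090800000) (nat_lit 0x7da1d86a2) (.cons (nat_lit 0x6090604000) (nat_lit 0xe141027) (.cons (nat_lit 0x6080a00000) (nat_lit 0x234709837) (.cons (nat_lit 0x6080804000) (nat_lit 0x11e0ae56acc16) (.cons (nat_lit 0x6070c00000) (nat_lit 0x14fb9c) (.cons (nat_lit 0x6070a04000) (nat_lit 0x12ee45ec6) (.nil)))))))))))))))))))))))))))))))))))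

noncomputable def nb_5_4_17 : NE := .cons (nat_lit 0x8880000000) (nat_lit 0x26040190000) (.cons (nat_lit 0x8090000000) (nat_lit 0x94b0054) (.cons (nat_lit 0x8080200000) (nat_lit 0x3414e7c401f) (.cons (nat_lit 0x78a0000000) (nat_lit 0x2ce404f) (.cons (nat_lit 0x7890200000) (nat_lit 0xeb49f4) (.cons (nat_lit 0x7880400000) (nat_lit 0x72656788a8400063c006a) (.cons (nat_lit 0x70b0000000) (nat_lit 0x1a5b) (.cons (nat_lit 0x70a0200000) (nat_lit 0x2a6135ea3d0) (.cons (nat_lit 0x7090400000) (nat_lit 0x9ce4e44d1ba1c270c) (.cons (nat_lit 0x7080600000) (nat_lit 0xbf5569f9f0f77c483eee3) (.cons (nat_lit 0x68c0000000) (nat_lit 0x1bf7) (.cons (nat_lit 0x68b0200000) (nat_lit 0x34fe) (.cons (nat_lit 0x68a0400000) (nat_lit 0x733558d63fb034) (.cons (nat_lit 0x6890600000) (nat_lit 0x30d0b3473bae20) (.cons (nat_lit 0x6880800000) (nat_lit 0x2b00acebd5f65234552ff2d0e) (.cons (nat_lit 0x60c0200000) (nat_lit 0x16d) (.cons (nat_lit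 0x60b0400000) (nat_lit 0xd244634) (.cons (nat_lit 0x60a0600000) (nat_lit 0x801ff0493f0d0) (.cons (nat_lit 0x6090800000) (nat_lit 0x290098486ce7054f54) (.cons (nat_lit 0x6080a00000) (nat_lit 0x1c800bb049a65ad757) (.nil))))))))))))))))))))

noncomputable def nb_5_4_16 : NE := .cons (nat_lit 0x9040404000) (nat_lit 0xf) (.cons (nat_lit 0x8850404000) (nat_lit 0x16b6) (.cons (nat_lit 0x8840604000) (nat_lit 0x14) (.cons (nat_lit 0x8840408000) (nat_lit 0x2455) (.cons (nat_lit 0x8060404000) (nat_lit 0x4ffc) (.cons (nat_lit 0x8050604000) (nat_lit 0x3991) (.cons (nat_lit 0x8050408000) (nat_lit 0xf64c5) (.cons (nat_lit 0x8040804000) (nat_lit 0xedb) (.cons (nat_lit 0x8040608000) (nat_lit 0x47) (.cons (nat_lit 0x8040408080) (nat_lit 0x37) (.cons (nat_lit 0x7870404000) (nat_lit 0x6828f5b) (.cons (nat_lit 0x7860604000) (nat_lit 0xc9369f2) (.cons (nat_lit 0x7860408000) (nat_lit 0xca25e0e) (.cons (nat_lit 0x7850804000) (nat_lit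 0x6a02d) (.cons (nat_lit 0x7850608000) (nat_lit 0x34cc) (.cons (nat_lit 0x7850604080) (nat_lit 0x3b) (.cons (nat_lit 0x7850408080) (nat_lit 0x1d) (.cons (nat_lit 0x7840808000) (nat_lit 0x1d655) (.cons (nat_lit 0x7080404000) (nat_lit 0xac8c29b) (.cons (nat_lit 0x7070604000) (nat_lit 0xf747bac2) (.cons (nat_lit 0x7070408000) (nat_lit 0x135fe) (.cons (nat_lit 0x7070404080) (nat_lit 0x6a) (.cons (nat_lit 0x7060804000) (nat_lit 0x2fb37a5cd14) (.cons (nat_lit 0x7060608000) (nat_lit 0xa1b98c0) (.cons (nat_lit 0x7060408080) (nat_lit 0x3e13) (.cons (nat_lit 0x7050808000) (nat_lit 0x8c44061) (.cons (nat_lit 0x7050804080) (nat_lit 0x14) (.cons (nat_lit 0x7050608080) (nat_lit 0x47) (.cons (nat_lit 0x7040808080) (nat_lit 0x2f) (.cons (nat_lit 0x6890404000) (nat_lit 0x983df26) (.cons (nat_lit 0x6880604000) (nat_lit 0x6e152a29e) (.cons (nat_lit 0x6880408000) (nat_lit 0x457793dd8) (.cons (nat_lit 0x6880404080) (nat_lit 0x1a)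 (.cons (nat_lit 0x6870804000) (nat_lit 0xb688d2615a7a) (.cons (nat_lit 0x6870608000) (nat_lit 0x5452c01) (.cons (nat_lit 0x6870604080) (nat_lit 0x3b1d) (.cons (nat_lit 0x6860808000) (nat_lit 0x4c4741030c6) (.cons (nat_lit 0x6860804080) (nat_lit 0x35) (.cons (nat_lit 0x6860608080) (nat_lit 0x336e) (.cons (nat_lit 0x6850808080) (nat_lit 0xbc3) (.nil))))))))))))))))))))))))))))))))))))))))

noncomputable def nb_5_4_15 : NE := .cons (nat_lit 0x9040600000) (nat_lit 0x12a0) (.cons (nat_lit 0x8850600000) (nat_lit 0xdc8) (.cons (nat_lit 0x8840800000) (nat_lit 0xf6fb8) (.cons (nat_lit 0x8840604000) (nat_lit 0x47) (.cons (nat_lit 0x8060600000) (nat_lit 0x248864c16) (.cons (nat_lit 0x8050800000) (nat_lit 0x197bce) (.cons (nat_lit 0x8050604000) (nat_lit 0x915) (.cons (nat_lit 0x8040804000) (nat_lit 0x2093) (.cons (nat_lit 0x8040608000) (nat_lit 0xe) (.cons (nat_lit 0x7870600000) (nat_lit 0x6979086) (.cons (nat_lit 0x7860800000)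 (nat_lit 0x1afa6afda0d) (.cons (nat_lit 0x7860604000) (nat_lit 0x25c9ce) (.cons (nat_lit 0x7850804000) (nat_lit 0x19b0ee) (.cons (nat_lit 0x7850608000) (nat_lit 0x3492) (.cons (nat_lit 0x7840808000) (nat_lit 0x1f403a) (.cons (nat_lit 0x7080600000) (nat_lit 0x134ef108479) (.cons (nat_lit 0x7070800000) (nat_lit 0x27ec650c528) (.cons (nat_lit 0x7070604000) (nat_lit 0xc63da31d) (.cons (nat_lit 0x7060804000) (nat_lit 0x2e917640a40) (.cons (nat_lit 0x7060608000) (nat_lit 0xd0ca9c4) (.cons (nat_lit 0x7050808000) (nat_lit 0x6dd0b03) (.cons (nat_lit 0x704080c000) (nat_lit 0x2c) (.cons (nat_lit 0x6890600000) (nat_lit 0x939c5a2) (.cons (nat_lit 0x6880800000) (nat_lit 0x15871e3afd769) (.cons (nat_lit 0x6880604000) (nat_lit 0x46aeaf366) (.cons (nat_lit 0x6870804000) (nat_lit 0x5880679c98ab) (.cons (nat_lit 0x6870608000) (nat_lit 0x55b1f36) (.cons (nat_lit 0x6860808000) (nat_lit 0x1a1ca6879eba1) (.cons (nat_lit 0x686060c000)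 (nat_lit 0x53) (.cons (nat_lit 0x685080c000) (nat_lit 0x241a) (.nil))))))))))))))))))))))))))))))

noncomputable def nb_5_4_14 : NE := .cons (nat_lit 0x9050400000) (nat_lit 0x3bbd0018000) (.cons (nat_lit 0x8860400000) (nat_lit 0x3e51438c0a5019c068) (.cons (nat_lit 0x8850600000) (nat_lit 0xf5ac052) (.cons (nat_lit 0x8850404000) (nat_lit 0xc0a557e) (.cons (nat_lit 0x8070400000) (nat_lit 0x22944c8b34fd4000) (.cons (nat_lit 0x8060600000) (nat_lit 0x1658932236766b003e) (.cons (nat_lit 0x8060404000) (nat_lit 0xb72263199a) (.cons (nat_lit 0x8050800000) (nat_lit 0xd31daac042) (.cons (nat_lit 0x8050604000) (nat_lit 0xfbc4813) (.cons (nat_lit 0x8050408000) (nat_lit 0x38d26cb0083) (.cons (nat_lit 0x7880400000) (nat_lit 0x8fb35f5ce6d6a4201405e) (.cons (nat_lit 0x7870600000) (nat_lit 0x9d2fbfebbf144e) (.cons (nat_lit 0x7870404000) (nat_lit 0x5b608863466a90) (.cons (nat_lit 0x7860800000) (nat_lit 0xd4096b8fc425817754070)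 (.cons (nat_lit 0x7860604000) (nat_lit 0x5b3ef0bd1c3813) (.cons (nat_lit 0x7860408000) (nat_lit 0x3744f91ad0b3ec) (.cons (nat_lit 0x7850804000) (nat_lit 0x2668e4bc454) (.cons (nat_lit 0x7850608000) (nat_lit 0xcb6cfef) (.cons (nat_lit 0x7090400000) (nat_lit 0x2253599804d6797828) (.cons (nat_lit 0x7080600000) (nat_lit 0x275fa79255e6cb68512b2) (.cons (nat_lit 0x7080404000) (nat_lit 0x60153129f9a64a) (.cons (nat_lit 0x7070800000) (nat_lit 0x965fdbc063c5f7b3a1c33) (.cons (nat_lit 0x7070604000) (nat_lit 0x2e30317ef6f6c3adcc) (.cons (nat_lit 0x7070408000) (nat_lit 0x3ef912815e9) (.cons (nat_lit 0x7060a00000) (nat_lit 0x399d7d4566a6b7) (.cons (nat_lit 0x7060804000) (nat_lit 0x76db91790476b6c4e04ac) (.cons (nat_lit 0x7060608000) (nat_lit 0x259337cd6d6d9a) (.cons (nat_lit 0x7050a04000) (nat_lit 0x222d) (.cons (nat_lit 0x7050808000) (nat_lit 0xf6d816d903486c) (.cons (nat_lit 0x68a0400000) (nat_lit 0x50be0b83c78225) (.cons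 (nat_lit 0x6890600000) (nat_lit 0x1f38b0d15d1a2b) (.cons (nat_lit 0x6890404000) (nat_lit 0x3c73bcbde0ff79) (.cons (nat_lit 0x6880800000) (nat_lit 0x2d0c13e3969db99c3cf7fa4cd) (.cons (nat_lit 0x6880604000) (nat_lit 0x272506b84c0fb93cb7) (.cons (nat_lit 0x6880408000) (nat_lit 0x16ddc9d97e205712be) (.cons (nat_lit 0x6870a00000) (nat_lit 0x3bb45b2b35b) (.cons (nat_lit 0x6870804000) (nat_lit 0x3b560f40b63bb1cc2f55eefe6) (.cons (nat_lit 0x6870608000) (nat_lit 0x7434886e22beca) (.cons (nat_lit 0x6860a04000) (nat_lit 0x3917ea9eb7ea68) (.cons (nat_lit 0x6860808000) (nat_lit 0x6e6795b2a4018010427a6835) (.cons (nat_lit 0x6850a08000) (nat_lit 0x1b22) (.nil)))))))))))))))))))))))))))))))))))))))))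

noncomputable def nb_5_4_13 : NE := .cons (nat_lit 0x9060200000) (nat_lit 0x3c800d0000) (.cons (nat_lit 0x8870200000) (nat_lit 0x6f1801e) (.cons (nat_lit 0x8860400000) (nat_lit 0x3e9800034a30040023) (.cons (nat_lit 0x8080200000) (nat_lit 0x5851bc043) (.cons (nat_lit 0x8070400000) (nat_lit 0x6a8a18000c314048) (.cons (nat_lit 0x8070204000) (nat_lit 0x1bf8) (.cons (nat_lit 0x8060600000) (nat_lit 0x9dd01b440eb0bc03a) (.cons (nat_lit 0x8060404000) (nat_lit 0x1c0980000) (.cons (nat_lit 0x7890200000) (nat_lit 0xb9ed3fb) (.cons (nat_lit 0x7880400000) (nat_lit 0x9537bae7d0c07cdad007a) (.cons (nat_lit 0x7880204000) (nat_lit 0x63d) (.cons (nat_lit 0x7870600000) (nat_lit 0xaddca7e002dcea) (.cons (nat_lit 0x7870404000) (nat_lit 0xa61a43a00cba76) (.cons (nat_lit 0x7860800000) (nat_lit 0x2f1a0af4c76aaf0074043) (.cons (nat_lit 0x7860604000) (nat_lit 0x93d58160117c06) (.cons (nat_lit 0x70a0200000) (nat_lit 0x362d1a31761)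 (.cons (nat_lit 0x7090400000) (nat_lit 0x3d57e9b102913b0e78) (.cons (nat_lit 0x7090204000) (nat_lit 0x1279) (.cons (nat_lit 0x7080600000) (nat_lit 0x57f980b804d096b079eee) (.cons (nat_lit 0x7080404000) (nat_lit 0x54d1a335503748) (.cons (nat_lit 0x7070800000) (nat_lit 0x4b603a1be6bde13544b30) (.cons (nat_lit 0x7070604000) (nat_lit 0x28cf4de6819794cf12) (.cons (nat_lit 0x7060a00000) (nat_lit 0x27f907a6c97c51) (.cons (nat_lit 0x7060804000) (nat_lit 0xa6ee61c3bcbae98e4e64d) (.cons (nat_lit 0x68b0200000) (nat_lit 0x378f) (.cons (nat_lit 0x68a0400000) (nat_lit 0xa3ecc107b97e09) (.cons (nat_lit 0x68a0204000) (nat_lit 0x3e6c) (.cons (nat_lit 0x6890600000) (nat_lit 0x859faf81256688) (.cons (nat_lit 0x6890404000) (nat_lit 0xfc29bfa4b97d96) (.cons (nat_lit 0x6880800000) (nat_lit 0x23a9e54a49807c680230bae69) (.cons (nat_lit 0x6880604000) (nat_lit 0x1730b0a0e8fe1596f2) (.cons (nat_lit 0x6870a00000) (nat_lit 0x9d8a00a860)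 (.cons (nat_lit 0x6870804000) (nat_lit 0x2709c2d66f7900d7dc22da516) (.cons (nat_lit 0x6860c00000) (nat_lit 0x1a513163f2ac64) (.cons (nat_lit 0x6860a04000) (nat_lit 0x2748df954f4053) (.nil)))))))))))))))))))))))))))))))))))

noncomputable def nb_5_4_12 : NE := .cons (nat_lit 0x9070000000) (nat_lit 0x3500) (.cons (nat_lit 0x8880000000) (nat_lit 0x9a315) (.cons (nat_lit 0x8870200000) (nat_lit 0x42e) (.cons (nat_lit 0x8090000000) (nat_lit 0x1d30) (.cons (nat_lit 0x8080200000) (nat_lit 0x16e163) (.cons (nat_lit 0x8070400000) (nat_lit 0x69fc0350a) (.cons (nat_lit 0x78a0000000) (nat_lit 0x395a) (.cons (nat_lit 0x7890200000) (nat_lit 0x79d) (.cons (nat_lit 0x7880400000) (nat_lit 0x3f3025fb0d7) (.cons (nat_lit 0x7870600000) (nat_lit 0xa8f9875) (.cons (nat_lit 0x70b0000000) (nat_lit 0x76) (.cons (nat_lit 0x70a0200000) (nat_lit 0x1ab30b) (.cons (nat_lit 0x7090400000) (nat_lit 0x2eca78bd3) (.cons (nat_lit 0x7080600000)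 (nat_lit 0x17d4057d911) (.cons (nat_lit 0x7070800000) (nat_lit 0x33f9f691666) (.cons (nat_lit 0x68c0000000) (nat_lit 0x24) (.cons (nat_lit 0x68b0200000) (nat_lit 0x48) (.cons (nat_lit 0x68a0400000) (nat_lit 0x40a44e7) (.cons (nat_lit 0x6890600000) (nat_lit 0xfd83a1f) (.cons (nat_lit 0x6880800000) (nat_lit 0xe862646df4c8) (.cons (nat_lit 0x6870a00000) (nat_lit 0x1ed4e9) (.nil)))))))))))))))))))))

noncomputable def nb_5_4_11 : NE := .cons (nat_lit 0x9820408000) (nat_lit 0x59) (.cons (nat_lit 0x9030408000) (nat_lit 0x3b) (.cons (nat_lit 0x8840408000) (nat_lit 0x966) (.cons (nat_lit 0x8820408100) (nat_lit 6) (.cons (nat_lit 0x8050408000) (nat_lit 0x1080b2) (.cons (nat_lit 0x8040408080) (nat_lit 0x65) (.cons (nat_lit 0x7860408000) (nat_lit 0x195770b) (.cons (nat_lit 0x7850408080) (nat_lit 0x11) (.cons (nat_lit 0x7840408100) (nat_lit 0x44) (.cons (nat_lit 0x7070408000) (nat_lit 0x7fee6) (.cons (nat_lit 0x7060408080)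 (nat_lit 0xbaa) (.cons (nat_lit 0x7050408100) (nat_lit 0x30) (.nil))))))))))))

noncomputable def nb_5_4_10 : NE := .cons (nat_lit 0x9840400000) (nat_lit 0xdf41b5800d) (.cons (nat_lit 0x9050400000) (nat_lit 0x3d6a4a50069) (.cons (nat_lit 0x9040600000) (nat_lit 0x5438125) (.cons (nat_lit 0x9040404000) (nat_lit 0x3abb) (.cons (nat_lit 0x8860400000) (nat_lit 0x106e17aaa2269798a1) (.cons (nat_lit 0x8850600000) (nat_lit 0xa77aeee) (.cons (nat_lit 0x8850404000) (nat_lit 0xd5bd518) (.cons (nat_lit 0x8840800000) (nat_lit 0x196729263c0) (.cons (nat_lit 0x8840604000) (nat_lit 0x569) (.cons (nat_lit 0x8840408000) (nat_lit 0x247efc8) (.cons (nat_lit 0x8070400000) (nat_lit 0x54ef47125e1991510) (.cons (nat_lit 0x8060600000) (nat_lit 0x28f5fb412ed10267a8) (.cons (nat_lit 0x8060404000) (nat_lit 0x3ea289a3bf3) (.cons (nat_lit 0x8050800000) (nat_lit 0xa99d874899) (.cons (nat_lit 0x8050604000) (nat_lit 0x929d214) (.cons (nat_lit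 0x8050408000) (nat_lit 0x24341ded0b8) (.cons (nat_lit 0x8040804000) (nat_lit 0x7735f39) (.cons (nat_lit 0x8040608000) (nat_lit 0x1629) (.cons (nat_lit 0x7880400000) (nat_lit 0x67a6d37f0371cac50c8c9) (.cons (nat_lit 0x7870600000) (nat_lit 0x5628657d585d3f) (.cons (nat_lit 0x7870404000) (nat_lit 0xa57635b23d9ee2) (.cons (nat_lit 0x7860800000) (nat_lit 0x142806aee3776a6bcd915) (.cons (nat_lit 0x7860604000) (nat_lit 0x806a546a1d0bcd) (.cons (nat_lit 0x7860408000) (nat_lit 0x59bde04e1c3d4e) (.cons (nat_lit 0x7850804000) (nat_lit 0x234191df66c) (.cons (nat_lit 0x7850608000) (nat_lit 0xeb8dc44) (.cons (nat_lit 0x7840808000) (nat_lit 0x8c224647f6) (.cons (nat_lit 0x7090400000) (nat_lit 0xa8d8d6cdf3ed0d26b) (.cons (nat_lit 0x7080600000) (nat_lit 0x3394891e1579989972f96) (.cons (nat_lit 0x7080404000) (nat_lit 0xca7b35b553a03d) (.cons (nat_lit 0x7070800000) (nat_lit 0x28ed4cfbc4d0053be9081) (.cons (nat_lit 0x7070604000)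 (nat_lit 0x321b10658d38126b68) (.cons (nat_lit 0x7070408000) (nat_lit 0x3ae05fddeb1) (.cons (nat_lit 0x7060804000) (nat_lit 0x24788f6e64a6b42df3b17) (.cons (nat_lit 0x7060608000) (nat_lit 0xe4476bb9669f8) (.cons (nat_lit 0x7050808000) (nat_lit 0xb5f64f544f1c62) (.nil))))))))))))))))))))))))))))))))))))

noncomputable def nb_5_4_9 : NE := .cons (nat_lit 0x9850200000) (nat_lit 0x66) (.cons (nat_lit 0x9060200000) (nat_lit 0x1ad32d) (.cons (nat_lit 0x9050400000) (nat_lit 0x8fdbb) (.cons (nat_lit 0x8870200000) (nat_lit 0x358b) (.cons (nat_lit 0x8860400000) (nat_lit 0x28d17a82) (.cons (nat_lit 0x8850600000) (nat_lit 0x2adc) (.cons (nat_lit 0x8850404000) (nat_lit 0x18d6) (.cons (nat_lit 0x8080200000) (nat_lit 0x89490) (.cons (nat_lit 0x8070400000) (nat_lit 0x7eddfb552) (.cons (nat_lit 0x8070204000) (nat_lit 0x1f) (.cons (nat_lit 0x8060600000) (nat_lit 0x155076f46) (.cons (nat_lit 0x8060404000) (nat_lit 0x747c6) (.cons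 (nat_lit 0x8050800000) (nat_lit 0x160aee) (.cons (nat_lit 0x8050604000) (nat_lit 0x344a) (.cons (nat_lit 0x7890200000) (nat_lit 0x3d20) (.cons (nat_lit 0x7880400000) (nat_lit 0x38077104942) (.cons (nat_lit 0x7880204000) (nat_lit 0x3a) (.cons (nat_lit 0x7870600000) (nat_lit 0x578f2cf) (.cons (nat_lit 0x7870404000) (nat_lit 0x6143367) (.cons (nat_lit 0x7860800000) (nat_lit 0x11950a4491e) (.cons (nat_lit 0x7860604000) (nat_lit 0x239be74) (.cons (nat_lit 0x7850804000) (nat_lit 0xd6942) (.cons (nat_lit 0x70a0200000) (nat_lit 0xf6c45) (.cons (nat_lit 0x7090400000) (nat_lit 0x13d639736) (.cons (nat_lit 0x7090204000) (nat_lit 0x78) (.cons (nat_lit 0x7080600000) (nat_lit 0x3d1f4c4e988) (.cons (nat_lit 0x7080404000) (nat_lit 0x5d1896c) (.cons (nat_lit 0x7070800000) (nat_lit 0x248e4720c62) (.cons (nat_lit 0x7070604000) (nat_lit 0x51cb94986) (.cons (nat_lit 0x7060a00000) (nat_lit 0x13730ac) (.cons (nat_lit 0x7060804000)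 (nat_lit 0x6a18765f1d) (.cons (nat_lit 0x7050a04000) (nat_lit 0x21) (.nil))))))))))))))))))))))))))))))))

noncomputable def nb_5_4_8 : NE := .cons (nat_lit 0x9860000000) (nat_lit 0x632c04d) (.cons (nat_lit 0x9070000000) (nat_lit 0x19c0022) (.cons (nat_lit 0x9060200000) (nat_lit 0x3d3e101400f) (.cons (nat_lit 0x8880000000) (nat_lit 0x1efd01af35b) (.cons (nat_lit 0x8870200000) (nat_lit 0x4eb9313) (.cons (nat_lit 0x8860400000) (nat_lit 0x3cbd00e4f5c8aaa85d) (.cons (nat_lit 0x8090000000) (nat_lit 0xf9875d3) (.cons (nat_lit 0x8080200000) (nat_lit 0x1fa248ec4ab) (.cons (nat_lit 0x8070400000) (nat_lit 0x3f05d33c07032847a1) (.cons (nat_lit 0x8060600000) (nat_lit 0x14f20e6fa65e14deed) (.cons (nat_lit 0x78a0000000) (nat_lit 0x7a339fe) (.cons (nat_lit 0x7890200000) (nat_lit 0x5959b0f) (.cons (nat_lit 0x7880400000) (nat_lit 0x368fa0d6ba6f398211cbe) (.cons (nat_lit 0x7870600000) (nat_lit 0x1a01bda5f6cb2f) (.cons (nat_lit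 0x7860800000) (nat_lit 0x66bb2d1b55b3d00067813) (.cons (nat_lit 0x70b0000000) (nat_lit 0x1a26) (.cons (nat_lit 0x70a0200000) (nat_lit 0xfbb24e59dc) (.cons (nat_lit 0x7090400000) (nat_lit 0x33745e0af640f997d1) (.cons (nat_lit 0x7080600000) (nat_lit 0xa0f06314396fb4778371c) (.cons (nat_lit 0x7070800000) (nat_lit 0x66eda3ddaedb817992794) (.cons (nat_lit 0x7060a00000) (nat_lit 0x216daaa9f35b20) (.nil)))))))))))))))))))))

noncomputable def nb_5_4_7 : NE := .cons (nat_lit 0xa030400000) (nat_lit 0x12) (.cons (nat_lit 0x9840400000) (nat_lit 0x1c1784) (.cons (nat_lit 0x9050400000) (nat_lit 0x7de27) (.cons (nat_lit 0x9040600000) (nat_lit 0x2502) (.cons (nat_lit 0x9040404000) (nat_lit 0x64) (.cons (nat_lit 0x9030408000) (nat_lit 0x35) (.cons (nat_lit 0x8860400000) (nat_lit 0x1f950e916) (.cons (nat_lit 0x8850600000) (nat_lit 0xdab) (.cons (nat_lit 0x8850404000) (nat_lit 0x3534) (.cons (nat_lit 0x8840604000) (nat_lit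 2) (.cons (nat_lit 0x8840408000) (nat_lit 0xfb8) (.cons (nat_lit 0x8070400000) (nat_lit 0x7edb81ca2) (.cons (nat_lit 0x8060600000) (nat_lit 0xdbe8667) (.cons (nat_lit 0x8060404000) (nat_lit 0xb51bb) (.cons (nat_lit 0x8050604000) (nat_lit 0x1469) (.cons (nat_lit 0x8050408000) (nat_lit 0x145d1d) (.cons (nat_lit 0x8040608000) (nat_lit 0x11) (.cons (nat_lit 0x7880400000) (nat_lit 0x2cce188c181) (.cons (nat_lit 0x7870600000) (nat_lit 0xfcb35e8) (.cons (nat_lit 0x7870404000) (nat_lit 0xf54d54d) (.cons (nat_lit 0x7860604000) (nat_lit 0x19326fe) (.cons (nat_lit 0x7860408000) (nat_lit 0xd04959b) (.cons (nat_lit 0x7850608000) (nat_lit 0x3390) (.nil)))))))))))))))))))))))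

noncomputable def nb_5_4_6 : NE := .cons (nat_lit 0xa040200000) (nat_lit 0x21) (.cons (nat_lit 0x9850200000) (nat_lit 6) (.cons (nat_lit 0x9840400000) (nat_lit 0x17ef28) (.cons (nat_lit 0x9060200000) (nat_lit 0x1dcc1c) (.cons (nat_lit 0x9050400000) (nat_lit 0x1b7096) (.cons (nat_lit 0x9040600000) (nat_lit 0x2738) (.cons (nat_lit 0x9040404000) (nat_lit 0x55) (.cons (nat_lit 0x8870200000) (nat_lit 0x3791) (.cons (nat_lit 0x8860400000) (nat_lit 0x2fb409d1f) (.cons (nat_lit 0x8850600000) (nat_lit 0xd0) (.cons (nat_lit 0x8850404000) (nat_lit 0x3d05) (.cons (nat_lit 0x8840800000) (nat_lit 0x3408b) (.cons (nat_lit 0x8840604000) (nat_lit 0x5c) (.cons (nat_lit 0x8080200000) (nat_lit 0x1f20f0) (.cons (nat_lit 0x8070400000) (nat_lit 0x5d5430b63) (.cons (nat_lit 0x8070204000) (nat_lit 0x5c) (.cons (nat_lit 0x8060600000) (nat_lit 0x405f93c09) (.cons (nat_lit 0x8060404000) (nat_lit 0xd2cb1) (.cons (nat_lit 0x8050800000)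 (nat_lit 0x924ea) (.cons (nat_lit 0x8050604000) (nat_lit 0xee0) (.cons (nat_lit 0x8040804000) (nat_lit 0x2282) (.cons (nat_lit 0x7890200000) (nat_lit 0xbcd) (.cons (nat_lit 0x7880400000) (nat_lit 0x236d60c3850) (.cons (nat_lit 0x7880204000) (nat_lit 0x66) (.cons (nat_lit 0x7870600000) (nat_lit 0xca20683) (.cons (nat_lit 0x7870404000) (nat_lit 0x3332cf2) (.cons (nat_lit 0x7860800000) (nat_lit 0x38c6faa1a93) (.cons (nat_lit 0x7860604000) (nat_lit 0x6e3786) (.cons (nat_lit 0x7850804000) (nat_lit 0x1d56ee) (.nil)))))))))))))))))))))))))))))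

noncomputable def nb_5_4_5 : NE := .cons (nat_lit 0xa050000000) (nat_lit 0x1400) (.cons (nat_lit 0x9860000000) (nat_lit 0x3b2b) (.cons (nat_lit 0x9850200000) (nat_lit 0x24) (.cons (nat_lit 0x9070000000) (nat_lit 0x108c) (.cons (nat_lit 0x9060200000) (nat_lit 0x13f917) (.cons (nat_lit 0x9050400000) (nat_lit 0x1a1d78) (.cons (nat_lit 0x8880000000) (nat_lit 0x8274) (.cons (nat_lit 0x8870200000) (nat_lit 0x2e09) (.cons (nat_lit 0x8860400000) (nat_lit 0x2d6dddefb) (.cons (nat_lit 0x8850600000) (nat_lit 0xb4a) (.cons (nat_lit 0x8090000000) (nat_lit 0x398a) (.cons (nat_lit 0x8080200000) (nat_lit 0x120504) (.cons (nat_lit 0x8070400000) (nat_lit 0x4e3089786) (.cons (nat_lit 0x8060600000) (nat_lit 0x373c950d6) (.cons (nat_lit 0x8050800000) (nat_lit 0x71f24) (.cons (nat_lit 0x78a0000000) (nat_lit 0x1807) (.cons (nat_lit 0x7890200000) (nat_lit 0) (.cons (nat_lit 0x7880400000) (nat_lit 0xf06d0d45f4) (.cons (nat_lit 0x7870600000)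 (nat_lit 0) (.cons (nat_lit 0x7860800000) (nat_lit 0x2f6ad3adbf5) (.nil))))))))))))))))))))

noncomputable def nb_5_4_4 : NE := .cons (nat_lit 0xa820400000) (nat_lit 0x12) (.cons (nat_lit 0xa030400000) (nat_lit 0x2e) (.cons (nat_lit 0x9840400000) (nat_lit 0x137af9) (.cons (nat_lit 0x9820408000) (nat_lit 0x70) (.cons (nat_lit 0x9050400000) (nat_lit 0x1e7314) (.cons (nat_lit 0x9040404000) (nat_lit 0x5a) (.cons (nat_lit 0x9030408000) (nat_lit 0x7d) (.cons (nat_lit 0x8860400000) (nat_lit 0x2da2a226e) (.cons (nat_lit 0x8850404000) (nat_lit 0x2130) (.cons (nat_lit 0x8840408000) (nat_lit 0x21c9) (.cons (nat_lit 0x8070400000) (nat_lit 0x60cd64d6) (.cons (nat_lit 0x8060404000) (nat_lit 0x16ec68) (.cons (nat_lit 0x8050408000) (nat_lit 0x9b4f5) (.nil)))))))))))))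

noncomputable def nb_5_4_3 : NE := .cons (nat_lit 0xa840000000) (nat_lit 0x777c063) (.cons (nat_lit 0xa050000000) (nat_lit 0x76a806b) (.cons (nat_lit 0xa040200000) (nat_lit 0x2ba2) (.cons (nat_lit 0x9860000000) (nat_lit 0xc1a7258) (.cons (nat_lit 0x9850200000) (nat_lit 0x199e) (.cons (nat_lit 0x9840400000) (nat_lit 0x14ea61a1022) (.cons (nat_lit 0x9070000000) (nat_lit 0xcce5903) (.cons (nat_lit 0x9060200000) (nat_lit 0x1e00efb0287) (.cons (nat_lit 0x9050400000) (nat_lit 0x3e51bf54fe3) (.cons (nat_lit 0x9040600000) (nat_lit 0xb8cc9db) (.cons (nat_lit 0x8880000000) (nat_lit 0x27adb73e0ce) (.cons (nat_lit 0x8870200000) (nat_lit 0x1a96a16) (.cons (nat_lit 0x8860400000) (nat_lit 0x3d2f0602d79e072986) (.cons (nat_lit 0x8850600000) (nat_lit 0x754d7d3) (.cons (nat_lit 0x8840800000) (nat_lit 0x2369d56c14b) (.cons (nat_lit 0x8090000000) (nat_lit 0x3ba6da6) (.cons (nat_lit 0x8080200000) (nat_lit 0x2cbe5ed78f7) (.cons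 (nat_lit 0x8070400000) (nat_lit 0x25c30a07800959651) (.cons (nat_lit 0x8060600000) (nat_lit 0x38d7a6cb34438a27d3) (.cons (nat_lit 0x8050800000) (nat_lit 0x1eeb2cb4dde) (.nil))))))))))))))))))))

noncomputable def nb_5_4_2 : NE := .cons (nat_lit 0xb030000000) (nat_lit 8) (.cons (nat_lit 0xa840000000) (nat_lit 0x306d) (.cons (nat_lit 0xa050000000) (nat_lit 0x1782) (.cons (nat_lit 0xa040200000) (nat_lit 0x40) (.cons (nat_lit 0xa030400000) (nat_lit 4) (.cons (nat_lit 0x9860000000) (nat_lit 0x2328) (.cons (nat_lit 0x9850200000) (nat_lit 0x22) (.cons (nat_lit 0x9840400000) (nat_lit 0x29598) (.cons (nat_lit 0x9070000000) (nat_lit 0x30bf) (.cons (nat_lit 0x9060200000) (nat_lit 0x71ffb) (.cons (nat_lit 0x9050400000) (nat_lit 0x16c477) (.cons (nat_lit 0x9040600000) (nat_lit 0x3126) (.cons (nat_lit 0x8880000000) (nat_lit 0xf8058) (.cons (nat_lit 0x8870200000) (nat_lit 0x438) (.cons (nat_lit 0x8860400000) (nat_lit 0x936db891)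 (.cons (nat_lit 0x8850600000) (nat_lit 0x931) (.nil))))))))))))))))

noncomputable def nb_5_4_1 : NE := .cons (nat_lit 0xb820000000) (nat_lit 0x56) (.cons (nat_lit 0xb030000000) (nat_lit 0x70) (.cons (nat_lit 0xa840000000) (nat_lit 0xea2) (.cons (nat_lit 0xa820400000) (nat_lit 0xd) (.cons (nat_lit 0xa050000000) (nat_lit 0xf1b) (.cons (nat_lit 0xa040200000) (nat_lit 0x5f) (.cons (nat_lit 0xa030400000) (nat_lit 0x13) (.cons (nat_lit 0x9860000000) (nat_lit 0x295e) (.cons (nat_lit 0x9850200000) (nat_lit 0x4c) (.cons (nat_lit 0x9840400000) (nat_lit 0x10b22e) (.cons (nat_lit 0x9070000000) (nat_lit 0x2410) (.cons (nat_lit 0x9060200000) (nat_lit 0x82224) (.cons (nat_lit 0x9050400000) (nat_lit 0x11c4dc) (.nil)))))))))))))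

noncomputable def nb_5_4_0 : NE := .cons (nat_lit 0xc800000000) (nat_lit 0x6b) (.cons (nat_lit 0xb820000000) (nat_lit 0x3e) (.cons (nat_lit 0xb030000000) (nat_lit 0x17) (.cons (nat_lit 0xa840000000) (nat_lit 0x3dd) (.cons (nat_lit 0xa050000000) (nat_lit 0x2a72) (.nil)))))

/-- blocks of the `N` tables (5, 4) to (5, 5) -/
noncomputable def tNB_5_4 : NTr := (.nd (nat_lit 0x5850800000) nb_5_4_29 (.nd (nat_lit 0x4880404000) nb_5_4_44 (.nd (nat_lit 0x4080408000) nb_5_4_52 (.nd (nat_lit 0x4060808000) nb_5_4_56 (.nd (nat_lit 0x386080c000) nb_5_4_58 (.nd (nat_lit 0x3060c08000) nb_5_4_59 .lf .lf) (.nd (nat_lit 0x4040810000) nb_5_4_57 .lf .lf)) (.nd (nat_lit 0x4060c00000) nb_5_4_54 (.nd (nat_lit 0x4060a04000) nb_5_4_55 .lf .lf) (.nd (nat_lit 0x4070804000) nb_5_4_53 .lf .lf))) (.nd (nat_lit 0x4860804000) nb_5_4_48 (.nd (nat_lit 0x4850808000) nb_5_4_50 (.nd (nat_lit 0x4080800000) nb_5_4_51 .lf .lf) (.nd (nat_lit 0x4860608000)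 nb_5_4_49 .lf .lf)) (.nd (nat_lit 0x4870604000) nb_5_4_46 (.nd (nat_lit 0x4860a00000) nb_5_4_47 .lf .lf) (.nd (nat_lit 0x4870800000) nb_5_4_45 .lf .lf)))) (.nd (nat_lit 0x5070600000) nb_5_4_36 (.nd (nat_lit 0x5060408000) nb_5_4_40 (.nd (nat_lit 0x5040808000) nb_5_4_42 (.nd (nat_lit 0x4880600000) nb_5_4_43 .lf .lf) (.nd (nat_lit 0x5050804000) nb_5_4_41 .lf .lf)) (.nd (nat_lit 0x5060800000) nb_5_4_38 (.nd (nat_lit 0x5060604000) nb_5_4_39 .lf .lf) (.nd (nat_lit 0x5070404000) nb_5_4_37 .lf .lf))) (.nd (nat_lit 0x5840804000) nb_5_4_32 (.nd (nat_lit 0x5090200000) nb_5_4_34 (.nd (nat_lit 0x5080400000) nb_5_4_35 .lf .lf) (.nd (nat_lit 0x50a0000000) nb_5_4_33 .lf .lf)) (.nd (nat_lit 0x5850604000) nb_5_4_30 (.nd (nat_lit 0x5850408000) nb_5_4_31 .lf .lf) .lf)))) (.nd (nat_lit 0x6850400000) nb_5_4_14 (.nd (nat_lit 0x6050404000) nb_5_4_21 (.nd (nat_lit 0x5870400000) nb_5_4_25 (.nd (nat_lit 0x5860600000) nb_5_4_27 (.nd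 (nat_lit 0x5860404000) nb_5_4_28 .lf .lf) (.nd (nat_lit 0x5870204000) nb_5_4_26 .lf .lf)) (.nd (nat_lit 0x6040408000) nb_5_4_23 (.nd (nat_lit 0x5880200000) nb_5_4_24 .lf .lf) (.nd (nat_lit 0x6040800000) nb_5_4_22 .lf .lf))) (.nd (nat_lit 0x6080000000) nb_5_4_17 (.nd (nat_lit 0x6060400000) nb_5_4_19 (.nd (nat_lit 0x6050600000) nb_5_4_20 .lf .lf) (.nd (nat_lit 0x6070200000) nb_5_4_18 .lf .lf)) (.nd (nat_lit 0x6840600000) nb_5_4_15 (.nd (nat_lit 0x6840404000) nb_5_4_16 .lf .lf) .lf))) (.nd (nat_lit 0x7840200000) nb_5_4_6 (.nd (nat_lit 0x7040400000) nb_5_4_10 (.nd (nat_lit 0x6870000000) nb_5_4_12 (.nd (nat_lit 0x6860200000) nb_5_4_13 .lf .lf) (.nd (nat_lit 0x7020408000) nb_5_4_11 .lf .lf)) (.nd (nat_lit 0x7060000000) nb_5_4_8 (.nd (nat_lit 0x7050200000) nb_5_4_9 .lf .lf) (.nd (nat_lit 0x7830400000) nb_5_4_7 .lf .lf))) (.nd (nat_lit 0x8830000000) nb_5_4_2 (.nd (nat_lit 0x8020400000) nb_5_4_4 (.nd (nat_lit 0x7850000000)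 nb_5_4_5 .lf .lf) (.nd (nat_lit 0x8040000000) nb_5_4_3 .lf .lf)) (.nd (nat_lit 0xa000000000) nb_5_4_0 (.nd (nat_lit 0x9020000000) nb_5_4_1 .lf .lf) .lf)))))

end Crest.Agent.R187.SN.KD
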