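import Crest.Agent.R187.SN.KD.NBase
import Crest.Agent.R187.SN.KD.NB_5_5_0

/-!
# Row 187, PLAN S, generated certificate data (mod 127): blocks, level (5, 5)

Written by a C++ program (helper662) from the recursion of `SN/Spec.lean`; canonical (RREF)
frames.  The tables are only data: every property is checked by the kernel elsewhere.
-/

set_option autoImplicit false
set_option maxRecDepth 100000

namespace Crest.Agent.R187.SN.KD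

/-- blocks of the `N` tables (5, 5) to (5, 6) -/
noncomputable def tNB_5_5 : NTr := (.nd (nat_lit 0x6070608080) nb_5_5_120 (.nd (nat_lit 0x5070c08000) nb_5_5_180 (.nd (nat_lit 0x4870e04080) nb_5_5_210 (.nd (nat_lit 0x4080c0c000) nb_5_5_225 (.nd (nat_lit 0x4070810100) nb_5_5_233 (.nd (nat_lit 0x4060810180) nb_5_5_237 (.nd (nat_lit 0x3860c10100) nb_5_5_239 (.nd (nat_lit 0x3060c18080) nb_5_5_240 .lf .lf) (.nd (nat_lit 0x3870a0c180) nb_5_5_238 .lf .lf)) (.nd (nat_lit 0x4060c10080) nb_5_5_235 (.nd (nat_lit 0x4060c0c100) nb_5_5_236 .lf .lf) (.nd (nat_lit 0x4060c14000) nb_5_5_234 .lf .lf))) (.nd (nat_lit 0x4080810080) nb_5_5_229 (.nd (nat_lit 0x4070c0c080) nb_5_5_231 (.nd (nat_lit 0x4070a10080) nb_5_5_232 .lf .lf) (.nd (nat_lit 0x4070c10000) nb_5_5_230 .lf .lf)) (.nd (nat_lit 0x4080a10000) nb_5_5_227 (.nd (nat_lit 0x4080a08100) nb_5_5_228 .lf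 .lf) (.nd (nat_lit 0x4080c08080) nb_5_5_226 .lf .lf)))) (.nd (nat_lit 0x4860c10000) nb_5_5_217 (.nd (nat_lit 0x4860a0c100) nb_5_5_221 (.nd (nat_lit 0x4840810200) nb_5_5_223 (.nd (nat_lit 0x4080e08000) nb_5_5_224 .lf .lf) (.nd (nat_lit 0x4860810100) nb_5_5_222 .lf .lf)) (.nd (nat_lit 0x4860c08100) nb_5_5_219 (.nd (nat_lit 0x4860a10080) nb_5_5_220 .lf .lf) (.nd (nat_lit 0x4860c0c080) nb_5_5_218 .lf .lf))) (.nd (nat_lit 0x4870a10000) nb_5_5_213 (.nd (nat_lit 0x4870810080) nb_5_5_215 (.nd (nat_lit 0x487080c100) nb_5_5_216 .lf .lf) (.nd (nat_lit 0x4870a0c080) nb_5_5_214 .lf .lf)) (.nd (nat_lit 0x4870c0c000) nb_5_5_211 (.nd (nat_lit 0x4870c08080) nb_5_5_212 .lf .lf) .lf)))) (.nd (nat_lit 0x4890c04000) nb_5_5_195 (.nd (nat_lit 0x4880e04000) nb_5_5_202 (.nd (nat_lit 0x4880a08080) nb_5_5_206 (.nd (nat_lit 0x488080c080) nb_5_5_208 (.nd (nat_lit 0x4880808100)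 nb_5_5_209 .lf .lf) (.nd (nat_lit 0x4880810000) nb_5_5_207 .lf .lf)) (.nd (nat_lit 0x4880c04080) nb_5_5_204 (.nd (nat_lit 0x4880a0c000) nb_5_5_205 .lf .lf) (.nd (nat_lit 0x4880c08000) nb_5_5_203 .lf .lf))) (.nd (nat_lit 0x489080c000) nb_5_5_198 (.nd (nat_lit 0x489060c080) nb_5_5_200 (.nd (nat_lit 0x4881000000) nb_5_5_201 .lf .lf) (.nd (nat_lit 0x4890808080) nb_5_5_199 .lf .lf)) (.nd (nat_lit 0x4890a08000) nb_5_5_196 (.nd (nat_lit 0x4890a04080) nb_5_5_197 .lf .lf) .lf))) (.nd (nat_lit 0x5060c0c000) nb_5_5_187 (.nd (nat_lit 0x5060a08100) nb_5_5_191 (.nd (nat_lit 0x506080c100) nb_5_5_193 (.nd (nat_lit 0x5050810100) nb_5_5_194 .lf .lf) (.nd (nat_lit 0x5060810080) nb_5_5_192 .lf .lf)) (.nd (nat_lit 0x5060a10000) nb_5_5_189 (.nd (nat_lit 0x5060a0c080) nb_5_5_190 .lf .lf) (.nd (nat_lit 0x5060c08080) nb_5_5_188 .lf .lf))) (.nd (nat_lit 0x5070a08080)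 nb_5_5_183 (.nd (nat_lit 0x507080c080) nb_5_5_185 (.nd (nat_lit 0x5070808100) nb_5_5_186 .lf .lf) (.nd (nat_lit 0x5070810000) nb_5_5_184 .lf .lf)) (.nd (nat_lit 0x5070c04080) nb_5_5_181 (.nd (nat_lit 0x5070a0c000) nb_5_5_182 .lf .lf) .lf))))) (.nd (nat_lit 0x5870a04080) nb_5_5_150 (.nd (nat_lit 0x50a0408080) nb_5_5_165 (.nd (nat_lit 0x5080e00000) nb_5_5_172 (.nd (nat_lit 0x508080c000) nb_5_5_176 (.nd (nat_lit 0x5080608100) nb_5_5_178 (.nd (nat_lit 0x5070e04000) nb_5_5_179 .lf .lf) (.nd (nat_lit 0x5080808080) nb_5_5_177 .lf .lf)) (.nd (nat_lit 0x5080a08000) nb_5_5_174 (.nd (nat_lit 0x5080a04080) nb_5_5_175 .lf .lf) (.nd (nat_lit 0x5080c04000) nb_5_5_173 .lf .lf))) (.nd (nat_lit 0x5090808000) nb_5_5_168 (.nd (nat_lit 0x509060c000) nb_5_5_170 (.nd (nat_lit 0x5090608080) nb_5_5_171 .lf .lf) (.nd (nat_lit 0x5090804080) nb_5_5_169 .lf .lf)) (.nd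 (nat_lit 0x5090c00000) nb_5_5_166 (.nd (nat_lit 0x5090a04000) nb_5_5_167 .lf .lf) .lf))) (.nd (nat_lit 0x5860810000) nb_5_5_157 (.nd (nat_lit 0x5840810100) nb_5_5_161 (.nd (nat_lit 0x50a0804000) nb_5_5_163 (.nd (nat_lit 0x50a0608000) nb_5_5_164 .lf .lf) (.nd (nat_lit 0x50a0a00000) nb_5_5_162 .lf .lf)) (.nd (nat_lit 0x5860808100) nb_5_5_159 (.nd (nat_lit 0x5850a0c080) nb_5_5_160 .lf .lf) (.nd (nat_lit 0x586080c080) nb_5_5_158 .lf .lf))) (.nd (nat_lit 0x587060c080) nb_5_5_153 (.nd (nat_lit 0x5860a0c000) nb_5_5_155 (.nd (nat_lit 0x5860a08080) nb_5_5_156 .lf .lf) (.nd (nat_lit 0x5860c08000) nb_5_5_154 .lf .lf)) (.nd (nat_lit 0x587080c000) nb_5_5_151 (.nd (nat_lit 0x5870808080) nb_5_5_152 .lf .lf) .lf)))) (.nd (nat_lit 0x58a0408000) nb_5_5_135 (.nd (nat_lit 0x5880a04000) nb_5_5_142 (.nd (nat_lit 0x5880608080) nb_5_5_146 (.nd (nat_lit 0x5870c04000)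 nb_5_5_148 (.nd (nat_lit 0x5870a08000) nb_5_5_149 .lf .lf) (.nd (nat_lit 0x5880408100) nb_5_5_147 .lf .lf)) (.nd (nat_lit 0x5880804080) nb_5_5_144 (.nd (nat_lit 0x588060c000) nb_5_5_145 .lf .lf) (.nd (nat_lit 0x5880808000) nb_5_5_143 .lf .lf))) (.nd (nat_lit 0x5890608000) nb_5_5_138 (.nd (nat_lit 0x5890408080) nb_5_5_140 (.nd (nat_lit 0x5880c00000) nb_5_5_141 .lf .lf) (.nd (nat_lit 0x5890604080) nb_5_5_139 .lf .lf)) (.nd (nat_lit 0x5890a00000) nb_5_5_136 (.nd (nat_lit 0x5890804000) nb_5_5_137 .lf .lf) .lf))) (.nd (nat_lit 0x6050a08080) nb_5_5_127 (.nd (nat_lit 0x58b0404000) nb_5_5_131 (.nd (nat_lit 0x58a0800000) nb_5_5_133 (.nd (nat_lit 0x58a0604000) nb_5_5_134 .lf .lf) (.nd (nat_lit 0x58b0204080) nb_5_5_132 .lf .lf)) (.nd (nat_lit 0x6050808100) nb_5_5_129 (.nd (nat_lit 0x6040810080) nb_5_5_130 .lf .lf) (.nd (nat_lit 0x6050810000) nb_5_5_128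 .lf .lf))) (.nd (nat_lit 0x6060a08000) nb_5_5_123 (.nd (nat_lit 0x606080c000) nb_5_5_125 (.nd (nat_lit 0x6060808080) nb_5_5_126 .lf .lf) (.nd (nat_lit 0x6060a04080) nb_5_5_124 .lf .lf)) (.nd (nat_lit 0x6070408100) nb_5_5_121 (.nd (nat_lit 0x6060c04000) nb_5_5_122 .lf .lf) .lf)))))) (.nd (nat_lit 0x7080404000) nb_5_5_59 (.nd (nat_lit 0x6860c00000) nb_5_5_89 (.nd (nat_lit 0x60a0600000) nb_5_5_104 (.nd (nat_lit 0x6080608000) nb_5_5_112 (.nd (nat_lit 0x6070a04000) nb_5_5_116 (.nd (nat_lit 0x6070804080) nb_5_5_118 (.nd (nat_lit 0x607060c000) nb_5_5_119 .lf .lf) (.nd (nat_lit 0x6070808000) nb_5_5_117 .lf .lf)) (.nd (nat_lit 0x6080408080) nb_5_5_114 (.nd (nat_lit 0x6070c00000) nb_5_5_115 .lf .lf) (.nd (nat_lit 0x6080604080) nb_5_5_113 .lf .lf))) (.nd (nat_lit 0x6090408000) nb_5_5_108 (.nd (nat_lit 0x6080a00000) nb_5_5_110 (.nd (nat_lit 0x6080804000)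 nb_5_5_111 .lf .lf) (.nd (nat_lit 0x6090404080) nb_5_5_109 .lf .lf)) (.nd (nat_lit 0x6090800000) nb_5_5_106 (.nd (nat_lit 0x6090604000) nb_5_5_107 .lf .lf) (.nd (nat_lit 0x60a0404000) nb_5_5_105 .lf .lf)))) (.nd (nat_lit 0x6850a08000) nb_5_5_96 (.nd (nat_lit 0x6840810000) nb_5_5_100 (.nd (nat_lit 0x60c0200000) nb_5_5_102 (.nd (nat_lit 0x60b0400000) nb_5_5_103 .lf .lf) (.nd (nat_lit 0x6840808100) nb_5_5_101 .lf .lf)) (.nd (nat_lit 0x685080c000) nb_5_5_98 (.nd (nat_lit 0x6850808080) nb_5_5_99 .lf .lf) (.nd (nat_lit 0x6850a04080) nb_5_5_97 .lf .lf))) (.nd (nat_lit 0x6860804080) nb_5_5_92 (.nd (nat_lit 0x6860608080) nb_5_5_94 (.nd (nat_lit 0x6860408100) nb_5_5_95 .lf .lf) (.nd (nat_lit 0x686060c000) nb_5_5_93 .lf .lf)) (.nd (nat_lit 0x6860a04000) nb_5_5_90 (.nd (nat_lit 0x6860808000) nb_5_5_91 .lf .lf) .lf)))) (.nd (nat_lit 0x7040808080) nb_5_5_74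 (.nd (nat_lit 0x6880800000) nb_5_5_81 (.nd (nat_lit 0x6870a00000) nb_5_5_85 (.nd (nat_lit 0x6870608000) nb_5_5_87 (.nd (nat_lit 0x6870604080) nb_5_5_88 .lf .lf) (.nd (nat_lit 0x6870804000) nb_5_5_86 .lf .lf)) (.nd (nat_lit 0x6880408000) nb_5_5_83 (.nd (nat_lit 0x6880404080) nb_5_5_84 .lf .lf) (.nd (nat_lit 0x6880604000) nb_5_5_82 .lf .lf))) (.nd (nat_lit 0x68a0400000) nb_5_5_77 (.nd (nat_lit 0x6890600000) nb_5_5_79 (.nd (nat_lit 0x6890404000) nb_5_5_80 .lf .lf) (.nd (nat_lit 0x68a0204000) nb_5_5_78 .lf .lf)) (.nd (nat_lit 0x68c0000000) nb_5_5_75 (.nd (nat_lit 0x68b0200000) nb_5_5_76 .lf .lf) .lf))) (.nd (nat_lit 0x7060608000) nb_5_5_66 (.nd (nat_lit 0x7050804080) nb_5_5_70 (.nd (nat_lit 0x7050408100) nb_5_5_72 (.nd (nat_lit 0x704080c000) nb_5_5_73 .lf .lf) (.nd (nat_lit 0x7050608080) nb_5_5_71 .lf .lf)) (.nd (nat_lit 0x7050a04000) nb_5_5_68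 (.nd (nat_lit 0x7050808000) nb_5_5_69 .lf .lf) (.nd (nat_lit 0x7060408080) nb_5_5_67 .lf .lf))) (.nd (nat_lit 0x7070408000) nb_5_5_62 (.nd (nat_lit 0x7060a00000) nb_5_5_64 (.nd (nat_lit 0x7060804000) nb_5_5_65 .lf .lf) (.nd (nat_lit 0x7070404080) nb_5_5_63 .lf .lf)) (.nd (nat_lit 0x7070800000) nb_5_5_60 (.nd (nat_lit 0x7070604000) nb_5_5_61 .lf .lf) .lf))))) (.nd (nat_lit 0x8070400000) nb_5_5_29 (.nd (nat_lit 0x7870404000) nb_5_5_44 (.nd (nat_lit 0x7850408080) nb_5_5_51 (.nd (nat_lit 0x70a0200000) nb_5_5_55 (.nd (nat_lit 0x7090204000) nb_5_5_57 (.nd (nat_lit 0x7080600000) nb_5_5_58 .lf .lf) (.nd (nat_lit 0x7090400000) nb_5_5_56 .lf .lf)) (.nd (nat_lit 0x7840408100) nb_5_5_53 (.nd (nat_lit 0x70b0000000) nb_5_5_54 .lf .lf) (.nd (nat_lit 0x7840808000) nb_5_5_52 .lf .lf))) (.nd (nat_lit 0x7860408000) nb_5_5_47 (.nd (nat_lit 0x7850608000) nb_5_5_49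 (.nd (nat_lit 0x7850604080) nb_5_5_50 .lf .lf) (.nd (nat_lit 0x7850804000) nb_5_5_48 .lf .lf)) (.nd (nat_lit 0x7860800000) nb_5_5_45 (.nd (nat_lit 0x7860604000) nb_5_5_46 .lf .lf) .lf))) (.nd (nat_lit 0x8040804000) nb_5_5_36 (.nd (nat_lit 0x7890200000) nb_5_5_40 (.nd (nat_lit 0x7880204000) nb_5_5_42 (.nd (nat_lit 0x7870600000) nb_5_5_43 .lf .lf) (.nd (nat_lit 0x7880400000) nb_5_5_41 .lf .lf)) (.nd (nat_lit 0x8040408080) nb_5_5_38 (.nd (nat_lit 0x78a0000000) nb_5_5_39 .lf .lf) (.nd (nat_lit 0x8040608000) nb_5_5_37 .lf .lf))) (.nd (nat_lit 0x8060404000) nb_5_5_32 (.nd (nat_lit 0x8050604000) nb_5_5_34 (.nd (nat_lit 0x8050408000) nb_5_5_35 .lf .lf) (.nd (nat_lit 0x8050800000) nb_5_5_33 .lf .lf)) (.nd (nat_lit 0x8070204000) nb_5_5_30 (.nd (nat_lit 0x8060600000) nb_5_5_31 .lf .lf) .lf)))) (.nd (nat_lit 0x9050400000) nb_5_5_14 (.nd (nat_lit 0x8850600000)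 nb_5_5_21 (.nd (nat_lit 0x8840408000) nb_5_5_25 (.nd (nat_lit 0x8090000000) nb_5_5_27 (.nd (nat_lit 0x8080200000) nb_5_5_28 .lf .lf) (.nd (nat_lit 0x8820408100) nb_5_5_26 .lf .lf)) (.nd (nat_lit 0x8840800000) nb_5_5_23 (.nd (nat_lit 0x8840604000) nb_5_5_24 .lf .lf) (.nd (nat_lit 0x8850404000) nb_5_5_22 .lf .lf))) (.nd (nat_lit 0x9030408000) nb_5_5_17 (.nd (nat_lit 0x8870200000) nb_5_5_19 (.nd (nat_lit 0x8860400000) nb_5_5_20 .lf .lf) (.nd (nat_lit 0x8880000000) nb_5_5_18 .lf .lf)) (.nd (nat_lit 0x9040600000) nb_5_5_15 (.nd (nat_lit 0x9040404000) nb_5_5_16 .lf .lf) .lf))) (.nd (nat_lit 0xa040200000) nb_5_5_6 (.nd (nat_lit 0x9840400000) nb_5_5_10 (.nd (nat_lit 0x9070000000) nb_5_5_12 (.nd (nat_lit 0x9060200000) nb_5_5_13 .lf .lf) (.nd (nat_lit 0x9820408000) nb_5_5_11 .lf .lf)) (.nd (nat_lit 0x9860000000) nb_5_5_8 (.nd (nat_lit 0x9850200000)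 nb_5_5_9 .lf .lf) (.nd (nat_lit 0xa030400000) nb_5_5_7 .lf .lf))) (.nd (nat_lit 0xb030000000) nb_5_5_2 (.nd (nat_lit 0xa820400000) nb_5_5_4 (.nd (nat_lit 0xa050000000) nb_5_5_5 .lf .lf) (.nd (nat_lit 0xa840000000) nb_5_5_3 .lf .lf)) (.nd (nat_lit 0xc800000000) nb_5_5_0 (.nd (nat_lit 0xb820000000) nb_5_5_1 .lf .lf) .lf)))))))

end Crest.Agent.R187.SN.KD
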