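import Crest.Agent.R187.SN.KD.NBase
import Crest.Agent.R187.SN.KD.NB_5_6_0
import Crest.Agent.R187.SN.KD.NB_5_6_1
import Crest.Agent.R187.SN.KD.NB_5_6_2
import Crest.Agent.R187.SN.KD.NB_5_6_3

/-!
# Row 187, PLAN S, generated certificate data (mod 127): blocks, level (5, 6)

Written by a C++ program (helper662) from the recursion of `SN/Spec.lean`; canonical (RREF)
frames.  The tables are only data: every property is checked by the kernel elsewhere.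
-/

set_option autoImplicit false
set_option maxRecDepth 100000

namespace Crest.Agent.R187.SN.KD

/-- blocks of the `N` tables (5, 6) to (5, 7) -/
noncomputable def tNB_5_6 : NTr := (.nd (nat_lit 0x7090808080) nb_5_6_245 (.nd (nat_lit 0x6080a10080) nb_5_6_368 (.nd (nat_lit 0x5870c0c180) nb_5_6_430 (.nd (nat_lit 0x5080c14080) nb_5_6_461 (.nd (nat_lit 0x4890a14100) nb_5_6_476 (.nd (nat_lit 0x4870c14180) nb_5_6_484 (.nd (nat_lit 0x4080c18100) nb_5_6_488 (.nd (nat_lit 0x4060c18200) nb_5_6_490 (.nd (nat_lit 0x3060c18300) nb_5_6_491 .lf .lf) (.nd (nat_lit 0x4080c10200) nb_5_6_489 .lf .lf)) (.nd (nat_lit 0x4081018000) nb_5_6_486 (.nd (nat_lit 0x4081010100) nb_5_6_487 .lf .lf) (.nd (nat_lit 0x4860c18180) nb_5_6_485 .lf .lf))) (.nd (nat_lit 0x4880e10100) nb_5_6_480 (.nd (nat_lit 0x4880c14100) nb_5_6_482 (.nd (nat_lit 0x4880c10180) nb_5_6_483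 .lf .lf) (.nd (nat_lit 0x4880c18080) nb_5_6_481 .lf .lf)) (.nd (nat_lit 0x4881010080) nb_5_6_478 (.nd (nat_lit 0x4880e14080) nb_5_6_479 .lf .lf) (.nd (nat_lit 0x4881014000) nb_5_6_477 .lf .lf)))) (.nd (nat_lit 0x5070c10180) nb_5_6_468 (.nd (nat_lit 0x4890e14000) nb_5_6_472 (.nd (nat_lit 0x4890c14080) nb_5_6_474 (.nd (nat_lit 0x4890c0c180) nb_5_6_475 .lf .lf) (.nd (nat_lit 0x4890e0c100) nb_5_6_473 .lf .lf)) (.nd (nat_lit 0x5060c10200) nb_5_6_470 (.nd (nat_lit 0x489100c080) nb_5_6_471 .lf .lf) (.nd (nat_lit 0x5060c18100) nb_5_6_469 .lf .lf))) (.nd (nat_lit 0x5080810200) nb_5_6_464 (.nd (nat_lit 0x5070c18080) nb_5_6_466 (.nd (nat_lit 0x5070c14100) nb_5_6_467 .lf .lf) (.nd (nat_lit 0x5070e0c180) nb_5_6_465 .lf .lf)) (.nd (nat_lit 0x5080c10100) nb_5_6_462 (.nd (nat_lit 0x5080a10180) nb_5_6_463 .lf .lf) .lf)))) (.nd (nat_lit 0x509100c000)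 nb_5_6_445 (.nd (nat_lit 0x5090a0c180) nb_5_6_453 (.nd (nat_lit 0x5080e14000) nb_5_6_457 (.nd (nat_lit 0x5080e0c100) nb_5_6_459 (.nd (nat_lit 0x5080c18000) nb_5_6_460 .lf .lf) (.nd (nat_lit 0x5080e10080) nb_5_6_458 .lf .lf)) (.nd (nat_lit 0x508100c080) nb_5_6_455 (.nd (nat_lit 0x5081008100) nb_5_6_456 .lf .lf) (.nd (nat_lit 0x5081010000) nb_5_6_454 .lf .lf))) (.nd (nat_lit 0x5090c14000) nb_5_6_449 (.nd (nat_lit 0x5090c0c100) nb_5_6_451 (.nd (nat_lit 0x5090a10100) nb_5_6_452 .lf .lf) (.nd (nat_lit 0x5090c10080) nb_5_6_450 .lf .lf)) (.nd (nat_lit 0x5090e10000) nb_5_6_447 (.nd (nat_lit 0x5090e0c080) nb_5_6_448 .lf .lf) (.nd (nat_lit 0x5091008080) nb_5_6_446 .lf .lf)))) (.nd (nat_lit 0x50a1008000) nb_5_6_437 (.nd (nat_lit 0x50a0c0c080) nb_5_6_441 (.nd (nat_lit 0x50a0a10080) nb_5_6_443 (.nd (nat_lit 0x50a0810100) nb_5_6_444 .lf .lf)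 (.nd (nat_lit 0x50a0c08100) nb_5_6_442 .lf .lf)) (.nd (nat_lit 0x50a0e08080) nb_5_6_439 (.nd (nat_lit 0x50a0c10000) nb_5_6_440 .lf .lf) (.nd (nat_lit 0x50a0e0c000) nb_5_6_438 .lf .lf))) (.nd (nat_lit 0x5860c14100) nb_5_6_433 (.nd (nat_lit 0x50a1400000) nb_5_6_435 (.nd (nat_lit 0x50a1204000) nb_5_6_436 .lf .lf) (.nd (nat_lit 0x5860c10180) nb_5_6_434 .lf .lf)) (.nd (nat_lit 0x5870a10180) nb_5_6_431 (.nd (nat_lit 0x5860c18080) nb_5_6_432 .lf .lf) .lf))))) (.nd (nat_lit 0x58a0810080) nb_5_6_399 (.nd (nat_lit 0x588100c000) nb_5_6_414 (.nd (nat_lit 0x5880a14080) nb_5_6_422 (.nd (nat_lit 0x5870e10080) nb_5_6_426 (.nd (nat_lit 0x5870c14080) nb_5_6_428 (.nd (nat_lit 0x5870c10100) nb_5_6_429 .lf .lf) (.nd (nat_lit 0x5870c18000) nb_5_6_427 .lf .lf)) (.nd (nat_lit 0x5880810180) nb_5_6_424 (.nd (nat_lit 0x5870e14000) nb_5_6_425 .lf .lf) (.nd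 (nat_lit 0x5880a10100) nb_5_6_423 .lf .lf))) (.nd (nat_lit 0x5880e08100) nb_5_6_418 (.nd (nat_lit 0x5880c10080) nb_5_6_420 (.nd (nat_lit 0x5880c0c100) nb_5_6_421 .lf .lf) (.nd (nat_lit 0x5880c14000) nb_5_6_419 .lf .lf)) (.nd (nat_lit 0x5880e10000) nb_5_6_416 (.nd (nat_lit 0x5880e0c080) nb_5_6_417 .lf .lf) (.nd (nat_lit 0x5881008080) nb_5_6_415 .lf .lf)))) (.nd (nat_lit 0x5890c10000) nb_5_6_406 (.nd (nat_lit 0x5890a10080) nb_5_6_410 (.nd (nat_lit 0x5890810100) nb_5_6_412 (.nd (nat_lit 0x589080c180) nb_5_6_413 .lf .lf) (.nd (nat_lit 0x5890a0c100) nb_5_6_411 .lf .lf)) (.nd (nat_lit 0x5890c08100) nb_5_6_408 (.nd (nat_lit 0x5890a14000) nb_5_6_409 .lf .lf) (.nd (nat_lit 0x5890c0c080) nb_5_6_407 .lf .lf))) (.nd (nat_lit 0x5891008000) nb_5_6_402 (.nd (nat_lit 0x5890e0c000) nb_5_6_404 (.nd (nat_lit 0x5890e08080) nb_5_6_405 .lf .lf) (.nd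 (nat_lit 0x5891004080) nb_5_6_403 .lf .lf)) (.nd (nat_lit 0x58a080c100) nb_5_6_400 (.nd (nat_lit 0x5891204000) nb_5_6_401 .lf .lf) .lf)))) (.nd (nat_lit 0x6060810200) nb_5_6_383 (.nd (nat_lit 0x58a1004000) nb_5_6_391 (.nd (nat_lit 0x58a0c08080) nb_5_6_395 (.nd (nat_lit 0x58a0a0c080) nb_5_6_397 (.nd (nat_lit 0x58a0a08100) nb_5_6_398 .lf .lf) (.nd (nat_lit 0x58a0a10000) nb_5_6_396 .lf .lf)) (.nd (nat_lit 0x58a0e04080) nb_5_6_393 (.nd (nat_lit 0x58a0c0c000) nb_5_6_394 .lf .lf) (.nd (nat_lit 0x58a0e08000) nb_5_6_392 .lf .lf))) (.nd (nat_lit 0x58b0a0c000) nb_5_6_387 (.nd (nat_lit 0x58b080c080) nb_5_6_389 (.nd (nat_lit 0x58a1200000) nb_5_6_390 .lf .lf) (.nd (nat_lit 0x58b0a08080) nb_5_6_388 .lf .lf)) (.nd (nat_lit 0x58b0c08000) nb_5_6_385 (.nd (nat_lit 0x58b0c04080) nb_5_6_386 .lf .lf) (.nd (nat_lit 0x58b0e04000) nb_5_6_384 .lf .lf))))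 (.nd (nat_lit 0x6070c0c100) nb_5_6_375 (.nd (nat_lit 0x6070810180) nb_5_6_379 (.nd (nat_lit 0x6060c14080) nb_5_6_381 (.nd (nat_lit 0x6060c10100) nb_5_6_382 .lf .lf) (.nd (nat_lit 0x6060c18000) nb_5_6_380 .lf .lf)) (.nd (nat_lit 0x6070a10100) nb_5_6_377 (.nd (nat_lit 0x6070a0c180) nb_5_6_378 .lf .lf) (.nd (nat_lit 0x6070a14080) nb_5_6_376 .lf .lf))) (.nd (nat_lit 0x6070e10000) nb_5_6_371 (.nd (nat_lit 0x6070c14000) nb_5_6_373 (.nd (nat_lit 0x6070c10080) nb_5_6_374 .lf .lf) (.nd (nat_lit 0x6070e0c080) nb_5_6_372 .lf .lf)) (.nd (nat_lit 0x6080a0c100) nb_5_6_369 (.nd (nat_lit 0x6080810100) nb_5_6_370 .lf .lf) .lf)))))) (.nd (nat_lit 0x6880e08000) nb_5_6_306 (.nd (nat_lit 0x60b0a04080) nb_5_6_337 (.nd (nat_lit 0x6090e08000) nb_5_6_352 (.nd (nat_lit 0x609080c100) nb_5_6_360 (.nd (nat_lit 0x6080c10000) nb_5_6_364 (.nd (nat_lit 0x6080c08100)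 nb_5_6_366 (.nd (nat_lit 0x6080a14000) nb_5_6_367 .lf .lf) (.nd (nat_lit 0x6080c0c080) nb_5_6_365 .lf .lf)) (.nd (nat_lit 0x6080e0c000) nb_5_6_362 (.nd (nat_lit 0x6080e08080) nb_5_6_363 .lf .lf) (.nd (nat_lit 0x6081008000) nb_5_6_361 .lf .lf))) (.nd (nat_lit 0x6090a10000) nb_5_6_356 (.nd (nat_lit 0x6090a08100) nb_5_6_358 (.nd (nat_lit 0x6090810080) nb_5_6_359 .lf .lf) (.nd (nat_lit 0x6090a0c080) nb_5_6_357 .lf .lf)) (.nd (nat_lit 0x6090c0c000) nb_5_6_354 (.nd (nat_lit 0x6090c08080) nb_5_6_355 .lf .lf) (.nd (nat_lit 0x6090e04080) nb_5_6_353 .lf .lf)))) (.nd (nat_lit 0x60a0c08000) nb_5_6_344 (.nd (nat_lit 0x60a0810000) nb_5_6_348 (.nd (nat_lit 0x60a0808100) nb_5_6_350 (.nd (nat_lit 0x6091004000) nb_5_6_351 .lf .lf) (.nd (nat_lit 0x60a080c080) nb_5_6_349 .lf .lf)) (.nd (nat_lit 0x60a0a0c000) nb_5_6_346 (.nd (nat_lit 0x60a0a08080)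 nb_5_6_347 .lf .lf) (.nd (nat_lit 0x60a0c04080) nb_5_6_345 .lf .lf))) (.nd (nat_lit 0x60b060c080) nb_5_6_340 (.nd (nat_lit 0x60a1000000) nb_5_6_342 (.nd (nat_lit 0x60a0e04000) nb_5_6_343 .lf .lf) (.nd (nat_lit 0x60b0608100) nb_5_6_341 .lf .lf)) (.nd (nat_lit 0x60b080c000) nb_5_6_338 (.nd (nat_lit 0x60b0808080) nb_5_6_339 .lf .lf) .lf)))) (.nd (nat_lit 0x6870a10080) nb_5_6_321 (.nd (nat_lit 0x60c0c00000) nb_5_6_329 (.nd (nat_lit 0x60c0408100) nb_5_6_333 (.nd (nat_lit 0x60b0c04000) nb_5_6_335 (.nd (nat_lit 0x60b0a08000) nb_5_6_336 .lf .lf) (.nd (nat_lit 0x60b0e00000) nb_5_6_334 .lf .lf)) (.nd (nat_lit 0x60c0808000) nb_5_6_331 (.nd (nat_lit 0x60c0608080) nb_5_6_332 .lf .lf) (.nd (nat_lit 0x60c0a04000) nb_5_6_330 .lf .lf))) (.nd (nat_lit 0x6860c10080) nb_5_6_325 (.nd (nat_lit 0x6860a10100) nb_5_6_327 (.nd (nat_lit 0x6860810180) nb_5_6_328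 .lf .lf) (.nd (nat_lit 0x6860c0c100) nb_5_6_326 .lf .lf)) (.nd (nat_lit 0x6870810100) nb_5_6_323 (.nd (nat_lit 0x6860c14000) nb_5_6_324 .lf .lf) (.nd (nat_lit 0x6870a0c100) nb_5_6_322 .lf .lf)))) (.nd (nat_lit 0x6880810080) nb_5_6_313 (.nd (nat_lit 0x6870c10000) nb_5_6_317 (.nd (nat_lit 0x6870c08100) nb_5_6_319 (.nd (nat_lit 0x6870a14000) nb_5_6_320 .lf .lf) (.nd (nat_lit 0x6870c0c080) nb_5_6_318 .lf .lf)) (.nd (nat_lit 0x6870e0c000) nb_5_6_315 (.nd (nat_lit 0x6870e08080) nb_5_6_316 .lf .lf) (.nd (nat_lit 0x688080c100) nb_5_6_314 .lf .lf))) (.nd (nat_lit 0x6880c08080) nb_5_6_309 (.nd (nat_lit 0x6880a0c080) nb_5_6_311 (.nd (nat_lit 0x6880a08100) nb_5_6_312 .lf .lf) (.nd (nat_lit 0x6880a10000) nb_5_6_310 .lf .lf)) (.nd (nat_lit 0x6880e04080) nb_5_6_307 (.nd (nat_lit 0x6880c0c000) nb_5_6_308 .lf .lf) .lf))))) (.nd (nat_lit 0x68d0404080)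 nb_5_6_275 (.nd (nat_lit 0x68a0a04080) nb_5_6_290 (.nd (nat_lit 0x6890c04080) nb_5_6_298 (.nd (nat_lit 0x689080c080) nb_5_6_302 (.nd (nat_lit 0x689060c100) nb_5_6_304 (.nd (nat_lit 0x6881004000) nb_5_6_305 .lf .lf) (.nd (nat_lit 0x6890808100) nb_5_6_303 .lf .lf)) (.nd (nat_lit 0x6890a08080) nb_5_6_300 (.nd (nat_lit 0x6890810000) nb_5_6_301 .lf .lf) (.nd (nat_lit 0x6890a0c000) nb_5_6_299 .lf .lf))) (.nd (nat_lit 0x68a0608100) nb_5_6_294 (.nd (nat_lit 0x6890e04000) nb_5_6_296 (.nd (nat_lit 0x6890c08000) nb_5_6_297 .lf .lf) (.nd (nat_lit 0x6891000000) nb_5_6_295 .lf .lf)) (.nd (nat_lit 0x68a0808080) nb_5_6_292 (.nd (nat_lit 0x68a060c080) nb_5_6_293 .lf .lf) (.nd (nat_lit 0x68a080c000) nb_5_6_291 .lf .lf)))) (.nd (nat_lit 0x68b0a04000) nb_5_6_282 (.nd (nat_lit 0x68b0608080) nb_5_6_286 (.nd (nat_lit 0x68a0c04000) nb_5_6_288 (.nd (nat_lit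 0x68a0a08000) nb_5_6_289 .lf .lf) (.nd (nat_lit 0x68a0e00000) nb_5_6_287 .lf .lf)) (.nd (nat_lit 0x68b0804080) nb_5_6_284 (.nd (nat_lit 0x68b060c000) nb_5_6_285 .lf .lf) (.nd (nat_lit 0x68b0808000) nb_5_6_283 .lf .lf))) (.nd (nat_lit 0x68c0608000) nb_5_6_278 (.nd (nat_lit 0x68c0408080) nb_5_6_280 (.nd (nat_lit 0x68b0c00000) nb_5_6_281 .lf .lf) (.nd (nat_lit 0x68c0604080) nb_5_6_279 .lf .lf)) (.nd (nat_lit 0x68c0a00000) nb_5_6_276 (.nd (nat_lit 0x68c0804000) nb_5_6_277 .lf .lf) .lf)))) (.nd (nat_lit 0x7070c08080) nb_5_6_260 (.nd (nat_lit 0x7060c0c080) nb_5_6_267 (.nd (nat_lit 0x7060810100) nb_5_6_271 (.nd (nat_lit 0x68d0800000) nb_5_6_273 (.nd (nat_lit 0x68d0604000) nb_5_6_274 .lf .lf) (.nd (nat_lit 0x7040810200) nb_5_6_272 .lf .lf)) (.nd (nat_lit 0x7060a10080) nb_5_6_269 (.nd (nat_lit 0x7060a0c100) nb_5_6_270 .lf .lf) (.nd (nat_lit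 0x7060c08100) nb_5_6_268 .lf .lf))) (.nd (nat_lit 0x7070a08100) nb_5_6_263 (.nd (nat_lit 0x707080c100) nb_5_6_265 (.nd (nat_lit 0x7060c10000) nb_5_6_266 .lf .lf) (.nd (nat_lit 0x7070810080) nb_5_6_264 .lf .lf)) (.nd (nat_lit 0x7070a10000) nb_5_6_261 (.nd (nat_lit 0x7070a0c080) nb_5_6_262 .lf .lf) .lf))) (.nd (nat_lit 0x7080a0c000) nb_5_6_252 (.nd (nat_lit 0x7080808100) nb_5_6_256 (.nd (nat_lit 0x7070e04080) nb_5_6_258 (.nd (nat_lit 0x7070c0c000) nb_5_6_259 .lf .lf) (.nd (nat_lit 0x7070e08000) nb_5_6_257 .lf .lf)) (.nd (nat_lit 0x7080810000) nb_5_6_254 (.nd (nat_lit 0x708080c080) nb_5_6_255 .lf .lf) (.nd (nat_lit 0x7080a08080) nb_5_6_253 .lf .lf))) (.nd (nat_lit 0x7081000000) nb_5_6_248 (.nd (nat_lit 0x7080c08000) nb_5_6_250 (.nd (nat_lit 0x7080c04080) nb_5_6_251 .lf .lf) (.nd (nat_lit 0x7080e04000) nb_5_6_249 .lf .lf)) (.nd (nat_lit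 0x709060c080) nb_5_6_246 (.nd (nat_lit 0x7090608100) nb_5_6_247 .lf .lf) .lf))))))) (.nd (nat_lit 0x887060c000) nb_5_6_122 (.nd (nat_lit 0x78b0408000) nb_5_6_183 (.nd (nat_lit 0x7860c08080) nb_5_6_214 (.nd (nat_lit 0x70b0804000) nb_5_6_229 (.nd (nat_lit 0x70a060c000) nb_5_6_237 (.nd (nat_lit 0x7090c04000) nb_5_6_241 (.nd (nat_lit 0x7090a04080) nb_5_6_243 (.nd (nat_lit 0x709080c000) nb_5_6_244 .lf .lf) (.nd (nat_lit 0x7090a08000) nb_5_6_242 .lf .lf)) (.nd (nat_lit 0x70a0408100) nb_5_6_239 (.nd (nat_lit 0x7090e00000) nb_5_6_240 .lf .lf) (.nd (nat_lit 0x70a0608080) nb_5_6_238 .lf .lf))) (.nd (nat_lit 0x70a0c00000) nb_5_6_233 (.nd (nat_lit 0x70a0808000) nb_5_6_235 (.nd (nat_lit 0x70a0804080) nb_5_6_236 .lf .lf) (.nd (nat_lit 0x70a0a04000) nb_5_6_234 .lf .lf)) (.nd (nat_lit 0x70b0604080) nb_5_6_231 (.nd (nat_lit 0x70b0408080) nb_5_6_232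 .lf .lf) (.nd (nat_lit 0x70b0608000) nb_5_6_230 .lf .lf)))) (.nd (nat_lit 0x70e0400000) nb_5_6_221 (.nd (nat_lit 0x70c0604000) nb_5_6_225 (.nd (nat_lit 0x70c0404080) nb_5_6_227 (.nd (nat_lit 0x70b0a00000) nb_5_6_228 .lf .lf) (.nd (nat_lit 0x70c0408000) nb_5_6_226 .lf .lf)) (.nd (nat_lit 0x70d0404000) nb_5_6_223 (.nd (nat_lit 0x70c0800000) nb_5_6_224 .lf .lf) (.nd (nat_lit 0x70d0600000) nb_5_6_222 .lf .lf))) (.nd (nat_lit 0x7860a08100) nb_5_6_217 (.nd (nat_lit 0x786080c100) nb_5_6_219 (.nd (nat_lit 0x7850810100) nb_5_6_220 .lf .lf) (.nd (nat_lit 0x7860810080) nb_5_6_218 .lf .lf)) (.nd (nat_lit 0x7860a10000) nb_5_6_215 (.nd (nat_lit 0x7860a0c080) nb_5_6_216 .lf .lf) .lf)))) (.nd (nat_lit 0x7880c04000) nb_5_6_198 (.nd (nat_lit 0x7870c08000) nb_5_6_206 (.nd (nat_lit 0x7870810000) nb_5_6_210 (.nd (nat_lit 0x7870808100) nb_5_6_212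 (.nd (nat_lit 0x7860c0c000) nb_5_6_213 .lf .lf) (.nd (nat_lit 0x787080c080) nb_5_6_211 .lf .lf)) (.nd (nat_lit 0x7870a0c000) nb_5_6_208 (.nd (nat_lit 0x7870a08080) nb_5_6_209 .lf .lf) (.nd (nat_lit 0x7870c04080) nb_5_6_207 .lf .lf))) (.nd (nat_lit 0x7880808080) nb_5_6_202 (.nd (nat_lit 0x7880608100) nb_5_6_204 (.nd (nat_lit 0x7870e04000) nb_5_6_205 .lf .lf) (.nd (nat_lit 0x788060c080) nb_5_6_203 .lf .lf)) (.nd (nat_lit 0x7880a04080) nb_5_6_200 (.nd (nat_lit 0x788080c000) nb_5_6_201 .lf .lf) (.nd (nat_lit 0x7880a08000) nb_5_6_199 .lf .lf)))) (.nd (nat_lit 0x7890c00000) nb_5_6_190 (.nd (nat_lit 0x789060c000) nb_5_6_194 (.nd (nat_lit 0x7890408100) nb_5_6_196 (.nd (nat_lit 0x7880e00000) nb_5_6_197 .lf .lf) (.nd (nat_lit 0x7890608080) nb_5_6_195 .lf .lf)) (.nd (nat_lit 0x7890808000) nb_5_6_192 (.nd (nat_lit 0x7890804080) nb_5_6_193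 .lf .lf) (.nd (nat_lit 0x7890a04000) nb_5_6_191 .lf .lf))) (.nd (nat_lit 0x78a0804000) nb_5_6_186 (.nd (nat_lit 0x78a0604080) nb_5_6_188 (.nd (nat_lit 0x78a0408080) nb_5_6_189 .lf .lf) (.nd (nat_lit 0x78a0608000) nb_5_6_187 .lf .lf)) (.nd (nat_lit 0x78b0404080) nb_5_6_184 (.nd (nat_lit 0x78a0a00000) nb_5_6_185 .lf .lf) .lf))))) (.nd (nat_lit 0x8080c00000) nb_5_6_152 (.nd (nat_lit 0x8060c08000) nb_5_6_167 (.nd (nat_lit 0x8040810100) nb_5_6_175 (.nd (nat_lit 0x78c0600000) nb_5_6_179 (.nd (nat_lit 0x78b0800000) nb_5_6_181 (.nd (nat_lit 0x78b0604000) nb_5_6_182 .lf .lf) (.nd (nat_lit 0x78c0404000) nb_5_6_180 .lf .lf)) (.nd (nat_lit 0x78d0400000) nb_5_6_177 (.nd (nat_lit 0x78d0204000) nb_5_6_178 .lf .lf) (.nd (nat_lit 0x78e0200000) nb_5_6_176 .lf .lf))) (.nd (nat_lit 0x806080c080) nb_5_6_171 (.nd (nat_lit 0x8050a0c080) nb_5_6_173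 (.nd (nat_lit 0x8050810080) nb_5_6_174 .lf .lf) (.nd (nat_lit 0x8060808100) nb_5_6_172 .lf .lf)) (.nd (nat_lit 0x8060a08080) nb_5_6_169 (.nd (nat_lit 0x8060810000) nb_5_6_170 .lf .lf) (.nd (nat_lit 0x8060a0c000) nb_5_6_168 .lf .lf)))) (.nd (nat_lit 0x8070e00000) nb_5_6_159 (.nd (nat_lit 0x807080c000) nb_5_6_163 (.nd (nat_lit 0x807060c080) nb_5_6_165 (.nd (nat_lit 0x8070608100) nb_5_6_166 .lf .lf) (.nd (nat_lit 0x8070808080) nb_5_6_164 .lf .lf)) (.nd (nat_lit 0x8070a08000) nb_5_6_161 (.nd (nat_lit 0x8070a04080) nb_5_6_162 .lf .lf) (.nd (nat_lit 0x8070c04000) nb_5_6_160 .lf .lf))) (.nd (nat_lit 0x8080804080) nb_5_6_155 (.nd (nat_lit 0x8080608080) nb_5_6_157 (.nd (nat_lit 0x8080408100) nb_5_6_158 .lf .lf) (.nd (nat_lit 0x808060c000) nb_5_6_156 .lf .lf)) (.nd (nat_lit 0x8080a04000) nb_5_6_153 (.nd (nat_lit 0x8080808000) nb_5_6_154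 .lf .lf) .lf)))) (.nd (nat_lit 0x80d0200000) nb_5_6_137 (.nd (nat_lit 0x80a0604000) nb_5_6_144 (.nd (nat_lit 0x8090804000) nb_5_6_148 (.nd (nat_lit 0x8090604080) nb_5_6_150 (.nd (nat_lit 0x8090408080) nb_5_6_151 .lf .lf) (.nd (nat_lit 0x8090608000) nb_5_6_149 .lf .lf)) (.nd (nat_lit 0x80a0404080) nb_5_6_146 (.nd (nat_lit 0x8090a00000) nb_5_6_147 .lf .lf) (.nd (nat_lit 0x80a0408000) nb_5_6_145 .lf .lf))) (.nd (nat_lit 0x80b0600000) nb_5_6_140 (.nd (nat_lit 0x80b0204080) nb_5_6_142 (.nd (nat_lit 0x80a0800000) nb_5_6_143 .lf .lf) (.nd (nat_lit 0x80b0404000) nb_5_6_141 .lf .lf)) (.nd (nat_lit 0x80c0400000) nb_5_6_138 (.nd (nat_lit 0x80c0204000) nb_5_6_139 .lf .lf) .lf))) (.nd (nat_lit 0x8860808080) nb_5_6_129 (.nd (nat_lit 0x885080c080) nb_5_6_133 (.nd (nat_lit 0x8840810080) nb_5_6_135 (.nd (nat_lit 0x80e0000000) nb_5_6_136 .lf .lf)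 (.nd (nat_lit 0x8850808100) nb_5_6_134 .lf .lf)) (.nd (nat_lit 0x8850a08080) nb_5_6_131 (.nd (nat_lit 0x8850810000) nb_5_6_132 .lf .lf) (.nd (nat_lit 0x8860608100) nb_5_6_130 .lf .lf))) (.nd (nat_lit 0x8860c04000) nb_5_6_125 (.nd (nat_lit 0x8860a04080) nb_5_6_127 (.nd (nat_lit 0x886080c000) nb_5_6_128 .lf .lf) (.nd (nat_lit 0x8860a08000) nb_5_6_126 .lf .lf)) (.nd (nat_lit 0x8870608080) nb_5_6_123 (.nd (nat_lit 0x8870408100) nb_5_6_124 .lf .lf) .lf)))))) (.nd (nat_lit 0x9870800000) nb_5_6_60 (.nd (nat_lit 0x9060a04000) nb_5_6_91 (.nd (nat_lit 0x88b0204000) nb_5_6_106 (.nd (nat_lit 0x8880804000) nb_5_6_114 (.nd (nat_lit 0x8870c00000) nb_5_6_118 (.nd (nat_lit 0x8870808000) nb_5_6_120 (.nd (nat_lit 0x8870804080) nb_5_6_121 .lf .lf) (.nd (nat_lit 0x8870a04000) nb_5_6_119 .lf .lf)) (.nd (nat_lit 0x8880604080) nb_5_6_116 (.nd (nat_lit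 0x8880408080) nb_5_6_117 .lf .lf) (.nd (nat_lit 0x8880608000) nb_5_6_115 .lf .lf))) (.nd (nat_lit 0x8890604000) nb_5_6_110 (.nd (nat_lit 0x8890404080) nb_5_6_112 (.nd (nat_lit 0x8880a00000) nb_5_6_113 .lf .lf) (.nd (nat_lit 0x8890408000) nb_5_6_111 .lf .lf)) (.nd (nat_lit 0x88a0404000) nb_5_6_108 (.nd (nat_lit 0x8890800000) nb_5_6_109 .lf .lf) (.nd (nat_lit 0x88a0600000) nb_5_6_107 .lf .lf)))) (.nd (nat_lit 0x9050a04080) nb_5_6_98 (.nd (nat_lit 0x9040808100) nb_5_6_102 (.nd (nat_lit 0x88c0200000) nb_5_6_104 (.nd (nat_lit 0x88b0400000) nb_5_6_105 .lf .lf) (.nd (nat_lit 0x88d0000000) nb_5_6_103 .lf .lf)) (.nd (nat_lit 0x9050808080) nb_5_6_100 (.nd (nat_lit 0x9040810000) nb_5_6_101 .lf .lf) (.nd (nat_lit 0x905080c000) nb_5_6_99 .lf .lf))) (.nd (nat_lit 0x906060c000) nb_5_6_94 (.nd (nat_lit 0x9060408100) nb_5_6_96 (.nd (nat_lit 0x9050a08000)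 nb_5_6_97 .lf .lf) (.nd (nat_lit 0x9060608080) nb_5_6_95 .lf .lf)) (.nd (nat_lit 0x9060808000) nb_5_6_92 (.nd (nat_lit 0x9060804080) nb_5_6_93 .lf .lf) .lf)))) (.nd (nat_lit 0x90c0000000) nb_5_6_75 (.nd (nat_lit 0x9080408000) nb_5_6_83 (.nd (nat_lit 0x9070608000) nb_5_6_87 (.nd (nat_lit 0x9070408080) nb_5_6_89 (.nd (nat_lit 0x9060c00000) nb_5_6_90 .lf .lf) (.nd (nat_lit 0x9070604080) nb_5_6_88 .lf .lf)) (.nd (nat_lit 0x9070a00000) nb_5_6_85 (.nd (nat_lit 0x9070804000) nb_5_6_86 .lf .lf) (.nd (nat_lit 0x9080404080) nb_5_6_84 .lf .lf))) (.nd (nat_lit 0x9090600000) nb_5_6_79 (.nd (nat_lit 0x9080800000) nb_5_6_81 (.nd (nat_lit 0x9080604000) nb_5_6_82 .lf .lf) (.nd (nat_lit 0x9090404000) nb_5_6_80 .lf .lf)) (.nd (nat_lit 0x90a0400000) nb_5_6_77 (.nd (nat_lit 0x90a0204000) nb_5_6_78 .lf .lf) (.nd (nat_lit 0x90b0200000) nb_5_6_76 .lf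 .lf)))) (.nd (nat_lit 0x9860408080) nb_5_6_67 (.nd (nat_lit 0x9850608080) nb_5_6_71 (.nd (nat_lit 0x984080c000) nb_5_6_73 (.nd (nat_lit 0x9840808080) nb_5_6_74 .lf .lf) (.nd (nat_lit 0x9850408100) nb_5_6_72 .lf .lf)) (.nd (nat_lit 0x9850808000) nb_5_6_69 (.nd (nat_lit 0x9850804080) nb_5_6_70 .lf .lf) (.nd (nat_lit 0x9850a04000) nb_5_6_68 .lf .lf))) (.nd (nat_lit 0x9870404080) nb_5_6_63 (.nd (nat_lit 0x9860804000) nb_5_6_65 (.nd (nat_lit 0x9860608000) nb_5_6_66 .lf .lf) (.nd (nat_lit 0x9860a00000) nb_5_6_64 .lf .lf)) (.nd (nat_lit 0x9870604000) nb_5_6_61 (.nd (nat_lit 0x9870408000) nb_5_6_62 .lf .lf) .lf))))) (.nd (nat_lit 0xa870400000) nb_5_6_29 (.nd (nat_lit 0xa070404000) nb_5_6_44 (.nd (nat_lit 0xa040808000) nb_5_6_52 (.nd (nat_lit 0x9890400000) nb_5_6_56 (.nd (nat_lit 0x9880600000) nb_5_6_58 (.nd (nat_lit 0x9880404000) nb_5_6_59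 .lf .lf) (.nd (nat_lit 0x9890204000) nb_5_6_57 .lf .lf)) (.nd (nat_lit 0x98b0000000) nb_5_6_54 (.nd (nat_lit 0x98a0200000) nb_5_6_55 .lf .lf) (.nd (nat_lit 0xa040408100) nb_5_6_53 .lf .lf))) (.nd (nat_lit 0xa050804000) nb_5_6_48 (.nd (nat_lit 0xa050604080) nb_5_6_50 (.nd (nat_lit 0xa050408080) nb_5_6_51 .lf .lf) (.nd (nat_lit 0xa050608000) nb_5_6_49 .lf .lf)) (.nd (nat_lit 0xa060604000) nb_5_6_46 (.nd (nat_lit 0xa060408000) nb_5_6_47 .lf .lf) (.nd (nat_lit 0xa060800000) nb_5_6_45 .lf .lf)))) (.nd (nat_lit 0xa840804000) nb_5_6_36 (.nd (nat_lit 0xa090200000) nb_5_6_40 (.nd (nat_lit 0xa080204000) nb_5_6_42 (.nd (nat_lit 0xa070600000) nb_5_6_43 .lf .lf) (.nd (nat_lit 0xa080400000) nb_5_6_41 .lf .lf)) (.nd (nat_lit 0xa840408080) nb_5_6_38 (.nd (nat_lit 0xa0a0000000) nb_5_6_39 .lf .lf) (.nd (nat_lit 0xa840608000) nb_5_6_37 .lf .lf)))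 (.nd (nat_lit 0xa860404000) nb_5_6_32 (.nd (nat_lit 0xa850604000) nb_5_6_34 (.nd (nat_lit 0xa850408000) nb_5_6_35 .lf .lf) (.nd (nat_lit 0xa850800000) nb_5_6_33 .lf .lf)) (.nd (nat_lit 0xa870204000) nb_5_6_30 (.nd (nat_lit 0xa860600000) nb_5_6_31 .lf .lf) .lf)))) (.nd (nat_lit 0xb850400000) nb_5_6_14 (.nd (nat_lit 0xb050600000) nb_5_6_21 (.nd (nat_lit 0xb040408000) nb_5_6_25 (.nd (nat_lit 0xa890000000) nb_5_6_27 (.nd (nat_lit 0xa880200000) nb_5_6_28 .lf .lf) (.nd (nat_lit 0xb020408100) nb_5_6_26 .lf .lf)) (.nd (nat_lit 0xb040800000) nb_5_6_23 (.nd (nat_lit 0xb040604000) nb_5_6_24 .lf .lf) (.nd (nat_lit 0xb050404000) nb_5_6_22 .lf .lf))) (.nd (nat_lit 0xb830408000) nb_5_6_17 (.nd (nat_lit 0xb070200000) nb_5_6_19 (.nd (nat_lit 0xb060400000) nb_5_6_20 .lf .lf) (.nd (nat_lit 0xb080000000) nb_5_6_18 .lf .lf)) (.nd (nat_lit 0xb840600000)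 nb_5_6_15 (.nd (nat_lit 0xb840404000) nb_5_6_16 .lf .lf) .lf))) (.nd (nat_lit 0xc840200000) nb_5_6_6 (.nd (nat_lit 0xc040400000) nb_5_6_10 (.nd (nat_lit 0xb870000000) nb_5_6_12 (.nd (nat_lit 0xb860200000) nb_5_6_13 .lf .lf) (.nd (nat_lit 0xc020408000) nb_5_6_11 .lf .lf)) (.nd (nat_lit 0xc060000000) nb_5_6_8 (.nd (nat_lit 0xc050200000) nb_5_6_9 .lf .lf) (.nd (nat_lit 0xc830400000) nb_5_6_7 .lf .lf))) (.nd (nat_lit 0xd830000000) nb_5_6_2 (.nd (nat_lit 0xd020400000) nb_5_6_4 (.nd (nat_lit 0xc850000000) nb_5_6_5 .lf .lf) (.nd (nat_lit 0xd040000000) nb_5_6_3 .lf .lf)) (.nd (nat_lit 0xf000000000) nb_5_6_0 (.nd (nat_lit 0xe020000000) nb_5_6_1 .lf .lf) .lf))))))))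

end Crest.Agent.R187.SN.KD
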